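import Crest.Agent.R242.ActionAux5

/-!
Row 242: the action estimate.
-/

set_option autoImplicit false
set_option linter.unusedSectionVars false

open MeasureTheory Set Filter Metric Crest.GeometryTopology.SyntheticRicci
open scoped ENNReal NNReal Topology

namespace Crest.Agent.R242

theorem le_of_forall_small {a : ℝ} {E : ℝ → ℝ} (hE : Continuous E)
    (h : ∀ x, 0 < x → x < 1 → a ≤ E x) : a ≤ E 0 := by
  refine ge_of_tendsto (hE.continuousAt.tendsto.mono_left (nhdsWithin_le_nhds (s := Ioi 0))) ?_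
  filter_upwards [Ioo_mem_nhdsGT (zero_lt_one (α := ℝ))] with x hx using h x hx.1 hx.2

variable {X : Type*} [MetricSpace X] [ProperSpace X] [MeasurableSpace X] [BorelSpace X]
  {m : Measure X} [IsLocallyFiniteMeasure m] [m.IsOpenPosMeasure] {κ N k τ₀ : ℝ} {F G : X → ℝ}

theorem usq_eq_of_lt {y x : X} {a : ℝ} (ha : 0 ≤ a) (h : √(2 * a) < dist x y) :
    a ≤ dist x y ^ 2 / 2 := by
  have := (Real.sqrt_lt' ((Real.sqrt_nonneg _).trans_lt h)).1 h
  linarith

theorem Gm_const_sub (H : IsInfHilbertian m) {u v : X → ℝ} (hu : IsSobolevLoc m u)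
    (hv : IsSobolevLoc m v) (a : ℝ) : ∀ᵐ x ∂m, Gm m (fun z => a - u z) v x = -Gm m u v x := by
  filter_upwards [Gm_sub_left H (sl_const a) hu hv, abs_Gm_le H (sl_const a) hv, Dw_const (m := m) a]
    with x h1 h2 h3
  rw [h3, zero_mul, abs_nonpos_iff] at h2
  rw [h1, h2, zero_sub]

theorem Dw_const_sub {u : X → ℝ} (hu : IsSobolevLoc m u) (a : ℝ) :
    ∀ᵐ x ∂m, Dw m (fun z => a - u z) x = Dw m u x := by
  filter_upwards [Dw_add_const (sl_neg hu) a, Dw_neg hu] with x h1 h2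
  rw [← h2, ← h1]
  congr 1; ext z; ring

theorem action_int (hc : CDk m κ N) (h : RS m k τ₀) (hF : BL F) (hG : Measurable G) {B : ℝ}
    (hB : ∀ x, |G x| ≤ B) (hH : HasWeakHessLe m F G) (y : X) {r a G₀ : ℝ} (hr : 0 < r)
    (ha : r ^ 2 ≤ a) (hG₀ : ∀ x, dist x y ≤ r → G x ≤ G₀) {ρ : X → ℝ} (hρ : BL ρ)
    (h0 : ∀ x, 0 ≤ ρ x) (hs : ∀ x, r < dist x y → ρ x = 0) (h1 : ∫ x, ρ x ∂m = 1) :
    ∫ x, (Gm m (usq y a) F x - (F x - F y + G₀ * (dist x y ^ 2 / 2))) * ρ x ∂m ≤ 0 := by
  have H := h.hilb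
  have hk := h.k_nonneg
  have hB0 : 0 ≤ B := (abs_nonneg _).trans (hB y)
  have ha0 : 0 < a := (by positivity : 0 < r ^ 2).trans_le ha
  have hra : r ≤ √(2 * a) := Real.le_sqrt_of_sq_le (by linarith)
  have hub := BL.usq y ha0.le
  have hu : IsSobolevLoc m (usq y a) := hub.sl
  have hφb : BL fun z => a - usq y a z := (BL.const a).sub hub
  have hφ : IsSobolev m fun z => a - usq y a z :=
    sob_of_support hφb.sl (o := y) (R := √(2 * a)) (ae_of_all _ fun x hx => by
      rw [usq, min_eq_right (usq_eq_of_lt ha0.le hx), sub_self])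
  have hFb : BL fun z => F z * cut y (√(2 * a)) z := hF.mul (BL.cut _ _)
  have hFs : IsSobolev m fun z => F z * cut y (√(2 * a)) z :=
    sob_of_support hFb.sl (o := y) (R := √(2 * a) + 1) (ae_of_all _ fun x hx => by
      rw [cut_eq_zero hx.le, mul_zero])
  have hDφ : ∀ᵐ x ∂m, Dw m (fun z => a - usq y a z) x ^ 2 ≤ 2 * (a - (a - usq y a x)) := by
    filter_upwards [Dw_const_sub hu a, Dw_usq_le (m := m) y ha0.le, Dw_nonneg hu] with x a1 a2 a3
    rw [a1, sub_sub_cancel]
    rcases le_total a (dist x y ^ 2 / 2) with b | b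
    · rw [a2.2 b, usq, min_eq_right b]; nlinarith
    · rw [usq, min_eq_left b]
      have := pow_le_pow_left₀ a3 a2.1 2
      linarith
  have hFF : ∀ᵐ x ∂m, Gm m (fun z => a - usq y a z) (fun z => F z * cut y (√(2 * a)) z) x =
      Gm m (fun z => a - usq y a z) F x := by
    filter_upwards [Gm_loc hφb.sl hFb.sl hφb.sl hF.sl, abs_Gm_le H hφb.sl hFb.sl,
      abs_Gm_le H hφb.sl hF.sl, Dw_const_sub hu a, Dw_usq_le (m := m) y ha0.le]
      with x a1 a2 a3 a4 a5
    rcases le_or_gt (dist x y) (√(2 * a)) with b | b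
    · exact a1 rfl (by rw [cut_eq_one b, mul_one])
    · rw [a4, a5.2 (usq_eq_of_lt ha0.le b), zero_mul, abs_nonpos_iff] at a2 a3
      rw [a2, a3]
  obtain ⟨CL, hCL, hlap0⟩ := h.lap a ha0
  have hlap : ∀ v, IsSobolev m v → (∀ᵐ x ∂m, 0 ≤ v x) → Integrable v m →
      ∫ x, Gm m (fun z => a - usq y a z) v x ∂m ≤ CL * ∫ x, v x ∂m := fun v hv v0 vi => by
    rw [integral_congr_ae (Gm_const_sub H hu hv.2.1 a), integral_neg]
    exact (hlap0 y v hv.2.1 v0).trans
      (mul_le_mul_of_nonneg_left (setIntegral_le_integral vi v0) hCL)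
  obtain ⟨C₀, hC₀⟩ := hρ.bdd
  have hC : ∀ x, ρ x ≤ C₀.toNNReal := fun x =>
    ((le_abs_self _).trans (hC₀ x)).trans (Real.le_coe_toNNReal _)
  obtain ⟨hA, eA⟩ := adm_withDensity (m := m) (C := C₀.toNNReal) (o := y) (R := r)
    hρ.continuous.aemeasurable (ae_of_all _ fun x => ⟨h0 x, hC x⟩) (ae_of_all _ hs)
  set μ₁ := m.withDensity fun x => ENNReal.ofReal (ρ x)
  haveI := hA.isFiniteMeasure
  haveI : IsProbabilityMeasure μ₁ := by
    have := eA fun _ => 1
    simp only [integral_const, smul_eq_mul, one_mul, mul_one, h1] at this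
    exact isProbabilityMeasure_iff_real.2 this
  have hρs : IsSobolev m ρ := sob_of_support hρ.sl (ae_of_all _ hs)
  obtain ⟨L, hL⟩ := hF.lip
  have hγ : IsL2OnBalls m (Gm m (usq y a) F) :=
    l2b_congr (l2b_Gm H hF.sl hu (Dw_lip_le hL)) (Gm_comm hF.sl hu)
  have cut1 : ∀ μ : Measure X, (∀ᵐ x ∂μ, dist x y ≤ r) →
      ∫ z, F z * cut y (√(2 * a)) z ∂μ = ∫ z, F z ∂μ := fun μ hμ => by
    refine integral_congr_ae ?_
    filter_upwards [hμ] with x hx
    rw [cut_eq_one (hx.trans hra), mul_one]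
  set l := ∫ x, dist x y ^ 2 ∂μ₁ with hl
  have main : ∫ x, Gm m (usq y a) F x ∂μ₁ ≤
      ∫ x, F x ∂μ₁ - F y + 2 * (L * (0 * r)) + (1 - 0 ^ 2) / 2 * (G₀ * l) := by
    refine le_of_forall_small (E := fun δ => ∫ x, F x ∂μ₁ - F y + 2 * (L * (δ * r)) +
      (1 - δ ^ 2) / 2 * (G₀ * l)) (by fun_prop) fun δ hδ hδ' => ?_
    obtain ⟨C', μ, e1, f1, f2⟩ := exists_family hc hA hδ hδ'
    have hμ : Fam m μ C' y r δ l := ⟨hr.le, integral_nonneg fun _ => sq_nonneg _, hδ'.le,
      fun s hs => (f1 s hs).1, fun s hs => (f1 s hs).2.1, fun s hs => (f1 s hs).2.2, f2⟩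
    have i0 : δ ∈ Icc δ 1 := ⟨le_rfl, hδ'.le⟩
    haveI := hμ.prob δ i0
    have b1 : F y - L * (δ * r) ≤ ∫ x, F x ∂(μ δ) := by
      have : ∫ _, F y - L * (δ * r) ∂(μ δ) ≤ ∫ x, F x ∂(μ δ) := by
        refine integral_mono_ae (integrable_const _) ((hμ.adm δ i0).integrable (hF.sl (m := m)).1) ?_
        filter_upwards [(hμ.adm δ i0).inn] with x hx
        have a1 := hL.dist_le_mul x y
        have a2 := mul_le_mul_of_nonneg_left hx L.2
        rw [Real.dist_eq] at a1
        have a3 := neg_abs_le (F x - F y)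
        have a4 : ((L : ℝ≥0) : ℝ) = L.1 := rfl
        rw [← a4] at a2
        linarith
      simpa using this
    have b2 : -∫ x, Gm m (fun z => a - usq y a z) F x ∂(μ δ) ≤ L * (δ * r) := by
      rw [integral_congr_ae ((hμ.adm δ i0).ac.ae_le (Gm_const_sub H hu hF.sl a)), integral_neg,
        neg_neg]
      have : ∫ x, Gm m (usq y a) F x ∂(μ δ) ≤ ∫ _, L * (δ * r) ∂(μ δ) := by
        refine integral_mono_ae ((hμ.adm δ i0).integrable hγ) (integrable_const _) ?_
        filter_upwards [(hμ.adm δ i0).inn, (hμ.adm δ i0).ac.ae_le (abs_Gm_le H hu hF.sl),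
          (hμ.adm δ i0).ac.ae_le (Dw_usq_le (m := m) y ha0.le),
          (hμ.adm δ i0).ac.ae_le (Dw_lip_le (m := m) hL),
          (hμ.adm δ i0).ac.ae_le (Dw_nonneg hu)] with x a1 a2 a3 a4 a5
        refine (le_abs_self _).trans (a2.trans ?_)
        rw [mul_comm]
        exact mul_le_mul a4 (a3.1.trans a1) a5 L.2
      simpa using this
    suffices hs : ∫ x, Gm m (usq y a) F x ∂μ₁ ≤ ∫ x, F x ∂μ₁ - F y + 2 * (L * (δ * r)) +
        (1 - δ ^ 2) / 2 * ((0 * k / 2 + G₀) * l) +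
          0 * (CL + CL / δ - ∫ x, Gm m (fun z => a - usq y a z) ρ x ∂m) by
      simpa using hs
    refine le_of_forall_small (E := fun ε => ∫ x, F x ∂μ₁ - F y + 2 * (L * (δ * r)) +
        (1 - δ ^ 2) / 2 * ((ε * k / 2 + G₀) * l) +
          ε * (CL + CL / δ - ∫ x, Gm m (fun z => a - usq y a z) ρ x ∂m)) (by fun_prop)
      fun ε hε _ => ?_
    have ew : ∀ x, ρ x * wt F (-ε) x * wt F ε x = ρ x := fun x => by
      rw [mul_assoc, wt, wt, ← Real.exp_add, div_neg, neg_add_cancel, Real.exp_zero, mul_one]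
    have hp₁ : IsSobolev m fun x => ρ x * wt F (-ε) x := sob_mul_BL hρs (hF.wt _)
    have ep : ∀ g : X → ℝ, ∫ x, g x ∂(μ 1) = ip m (wt F ε) g fun x => ρ x * wt F (-ε) x :=
      fun g => by
        rw [e1, eA]
        unfold ip
        congr 1; ext x
        rw [mul_assoc, ew]
    have := action_abs hc h hF hG hB hB0 hH hε hφb hφ ha0.le hDφ hCL hlap hFb hFs hFF hμ hδ
      (w₀ := ε * k / 2 + G₀) (fun s hs => by
        haveI := hμ.prob s hs
        rw [integral_sub (integrable_const _) ((hμ.adm s hs).integrable hu.1),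
          hμ.integral_usq ha hs]
        simp) (fun s hs => by
        have hs' := Ioo_subset_Icc_self hs
        rw [← hμ.grad_usq hc hδ.le ha (Ioo_subset_Ico_self hs), ← integral_const_mul]
        have i1 := ((hμ.adm s hs').memLp (Dw_l2 hu)).integrable_sq
        have i2 := ((hμ.adm s hs').memLp (Dw_l2 hφ.2.1)).integrable_sq
        refine integral_mono_ae (i2.bdd_mul (c := ε * k / 2 + B)
          (hG.const_add _).aestronglyMeasurable (ae_of_all _ fun x => ?_)) (i1.const_mul _) ?_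
        · exact (abs_add_le _ _).trans
            (add_le_add (le_of_eq (abs_of_nonneg (by positivity))) (hB x))
        filter_upwards [(hμ.adm' hs').inn, (hμ.adm s hs').ac.ae_le (Dw_const_sub hu a)]
          with x a1 a2
        rw [a2]
        exact mul_le_mul_of_nonneg_right (by linarith [hG₀ x a1]) (sq_nonneg _)) hp₁ ep
    rw [integral_Gm_wt H hF hε hφ hp₁, ← ep, cut1 _ (hμ.adm' i0).inn, e1, cut1 _ hA.inn,
      integral_congr_ae (hA.ac.ae_le (Gm_const_sub H hu hF.sl a)), integral_neg] at this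
    simp only [ew] at this
    have e3 : ε * CL / δ = ε * (CL / δ) := by ring
    linarith
  rw [← eA]
  have i1 := hA.integrable hγ
  have i2 := hA.integrable (hF.sl (m := m)).1
  have i3 : Integrable (fun x => dist x y ^ 2) μ₁ :=
    (hA.memLp (l2b_of_continuous (by fun_prop))).integrable_sq
  have := integral_lin4 i1 i2 (integrable_const (F y)) i3 1 (-1) 1 (-(G₀ / 2))
  refine le_trans (le_of_eq (Eq.trans (integral_congr_ae (ae_of_all _ fun x => ?_)) this)) ?_
  · simp only; ring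
  · simp only [integral_const, probReal_univ, smul_eq_mul]
    linarith

/-- a function with non-positive integrals against non-negative Lipschitz functions -/
theorem ae_nonpos_of_lip {Ψ : X → ℝ} (hΨ : MemLp Ψ 2 m) (h : ∀ g : X → ℝ, BL g → (∀ x, 0 ≤ g x) →
    HasCompactSupport g → ∫ x, Ψ x * g x ∂m ≤ 0) : ∀ᵐ x ∂m, Ψ x ≤ 0 := by
  have hf : MemLp (fun x => max (Ψ x) 0) 2 m := hΨ.pos_part
  have h1 : ∫ x, Ψ x * max (Ψ x) 0 ∂m ≤ √(∫ x, Ψ x ^ 2 ∂m) * √0 := by
    refine le_of_forall_small (E := fun η => √(∫ x, Ψ x ^ 2 ∂m) * √η) (by fun_prop)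
      fun η hη _ => ?_
    obtain ⟨g, ⟨L, hL⟩, hc, h0, he⟩ := exists_lip_approx' hf hη
    have hg : MemLp g 2 m := (sob_of_compactSupport hL hc).1
    have a1 := h g (BL.of_compactSupport hL hc) (h0 (ae_of_all _ fun x => le_max_right _ _)) hc
    have a2 := (le_abs_self _).trans (abs_integral_mul_le hΨ (hf.sub hg))
    have a3 : ∫ x, Ψ x * (max (Ψ x) 0 - g x) ∂m =
        ∫ x, Ψ x * max (Ψ x) 0 ∂m - ∫ x, Ψ x * g x ∂m := by
      refine Eq.trans ?_ (integral_sub (hΨ.integrable_mul hf) (hΨ.integrable_mul hg))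
      congr 1; ext x; exact mul_sub _ _ _
    have a4 := mul_le_mul_of_nonneg_left (Real.sqrt_le_sqrt he)
      (Real.sqrt_nonneg (∫ x, Ψ x ^ 2 ∂m))
    simp only [Pi.sub_apply] at a2
    linarith
  rw [Real.sqrt_zero, mul_zero] at h1
  have h2 : ∀ x, 0 ≤ Ψ x * max (Ψ x) 0 := fun x => by
    rcases le_total (Ψ x) 0 with b | b
    · rw [max_eq_right b, mul_zero]
    · rw [max_eq_left b]; positivity
  have h3 := (integral_eq_zero_iff_of_nonneg h2 (hΨ.integrable_mul hf)).1
    (le_antisymm h1 (integral_nonneg h2))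
  filter_upwards [h3] with x hx
  by_contra b
  push Not at b
  rw [max_eq_left b.le] at hx
  exact (mul_pos b b).ne' hx

theorem first_order (hc : CDk m κ N) (h : RS m k τ₀) (hF : BL F) (hG : Measurable G) {B : ℝ}
    (hB : ∀ x, |G x| ≤ B) (hH : HasWeakHessLe m F G) (y : X) {r a G₀ : ℝ} (hr : 0 < r)
    (ha : r ^ 2 ≤ a) (hG₀ : ∀ x, dist x y ≤ r → G x ≤ G₀) :
    ∀ᵐ x ∂m, dist x y < r → Gm m (usq y a) F x ≤ F x - F y + G₀ * (dist x y ^ 2 / 2) := by
  have H := h.hilb
  have hu : IsSobolevLoc m (usq y a) := (BL.usq y ((sq_nonneg r).trans ha)).sl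
  obtain ⟨L, hL⟩ := hF.lip
  have hγ : IsL2OnBalls m (Gm m (usq y a) F) :=
    l2b_congr (l2b_Gm H hF.sl hu (Dw_lip_le hL)) (Gm_comm hF.sl hu)
  have hΦ : IsL2OnBalls m fun x =>
      Gm m (usq y a) F x - (F x - F y + G₀ * (dist x y ^ 2 / 2)) := fun o R =>
    (hγ o R).sub (l2b_of_continuous (m := m) (by have := hL.continuous; fun_prop) o R)
  have hw : BL fun x => max 0 (r - dist x y) :=
    ⟨⟨_, ((LipschitzWith.const r).sub (LipschitzWith.dist_left y)).const_max 0⟩, r, fun x => by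
      rw [abs_of_nonneg (le_max_left _ _)]
      exact max_le hr.le (by linarith [dist_nonneg (x := x) (y := y)])⟩
  have hw0 : ∀ x, r < dist x y → max 0 (r - dist x y) = 0 := fun x hx =>
    max_eq_left (by linarith)
  obtain ⟨W, hW⟩ := hw.bdd
  have hΨ : MemLp (fun x => max 0 (r - dist x y) *
      (Gm m (usq y a) F x - (F x - F y + G₀ * (dist x y ^ 2 / 2)))) 2 m :=
    memLp_of_l2b (o := y) (R := r) (fun o R => memLp_bdd_mul (hΦ o R)
      hw.continuous.aestronglyMeasurable (ae_of_all _ hW))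
      (ae_of_all _ fun x hx => by rw [hw0 x hx, zero_mul])
  have key := ae_nonpos_of_lip hΨ fun g hg g0 _ => by
    have hρ := hw.mul hg
    have ρ0 : ∀ x, 0 ≤ max 0 (r - dist x y) * g x := fun x => mul_nonneg (le_max_left _ _) (g0 x)
    have ρi : Integrable (fun x => max 0 (r - dist x y) * g x) m :=
      integrable_of_l2b (o := y) (R := r) hρ.sl.1
        (ae_of_all _ fun x hx => by rw [hw0 x hx, zero_mul])
    have ρ1 : 0 ≤ ∫ x, max 0 (r - dist x y) * g x ∂m := integral_nonneg ρ0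
    rcases ρ1.eq_or_lt with e | e
    · refine le_of_eq (integral_eq_zero_of_ae ?_)
      filter_upwards [(integral_eq_zero_iff_of_nonneg ρ0 ρi).1 e.symm] with x hx
      simp only [Pi.zero_apply] at hx ⊢
      rw [mul_right_comm, hx, zero_mul]
    · have := action_int hc h hF hG hB hH y hr ha hG₀
        (hρ.const_mul (∫ x, max 0 (r - dist x y) * g x ∂m)⁻¹)
        (fun x => mul_nonneg (inv_pos.2 e).le (ρ0 x))
        (fun x hx => by rw [hw0 x hx, zero_mul, mul_zero])
        (by rw [integral_const_mul, inv_mul_cancel₀ e.ne'])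
      refine nonpos_of_mul_nonpos_right (le_trans (le_of_eq ?_) this) (inv_pos.2 e)
      rw [← integral_const_mul]
      congr 1; ext x; ring
  filter_upwards [key] with x hx hlt
  have : 0 < max 0 (r - dist x y) := lt_max_of_lt_right (by linarith)
  have := nonpos_of_mul_nonpos_right hx this
  linarith

end Crest.Agent.R242
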