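import Crest.Agent.R242.Res

/-!
Row 242: weighted scalar product and norm.
-/

set_option autoImplicit false

open MeasureTheory Set Filter Metric Crest.GeometryTopology.SyntheticRicci
open scoped ENNReal NNReal Topology

namespace Crest.Agent.R242

theorem integral_lin2 {Ω : Type*} [MeasurableSpace Ω] {μ : Measure Ω} {f g : Ω → ℝ}
    (hf : Integrable f μ) (hg : Integrable g μ) (a b : ℝ) :
    ∫ x, (a * f x + b * g x) ∂μ = a * ∫ x, f x ∂μ + b * ∫ x, g x ∂μ := by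
  rw [integral_add (hf.const_mul a) (hg.const_mul b), integral_const_mul, integral_const_mul]

theorem integral_lin3 {Ω : Type*} [MeasurableSpace Ω] {μ : Measure Ω} {f g h : Ω → ℝ}
    (hf : Integrable f μ) (hg : Integrable g μ) (hh : Integrable h μ) (a b c : ℝ) :
    ∫ x, (a * f x + b * g x + c * h x) ∂μ =
      a * ∫ x, f x ∂μ + b * ∫ x, g x ∂μ + c * ∫ x, h x ∂μ := by
  have h1 : Integrable (fun x => a * f x + b * g x) μ := (hf.const_mul a).add (hg.const_mul b)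
  rw [integral_add h1 (hh.const_mul c), integral_lin2 hf hg, integral_const_mul]

theorem integral_lin4 {Ω : Type*} [MeasurableSpace Ω] {μ : Measure Ω} {f g h k : Ω → ℝ}
    (hf : Integrable f μ) (hg : Integrable g μ) (hh : Integrable h μ) (hk : Integrable k μ)
    (a b c d : ℝ) : ∫ x, (a * f x + b * g x + c * h x + d * k x) ∂μ =
      a * ∫ x, f x ∂μ + b * ∫ x, g x ∂μ + c * ∫ x, h x ∂μ + d * ∫ x, k x ∂μ := by
  have h1 : Integrable (fun x => a * f x + b * g x + c * h x) μ :=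
    ((hf.const_mul a).add (hg.const_mul b)).add (hh.const_mul c)
  rw [integral_add h1 (hk.const_mul d), integral_lin3 hf hg hh, integral_const_mul]

variable {X : Type*} [MetricSpace X] [MeasurableSpace X]

/-- weighted scalar product -/
noncomputable def ip (m : Measure X) (ω f g : X → ℝ) : ℝ := ∫ x, f x * g x * ω x ∂m

/-- weighted norm -/
noncomputable def nw (m : Measure X) (ω f : X → ℝ) : ℝ := √(∫ x, f x ^ 2 * ω x ∂m)

variable {m : Measure X} {ω f g p : X → ℝ} {c : ℝ}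

theorem Wt.pos (hω : Wt ω) (x : X) : 0 < ω x := by
  obtain ⟨c, hc, h⟩ := hω.bdd
  exact hc.trans_le (h x).1

theorem Wt.memLp_mul (hω : Wt ω) (hf : MemLp f 2 m) : MemLp (fun x => f x * ω x) 2 m := by
  obtain ⟨c, hc, h⟩ := hω.bdd
  refine (hf.const_mul c⁻¹).mono (hf.1.mul hω.meas.aestronglyMeasurable) (ae_of_all _ fun x => ?_)
  rw [Real.norm_eq_abs, Real.norm_eq_abs, abs_mul, abs_mul, abs_of_pos (hω.pos x),
    abs_of_pos (inv_pos.2 hc), mul_comm]
  exact mul_le_mul_of_nonneg_right (h x).2 (abs_nonneg _)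

theorem Wt.memLp_mul_sqrt (hω : Wt ω) (hf : MemLp f 2 m) : MemLp (fun x => f x * √(ω x)) 2 m := by
  obtain ⟨c, hc, h⟩ := hω.bdd
  refine (hf.const_mul √(c⁻¹)).mono (hf.1.mul hω.meas.sqrt.aestronglyMeasurable)
    (ae_of_all _ fun x => ?_)
  rw [Real.norm_eq_abs, Real.norm_eq_abs, abs_mul, abs_mul, abs_of_nonneg (Real.sqrt_nonneg _),
    abs_of_nonneg (Real.sqrt_nonneg _), mul_comm]
  exact mul_le_mul_of_nonneg_right (Real.sqrt_le_sqrt (h x).2) (abs_nonneg _)

theorem Wt.integrable_mul (hω : Wt ω) (hf : Integrable f m) :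
    Integrable (fun x => f x * ω x) m := by
  obtain ⟨c, hc, h⟩ := hω.bdd
  refine hf.mul_bdd (c := c⁻¹) hω.meas.aestronglyMeasurable (ae_of_all _ fun x => ?_)
  rw [Real.norm_eq_abs, abs_of_pos (hω.pos x)]
  exact (h x).2

theorem Wt.integrable_ip (hω : Wt ω) (hf : MemLp f 2 m) (hg : MemLp g 2 m) :
    Integrable (fun x => f x * g x * ω x) m :=
  hω.integrable_mul (hf.integrable_mul hg)

theorem Wt.integrable_sq (hω : Wt ω) (hf : MemLp f 2 m) :
    Integrable (fun x => f x ^ 2 * ω x) m :=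
  hω.integrable_mul hf.integrable_sq

omit [MetricSpace X] in
theorem ip_comm (f g : X → ℝ) : ip m ω f g = ip m ω g f := by
  unfold ip; congr 1; ext x; ring

omit [MetricSpace X] in
theorem ip_congr {f' g' : X → ℝ} (e : f =ᵐ[m] f') (e' : g =ᵐ[m] g') :
    ip m ω f g = ip m ω f' g' := by
  unfold ip
  refine integral_congr_ae ?_
  filter_upwards [e, e'] with x h1 h2
  rw [h1, h2]

theorem ip_lin (hω : Wt ω) (hf : MemLp f 2 m) (hg : MemLp g 2 m) (hp : MemLp p 2 m) (a b : ℝ) :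
    ip m ω (fun x => a * f x + b * g x) p = a * ip m ω f p + b * ip m ω g p := by
  unfold ip
  rw [← integral_const_mul, ← integral_const_mul, ← integral_add
    ((hω.integrable_ip hf hp).const_mul a) ((hω.integrable_ip hg hp).const_mul b)]
  congr 1; ext x; ring

theorem ip_sub (hω : Wt ω) (hf : MemLp f 2 m) (hg : MemLp g 2 m) (hp : MemLp p 2 m) :
    ip m ω (fun x => f x - g x) p = ip m ω f p - ip m ω g p := by
  have := ip_lin hω hf hg hp 1 (-1)
  simpa [sub_eq_add_neg] using this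

omit [MetricSpace X] in
theorem nw_nonneg (f : X → ℝ) : 0 ≤ nw m ω f := Real.sqrt_nonneg _

theorem nw_sq (hω : Wt ω) (f : X → ℝ) : nw m ω f ^ 2 = ∫ x, f x ^ 2 * ω x ∂m :=
  Real.sq_sqrt (integral_nonneg fun x => mul_nonneg (sq_nonneg _) (hω.pos x).le)

omit [MetricSpace X] in
theorem nw_congr (e : f =ᵐ[m] g) : nw m ω f = nw m ω g := by
  unfold nw
  congr 1
  refine integral_congr_ae ?_
  filter_upwards [e] with x h1
  rw [h1]

theorem nw_eq (hω : Wt ω) (f : X → ℝ) : nw m ω f = √(∫ x, (f x * √(ω x)) ^ 2 ∂m) := by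
  unfold nw
  congr 2; ext x
  rw [mul_pow, Real.sq_sqrt (hω.pos x).le]

omit [MetricSpace X] in
theorem nw_const_mul (a : ℝ) (f : X → ℝ) : nw m ω (fun x => a * f x) = |a| * nw m ω f := by
  unfold nw
  rw [← Real.sqrt_sq_eq_abs, ← Real.sqrt_mul (sq_nonneg _), ← integral_const_mul]
  congr 2; ext x; ring

theorem nw_mono (hω : Wt ω) (hg : MemLp g 2 m) (h : ∀ᵐ x ∂m, |f x| ≤ g x) :
    nw m ω f ≤ nw m ω g := by
  refine Real.sqrt_le_sqrt (integral_mono_of_nonneg
    (ae_of_all _ fun x => mul_nonneg (sq_nonneg _) (hω.pos x).le) (hω.integrable_sq hg) ?_)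
  filter_upwards [h] with x hx
  refine mul_le_mul_of_nonneg_right ?_ (hω.pos x).le
  rw [← sq_abs]
  exact pow_le_pow_left₀ (abs_nonneg _) hx 2

theorem nw_le_l2 (hω : Wt ω) : ∃ K : ℝ, 0 ≤ K ∧ ∀ f : X → ℝ, MemLp f 2 m →
    nw m ω f ≤ √(K * ∫ x, f x ^ 2 ∂m) := by
  obtain ⟨c, hc, h⟩ := hω.bdd
  refine ⟨c⁻¹, by positivity, fun f hf => Real.sqrt_le_sqrt ?_⟩
  rw [← integral_const_mul]
  refine integral_mono (hω.integrable_sq hf) (hf.integrable_sq.const_mul _) fun x => ?_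
  simp only
  rw [mul_comm]
  exact mul_le_mul_of_nonneg_right (h x).2 (sq_nonneg _)

theorem abs_ip_le (hω : Wt ω) (hf : MemLp f 2 m) (hg : MemLp g 2 m) :
    |ip m ω f g| ≤ nw m ω f * nw m ω g := by
  rw [nw_eq hω, nw_eq hω]
  convert abs_integral_mul_le (hω.memLp_mul_sqrt hf) (hω.memLp_mul_sqrt hg) using 2
  unfold ip
  congr 1; ext x
  have := Real.mul_self_sqrt (hω.pos x).le
  linear_combination (-(f x * g x)) * this

theorem nw_add_le (hω : Wt ω) (hf : MemLp f 2 m) (hg : MemLp g 2 m) :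
    nw m ω (fun x => f x + g x) ≤ nw m ω f + nw m ω g := by
  rw [nw_eq hω, nw_eq hω, nw_eq hω]
  convert sqrt_integral_add_sq_le (hω.memLp_mul_sqrt hf) (hω.memLp_mul_sqrt hg) using 4
  ring

theorem nw_lin_le (hω : Wt ω) (hf : MemLp f 2 m) (hg : MemLp g 2 m) (a b : ℝ) :
    nw m ω (fun x => a * f x + b * g x) ≤ |a| * nw m ω f + |b| * nw m ω g := by
  rw [← nw_const_mul, ← nw_const_mul]
  exact nw_add_le hω (hf.const_mul a) (hg.const_mul b)

theorem nw_sub_le (hω : Wt ω) (hf : MemLp f 2 m) (hg : MemLp g 2 m) :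
    nw m ω (fun x => f x - g x) ≤ nw m ω f + nw m ω g := by
  have := nw_lin_le hω hf hg 1 (-1)
  simpa [sub_eq_add_neg] using this

variable [ProperSpace X] [BorelSpace X] [IsLocallyFiniteMeasure m]

theorem memLp_Res (H : IsInfHilbertian m) (hω : Wt ω) (hc : 0 < c) (hf : MemLp f 2 m) :
    MemLp (Res m ω c f) 2 m := (sob_Res H hω hc hf).1

theorem nw_Res_le (H : IsInfHilbertian m) (hω : Wt ω) (hc : 0 < c) (hf : MemLp f 2 m) :
    nw m ω (Res m ω c f) ≤ nw m ω f := Real.sqrt_le_sqrt (Res_energy H hω hc hf).1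

theorem nw_Dw_Res_le (H : IsInfHilbertian m) (hω : Wt ω) (hc : 0 < c) (hf : IsSobolev m f) :
    nw m ω (Dw m (Res m ω c f)) ≤ nw m ω (Dw m f) :=
  Real.sqrt_le_sqrt (Res_energy_sob H hω hc hf).1

theorem nw_Dw_Res_sq_le (H : IsInfHilbertian m) (hω : Wt ω) (hc : 0 < c) (hf : MemLp f 2 m) :
    c * nw m ω (Dw m (Res m ω c f)) ^ 2 ≤ nw m ω f ^ 2 := by
  rw [nw_sq hω, nw_sq hω]
  exact (Res_energy H hω hc hf).2

theorem ip_Res (H : IsInfHilbertian m) (hω : Wt ω) (hc : 0 < c) (hf : MemLp f 2 m)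
    (hg : MemLp g 2 m) : ip m ω (Res m ω c f) g = ip m ω f (Res m ω c g) :=
  Res_symm H hω hc hf hg

theorem ip_sub_Res (H : IsInfHilbertian m) (hω : Wt ω) (hc : 0 < c) (hf : IsSobolev m f)
    (hg : MemLp g 2 m) : ip m ω f g - ip m ω f (Res m ω c g) =
      c * ∫ x, Gm m (Res m ω c g) f x * ω x ∂m := by
  have := (isRes_Res H hω hc hg).2 f hf
  rw [ip_comm f g, ip_comm f]
  unfold ip
  linarith

theorem abs_ip_Res_sub (H : IsInfHilbertian m) (hω : Wt ω) (hc : 0 < c) (hf : MemLp f 2 m)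
    (hg : MemLp g 2 m) :
    |ip m ω f (Res m ω c g) - ip m ω f g| ≤ nw m ω (fun x => Res m ω c f x - f x) * nw m ω g := by
  rw [← ip_Res H hω hc hf hg, ← ip_sub hω (memLp_Res H hω hc hf) hf hg]
  exact abs_ip_le hω ((memLp_Res H hω hc hf).sub hf) hg

theorem abs_integral_Gm_wt_le (H : IsInfHilbertian m) (hω : Wt ω) (hf : IsSobolev m f)
    (hg : IsSobolev m g) :
    |∫ x, Gm m f g x * ω x ∂m| ≤ nw m ω (Dw m f) * nw m ω (Dw m g) := by
  refine le_trans ?_ ((le_abs_self _).trans (abs_ip_le hω hf.2.2 hg.2.2))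
  refine (abs_integral_le_integral_abs).trans (integral_mono_of_nonneg
    (ae_of_all _ fun x => abs_nonneg _) (hω.integrable_ip hf.2.2 hg.2.2) ?_)
  filter_upwards [abs_Gm_le H hf.2.1 hg.2.1] with x hx
  rw [abs_mul, abs_of_pos (hω.pos x)]
  exact mul_le_mul_of_nonneg_right hx (hω.pos x).le

theorem nw_Res_tendsto (H : IsInfHilbertian m) (hω : Wt ω) (hf : MemLp f 2 m) {η : ℝ}
    (hη : 0 < η) : ∃ c₀ : ℝ, 0 < c₀ ∧ ∀ c, 0 < c → c ≤ c₀ →
      nw m ω (fun x => Res m ω c f x - f x) ≤ η := by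
  obtain ⟨K, hK, h⟩ := nw_le_l2 (m := m) hω
  have h1 : Tendsto (fun c => √(K * ∫ x, (Res m ω c f x - f x) ^ 2 ∂m)) (𝓝[>] 0) (𝓝 0) := by
    simpa using ((Res_tendsto H hω hf).const_mul K).sqrt
  obtain ⟨c₀, hc₀, h2⟩ := (mem_nhdsGT_iff_exists_Ioc_subset).1 (h1.eventually (gt_mem_nhds hη))
  exact ⟨c₀, hc₀, fun c hc hc' =>
    (h _ ((memLp_Res H hω hc hf).sub hf)).trans (le_of_lt (h2 ⟨hc, hc'⟩))⟩

theorem nw_Dw_Res_tendsto (H : IsInfHilbertian m) (hω : Wt ω) (hf : IsSobolev m f) {η : ℝ}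
    (hη : 0 < η) : ∃ c₀ : ℝ, 0 < c₀ ∧ ∀ c, 0 < c → c ≤ c₀ →
      nw m ω (Dw m fun x => Res m ω c f x - f x) ≤ η := by
  obtain ⟨K, hK, h⟩ := nw_le_l2 (m := m) hω
  have h1 : Tendsto (fun c => √(K * ∫ x, Dw m (fun y => Res m ω c f y - f y) x ^ 2 ∂m))
      (𝓝[>] 0) (𝓝 0) := by
    simpa using ((Res_tendsto_sob H hω hf).const_mul K).sqrt
  obtain ⟨c₀, hc₀, h2⟩ := (mem_nhdsGT_iff_exists_Ioc_subset).1 (h1.eventually (gt_mem_nhds hη))
  exact ⟨c₀, hc₀, fun c hc hc' =>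
    (h _ (sob_sub (sob_Res H hω hc hf.1) hf).2.2).trans (le_of_lt (h2 ⟨hc, hc'⟩))⟩

theorem nw_Res_sub_Res (H : IsInfHilbertian m) (hω : Wt ω) (hc : 0 < c) {c' : ℝ} (hc' : 0 < c')
    (hf : MemLp f 2 m) :
    nw m ω (fun x => Res m ω c' f x - Res m ω c f x) ≤ |c' - c| / c' * (2 * nw m ω f) := by
  have h1 := memLp_Res H hω hc' hf
  have e : (fun x => Res m ω c' f x - Res m ω c f x) =ᵐ[m]
      fun x => (c' - c) / c' * (Res m ω c (Res m ω c' f) x - Res m ω c f x) := by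
    filter_upwards [Res_ident H hω hc' hc hf] with x hx
    field_simp
    linear_combination hx
  rw [nw_congr e, nw_const_mul, abs_div, abs_of_pos hc']
  refine mul_le_mul_of_nonneg_left ?_ (by positivity)
  have := nw_sub_le hω (memLp_Res H hω hc h1) (memLp_Res H hω hc hf)
  have h2 := nw_Res_le H hω hc h1
  have h3 := nw_Res_le H hω hc' hf
  have h4 := nw_Res_le H hω hc hf
  linarith

/-- first order expansion of the resolvent in the parameter -/
theorem nw_Res_taylor (H : IsInfHilbertian m) (hω : Wt ω) (hc : 0 < c) {c' : ℝ} (hc' : 0 < c')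
    (hf : MemLp f 2 m) :
    nw m ω (fun x => Res m ω c' f x - Res m ω c f x -
      (c' - c) / c * (Res m ω c (Res m ω c f) x - Res m ω c f x)) ≤
      (c' - c) ^ 2 * (2 / c' ^ 2 + 2 / (c * c')) * nw m ω f := by
  have h1 := memLp_Res H hω hc' hf
  have h2 := memLp_Res H hω hc hf
  have h3 := memLp_Res H hω hc h2
  have h4 := memLp_Res H hω hc (h1.sub h2)
  have e : (fun x => Res m ω c' f x - Res m ω c f x -
      (c' - c) / c * (Res m ω c (Res m ω c f) x - Res m ω c f x)) =ᵐ[m]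
      fun x => (c' - c) / c' * Res m ω c (fun y => Res m ω c' f y - Res m ω c f y) x +
        (-((c' - c) ^ 2 / (c * c'))) * (Res m ω c (Res m ω c f) x - Res m ω c f x) := by
    filter_upwards [Res_ident H hω hc' hc hf, Res_sub H hω hc h1 h2] with x hx hx'
    rw [hx']
    field_simp
    linear_combination c * hx
  rw [nw_congr e]
  refine (nw_lin_le hω h4 (h3.sub h2) _ _).trans ?_
  have a1 := nw_Res_le H hω hc (h1.sub h2)
  have a2 := nw_Res_sub_Res H hω hc hc' hf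
  have a3 := nw_sub_le hω h3 h2
  have a4 := nw_Res_le H hω hc h2
  have a5 := nw_Res_le H hω hc hf
  have b1 : |(c' - c) / c'| * nw m ω (Res m ω c fun y => Res m ω c' f y - Res m ω c f y) ≤
      |c' - c| / c' * (|c' - c| / c' * (2 * nw m ω f)) := by
    rw [abs_div, abs_of_pos hc']
    exact mul_le_mul_of_nonneg_left (a1.trans a2) (by positivity)
  have b2 : |-((c' - c) ^ 2 / (c * c'))| *
      nw m ω (fun x => Res m ω c (Res m ω c f) x - Res m ω c f x) ≤
      (c' - c) ^ 2 / (c * c') * (2 * nw m ω f) := by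
    rw [abs_neg, abs_of_nonneg (by positivity)]
    exact mul_le_mul_of_nonneg_left (by linarith) (by positivity)
  refine (add_le_add b1 b2).trans (le_of_eq ?_)
  rw [← sq_abs (c' - c)]
  field_simp

end Crest.Agent.R242
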