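import Crest.Agent.R242.Test1

/-!
Row 242: the extension of the Hessian bound.
-/

set_option autoImplicit false

open MeasureTheory Set Filter Metric Crest.GeometryTopology.SyntheticRicci
open scoped ENNReal NNReal Topology

namespace Crest.Agent.R242

variable {X : Type*} [MetricSpace X] [ProperSpace X] [MeasurableSpace X] [BorelSpace X]
  {m : Measure X} [IsLocallyFiniteMeasure m] [m.IsOpenPosMeasure] {k τ₀ : ℝ} {g g' : X → ℝ}

/-- closeness in `W^{1,2}` -/
def test_Cl (m : Measure X) (u v : X → ℝ) (η : ℝ) : Prop :=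
  ∫ x, (u x - v x) ^ 2 ∂m ≤ η ∧ ∫ x, Dw m (fun y => u y - v y) x ^ 2 ∂m ≤ η

omit [m.IsOpenPosMeasure] in
theorem test_Cl_symm {u v : X → ℝ} {η : ℝ} (hu : IsSobolev m u) (hv : IsSobolev m v)
    (h : test_Cl m u v η) : test_Cl m v u η := by
  refine ⟨?_, ?_⟩
  · have : ∀ x, (v x - u x) ^ 2 = (u x - v x) ^ 2 := fun x => by ring
    simpa only [this] using h.1
  · refine le_of_eq_of_le (integral_congr_ae ?_) h.2
    filter_upwards [Dw_sub_comm (sob_sl hv) (sob_sl hu)] with x hx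
    rw [hx]

omit [m.IsOpenPosMeasure] in
theorem test_Cl_congr {u v v' : X → ℝ} {η : ℝ} (hu : IsSobolev m u) (hv : IsSobolev m v)
    (e : v =ᵐ[m] v') (h : test_Cl m u v η) : test_Cl m u v' η := by
  have e' : (fun y => u y - v y) =ᵐ[m] fun y => u y - v' y := by
    filter_upwards [e] with x hx
    rw [hx]
  refine ⟨?_, ?_⟩
  · refine le_of_eq_of_le (integral_congr_ae ?_) h.1
    filter_upwards [e] with x hx
    rw [hx]
  · refine le_of_eq_of_le (integral_congr_ae ?_) h.2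
    filter_upwards [Dw_congr (sob_sl (sob_sub hu hv)) e'] with x hx
    rw [hx]

theorem test_int_sq_le {Ω : Type*} [MeasurableSpace Ω] {μ : Measure Ω} {a b c : Ω → ℝ}
    (ha : MemLp a 2 μ) (hb : MemLp b 2 μ) (h : ∀ᵐ x ∂μ, |c x| ≤ |a x| + |b x|) :
    ∫ x, c x ^ 2 ∂μ ≤ 2 * ∫ x, a x ^ 2 ∂μ + 2 * ∫ x, b x ^ 2 ∂μ := by
  have ia : Integrable (fun x => a x ^ 2) μ := ha.integrable_sq
  have ib : Integrable (fun x => b x ^ 2) μ := hb.integrable_sq
  rw [← integral_const_mul, ← integral_const_mul,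
    ← integral_add (ia.const_mul 2) (ib.const_mul 2)]
  refine integral_mono_of_nonneg (Eventually.of_forall fun x => sq_nonneg _)
    ((ia.const_mul 2).add (ib.const_mul 2)) ?_
  filter_upwards [h] with x hx
  have h1 : c x ^ 2 ≤ (|a x| + |b x|) ^ 2 := by
    rw [← sq_abs (c x)]
    exact pow_le_pow_left₀ (abs_nonneg _) hx 2
  have h2 := sq_abs (a x)
  have h3 := sq_abs (b x)
  nlinarith [sq_nonneg (|a x| - |b x|)]

omit [m.IsOpenPosMeasure] in
theorem test_Cl_trans {u v w : X → ℝ} {η η' : ℝ} (hu : IsSobolev m u) (hv : IsSobolev m v)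
    (hw : IsSobolev m w) (h : test_Cl m u v η) (h' : test_Cl m v w η') :
    test_Cl m u w (2 * η + 2 * η') := by
  have s1 := sob_sub hu hv
  have s2 := sob_sub hv hw
  have s3 := sob_sub hu hw
  refine ⟨?_, ?_⟩
  · have := test_int_sq_le (c := fun x => u x - w x) s1.1 s2.1 (Eventually.of_forall fun x => by
      have : u x - w x = (u x - v x) + (v x - w x) := by ring
      rw [this]
      exact abs_add_le _ _)
    linarith [h.1, h'.1]
  · have e : (fun y => u y - w y) = fun y => (u y - v y) + (v y - w y) := by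
      funext y; ring
    have := test_int_sq_le (c := Dw m fun y => u y - w y) s1.2.2 s2.2.2 (by
      filter_upwards [Dw_add_le (sob_sl s1) (sob_sl s2), Dw_nonneg (sob_sl s3)] with x hx hx0
      rw [abs_of_nonneg hx0, e]
      exact hx.trans (add_le_add (le_abs_self _) (le_abs_self _)))
    linarith [h.2, h'.2]

/-- density of Lipschitz functions with compact support -/
theorem lip_dense (h : RS m k τ₀) {w : X → ℝ} (hw : IsSobolev m w) (h0 : ∀ᵐ x ∂m, 0 ≤ w x) {η : ℝ}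
    (hη : 0 < η) : ∃ w' : X → ℝ, (∃ L : ℝ≥0, LipschitzWith L w') ∧ HasCompactSupport w' ∧
      (∀ x, 0 ≤ w' x) ∧ ∫ x, (w x - w' x) ^ 2 ∂m ≤ η ∧
      ∫ x, Dw m (fun y => w y - w' y) x ^ 2 ∂m ≤ η := by
  rcases isEmpty_or_nonempty X with hX | ⟨⟨o⟩⟩
  · refine ⟨fun _ => 0, ⟨0, LipschitzWith.const 0⟩, HasCompactSupport.zero, fun _ => le_rfl, ?_, ?_⟩
    · rw [integral_of_isEmpty]; exact hη.le
    · rw [integral_of_isEmpty]; exact hη.le
  have H := h.hilb
  have hη' : 0 < η / 10 := by positivity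
  -- truncation
  obtain ⟨t1, t2⟩ := sob_trunc_tendsto hw
  obtain ⟨n, hn1, hn2⟩ :=
    ((t1.eventually (ge_mem_nhds hη')).and (t2.eventually (ge_mem_nhds hη'))).exists
  set w₁ : X → ℝ := fun x => max (-(n : ℝ)) (min n (w x)) with hw₁
  have hn0 : (0 : ℝ) ≤ n := Nat.cast_nonneg n
  have hφ : LipschitzWith 1 fun t : ℝ => max (-(n : ℝ)) (min n t) :=
    (LipschitzWith.id.const_min _).const_max _
  have s₁ : IsSobolev m w₁ := sob_comp_lip hw hφ (by
    show max (-(n : ℝ)) (min n 0) = 0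
    rw [min_eq_right hn0, max_eq_right (by linarith)])
  have c₁ : test_Cl m w w₁ (η / 10) := ⟨hn1, hn2⟩
  have b₁ : ∀ᵐ x ∂m, 0 ≤ w₁ x := by
    filter_upwards [h0] with x hx
    exact le_max_of_le_right (le_min hn0 hx)
  have b₂ : ∀ x, w₁ x ≤ n := fun x => max_le (by linarith) (min_le_left _ _)
  -- resolvent
  have t3 := Res_tendsto H Wt.one s₁.1
  have t4 := Res_tendsto_sob H Wt.one s₁
  obtain ⟨τ, ⟨hτ1, hτ2⟩, hτ0, hτ⟩ :=
    (((t3.eventually (ge_mem_nhds hη')).and (t4.eventually (ge_mem_nhds hη'))).and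
      (Ioc_mem_nhdsGT h.τ_pos)).exists
  have s₂ : IsSobolev m (Jr m τ w₁) := sob_Res H Wt.one hτ0 s₁.1
  have c₂ : test_Cl m w₁ (Jr m τ w₁) (η / 10) := test_Cl_symm s₂ s₁ ⟨hτ1, hτ2⟩
  have b₃ := Res_nonneg H Wt.one hτ0 s₁.1 b₁
  have b₄ := Res_le_const H Wt.one hτ0 s₁.1 hn0 (Eventually.of_forall b₂)
  have b₅ := Dw_Jr_le_of_bdd h hτ0 hτ s₁.1 hn0 (by
    filter_upwards [b₁] with x hx
    rw [abs_of_nonneg hx]; exact b₂ x)
  obtain ⟨u, hu1, hu2, hu3⟩ := exists_BL_rep h (sob_sl s₂) (L := ⟨4 * n / √τ, by positivity⟩) hn0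
    (b₃.and b₄) b₅
  have s₃ : IsSobolev m u := sob_congr s₂ hu3
  have c₃ : test_Cl m w₁ u (η / 10) := test_Cl_congr s₁ s₂ hu3 c₂
  have bu : BL u := ⟨⟨_, hu1⟩, n, fun x => by rw [abs_of_nonneg (hu2 x).1]; exact (hu2 x).2⟩
  -- cut-off
  obtain ⟨t5, t6⟩ := sob_cut_tendsto s₃ o
  obtain ⟨j, hj1, hj2⟩ :=
    ((t5.eventually (ge_mem_nhds hη')).and (t6.eventually (ge_mem_nhds hη'))).exists
  have s₄ : IsSobolev m fun x => u x * cut o j x := sob_mul_BL s₃ (BL.cut o j)
  have c₄ : test_Cl m u (fun x => u x * cut o j x) (η / 10) := ⟨hj1, hj2⟩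
  have c := test_Cl_trans hw s₁ s₄ c₁ (test_Cl_trans s₁ s₃ s₄ c₃ c₄)
  refine ⟨fun x => u x * cut o j x, (bu.mul (BL.cut o j)).lip,
    hasCompactSupport_of_ball (o := o) (R := j + 1) fun x hx => ?_,
    fun x => mul_nonneg (hu2 x).1 (cut_mem o j x).1, c.1.trans (by linarith),
    c.2.trans (by linarith)⟩
  rw [cut_eq_zero hx.le, mul_zero]

/-- the Hessian bound for Lipschitz weights with compact support -/
theorem test_hess_lip (h : RS m k τ₀) {F G : X → ℝ} (hF : BL F) (hH : HasWeakHessLe m F G)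
    (hg : Good m g) {w : X → ℝ} (hL : ∃ L : ℝ≥0, LipschitzWith L w) (hc : HasCompactSupport w)
    (h0 : ∀ x, 0 ≤ w x) :
    -(∫ x, (Gm m w g x + w x * Lap m g x) * Gm m F g x ∂m) -
      1 / 2 * ∫ x, w x * Gm m F (Gm m g g) x ∂m ≤ ∫ x, w x * G x * Gm m g g x ∂m := by
  rcases isEmpty_or_nonempty X with hX | ⟨⟨o⟩⟩
  · simp only [integral_of_isEmpty]; norm_num
  have H := h.hilb
  obtain ⟨R, -, hR⟩ := exists_ball_of_hasCompactSupport hc o
  obtain ⟨χ, hχ, hχc, hχ1, hχ2⟩ := exists_cutoff h o R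
  obtain ⟨hg', hLap⟩ := Good.mul h hg hχ
  have hc' : HasCompactSupport fun x => g x * χ x := hχc.mul_left (f := g)
  have key := hH _ hg'.1 hc' w hL hc h0
  obtain ⟨L, hL⟩ := hL
  have sw : IsSobolevLoc m w := sl_lip hL
  have sg := sob_sl hg.sob
  have sg' := sob_sl hg'.sob
  have sχ := sob_sl hχ.sob
  have sF : IsSobolevLoc m F := hF.sl
  have sq := sob_sl (hg.sob_Gm_self h)
  have sq' := sob_sl (hg'.sob_Gm_self h)
  set g₁ : X → ℝ := fun x => g x * χ x with hg₁
  have e1 : ∀ x, dist x o ≤ R → g₁ x = g x := fun x hx => by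
    simp only [hg₁, hχ1 x hx, mul_one]
  have ediv : ∀ q : X → ℝ, (fun y => q y / 2) = fun y => 1 / 2 * q y := fun q => by
    funext y; ring
  have i1 : ∫ x, (Gm m w g₁ x + w x * Lap m g₁ x) * Gm m F g₁ x ∂m =
      ∫ x, (Gm m w g x + w x * Lap m g x) * Gm m F g x ∂m := by
    refine integral_congr_ae ?_
    filter_upwards [hLap, hχ2, Gm_loc sw sg' sw sg, Gm_loc sF sg' sF sg,
      Gm_loc_const_right H sχ sg 1, Gm_comm sw sg, Gm_comm sw sg',
      Gm_loc_const_right H sw sg 0, Gm_loc_const_right H sw sg' 0]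
      with x a1 a2 a3 a4 a5 a6 a7 a8 a9
    rcases le_or_gt (dist x o) R with hx | hx
    · rw [a1, a2 hx, a3 rfl (e1 x hx), a4 rfl (e1 x hx), a5 (hχ1 x hx), hχ1 x hx]
      ring
    · rw [a6, a7, a8 (hR x hx), a9 (hR x hx), hR x hx]
      ring
  have i2 : ∫ x, w x * Gm m F (fun y => Gm m g₁ g₁ y / 2) x ∂m =
      1 / 2 * ∫ x, w x * Gm m F (Gm m g g) x ∂m := by
    rw [← integral_const_mul, ediv]
    refine integral_congr_ae ?_
    filter_upwards [Gm_const_mul_right H sq' sF (1 / 2), Gm_loc sg' sg' sg sg,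
      Gm_loc sF sq' sF sq] with x a1 a2 a3
    rcases le_or_gt (dist x o) R with hx | hx
    · rw [a1, a3 rfl (a2 (e1 x hx) (e1 x hx))]
      ring
    · rw [hR x hx]
      ring
  have i3 : ∫ x, w x * G x * Gm m g₁ g₁ x ∂m = ∫ x, w x * G x * Gm m g g x ∂m := by
    refine integral_congr_ae ?_
    filter_upwards [Gm_loc sg' sg' sg sg] with x a2
    rcases le_or_gt (dist x o) R with hx | hx
    · rw [a2 (e1 x hx) (e1 x hx)]
    · rw [hR x hx]
      ring
  rw [← i1, ← i2, ← i3]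
  exact key

theorem test_memLp_mul {Ω : Type*} [MeasurableSpace Ω] {μ : Measure Ω} {a b : Ω → ℝ} {B : ℝ}
    (ha : AEStronglyMeasurable a μ) (hB : ∀ᵐ x ∂μ, |a x| ≤ B) (hb : MemLp b 2 μ) :
    MemLp (fun x => a x * b x) 2 μ := by
  refine MemLp.of_le_mul (c := B) hb (ha.mul hb.1) ?_
  filter_upwards [hB] with x hx
  rw [norm_mul]
  exact mul_le_mul_of_nonneg_right hx (norm_nonneg _)

theorem hess_ext (h : RS m k τ₀) {F G : X → ℝ} (hF : BL F) (hG : Measurable G) {B : ℝ}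
    (hB : ∀ x, |G x| ≤ B) (hH : HasWeakHessLe m F G) (hg : Good m g) {w : X → ℝ}
    (hw : IsSobolev m w) (h0 : ∀ᵐ x ∂m, 0 ≤ w x) :
    -(∫ x, (Gm m w g x + w x * Lap m g x) * Gm m F g x ∂m) -
      1 / 2 * ∫ x, w x * Gm m F (Gm m g g) x ∂m ≤ ∫ x, w x * G x * Gm m g g x ∂m := by
  have H := h.hilb
  have sg := sob_sl hg.sob
  have sF : IsSobolevLoc m F := hF.sl
  have sq := hg.sob_Gm_self h
  obtain ⟨LF, hLF⟩ := hF.Dw_le (m := m)
  obtain ⟨Lg, hLg⟩ := hg.bl.Dw_le (m := m)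
  obtain ⟨BL', hBL⟩ := hg.2
  have ma : MemLp (Gm m F g) 2 m := memLp_Gm H sF hg.sob hLF
  have mb : MemLp (Gm m F (Gm m g g)) 2 m := memLp_Gm H sF sq hLF
  have mc : MemLp (fun x => G x * Gm m g g x) 2 m :=
    test_memLp_mul hG.aestronglyMeasurable (Eventually.of_forall hB) sq.1
  have md : MemLp (fun x => Lap m g x * Gm m F g x) 2 m :=
    test_memLp_mul hg.sob_Lap.1.1 hBL ma
  set e : X → ℝ := fun x => Lap m g x * Gm m F g x + 1 / 2 * Gm m F (Gm m g g) x +
    G x * Gm m g g x with he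
  have me : MemLp e 2 m := (md.add (mb.const_mul (1 / 2))).add mc
  have mG : ∀ {v : X → ℝ}, IsSobolev m v → MemLp (Gm m v g) 2 m := fun {v} hv =>
    (memLp_Gm H sg hv hLg).ae_eq (Gm_comm sg (sob_sl hv))
  -- the functional
  have form : ∀ {v : X → ℝ}, IsSobolev m v →
      -(∫ x, (Gm m v g x + v x * Lap m g x) * Gm m F g x ∂m) -
        1 / 2 * ∫ x, v x * Gm m F (Gm m g g) x ∂m - ∫ x, v x * G x * Gm m g g x ∂m =
      -(∫ x, Gm m v g x * Gm m F g x ∂m) - ∫ x, v x * e x ∂m := fun {v} hv => by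
    have j1 : Integrable (fun x => Gm m v g x * Gm m F g x) m := (mG hv).integrable_mul ma
    have j2 : Integrable (fun x => v x * (Lap m g x * Gm m F g x)) m := hv.1.integrable_mul md
    have j3 : Integrable (fun x => v x * Gm m F (Gm m g g) x) m := hv.1.integrable_mul mb
    have j4 : Integrable (fun x => v x * (G x * Gm m g g x)) m := hv.1.integrable_mul mc
    have r1 : ∫ x, (Gm m v g x + v x * Lap m g x) * Gm m F g x ∂m =
        ∫ x, Gm m v g x * Gm m F g x ∂m + ∫ x, v x * (Lap m g x * Gm m F g x) ∂m := by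
      rw [← integral_add j1 j2]
      exact integral_congr_ae (Eventually.of_forall fun x => by ring)
    have r2 : ∫ x, v x * G x * Gm m g g x ∂m = ∫ x, v x * (G x * Gm m g g x) ∂m :=
      integral_congr_ae (Eventually.of_forall fun x => by ring)
    have r3 : ∫ x, v x * e x ∂m = ∫ x, v x * (Lap m g x * Gm m F g x) ∂m +
        1 / 2 * ∫ x, v x * Gm m F (Gm m g g) x ∂m + ∫ x, v x * (G x * Gm m g g x) ∂m := by
      have j5 : Integrable (fun x => v x * (Lap m g x * Gm m F g x) +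
          1 / 2 * (v x * Gm m F (Gm m g g) x)) m := j2.add (j3.const_mul _)
      rw [← integral_const_mul, ← integral_add j2 (j3.const_mul _), ← integral_add j5 j4]
      exact integral_congr_ae (Eventually.of_forall fun x => by simp only [he]; ring)
    rw [r1, r2, r3]
    ring
  set A := √(∫ x, Gm m F g x ^ 2 ∂m) with hA
  set E := √(∫ x, e x ^ 2 ∂m) with hE
  have hA0 : 0 ≤ A := Real.sqrt_nonneg _
  have hE0 : 0 ≤ E := Real.sqrt_nonneg _
  have main : ∀ δ : ℝ, 0 < δ →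
      -(∫ x, Gm m w g x * Gm m F g x ∂m) - ∫ x, w x * e x ∂m ≤ δ * (Lg * A + E) := by
    intro δ hδ
    obtain ⟨w', hL, hc, h0', c1, c2⟩ := lip_dense h hw h0 (η := δ ^ 2) (by positivity)
    have k1 := test_hess_lip h hF hH hg hL hc h0'
    obtain ⟨L, hL⟩ := hL
    have hw' : IsSobolev m w' := sob_of_compactSupport hL hc
    have k2 := form hw'
    have hd := sob_sub hw hw'
    have d1 : ∫ x, Gm m w g x * Gm m F g x ∂m - ∫ x, Gm m w' g x * Gm m F g x ∂m =
        ∫ x, Gm m (fun y => w y - w' y) g x * Gm m F g x ∂m := by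
      have j1 : Integrable (fun x => Gm m w g x * Gm m F g x) m := (mG hw).integrable_mul ma
      have j2 : Integrable (fun x => Gm m w' g x * Gm m F g x) m := (mG hw').integrable_mul ma
      rw [← integral_sub j1 j2]
      refine integral_congr_ae ?_
      filter_upwards [Gm_sub_left H (sob_sl hw) (sob_sl hw') sg] with x hx
      rw [hx]; ring
    have d2 : ∫ x, w x * e x ∂m - ∫ x, w' x * e x ∂m = ∫ x, (w x - w' x) * e x ∂m := by
      have j1 : Integrable (fun x => w x * e x) m := hw.1.integrable_mul me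
      have j2 : Integrable (fun x => w' x * e x) m := hw'.1.integrable_mul me
      rw [← integral_sub j1 j2]
      exact integral_congr_ae (Eventually.of_forall fun x => by ring)
    have q1 := abs_integral_mul_le (mG hd) ma
    have q2 := abs_integral_mul_le hd.1 me
    have q3 : √(∫ x, (w x - w' x) ^ 2 ∂m) ≤ δ := Real.sqrt_le_iff.2 ⟨hδ.le, c1⟩
    have q4 : √(∫ x, Gm m (fun y => w y - w' y) g x ^ 2 ∂m) ≤ Lg * δ := by
      refine Real.sqrt_le_iff.2 ⟨by positivity, ?_⟩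
      have : ∫ x, Gm m (fun y => w y - w' y) g x ^ 2 ∂m ≤
          ∫ x, (Lg : ℝ) ^ 2 * Dw m (fun y => w y - w' y) x ^ 2 ∂m := by
        refine integral_mono_of_nonneg (Eventually.of_forall fun x => sq_nonneg _)
          (hd.2.2.integrable_sq.const_mul _) ?_
        filter_upwards [abs_Gm_le H (sob_sl hd) sg, hLg, Dw_nonneg (sob_sl hd)] with x a1 a2 a3
        have a4 : |Gm m (fun y => w y - w' y) g x| ≤ Lg * Dw m (fun y => w y - w' y) x :=
          a1.trans (by rw [mul_comm]; exact mul_le_mul_of_nonneg_right a2 a3)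
        rw [← mul_pow, ← sq_abs (Gm m _ g x)]
        exact pow_le_pow_left₀ (abs_nonneg _) a4 2
      rw [integral_const_mul] at this
      rw [mul_pow]
      exact this.trans (mul_le_mul_of_nonneg_left c2 (sq_nonneg _))
    have q5 := mul_le_mul_of_nonneg_right q3 hE0
    have q6 := mul_le_mul_of_nonneg_right q4 hA0
    have q7 := neg_abs_le (∫ x, Gm m (fun y => w y - w' y) g x * Gm m F g x ∂m)
    have q8 := neg_abs_le (∫ x, (w x - w' x) * e x ∂m)
    nlinarith
  have fin : -(∫ x, Gm m w g x * Gm m F g x ∂m) - ∫ x, w x * e x ∂m ≤ 0 := by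
    refine le_of_forall_pos_le_add fun ε hε => ?_
    have hK : 0 < Lg * A + E + 1 := by positivity
    have := main (ε / (Lg * A + E + 1)) (by positivity)
    have h2 : ε / (Lg * A + E + 1) * (Lg * A + E) ≤ ε := by
      rw [div_mul_eq_mul_div, div_le_iff₀ hK]
      nlinarith
    linarith
  have := form hw
  linarith

end Crest.Agent.R242
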