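import Crest.Agent.R242.WGrad0
import Crest.Agent.R242.Test

/-!
Row 242: auxiliary lemmas for the gradient estimate of the drifted resolvent.
-/

set_option autoImplicit false

open MeasureTheory Set Filter Metric Crest.GeometryTopology.SyntheticRicci
open scoped ENNReal NNReal Topology

namespace Crest.Agent.R242

section L2

variable {Ω : Type*} [MeasurableSpace Ω] {μ : Measure Ω} {f g w : Ω → ℝ}

/-- the `L²` seminorm -/
noncomputable def wgradN (μ : Measure Ω) (f : Ω → ℝ) : ℝ := √(∫ x, f x ^ 2 ∂μ)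

theorem wgradN_nonneg : 0 ≤ wgradN μ f := Real.sqrt_nonneg _

theorem wgrad_int (hf : MemLp f 2 μ) (hg : MemLp g 2 μ) : Integrable (fun x => f x * g x) μ :=
  hf.integrable_mul hg

theorem wgrad_mul_bdd (hf : MemLp f 2 μ) (hw : AEMeasurable w μ) {B : ℝ}
    (hB : ∀ᵐ x ∂μ, |w x| ≤ B) : MemLp (fun x => f x * w x) 2 μ := by
  refine hf.of_le_mul (c := B) (hf.1.mul hw.aestronglyMeasurable) ?_
  filter_upwards [hB] with x hx
  rw [norm_mul, mul_comm]
  exact mul_le_mul_of_nonneg_right hx (norm_nonneg _)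

theorem wgrad_bdd_mul (hf : MemLp f 2 μ) (hw : AEMeasurable w μ) {B : ℝ}
    (hB : ∀ᵐ x ∂μ, |w x| ≤ B) : MemLp (fun x => w x * f x) 2 μ := by
  simpa only [mul_comm] using wgrad_mul_bdd hf hw hB

theorem wgradN_le (hf : MemLp f 2 μ) (hg : MemLp g 2 μ) {C : ℝ} (hC : 0 ≤ C)
    (h : ∀ᵐ x ∂μ, |f x| ≤ C * |g x|) : wgradN μ f ≤ C * wgradN μ g := by
  unfold wgradN
  rw [← Real.sqrt_sq hC, ← Real.sqrt_mul (sq_nonneg C), ← integral_const_mul]
  refine Real.sqrt_le_sqrt (integral_mono_ae hf.integrable_sq (hg.integrable_sq.const_mul _) ?_)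
  filter_upwards [h] with x hx
  have := pow_le_pow_left₀ (abs_nonneg _) hx 2
  rwa [mul_pow, sq_abs, sq_abs] at this

theorem wgradN_add (hf : MemLp f 2 μ) (hg : MemLp g 2 μ) :
    wgradN μ (fun x => f x + g x) ≤ wgradN μ f + wgradN μ g := sqrt_integral_add_sq_le hf hg

theorem wgrad_cs (hf : MemLp f 2 μ) (hg : MemLp g 2 μ) :
    |∫ x, f x * g x ∂μ| ≤ wgradN μ f * wgradN μ g := abs_integral_mul_le hf hg

theorem wgradN_congr (h : f =ᵐ[μ] g) : wgradN μ f = wgradN μ g := by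
  unfold wgradN
  congr 1
  refine integral_congr_ae ?_
  filter_upwards [h] with x hx
  rw [hx]

theorem wgrad_memLp_min (hf : MemLp f 2 μ) (h0 : ∀ᵐ x ∂μ, 0 ≤ f x) (n : ℕ) :
    MemLp (fun x => min (f x) n) 2 μ := by
  refine hf.of_le (hf.1.aemeasurable.min aemeasurable_const).aestronglyMeasurable ?_
  filter_upwards [h0] with x hx
  rw [Real.norm_of_nonneg (le_min hx (Nat.cast_nonneg n)), Real.norm_of_nonneg hx]
  exact min_le_left _ _

theorem wgrad_trunc (hf : MemLp f 2 μ) (h0 : ∀ᵐ x ∂μ, 0 ≤ f x) (hg : MemLp g 2 μ) :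
    Tendsto (fun n : ℕ => ∫ x, min (f x) n * g x ∂μ) atTop (𝓝 (∫ x, f x * g x ∂μ)) := by
  refine tendsto_integral_of_dominated_convergence (fun x => ‖f x * g x‖)
    (fun n => (wgrad_int (wgrad_memLp_min hf h0 n) hg).1) (wgrad_int hf hg).norm (fun n => ?_) ?_
  · filter_upwards [h0] with x hx
    rw [norm_mul, norm_mul, Real.norm_of_nonneg (le_min hx (Nat.cast_nonneg n)),
      Real.norm_of_nonneg hx]
    exact mul_le_mul_of_nonneg_right (min_le_left _ _) (norm_nonneg _)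
  · refine ae_of_all _ fun x => tendsto_const_nhds.congr' ?_
    obtain ⟨n₀, hn₀⟩ := exists_nat_ge (f x)
    filter_upwards [eventually_ge_atTop n₀] with n hn
    rw [min_eq_left (hn₀.trans (Nat.cast_le.2 hn))]

end L2

variable {X : Type*} [MetricSpace X] [ProperSpace X] [MeasurableSpace X] [BorelSpace X]
  {m : Measure X} [IsLocallyFiniteMeasure m] [m.IsOpenPosMeasure] {k τ₀ : ℝ} {F G : X → ℝ}

omit [m.IsOpenPosMeasure] in
theorem wgrad_memLp_sq {f : X → ℝ} (hf : IsSobolev m f) {M : ℝ} (hM : ∀ᵐ x ∂m, Dw m f x ≤ M) :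
    MemLp (fun x => Dw m f x ^ 2) 2 m := by
  have := wgrad_mul_bdd hf.2.2 (Dw_aemeasurable (sob_sl hf)) (B := M) (by
    filter_upwards [hM, Dw_nonneg (sob_sl hf)] with x h1 h2
    rwa [abs_of_nonneg h2])
  simpa only [sq] using this

/-- approximation by test functions -/
theorem wgrad_seq (h : RS m k τ₀) {u L : X → ℝ} (hL : IsWeakLaplacian m u L) {a : ℝ} (ha : 0 ≤ a)
    (hu : ∀ᵐ x ∂m, |u x| ≤ a) {M : ℝ≥0} (hM : ∀ᵐ x ∂m, Dw m u x ≤ M) :
    ∃ g : ℕ → X → ℝ, (∀ n, Good m (g n)) ∧ (∀ n, ∀ᵐ x ∂m, Dw m (g n) x ≤ 2 * M) ∧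
      Tendsto (fun n => wgradN m (Dw m fun y => g n y - u y)) atTop (𝓝 0) ∧
      Tendsto (fun n => wgradN m fun y => Lap m (g n) y - L y) atTop (𝓝 0) := by
  have H := h.hilb
  set τ : ℕ → ℝ := fun n => τ₀ / ((n : ℝ) + 1) with hτ
  have hτ0 : ∀ n, 0 < τ n := fun n => div_pos h.τ_pos (Nat.cast_add_one_pos n)
  have hτ1 : ∀ n, τ n ≤ τ₀ := fun n =>
    div_le_self h.τ_pos.le (by linarith [Nat.cast_nonneg (α := ℝ) n])
  have hτl : Tendsto τ atTop (𝓝[>] 0) := by
    refine tendsto_nhdsWithin_iff.2 ⟨?_, Eventually.of_forall hτ0⟩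
    exact tendsto_const_nhds.div_atTop (tendsto_atTop_add_const_right _ 1 tendsto_natCast_atTop_atTop)
  choose g h1 h2 h3 h4 h5 using fun n => good_Jr h (hτ0 n) (hτ1 n) hL.1 (neg_nonpos.2 ha) ha
    (hu.mono fun x hx => abs_le.1 hx) hM
  have hsq : Tendsto (fun t : ℝ => √t) (𝓝 0) (𝓝 0) := by
    simpa using Real.continuous_sqrt.tendsto 0
  refine ⟨g, h1, fun n => ?_, ?_, ?_⟩
  · filter_upwards [Dw_lip_le (m := m) (h2 n)] with x hx
    simpa using hx
  · refine (hsq.comp ((Res_tendsto_sob H Wt.one hL.1).comp hτl)).congr fun n => ?_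
    refine (wgradN_congr (Dw_congr (sl_sub (sob_sl (h1 n).sob) (sob_sl hL.1)) ?_)).symm
    filter_upwards [h4 n] with x hx
    rw [hx]
  · refine (hsq.comp ((Res_tendsto H Wt.one hL.2.1).comp hτl)).congr fun n => ?_
    refine (wgradN_congr (g := fun y => Jr m (τ n) L y - L y) ?_).symm
    filter_upwards [h4 n, h5 n, Jr_sub_self H (hτ0 n) hL] with x e1 e2 e3
    rw [e2, e1, e3, mul_div_cancel_left₀ _ (hτ0 n).ne']

/-- the error made when replacing `u` by a test function -/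
theorem wgrad_err (H : IsInfHilbertian m) (hF : IsSobolevLoc m F) {LF : ℝ≥0}
    (hLF : ∀ᵐ x ∂m, Dw m F x ≤ LF) {u L z w φ g : X → ℝ} (hu : IsSobolev m u) {M : ℝ≥0}
    (hM : ∀ᵐ x ∂m, Dw m u x ≤ M) (hL : MemLp L 2 m) (hz : IsSobolev m z) {Z : ℝ}
    (hZ : ∀ᵐ x ∂m, |z x| ≤ Z) (hw : IsSobolev m w) {W : ℝ} (hW0 : 0 ≤ W)
    (hW : ∀ᵐ x ∂m, |w x| ≤ W) {ε θ : ℝ} (hε : 0 ≤ ε) (hθ : 0 ≤ θ)
    (hzL : ∀ᵐ x ∂m, ε * L x + Gm m F u x = z x) (hφ : MemLp φ 2 m) (hg : Good m g)
    (hgM : ∀ᵐ x ∂m, Dw m g x ≤ 2 * M)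
    (hs : ∫ x, φ x * Gm m g g x ∂m ≤
      2 * θ * ∫ x, (Gm m w g x + w x * Lap m g x) * (ε * Lap m g x + Gm m F g x) ∂m) :
    ∫ x, φ x * Dw m u x ^ 2 ∂m ≤ -(2 * θ * ∫ x, Gm m u z x * w x ∂m) +
      (wgradN m φ * (3 * M * wgradN m (Dw m fun y => g y - u y)) +
        2 * θ * (W * (wgradN m (Dw m fun y => g y - u y) * wgradN m (Dw m z)) +
          (2 * M * wgradN m (Dw m w) + W * (wgradN m (fun y => Lap m g y - L y) + wgradN m L)) *
            (ε * wgradN m (fun y => Lap m g y - L y) +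
              LF * wgradN m (Dw m fun y => g y - u y)))) := by
  have sg := hg.sob
  have sd : IsSobolev m fun y => g y - u y := sob_sub sg hu
  have mΔ : MemLp (Lap m g) 2 m := hg.weakLap.2.1
  have mΔL : MemLp (fun y => Lap m g y - L y) 2 m := mΔ.sub hL
  have mgg : MemLp (Gm m g g) 2 m := memLp_Gm H (sob_sl sg) sg hgM
  have mu2 := wgrad_memLp_sq hu hM
  have aw : AEMeasurable w m := hw.1.1.aemeasurable
  have az : AEMeasurable z m := hz.1.1.aemeasurable
  have mwg : MemLp (Gm m w g) 2 m :=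
    (memLp_Gm H (sob_sl sg) hw hgM).ae_eq (Gm_comm (sob_sl sg) (sob_sl hw))
  have mwΔ : MemLp (fun x => w x * Lap m g x) 2 m := wgrad_bdd_mul mΔ aw hW
  have mA : MemLp (fun x => Gm m w g x + w x * Lap m g x) 2 m := mwg.add mwΔ
  have mFg : MemLp (Gm m F g) 2 m := memLp_Gm H hF sg hLF
  have mFd : MemLp (Gm m F fun y => g y - u y) 2 m := memLp_Gm H hF sd hLF
  have mB : MemLp (fun x => ε * Lap m g x + Gm m F g x) 2 m := (mΔ.const_mul ε).add mFg
  have mC : MemLp (fun x => ε * Lap m g x + Gm m F g x - z x) 2 m := mB.sub hz.1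
  set a := wgradN m (fun y => Lap m g y - L y) with ha
  set b := wgradN m (Dw m fun y => g y - u y) with hb
  have hM0 : (0 : ℝ) ≤ M := M.2
  -- (1)
  have e1 : ∫ x, φ x * Dw m u x ^ 2 ∂m - ∫ x, φ x * Gm m g g x ∂m ≤ wgradN m φ * (3 * M * b) := by
    rw [← integral_sub (wgrad_int hφ mu2) (wgrad_int hφ mgg)]
    simp_rw [← mul_sub]
    refine (le_abs_self _).trans ((wgrad_cs hφ (mu2.sub mgg)).trans
      (mul_le_mul_of_nonneg_left ?_ wgradN_nonneg))
    refine wgradN_le (mu2.sub mgg) sd.2.2 (by positivity) ?_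
    filter_upwards [Gm_self (sob_sl sg), abs_Dw_sub_le (sob_sl sg) (sob_sl hu), hM, hgM,
      Dw_nonneg (sob_sl sg), Dw_nonneg (sob_sl hu)] with x h1 h2 h3 h4 h5 h6
    rw [Pi.sub_apply, h1, sq_sub_sq, abs_mul, abs_sub_comm, abs_of_nonneg (add_nonneg h6 h5)]
    exact mul_le_mul (by linarith) (h2.trans (le_abs_self _)) (abs_nonneg _) (by positivity)
  -- (2)
  have e2 : ∫ x, (Gm m w g x + w x * Lap m g x) * (ε * Lap m g x + Gm m F g x) ∂m =
      ∫ x, (Gm m w g x + w x * Lap m g x) * z x ∂m +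
        ∫ x, (Gm m w g x + w x * Lap m g x) * (ε * Lap m g x + Gm m F g x - z x) ∂m := by
    rw [← integral_add (wgrad_int mA hz.1) (wgrad_int mA mC)]
    congr 1
    funext x
    ring
  -- (3)
  have igz : Integrable (fun x => Gm m g z x * w x) m :=
    (integrable_Gm H sg hz).mul_bdd aw.aestronglyMeasurable hW
  have iuz : Integrable (fun x => Gm m u z x * w x) m :=
    (integrable_Gm H hu hz).mul_bdd aw.aestronglyMeasurable hW
  have e3 : ∫ x, (Gm m w g x + w x * Lap m g x) * z x ∂m = -∫ x, Gm m g z x * w x ∂m := by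
    have swz : IsSobolev m fun x => w x * z x := sob_mul_bdd hw hz hW hZ
    have t1 := hg.weakLap.2.2 _ swz
    have t2 : ∫ x, Gm m g (fun x => w x * z x) x ∂m =
        ∫ x, Gm m g z x * w x ∂m + ∫ x, Gm m w g x * z x ∂m := by
      rw [← integral_add igz (wgrad_int mwg hz.1)]
      refine integral_congr_ae ?_
      filter_upwards [Gm_mul_right H (sob_sl hw) (sob_sl hz) (sob_sl swz) (sob_sl sg),
        Gm_comm (sob_sl sg) (sob_sl hw)] with x h1 h2
      rw [h1, h2]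
      ring
    have t3 : ∫ x, (Gm m w g x + w x * Lap m g x) * z x ∂m =
        ∫ x, Gm m w g x * z x ∂m + ∫ x, Lap m g x * (w x * z x) ∂m := by
      rw [← integral_add (wgrad_int mwg hz.1) (wgrad_int mΔ swz.1)]
      congr 1
      funext x
      ring
    have t1' : ∫ x, Gm m g (fun x => w x * z x) x ∂m = -∫ x, Lap m g x * (w x * z x) ∂m := t1
    linarith
  -- (4)
  have e4 : ∫ x, Gm m u z x * w x ∂m - ∫ x, Gm m g z x * w x ∂m ≤ W * (b * wgradN m (Dw m z)) := by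
    have t1 := abs_integral_Gm_mul_le H sd hz aw hW
    have t2 : ∫ x, Gm m (fun y => g y - u y) z x * w x ∂m =
        ∫ x, Gm m g z x * w x ∂m - ∫ x, Gm m u z x * w x ∂m := by
      rw [← integral_sub igz iuz]
      refine integral_congr_ae ?_
      filter_upwards [Gm_sub_left H (sob_sl sg) (sob_sl hu) (sob_sl hz)] with x h1
      rw [h1]
      ring
    rw [t2, abs_sub_comm] at t1
    exact (le_abs_self _).trans t1
  -- (5)
  have e5 : ∫ x, (Gm m w g x + w x * Lap m g x) * (ε * Lap m g x + Gm m F g x - z x) ∂m ≤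
      (2 * M * wgradN m (Dw m w) + W * (a + wgradN m L)) * (ε * a + LF * b) := by
    refine (le_abs_self _).trans ((wgrad_cs mA mC).trans (mul_le_mul ?_ ?_ wgradN_nonneg ?_))
    · refine (wgradN_add mwg mwΔ).trans (add_le_add ?_ ?_)
      · refine wgradN_le mwg hw.2.2 (by positivity) ?_
        filter_upwards [abs_Gm_le H (sob_sl hw) (sob_sl sg), hgM, Dw_nonneg (sob_sl hw)]
          with x h1 h2 h3
        rw [abs_of_nonneg h3, mul_comm]
        exact h1.trans (mul_le_mul_of_nonneg_left h2 h3)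
      · refine (wgradN_le mwΔ mΔ hW0 ?_).trans (mul_le_mul_of_nonneg_left ?_ hW0)
        · filter_upwards [hW] with x h1
          rw [abs_mul]
          exact mul_le_mul_of_nonneg_right h1 (abs_nonneg _)
        · refine le_trans (le_of_eq (wgradN_congr (ae_of_all _ fun x => ?_))) (wgradN_add mΔL hL)
          simp
    · have t1 : (fun x => ε * Lap m g x + Gm m F g x - z x) =ᵐ[m]
          fun x => ε * (Lap m g x - L x) + Gm m F (fun y => g y - u y) x := by
        filter_upwards [hzL, Gm_sub_right H (sob_sl sg) (sob_sl hu) hF] with x h1 h2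
        rw [h2, ← h1]
        ring
      rw [wgradN_congr t1]
      refine (wgradN_add (mΔL.const_mul ε) mFd).trans (add_le_add ?_ ?_)
      · refine wgradN_le (mΔL.const_mul ε) mΔL hε (ae_of_all _ fun x => ?_)
        rw [abs_mul, abs_of_nonneg hε]
      · refine wgradN_le mFd sd.2.2 LF.2 ?_
        filter_upwards [abs_Gm_le H hF (sob_sl sd), hLF, Dw_nonneg (sob_sl sd)] with x h1 h2 h3
        rw [abs_of_nonneg h3]
        exact h1.trans (mul_le_mul_of_nonneg_right h2 h3)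
    · exact add_nonneg (mul_nonneg (by positivity) wgradN_nonneg)
        (mul_nonneg hW0 (add_nonneg wgradN_nonneg wgradN_nonneg))
  rw [e2, e3] at hs
  have hθ2 : 0 ≤ 2 * θ := by positivity
  nlinarith [mul_le_mul_of_nonneg_left e4 hθ2, mul_le_mul_of_nonneg_left e5 hθ2]

/-- Bochner inequality and Hessian bound added up, for a test function -/
theorem wgrad_good (h : RS m k τ₀) (hF : BL F) (hG : Measurable G) {B : ℝ} (hB : ∀ x, |G x| ≤ B)
    (hH : HasWeakHessLe m F G) {ε θ : ℝ} (hε : 0 < ε) (hθ : 0 < θ) {p q g : X → ℝ}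
    (hp : MemLp p 2 m) (hq : IsRes m (wt F ε) (ε * θ) p q) {P : ℝ}
    (hq0 : ∀ᵐ x ∂m, 0 ≤ q x ∧ q x ≤ P) (hg : Good m g) :
    ∫ x, ((p x - q x - 2 * θ * (q x * (ε * k / 2 + G x))) * wt F ε x) * Gm m g g x ∂m ≤
      2 * θ * ∫ x, (Gm m (fun y => q y * wt F ε y) g x + q x * wt F ε x * Lap m g x) *
        (ε * Lap m g x + Gm m F g x) ∂m := by
  have H := h.hilb
  obtain ⟨c, hc, hω⟩ := (Wt.wt hF ε).bdd
  have aω : AEMeasurable (wt F ε) m := (Wt.wt hF ε).meas.aemeasurable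
  have bω : ∀ᵐ x ∂m, |wt F ε x| ≤ c⁻¹ := ae_of_all _ fun x => by
    rw [abs_of_nonneg (hc.le.trans (hω x).1)]
    exact (hω x).2
  set w : X → ℝ := fun y => q y * wt F ε y with hwdef
  have hw : IsSobolev m w := sob_mul_BL hq.1 (hF.wt ε)
  have hw0 : ∀ᵐ x ∂m, 0 ≤ w x := hq0.mono fun x hx => mul_nonneg hx.1 (hc.le.trans (hω x).1)
  have hW : ∀ᵐ x ∂m, |w x| ≤ P * c⁻¹ := by
    filter_upwards [hq0, bω] with x h1 h2
    rw [hwdef, abs_mul, abs_of_nonneg h1.1]
    exact mul_le_mul h1.2 h2 (abs_nonneg _) (h1.1.trans h1.2)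
  have aw : AEMeasurable w m := hw.1.1.aemeasurable
  obtain ⟨LF, hLF⟩ := hF.Dw_le (m := m)
  obtain ⟨Lg, hLg⟩ := hg.bl.Dw_le (m := m)
  have sg := hg.sob
  have sv := hg.sob_Gm_self h
  have mΔ : MemLp (Lap m g) 2 m := hg.weakLap.2.1
  have mwg : MemLp (Gm m w g) 2 m :=
    (memLp_Gm H (sob_sl sg) hw hLg).ae_eq (Gm_comm (sob_sl sg) (sob_sl hw))
  have mA : MemLp (fun x => Gm m w g x + w x * Lap m g x) 2 m :=
    mwg.add (wgrad_bdd_mul mΔ aw hW)
  have mFg : MemLp (Gm m F g) 2 m := memLp_Gm H hF.sl sg hLF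
  have mFv : MemLp (Gm m F (Gm m g g)) 2 m := memLp_Gm H hF.sl sv hLF
  have b1 := bochner h hg hw hw0
  have b2 := hess_ext h hF hG hB hH hg hw hw0
  have b3 := hq.2 _ sv
  have iqv : Integrable (fun x => Gm m q (Gm m g g) x * wt F ε x) m :=
    (integrable_Gm H hq.1 sv).mul_bdd aω.aestronglyMeasurable bω
  have b4 : ε * ∫ x, Gm m w (Gm m g g) x ∂m =
      ∫ x, w x * Gm m F (Gm m g g) x ∂m + ε * ∫ x, Gm m q (Gm m g g) x * wt F ε x ∂m := by
    rw [← integral_const_mul, ← integral_const_mul,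
      ← integral_add (wgrad_int hw.1 mFv) (iqv.const_mul ε)]
    refine integral_congr_ae ?_
    filter_upwards [Gm_mul_left H (sob_sl hq.1) (hF.wt ε).sl (sob_sl hw) (sob_sl sv),
      Gm_comm (hF.wt ε).sl (sob_sl sv), Gm_wt H hF ε (sob_sl sv), Gm_comm (sob_sl sv) hF.sl]
      with x h1 h2 h3 h4
    rw [h1, h2, h3, h4]
    simp only [hwdef]
    field_simp
  have b5 : ∫ x, (Gm m w g x + w x * Lap m g x) * (ε * Lap m g x + Gm m F g x) ∂m =
      ε * ∫ x, (Gm m w g x + w x * Lap m g x) * Lap m g x ∂m +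
        ∫ x, (Gm m w g x + w x * Lap m g x) * Gm m F g x ∂m := by
    rw [← integral_const_mul, ← integral_add ((wgrad_int mA mΔ).const_mul ε) (wgrad_int mA mFg)]
    congr 1
    funext x
    ring
  have i1 : Integrable (fun x => p x * Gm m g g x * wt F ε x) m :=
    (wgrad_int hp sv.1).mul_bdd aω.aestronglyMeasurable bω
  have i2 : Integrable (fun x => q x * Gm m g g x * wt F ε x) m :=
    (wgrad_int hq.1.1 sv.1).mul_bdd aω.aestronglyMeasurable bω
  have i3 : Integrable (fun x => w x * Gm m g g x) m := wgrad_int hw.1 sv.1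
  have i4 : Integrable (fun x => w x * G x * Gm m g g x) m :=
    wgrad_int (wgrad_mul_bdd hw.1 hG.aemeasurable (ae_of_all _ hB)) sv.1
  have b6 : ∫ x, ((p x - q x - 2 * θ * (q x * (ε * k / 2 + G x))) * wt F ε x) * Gm m g g x ∂m =
      ∫ x, p x * Gm m g g x * wt F ε x ∂m - ∫ x, q x * Gm m g g x * wt F ε x ∂m -
        (θ * ε * k * ∫ x, w x * Gm m g g x ∂m + 2 * θ * ∫ x, w x * G x * Gm m g g x ∂m) := by
    have i5 : Integrable (fun x => p x * Gm m g g x * wt F ε x - q x * Gm m g g x * wt F ε x) m :=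
      i1.sub i2
    have i6 : Integrable (fun x => θ * ε * k * (w x * Gm m g g x) +
        2 * θ * (w x * G x * Gm m g g x)) m := (i3.const_mul _).add (i4.const_mul _)
    rw [← integral_const_mul, ← integral_const_mul, ← integral_add (i3.const_mul _) (i4.const_mul _),
      ← integral_sub i1 i2, ← integral_sub i5 i6]
    congr 1
    funext x
    simp only [hwdef]
    ring
  show _ ≤ 2 * θ * ∫ x, (Gm m w g x + w x * Lap m g x) * (ε * Lap m g x + Gm m F g x) ∂m
  rw [b5, b6]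
  have c1 := mul_le_mul_of_nonneg_left b1 (show 0 ≤ 2 * θ * ε by positivity)
  have c2 := mul_le_mul_of_nonneg_left b2 (show 0 ≤ 2 * θ by positivity)
  have c4 := congrArg (fun t => θ * t) b4
  nlinarith

end Crest.Agent.R242
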