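import Crest.Agent.R242.WGrad0
import Crest.Agent.R242.Test
import Crest.Agent.R242.WGradAux

/-!
Row 242: the gradient estimate for the drifted resolvent.
-/

set_option autoImplicit false

open MeasureTheory Set Filter Metric Crest.GeometryTopology.SyntheticRicci
open scoped ENNReal NNReal Topology

namespace Crest.Agent.R242

variable {X : Type*} [MetricSpace X] [ProperSpace X] [MeasurableSpace X] [BorelSpace X]
  {m : Measure X} [IsLocallyFiniteMeasure m] [m.IsOpenPosMeasure] {k τ₀ : ℝ} {F G : X → ℝ}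

/-- the estimate for bounded `p` -/
theorem wgrad_bdd (h : RS m k τ₀) (hF : BL F) (hG : Measurable G) {B : ℝ} (hB : ∀ x, |G x| ≤ B)
    (hH : HasWeakHessLe m F G) {ε θ : ℝ} (hε : 0 < ε) (hθ : 0 < θ) {ψ p : X → ℝ} (hψ : BL ψ)
    (sψ : IsSobolev m ψ) (hp : MemLp p 2 m) {P : ℝ} (hP : 0 ≤ P)
    (hp0 : ∀ᵐ x ∂m, 0 ≤ p x ∧ p x ≤ P) {M : ℝ≥0}
    (hM : ∀ᵐ x ∂m, Dw m (Res m (wt F ε) (ε * θ) ψ) x ≤ M) :
    ∫ x, p x * Dw m (Res m (wt F ε) (ε * θ) ψ) x ^ 2 * wt F ε x ∂m ≤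
      ∫ x, Res m (wt F ε) (ε * θ) p x * Dw m ψ x ^ 2 * wt F ε x ∂m +
      2 * θ * ∫ x, Res m (wt F ε) (ε * θ) p x * (ε * k / 2 + G x) *
        Dw m (Res m (wt F ε) (ε * θ) ψ) x ^ 2 * wt F ε x ∂m := by
  have H := h.hilb
  have hc : 0 < ε * θ := mul_pos hε hθ
  have hWt := Wt.wt hF ε
  have hL := weakLap_Res H hF hε hθ sψ.1
  have hq := isRes_Res H hWt hc hp
  have hq0 : ∀ᵐ x ∂m, 0 ≤ Res m (wt F ε) (ε * θ) p x ∧ Res m (wt F ε) (ε * θ) p x ≤ P :=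
    (Res_nonneg H hWt hc hp (hp0.mono fun x hx => hx.1)).and
      (Res_le_const H hWt hc hp hP (hp0.mono fun x hx => hx.2))
  obtain ⟨Ψ₀, hΨ₀⟩ := hψ.bdd
  have hΨ : ∀ x, |ψ x| ≤ max Ψ₀ 0 := fun x => (hΨ₀ x).trans (le_max_left _ _)
  have hu := abs_Res_le H hWt hc sψ.1 (le_max_right Ψ₀ 0) (ae_of_all _ hΨ)
  set u := Res m (wt F ε) (ε * θ) ψ with hudef
  set q := Res m (wt F ε) (ε * θ) p with hqdef
  have su : IsSobolev m u := hL.1
  obtain ⟨c, hc0, hω⟩ := hWt.bdd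
  have aω : AEMeasurable (wt F ε) m := hWt.meas.aemeasurable
  have bω : ∀ᵐ x ∂m, |wt F ε x| ≤ c⁻¹ := ae_of_all _ fun x => by
    rw [abs_of_nonneg (hc0.le.trans (hω x).1)]
    exact (hω x).2
  set w : X → ℝ := fun y => q y * wt F ε y with hwdef
  have hw : IsSobolev m w := sob_mul_BL hq.1 (hF.wt ε)
  have hw0 : ∀ᵐ x ∂m, 0 ≤ w x := hq0.mono fun x hx => mul_nonneg hx.1 (hc0.le.trans (hω x).1)
  have hW : ∀ᵐ x ∂m, |w x| ≤ P * c⁻¹ := by
    filter_upwards [hq0, bω] with x h1 h2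
    rw [hwdef, abs_mul, abs_of_nonneg h1.1]
    exact mul_le_mul h1.2 h2 (abs_nonneg _) (h1.1.trans h1.2)
  have aw : AEMeasurable w m := hw.1.1.aemeasurable
  set z : X → ℝ := fun x => θ⁻¹ * (u x - ψ x) with hzdef
  have sz : IsSobolev m z := sob_const_mul (sob_sub su sψ) _
  have hZ : ∀ᵐ x ∂m, |z x| ≤ θ⁻¹ * (max Ψ₀ 0 + max Ψ₀ 0) := by
    filter_upwards [hu] with x hx
    rw [hzdef, abs_mul, abs_of_pos (inv_pos.2 hθ)]
    exact mul_le_mul_of_nonneg_left ((abs_sub _ _).trans (add_le_add hx (hΨ x))) (inv_pos.2 hθ).le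
  have hzL : ∀ᵐ x ∂m, ε * (((u x - ψ x) / θ - Gm m F u x) / ε) + Gm m F u x = z x :=
    ae_of_all _ fun x => by
      simp only [hzdef]
      field_simp
      ring
  have aκ : AEMeasurable (fun x => ε * k / 2 + G x) m := (hG.const_add _).aemeasurable
  have bκ : ∀ᵐ x ∂m, |ε * k / 2 + G x| ≤ |ε * k / 2| + B :=
    ae_of_all _ fun x => (abs_add_le _ _).trans (add_le_add le_rfl (hB x))
  have mqκ : MemLp (fun x => q x * (ε * k / 2 + G x)) 2 m := wgrad_mul_bdd hq.1.1 aκ bκ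
  have mφ0 : MemLp (fun x => p x - q x - 2 * θ * (q x * (ε * k / 2 + G x))) 2 m :=
    (hp.sub hq.1.1).sub (mqκ.const_mul _)
  have mφ := wgrad_mul_bdd mφ0 aω bω
  obtain ⟨LF, hLF⟩ := hF.Dw_le (m := m)
  obtain ⟨Lψ, hLψ⟩ := hψ.Dw_le (m := m)
  obtain ⟨g, g1, g2, g3, g4⟩ := wgrad_seq h hL (le_max_right Ψ₀ 0) hu hM
  have key := fun n => wgrad_err H hF.sl hLF su hM hL.2.1 sz hZ hw
    (mul_nonneg hP (inv_pos.2 hc0).le) hW hε.le hθ.le hzL mφ (g1 n) (g2 n)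
    (wgrad_good h hF hG hB hH hε hθ hp hq hq0 (g1 n))
  have lim := ge_of_tendsto' ((((g3.const_mul _).const_mul _).add
    ((((g3.mul_const _).const_mul _).add ((((g4.add_const _).const_mul _).const_add _).mul
      ((g4.const_mul _).add (g3.const_mul _)))).const_mul _)).const_add _) key
  simp only [mul_zero, zero_mul, add_zero] at lim
  have mu2 := wgrad_memLp_sq su hM
  have mψ2 := wgrad_memLp_sq sψ hLψ
  have i1 : Integrable (fun x => p x * Dw m u x ^ 2 * wt F ε x) m :=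
    (wgrad_int hp mu2).mul_bdd aω.aestronglyMeasurable bω
  have i2 : Integrable (fun x => q x * Dw m u x ^ 2 * wt F ε x) m :=
    (wgrad_int hq.1.1 mu2).mul_bdd aω.aestronglyMeasurable bω
  have i3 : Integrable (fun x => q x * (ε * k / 2 + G x) * Dw m u x ^ 2 * wt F ε x) m :=
    (wgrad_int mqκ mu2).mul_bdd aω.aestronglyMeasurable bω
  have i4 : Integrable (fun x => q x * Dw m ψ x ^ 2 * wt F ε x) m :=
    (wgrad_int hq.1.1 mψ2).mul_bdd aω.aestronglyMeasurable bω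
  have i5 : Integrable (fun x => Gm m u z x * w x) m :=
    (integrable_Gm H su sz).mul_bdd aw.aestronglyMeasurable hW
  have i12 : Integrable (fun x => p x * Dw m u x ^ 2 * wt F ε x -
    q x * Dw m u x ^ 2 * wt F ε x) m := i1.sub i2
  have e1 : ∫ x, (p x - q x - 2 * θ * (q x * (ε * k / 2 + G x))) * wt F ε x * Dw m u x ^ 2 ∂m =
      ∫ x, p x * Dw m u x ^ 2 * wt F ε x ∂m - ∫ x, q x * Dw m u x ^ 2 * wt F ε x ∂m -
        2 * θ * ∫ x, q x * (ε * k / 2 + G x) * Dw m u x ^ 2 * wt F ε x ∂m := by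
    rw [← integral_const_mul, ← integral_sub i1 i2, ← integral_sub i12 (i3.const_mul _)]
    congr 1
    funext x
    ring
  have e2 : -(2 * θ * ∫ x, Gm m u z x * w x ∂m) ≤
      ∫ x, q x * Dw m ψ x ^ 2 * wt F ε x ∂m - ∫ x, q x * Dw m u x ^ 2 * wt F ε x ∂m := by
    rw [← integral_const_mul, ← integral_neg, ← integral_sub i4 i2]
    refine integral_mono_ae (i5.const_mul _).neg (i4.sub i2) ?_
    filter_upwards [Gm_const_mul_right H (sob_sl (sob_sub su sψ)) (sob_sl su) θ⁻¹,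
      Gm_sub_right H (sob_sl su) (sob_sl sψ) (sob_sl su), Gm_self (sob_sl su),
      abs_Gm_le H (sob_sl su) (sob_sl sψ), hw0] with x h1 h2 h3 h4 h5
    have h6 : Gm m u z x = θ⁻¹ * (Dw m u x ^ 2 - Gm m u ψ x) := by rw [← h3, ← h2, ← h1]
    have h7 : -(2 * θ * (Gm m u z x * w x)) = w x * (2 * Gm m u ψ x - 2 * Dw m u x ^ 2) := by
      rw [h6]
      field_simp
      ring
    have h8 : q x * Dw m ψ x ^ 2 * wt F ε x - q x * Dw m u x ^ 2 * wt F ε x =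
        w x * (Dw m ψ x ^ 2 - Dw m u x ^ 2) := by
      simp only [hwdef]
      ring
    rw [h7, h8]
    refine mul_le_mul_of_nonneg_left ?_ h5
    nlinarith [le_abs_self (Gm m u ψ x), sq_nonneg (Dw m u x - Dw m ψ x)]
  rw [e1] at lim
  linarith

theorem wgrad (h : RS m k τ₀) (hF : BL F) (hG : Measurable G) {B : ℝ} (hB : ∀ x, |G x| ≤ B)
    (hH : HasWeakHessLe m F G) {ε : ℝ} (hε : 0 < ε) : ∃ θ₀ : ℝ, 0 < θ₀ ∧
    ∀ θ, 0 < θ → θ ≤ θ₀ → ∀ ψ p : X → ℝ, BL ψ → IsSobolev m ψ → MemLp p 2 m →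
      (∀ᵐ x ∂m, 0 ≤ p x) →
      ∫ x, p x * Dw m (Res m (wt F ε) (ε * θ) ψ) x ^ 2 * wt F ε x ∂m ≤
        ∫ x, Res m (wt F ε) (ε * θ) p x * Dw m ψ x ^ 2 * wt F ε x ∂m +
        2 * θ * ∫ x, Res m (wt F ε) (ε * θ) p x * (ε * k / 2 + G x) *
          Dw m (Res m (wt F ε) (ε * θ) ψ) x ^ 2 * wt F ε x ∂m := by
  obtain ⟨θ₀, hθ₀, hlip⟩ := Res_lip h hF hε
  refine ⟨θ₀, hθ₀, fun θ hθ hθ' ψ p hψ sψ hp hp0 => ?_⟩
  obtain ⟨M₀, hM₀⟩ := hlip θ hθ hθ' ψ hψ sψ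
  have hM : ∀ᵐ x ∂m, Dw m (Res m (wt F ε) (ε * θ) ψ) x ≤ (M₀.toNNReal : ℝ≥0) :=
    hM₀.mono fun x hx => hx.trans (Real.le_coe_toNNReal M₀)
  have H := h.hilb
  have hc : 0 < ε * θ := mul_pos hε hθ
  have hWt := Wt.wt hF ε
  have su := sob_Res H hWt hc sψ.1
  obtain ⟨c, hc0, hω⟩ := hWt.bdd
  have aω : AEMeasurable (wt F ε) m := hWt.meas.aemeasurable
  have bω : ∀ᵐ x ∂m, |wt F ε x| ≤ c⁻¹ := ae_of_all _ fun x => by
    rw [abs_of_nonneg (hc0.le.trans (hω x).1)]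
    exact (hω x).2
  obtain ⟨Lψ, hLψ⟩ := hψ.Dw_le (m := m)
  have mu2 := wgrad_memLp_sq su hM
  have mψ2 := wgrad_memLp_sq sψ hLψ
  have aκ : AEMeasurable (fun x => ε * k / 2 + G x) m := (hG.const_add _).aemeasurable
  have bκ : ∀ᵐ x ∂m, |ε * k / 2 + G x| ≤ |ε * k / 2| + B :=
    ae_of_all _ fun x => (abs_add_le _ _).trans (add_le_add le_rfl (hB x))
  have mκ := wgrad_bdd_mul mu2 aκ bκ
  have m1 := wgrad_mul_bdd mu2 aω bω
  have m2 := wgrad_mul_bdd (sob_Res H hWt hc mψ2).1 aω bω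
  have m3 := wgrad_mul_bdd (sob_Res H hWt hc mκ).1 aω bω
  have key : ∀ r : X → ℝ, MemLp r 2 m →
      ((∫ x, r x * Dw m (Res m (wt F ε) (ε * θ) ψ) x ^ 2 * wt F ε x ∂m ≤
        ∫ x, Res m (wt F ε) (ε * θ) r x * Dw m ψ x ^ 2 * wt F ε x ∂m +
        2 * θ * ∫ x, Res m (wt F ε) (ε * θ) r x * (ε * k / 2 + G x) *
          Dw m (Res m (wt F ε) (ε * θ) ψ) x ^ 2 * wt F ε x ∂m) ↔
      (∫ x, r x * (Dw m (Res m (wt F ε) (ε * θ) ψ) x ^ 2 * wt F ε x) ∂m ≤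
        ∫ x, r x * (Res m (wt F ε) (ε * θ) (fun y => Dw m ψ y ^ 2) x * wt F ε x) ∂m +
        2 * θ * ∫ x, r x * (Res m (wt F ε) (ε * θ) (fun y => (ε * k / 2 + G y) *
          Dw m (Res m (wt F ε) (ε * θ) ψ) y ^ 2) x * wt F ε x) ∂m)) := by
    intro r hr
    have s1 := Res_symm H hWt hc hr mψ2
    have s2 := Res_symm H hWt hc hr mκ
    simp only [← mul_assoc] at s1 s2 ⊢
    rw [s1, s2]
  rw [key p hp]
  refine le_of_tendsto_of_tendsto' (wgrad_trunc hp hp0 m1)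
    ((wgrad_trunc hp hp0 m2).add ((wgrad_trunc hp hp0 m3).const_mul _)) fun n => ?_
  refine (key _ (wgrad_memLp_min hp hp0 n)).1 (wgrad_bdd h hF hG hB hH hε hθ hψ sψ
    (wgrad_memLp_min hp hp0 n) (Nat.cast_nonneg n) ?_ hM)
  filter_upwards [hp0] with x hx
  exact ⟨le_min hx (Nat.cast_nonneg n), min_le_right _ _⟩

end Crest.Agent.R242
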