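import Crest.Agent.R242.ActionAux0
import Crest.Agent.R242.WGrad

/-!
Row 242: the estimates at a fixed time in the action estimate.
-/

set_option autoImplicit false
set_option linter.unusedSectionVars false

open MeasureTheory Set Filter Metric Crest.GeometryTopology.SyntheticRicci
open scoped ENNReal NNReal Topology

namespace Crest.Agent.R242

variable {X : Type*} [MetricSpace X] [ProperSpace X] [MeasurableSpace X] [BorelSpace X]
  {m : Measure X} [IsLocallyFiniteMeasure m] {F φ p : X → ℝ} {ε c P CL : ℝ}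

/-- weighted densities -/
structure Dens (m : Measure X) (ω p : X → ℝ) (P : ℝ) : Prop where
  l2 : MemLp p 2 m
  l1 : Integrable p m
  nonneg : ∀ᵐ x ∂m, 0 ≤ p x
  le : ∀ᵐ x ∂m, p x ≤ P
  mass : ∫ x, p x * ω x ∂m ≤ 1
  P_nonneg : 0 ≤ P

theorem Dens.res {ω : X → ℝ} (H : IsInfHilbertian m) (hω : Wt ω) (hc : 0 < c)
    (h : Dens m ω p P) : Dens m ω (Res m ω c p) P :=
  ⟨memLp_Res H hω hc h.l2, (integral_Res_le H hω hc h.l2 h.l1 h.nonneg).1,
    Res_nonneg H hω hc h.l2 h.nonneg, Res_le_const H hω hc h.l2 h.P_nonneg h.le,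
    (integral_Res_le H hω hc h.l2 h.l1 h.nonneg).2.trans h.mass, h.P_nonneg⟩

theorem Dens.nw_sq_le {ω : X → ℝ} (hω : Wt ω) (h : Dens m ω p P) : nw m ω p ^ 2 ≤ P := by
  rw [nw_sq hω]
  calc ∫ x, p x ^ 2 * ω x ∂m ≤ ∫ x, P * (p x * ω x) ∂m := by
        refine integral_mono_ae (hω.integrable_sq h.l2) ((hω.integrable_mul h.l1).const_mul _) ?_
        filter_upwards [h.nonneg, h.le] with x h1 h2
        have := (hω.pos x).le
        have : 0 ≤ (P - p x) * (p x * ω x) := by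
          have : 0 ≤ P - p x := by linarith
          positivity
        nlinarith
    _ ≤ P := by
        rw [integral_const_mul]
        exact mul_le_of_le_one_right h.P_nonneg h.mass

theorem Dens.nw_le {ω : X → ℝ} (hω : Wt ω) (h : Dens m ω p P) : nw m ω p ≤ √P :=
  Real.le_sqrt_of_sq_le (h.nw_sq_le hω)

theorem Dens.ip_le {ω f : X → ℝ} (hω : Wt ω) (h : Dens m ω p P) (hf : MemLp f 2 m) {b : ℝ}
    (hb : 0 ≤ b) (hle : ∀ᵐ x ∂m, f x ≤ b) : ip m ω f p ≤ b := by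
  calc ip m ω f p ≤ ∫ x, b * (p x * ω x) ∂m := by
        refine integral_mono_ae (hω.integrable_ip hf h.l2)
          ((hω.integrable_mul h.l1).const_mul _) ?_
        filter_upwards [h.nonneg, hle] with x h1 h2
        have := (hω.pos x).le
        rw [mul_assoc]
        exact mul_le_mul_of_nonneg_right h2 (by positivity)
    _ ≤ b := by
        rw [integral_const_mul]
        exact mul_le_of_le_one_right hb h.mass

theorem ip_mono {ω f g : X → ℝ} (hω : Wt ω) (hf : MemLp f 2 m) (hg : MemLp g 2 m)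
    (hp : MemLp p 2 m) (h0 : ∀ᵐ x ∂m, 0 ≤ p x) (hle : ∀ᵐ x ∂m, f x ≤ g x) :
    ip m ω f p ≤ ip m ω g p := by
  refine integral_mono_ae (hω.integrable_ip hf hp) (hω.integrable_ip hg hp) ?_
  filter_upwards [h0, hle] with x h1 h2
  have := (hω.pos x).le
  exact mul_le_mul_of_nonneg_right (mul_le_mul_of_nonneg_right h2 h1) this

theorem memLp_Gm_BL (H : IsInfHilbertian m) (hF : BL F) (hφ : IsSobolev m φ) :
    MemLp (Gm m φ F) 2 m := by
  obtain ⟨L, hL⟩ := hF.Dw_le (m := m)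
  exact (memLp_Gm H hF.sl hφ hL).ae_eq (Gm_comm hF.sl hφ.2.1)

/-- the weighted pairing in terms of the unweighted one -/
theorem integral_Gm_wt (H : IsInfHilbertian m) (hF : BL F) (hε : 0 < ε) (hφ : IsSobolev m φ)
    (hp : IsSobolev m p) : ε * ∫ x, Gm m p φ x * wt F ε x ∂m =
      ε * ∫ x, Gm m φ (fun y => p y * wt F ε y) x ∂m - ip m (wt F ε) (Gm m φ F) p := by
  have hω := Wt.wt hF ε
  have hs := sob_mul_BL hp (hF.wt ε)
  unfold ip
  rw [← integral_const_mul, ← integral_const_mul, ← integral_sub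
    ((integrable_Gm H hφ hs).const_mul _) (hω.integrable_ip (memLp_Gm_BL H hF hφ) hp.1)]
  refine integral_congr_ae ?_
  filter_upwards [Gm_mul_right H hp.2.1 (hF.wt ε).sl hs.2.1 hφ.2.1, Gm_wt H hF ε hφ.2.1,
    Gm_comm hp.2.1 hφ.2.1] with x h1 h2 h3
  rw [h1, h2, h3]
  field_simp
  ring

/-- the Laplacian comparison for the drifted resolvent -/
theorem action_lap (H : IsInfHilbertian m) (hF : BL F) (hε : 0 < ε) (hφ : IsSobolev m φ)
    (hCL : 0 ≤ CL) (hlap : ∀ v, IsSobolev m v → (∀ᵐ x ∂m, 0 ≤ v x) → Integrable v m →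
      ∫ x, Gm m φ v x ∂m ≤ CL * ∫ x, v x ∂m) {θ : ℝ} (hθ : 0 < θ) (hp : Dens m (wt F ε) p P) :
    ip m (wt F ε) φ p - ip m (wt F ε) φ (Res m (wt F ε) (ε * θ) p) ≤
      θ * (ε * CL - ip m (wt F ε) (Gm m φ F) (Res m (wt F ε) (ε * θ) p)) := by
  have hω := Wt.wt hF ε
  have hc : 0 < ε * θ := by positivity
  have hh := hp.res H hω hc
  have hs := sob_Res H hω hc hp.l2
  rw [ip_sub_Res H hω hc hφ hp.l2, mul_comm ε θ, mul_assoc, mul_comm θ ε]
  refine mul_le_mul_of_nonneg_left ?_ hθ.le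
  rw [integral_Gm_wt H hF hε hφ hs]
  have h1 := hlap _ (sob_mul_BL hs (hF.wt ε)) (by
    filter_upwards [hh.nonneg] with x hx using mul_nonneg hx (hω.pos x).le)
    (hω.integrable_mul hh.l1)
  have h2 := mul_le_mul_of_nonneg_left hh.mass hCL
  have h3 := mul_le_mul_of_nonneg_left (h1.trans h2) hε.le
  linarith

/-- the estimate at the initial time -/
theorem action_start (H : IsInfHilbertian m) (hF : BL F) (hε : 0 < ε) (hφ : IsSobolev m φ)
    (hCL : 0 ≤ CL) (hlap : ∀ v, IsSobolev m v → (∀ᵐ x ∂m, 0 ≤ v x) → Integrable v m →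
      ∫ x, Gm m φ v x ∂m ≤ CL * ∫ x, v x ∂m) (P : ℝ) {η : ℝ} (hη : 0 < η) :
    ∃ θ₀ : ℝ, 0 < θ₀ ∧ ∀ θ, 0 < θ → θ ≤ θ₀ → ∀ p, Dens m (wt F ε) p P →
      ip m (wt F ε) φ p - ip m (wt F ε) (Res m (wt F ε) (ε * θ) φ) p ≤
        θ * (ε * CL - ip m (wt F ε) (Gm m φ F) p + η) := by
  have hω := Wt.wt hF ε
  have hγ := memLp_Gm_BL H hF hφ
  obtain ⟨c₀, hc₀, h⟩ := nw_Res_tendsto H hω hγ (η := η / (√P + 1)) (by positivity)
  refine ⟨c₀ / ε, by positivity, fun θ hθ hθ' p hp => ?_⟩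
  have hc : 0 < ε * θ := by positivity
  have hc' : ε * θ ≤ c₀ := by rwa [le_div_iff₀' hε] at hθ'
  rw [ip_Res H hω hc hφ.1 hp.l2]
  refine (action_lap H hF hε hφ hCL hlap hθ hp).trans (mul_le_mul_of_nonneg_left ?_ hθ.le)
  have h1 := abs_ip_Res_sub H hω hc hγ hp.l2
  have h2 : nw m (wt F ε) (fun x => Res m (wt F ε) (ε * θ) (Gm m φ F) x - Gm m φ F x) *
      nw m (wt F ε) p ≤ η / (√P + 1) * (√P + 1) :=
    mul_le_mul (h _ hc hc') ((hp.nw_le hω).trans (by linarith)) (nw_nonneg _) (by positivity)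
  rw [div_mul_cancel₀ _ (by positivity)] at h2
  have := neg_abs_le (ip m (wt F ε) (Gm m φ F) (Res m (wt F ε) (ε * θ) p) -
    ip m (wt F ε) (Gm m φ F) p)
  linarith

/-- the estimate at the final time -/
theorem action_end {ω : X → ℝ} (H : IsInfHilbertian m) (hω : Wt ω) (hε : 0 < ε)
    (hφ : IsSobolev m φ) (hp : IsSobolev m p) {η : ℝ} (hη : 0 < η) :
    ∃ θ₀ : ℝ, 0 < θ₀ ∧ ∀ θ, 0 < θ → θ ≤ θ₀ →
      θ * (ε * ∫ x, Gm m p φ x * ω x ∂m - η) ≤ ip m ω φ p - ip m ω (Res m ω (ε * θ) φ) p := by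
  obtain ⟨c₀, hc₀, h⟩ := nw_Dw_Res_tendsto H hω hp
    (η := η / (ε * (nw m ω (Dw m φ) + 1))) (by have := nw_nonneg (m := m) (ω := ω) (Dw m φ); positivity)
  refine ⟨c₀ / ε, by positivity, fun θ hθ hθ' => ?_⟩
  have hc : 0 < ε * θ := by positivity
  have hc' : ε * θ ≤ c₀ := by rwa [le_div_iff₀' hε] at hθ'
  have hs := sob_Res H hω hc hp.1
  rw [ip_Res H hω hc hφ.1 hp.1, ip_sub_Res H hω hc hφ hp.1, mul_comm ε θ, mul_assoc, mul_comm θ ε]
  refine mul_le_mul_of_nonneg_left ?_ hθ.le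
  have h1 := abs_integral_Gm_wt_le H hω (sob_sub hs hp) hφ
  have h2 : ∫ x, Gm m (fun x => Res m ω (ε * θ) p x - p x) φ x * ω x ∂m =
      ∫ x, Gm m (Res m ω (ε * θ) p) φ x * ω x ∂m - ∫ x, Gm m p φ x * ω x ∂m := by
    rw [← integral_sub (hω.integrable_mul (integrable_Gm H hs hφ))
      (hω.integrable_mul (integrable_Gm H hp hφ))]
    refine integral_congr_ae ?_
    filter_upwards [Gm_sub_left H hs.2.1 hp.2.1 hφ.2.1] with x hx
    rw [hx]; ring
  have h0 := nw_nonneg (m := m) (ω := ω) (Dw m φ)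
  have h3 : nw m ω (Dw m fun x => Res m ω (ε * θ) p x - p x) * nw m ω (Dw m φ) ≤
      η / (ε * (nw m ω (Dw m φ) + 1)) * (nw m ω (Dw m φ) + 1) :=
    mul_le_mul (h _ hc hc') (by linarith) h0 (by positivity)
  have h4 : η / (ε * (nw m ω (Dw m φ) + 1)) * (nw m ω (Dw m φ) + 1) = η / ε := by
    field_simp
  rw [h2] at h1
  have h5 := neg_abs_le (∫ x, Gm m (Res m ω (ε * θ) p) φ x * ω x ∂m -
    ∫ x, Gm m p φ x * ω x ∂m)
  have h6 : -(η / ε) ≤ ∫ x, Gm m (Res m ω (ε * θ) p) φ x * ω x ∂m -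
      ∫ x, Gm m p φ x * ω x ∂m := by linarith
  have h7 := mul_le_mul_of_nonneg_left h6 hε.le
  rw [mul_neg, mul_div_cancel₀ _ hε.ne'] at h7
  linarith

end Crest.Agent.R242
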