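import Crest.Agent.R242.ActionAux1

/-!
Row 242: the key estimate at a fixed time in the action estimate.
-/

set_option autoImplicit false
set_option linter.unusedSectionVars false

open MeasureTheory Set Filter Metric Crest.GeometryTopology.SyntheticRicci
open scoped ENNReal NNReal Topology

namespace Crest.Agent.R242

variable {X : Type*} [MetricSpace X] [ProperSpace X] [MeasurableSpace X] [BorelSpace X]
  {m : Measure X} [IsLocallyFiniteMeasure m] {F G Ft φ p : X → ℝ} {ε c P CL : ℝ}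

theorem action_sq_diff {ω f v h : X → ℝ} (hω : Wt ω) (hf : IsSobolev m f) (hv : IsSobolev m v)
    (hh : AEStronglyMeasurable h m) {M : ℝ} (hM0 : 0 ≤ M) (hM : ∀ᵐ x ∂m, |h x| ≤ M) :
    ∫ x, h x * Dw m f x ^ 2 * ω x ∂m ≤ ∫ x, h x * Dw m v x ^ 2 * ω x ∂m +
      M * (nw m ω (Dw m fun x => f x - v x) *
        (2 * nw m ω (Dw m v) + nw m ω (Dw m fun x => f x - v x))) := by
  have he := (sob_sub hf hv).2.2
  have hi : ∀ g : X → ℝ, MemLp g 2 m → Integrable (fun x => h x * g x ^ 2 * ω x) m := fun g hg =>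
    hω.integrable_mul (hg.integrable_sq.bdd_mul (c := M) hh hM)
  have h2 : MemLp (fun x => 2 * Dw m v x + 1 * Dw m (fun x => f x - v x) x) 2 m :=
    (hv.2.2.const_mul 2).add (he.const_mul 1)
  have h1 : ∫ x, h x * Dw m f x ^ 2 * ω x ∂m ≤ ∫ x, h x * Dw m v x ^ 2 * ω x ∂m +
      M * ip m ω (Dw m fun x => f x - v x)
        (fun x => 2 * Dw m v x + 1 * Dw m (fun x => f x - v x) x) := by
    unfold ip
    rw [← integral_const_mul, ← integral_add (hi _ hv.2.2) ((hω.integrable_ip he h2).const_mul _)]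
    refine integral_mono_ae (hi _ hf.2.2)
      ((hi _ hv.2.2).add ((hω.integrable_ip he h2).const_mul _)) ?_
    filter_upwards [hM, abs_Dw_sub_le hf.2.1 hv.2.1, Dw_nonneg hf.2.1, Dw_nonneg hv.2.1]
      with x a1 a2 a3 a4
    have hw := (hω.pos x).le
    set e := Dw m (fun x => f x - v x) x
    set A := Dw m f x
    set B := Dw m v x
    have b1 : |A ^ 2 - B ^ 2| ≤ e * (2 * B + 1 * e) := by
      rw [sq_sub_sq, abs_mul, mul_comm]
      refine mul_le_mul a2 ?_ (abs_nonneg _) ((abs_nonneg _).trans a2)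
      rw [abs_of_nonneg (by linarith)]
      have := le_abs_self (A - B)
      linarith
    have b2 : h x * (A ^ 2 - B ^ 2) ≤ M * (e * (2 * B + 1 * e)) := by
      refine (le_abs_self _).trans ?_
      rw [abs_mul]
      exact mul_le_mul a1 b1 (abs_nonneg _) hM0
    have := mul_le_mul_of_nonneg_right b2 hw
    linarith
  refine h1.trans (add_le_add_right (mul_le_mul_of_nonneg_left ?_ hM0) _)
  refine (le_abs_self _).trans ((abs_ip_le hω he h2).trans ?_)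
  refine mul_le_mul_of_nonneg_left ?_ (nw_nonneg _)
  simpa using nw_lin_le hω hv.2.2 he 2 1

theorem memLp_Dw_sq {f : X → ℝ} (hb : BL f) (hf : IsSobolev m f) :
    MemLp (fun x => Dw m f x ^ 2) 2 m := by
  obtain ⟨L, hL⟩ := hb.Dw_le (m := m)
  refine (hf.2.2.const_mul L).mono (hf.2.2.1.pow 2) ?_
  filter_upwards [hL, Dw_nonneg hf.2.1] with x h1 h2
  rw [Real.norm_eq_abs, Real.norm_eq_abs, abs_of_nonneg (by positivity),
    abs_of_nonneg (by positivity), sq]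
  exact mul_le_mul_of_nonneg_right h1 h2

theorem memLp_bdd_mul {f w : X → ℝ} (hf : MemLp f 2 m) (hw : AEStronglyMeasurable w m) {W : ℝ}
    (hW : ∀ᵐ x ∂m, |w x| ≤ W) : MemLp (fun x => w x * f x) 2 m := by
  refine (hf.const_mul W).mono (hw.mul hf.1) ?_
  filter_upwards [hW] with x h1
  rw [Real.norm_eq_abs, Real.norm_eq_abs, abs_mul, abs_mul]
  exact mul_le_mul_of_nonneg_right (h1.trans (le_abs_self _)) (abs_nonneg _)

/-- the derivative of the resolvent term -/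
theorem action_A1 (H : IsInfHilbertian m) (hF : BL F) (hε : 0 < ε) (hφ : IsSobolev m φ)
    (hCL : 0 ≤ CL) (hlap : ∀ v, IsSobolev m v → (∀ᵐ x ∂m, 0 ≤ v x) → Integrable v m →
      ∫ x, Gm m φ v x ∂m ≤ CL * ∫ x, v x ∂m) (hFs : IsSobolev m Ft) {t s : ℝ} (ht : 0 < t)
    (hs : 0 < s) (hp : Dens m (wt F ε) p P) {R : (X → ℝ) → X → ℝ}
    (hR : R = Res m (wt F ε) (ε * (t * s))) :
    ip m (wt F ε) (fun x => (s ^ 2)⁻¹ * R φ x - (s ^ 2)⁻¹ * (R (R φ) x - R φ x) -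
      t / s * (R (R Ft) x - R Ft x)) p ≤
      (s ^ 2)⁻¹ * ip m (wt F ε) φ (R p) + t / s * (ε * CL - ip m (wt F ε) (Gm m φ F) (R (R p))) +
        t * (√(ε * t * P / s) * nw m (wt F ε) (Dw m Ft)) := by
  have hω := Wt.wt hF ε
  have hθ : 0 < t * s := by positivity
  have hc : 0 < ε * (t * s) := by positivity
  subst hR
  set R := Res m (wt F ε) (ε * (t * s)) with hR
  have hh := hp.res H hω hc
  have l : ∀ f, MemLp f 2 m → MemLp (R f) 2 m := fun f hf => memLp_Res H hω hc hf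
  have sy : ∀ f g, MemLp f 2 m → MemLp g 2 m → ip m (wt F ε) (R f) g = ip m (wt F ε) f (R g) :=
    fun f g hf hg => ip_Res H hω hc hf hg
  have e1 : ip m (wt F ε) (fun x => (s ^ 2)⁻¹ * R φ x - (s ^ 2)⁻¹ * (R (R φ) x - R φ x) -
      t / s * (R (R Ft) x - R Ft x)) p =
      (s ^ 2)⁻¹ * ip m (wt F ε) φ (R p) +
        (s ^ 2)⁻¹ * (ip m (wt F ε) φ (R p) - ip m (wt F ε) φ (R (R p))) +
        t / s * (ip m (wt F ε) Ft (R p) - ip m (wt F ε) Ft (R (R p))) := by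
    rw [← sy φ (R p) hφ.1 hh.l2, ← sy (R φ) p (l _ hφ.1) hp.l2, ← sy φ p hφ.1 hp.l2,
      ← sy Ft (R p) hFs.1 hh.l2, ← sy (R Ft) p (l _ hFs.1) hp.l2, ← sy Ft p hFs.1 hp.l2]
    have i1 := hω.integrable_ip (l _ hφ.1) hp.l2
    have i2 := hω.integrable_ip (l _ (l _ hφ.1)) hp.l2
    have i3 := hω.integrable_ip (l _ hFs.1) hp.l2
    have i4 := hω.integrable_ip (l _ (l _ hFs.1)) hp.l2
    have := integral_lin4 i1 i2 i3 i4 (2 * (s ^ 2)⁻¹) (-(s ^ 2)⁻¹) (t / s) (-(t / s))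
    unfold ip
    refine Eq.trans (integral_congr_ae (ae_of_all _ fun x => ?_)) (this.trans (by ring))
    simp only
    ring
  have e2 := action_lap H hF hε hφ hCL hlap hθ hh
  have e3 := ip_sub_Res H hω hc hFs hh.l2
  have e4 := abs_integral_Gm_wt_le H hω (sob_Res H hω hc hh.l2) hFs
  have e5 := (nw_Dw_Res_sq_le H hω hc hh.l2).trans (hh.nw_sq_le hω)
  rw [← hR] at e2 e3 e4 e5
  have e6 : ε * t * nw m (wt F ε) (Dw m (R (R p))) ≤ √(ε * t * P / s) := by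
    refine Real.le_sqrt_of_sq_le ?_
    rw [le_div_iff₀ hs]
    have := mul_le_mul_of_nonneg_left e5 (mul_pos hε ht).le
    nlinarith
  have e7 : (s ^ 2)⁻¹ * (ip m (wt F ε) φ (R p) - ip m (wt F ε) φ (R (R p))) ≤
      t / s * (ε * CL - ip m (wt F ε) (Gm m φ F) (R (R p))) := by
    refine (mul_le_mul_of_nonneg_left e2 (by positivity)).trans (le_of_eq ?_)
    field_simp
  have e8 : t / s * (ip m (wt F ε) Ft (R p) - ip m (wt F ε) Ft (R (R p))) ≤
      t * (√(ε * t * P / s) * nw m (wt F ε) (Dw m Ft)) := by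
    rw [e3]
    have a1 := mul_le_mul_of_nonneg_right e6 (nw_nonneg (m := m) (ω := wt F ε) (Dw m Ft))
    have a2 := mul_le_mul_of_nonneg_left ((le_abs_self _).trans e4) (mul_pos hε ht).le
    have a3 : t / s * (ε * (t * s) * ∫ x, Gm m (R (R p)) Ft x * wt F ε x ∂m) =
        t * (ε * t * ∫ x, Gm m (R (R p)) Ft x * wt F ε x ∂m) := by field_simp
    rw [a3]
    refine mul_le_mul_of_nonneg_left ?_ ht.le
    linarith
  linarith

/-- the gradient of the initial datum -/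
theorem action_A3 {ω h : X → ℝ} (H : IsInfHilbertian m) (hω : Wt ω) (hF : BL F) (hφb : BL φ)
    (hφ : IsSobolev m φ) {a : ℝ} (ha : 0 ≤ a) (hDφ : ∀ᵐ x ∂m, Dw m φ x ^ 2 ≤ 2 * (a - φ x))
    (hFb : BL Ft) (hFF : ∀ᵐ x ∂m, Gm m φ Ft x = Gm m φ F x) {L : ℝ}
    (hL : ∀ᵐ x ∂m, Dw m Ft x ≤ L) {t s : ℝ} (hs : 0 < s) (hh : Dens m ω h P) :
    1 / 2 * ∫ x, h x * Dw m (fun y => -s⁻¹ * φ y + -t * Ft y) x ^ 2 * ω x ∂m ≤
      (s ^ 2)⁻¹ * (a - ip m ω φ h) + t / s * ip m ω (Gm m φ F) h + t ^ 2 * L ^ 2 / 2 := by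
  have hγ := memLp_Gm_BL H hF hφ
  have i0 := hω.integrable_mul hh.l1
  have i1 := hω.integrable_ip hφ.1 hh.l2
  have i2 := hω.integrable_ip hγ hh.l2
  have s1 := sl_const_mul hφ.2.1 (-s⁻¹)
  have s2 := sl_const_mul (hFb.sl (m := m)) (-t)
  have h1 : ∫ x, 1 / 2 * (h x * Dw m (fun y => -s⁻¹ * φ y + -t * Ft y) x ^ 2 * ω x) ∂m ≤
      ∫ x, (((s ^ 2)⁻¹ * a + t ^ 2 * L ^ 2 / 2) * (h x * ω x) + -(s ^ 2)⁻¹ * (φ x * h x * ω x) +
        t / s * (Gm m φ F x * h x * ω x)) ∂m := by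
    refine integral_mono_of_nonneg ?_
      (((i0.const_mul _).add (i1.const_mul _)).add (i2.const_mul _)) ?_
    · filter_upwards [hh.nonneg] with x hx
      have := (hω.pos x).le
      positivity
    filter_upwards [hh.nonneg, hDφ, hFF, hL, Dw_add_sq H s1 s2, Dw_const_mul hφ.2.1 (-s⁻¹),
      Dw_const_mul (hFb.sl (m := m)) (-t), Gm_const_mul_left H hφ.2.1 s2 (-s⁻¹),
      Gm_const_mul_right H (hFb.sl (m := m)) hφ.2.1 (-t), Dw_nonneg (hFb.sl (m := m))]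
      with x a0 a1 a2 a3 a4 a5 a6 a7 a8 a9
    have hw : 0 ≤ h x * ω x := mul_nonneg a0 (hω.pos x).le
    have b1 : 1 / 2 * Dw m (fun y => -s⁻¹ * φ y + -t * Ft y) x ^ 2 ≤
        (s ^ 2)⁻¹ * a + t ^ 2 * L ^ 2 / 2 - (s ^ 2)⁻¹ * φ x + t / s * Gm m φ F x := by
      rw [a4, a5, a6, a7, a8, a2, mul_pow, mul_pow, sq_abs, sq_abs]
      have c1 : (-s⁻¹) ^ 2 * Dw m φ x ^ 2 ≤ (s ^ 2)⁻¹ * (2 * (a - φ x)) := by
        rw [neg_sq, inv_pow]
        exact mul_le_mul_of_nonneg_left a1 (by positivity)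
      have c2 : (-t) ^ 2 * Dw m Ft x ^ 2 ≤ t ^ 2 * L ^ 2 := by
        rw [neg_sq]
        exact mul_le_mul_of_nonneg_left (pow_le_pow_left₀ a9 a3 2) (by positivity)
      have c3 : -s⁻¹ * (-t * Gm m φ F x) = t / s * Gm m φ F x := by field_simp
      rw [c3]
      linarith
    have := mul_le_mul_of_nonneg_right b1 hw
    linarith
  rw [integral_const_mul, integral_lin3 i0 i1 i2] at h1
  have h2 := mul_le_of_le_one_right (a := (s ^ 2)⁻¹ * a + t ^ 2 * L ^ 2 / 2) (by positivity) hh.mass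
  unfold ip
  linarith

end Crest.Agent.R242
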