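import Crest.Agent.R242.ActionAux2

/-!
Row 242: the key estimate at a fixed time in the action estimate, assembled.
-/

set_option autoImplicit false
set_option linter.unusedSectionVars false

open MeasureTheory Set Filter Metric Crest.GeometryTopology.SyntheticRicci
open scoped ENNReal NNReal Topology

namespace Crest.Agent.R242

theorem exists_pos_le_of_continuous {E : ℝ → ℝ} (hE : Continuous E) (h0 : E 0 = 0) {η : ℝ}
    (hη : 0 < η) : ∃ x, 0 < x ∧ E x ≤ η := by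
  have h1 : ∀ᶠ x in 𝓝 (0 : ℝ), E x < η := hE.continuousAt.eventually (gt_mem_nhds (by rwa [h0]))
  obtain ⟨x, hx, hx'⟩ := ((h1.filter_mono nhdsWithin_le_nhds).and
    (self_mem_nhdsWithin (a := (0 : ℝ)) (s := Ioi 0))).exists
  exact ⟨x, hx', hx.le⟩

variable {X : Type*} [MetricSpace X] [ProperSpace X] [MeasurableSpace X] [BorelSpace X]
  {m : Measure X} [IsLocallyFiniteMeasure m] {F G Ft φ p : X → ℝ} {ε c P CL k τ₀ : ℝ}

/-- the curvature term -/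
theorem action_A4 {ω w : X → ℝ} (H : IsInfHilbertian m) (hω : Wt ω) (hc : 0 < c) (hφb : BL φ)
    (hφ : IsSobolev m φ) (hFs : IsSobolev m Ft) (hw : Measurable w) {W : ℝ} (hW0 : 0 ≤ W)
    (hW : ∀ x, |w x| ≤ W) {t s δ x₀ : ℝ} (ht : 0 < t) (htx : t ≤ x₀) (hδ : 0 < δ) (hs : δ ≤ s)
    (hs1 : s ≤ 1) (hp : Dens m ω p P)
    (e1 : nw m ω (Dw m fun x => Res m ω c φ x - φ x) ≤ x₀)
    (e2 : nw m ω (fun x => Res m ω c (fun y => w y * Dw m φ y ^ 2) x - w x * Dw m φ x ^ 2) ≤ x₀) :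
    s * ∫ x, Res m ω c p x * w x *
      Dw m (fun y => -s⁻¹ * Res m ω c φ y + -t * Res m ω c Ft y) x ^ 2 * ω x ∂m ≤
      s⁻¹ * ip m ω (fun x => w x * Dw m φ x ^ 2) p + (x₀ * √P / δ + P * W *
        ((x₀ / δ + x₀ * nw m ω (Dw m Ft)) * (2 * (nw m ω (Dw m φ) / δ) +
          (x₀ / δ + x₀ * nw m ω (Dw m Ft))))) := by
  have hs0 : 0 < s := hδ.trans_le hs
  have hx₀ : 0 < x₀ := ht.trans_le htx
  have hP := hp.P_nonneg
  have hh := hp.res H hω hc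
  have sU := sob_Res H hω hc hφ.1
  have sV := sob_Res H hω hc hFs.1
  have sf : IsSobolev m fun y => -s⁻¹ * Res m ω c φ y + -t * Res m ω c Ft y :=
    sob_add (sob_const_mul sU _) (sob_const_mul sV _)
  have sv : IsSobolev m fun y => -s⁻¹ * φ y := sob_const_mul hφ _
  have a1 := action_sq_diff (h := fun x => Res m ω c p x * w x) hω sf sv
    (hh.l2.1.mul hw.aestronglyMeasurable) (M := P * W) (by positivity) (by
      filter_upwards [hh.nonneg, hh.le] with x h1 h2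
      rw [abs_mul, abs_of_nonneg h1]
      exact mul_le_mul h2 (hW x) (abs_nonneg _) hP)
  have hsδ : s⁻¹ ≤ δ⁻¹ := inv_anti₀ hδ hs
  have n0 := nw_nonneg (m := m) (ω := ω) (Dw m φ)
  have n1 := nw_nonneg (m := m) (ω := ω) (Dw m Ft)
  have a2 : nw m ω (Dw m fun y => -s⁻¹ * φ y) ≤ nw m ω (Dw m φ) / δ := by
    rw [nw_congr (Dw_const_mul hφ.2.1 (-s⁻¹)), nw_const_mul, abs_abs, abs_neg,
      abs_of_pos (inv_pos.2 hs0), div_eq_inv_mul]
    exact mul_le_mul_of_nonneg_right hsδ n0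
  have a3 : nw m ω (Dw m fun y => -s⁻¹ * Res m ω c φ y + -t * Res m ω c Ft y - -s⁻¹ * φ y) ≤
      x₀ / δ + x₀ * nw m ω (Dw m Ft) := by
    have e : (fun y => -s⁻¹ * Res m ω c φ y + -t * Res m ω c Ft y - -s⁻¹ * φ y) =
        fun y => -s⁻¹ * (Res m ω c φ y - φ y) + -t * Res m ω c Ft y := by
      ext y; ring
    have sd := sob_sub sU hφ
    rw [e]
    calc _ ≤ nw m ω (fun x => s⁻¹ * Dw m (fun y => Res m ω c φ y - φ y) x +
          t * Dw m (Res m ω c Ft) x) := by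
          refine nw_mono hω ((sd.2.2.const_mul _).add (sV.2.2.const_mul _)) ?_
          filter_upwards [Dw_add_le (sob_const_mul sd (-s⁻¹)).2.1 (sob_const_mul sV (-t)).2.1,
            Dw_const_mul sd.2.1 (-s⁻¹), Dw_const_mul sV.2.1 (-t),
            Dw_nonneg (sob_add (sob_const_mul sd (-s⁻¹)) (sob_const_mul sV (-t))).2.1]
            with x b1 b2 b3 b4
          rw [abs_of_nonneg b4]
          rw [b2, b3, abs_neg, abs_neg, abs_of_pos ht, abs_of_pos (inv_pos.2 hs0)] at b1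
          exact b1
      _ ≤ |s⁻¹| * nw m ω (Dw m fun y => Res m ω c φ y - φ y) +
          |t| * nw m ω (Dw m (Res m ω c Ft)) := nw_lin_le hω sd.2.2 sV.2.2 _ _
      _ ≤ δ⁻¹ * x₀ + x₀ * nw m ω (Dw m Ft) := by
          rw [abs_of_pos ht, abs_of_pos (inv_pos.2 hs0)]
          exact add_le_add (mul_le_mul hsδ e1 (nw_nonneg _) (by positivity))
            (mul_le_mul htx (nw_Dw_Res_le H hω hc hFs) (nw_nonneg _) hx₀.le)
      _ = _ := by ring
  have hg : MemLp (fun x => w x * Dw m φ x ^ 2) 2 m :=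
    memLp_bdd_mul (memLp_Dw_sq hφb hφ) hw.aestronglyMeasurable (ae_of_all _ hW)
  have a4 : ∫ x, Res m ω c p x * w x * Dw m (fun y => -s⁻¹ * φ y) x ^ 2 * ω x ∂m =
      s⁻¹ ^ 2 * ip m ω (fun x => w x * Dw m φ x ^ 2) (Res m ω c p) := by
    unfold ip
    rw [← integral_const_mul]
    refine integral_congr_ae ?_
    filter_upwards [Dw_const_mul hφ.2.1 (-s⁻¹)] with x hx
    rw [hx, mul_pow, sq_abs]
    ring
  have a5 : ip m ω (fun x => w x * Dw m φ x ^ 2) (Res m ω c p) ≤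
      ip m ω (fun x => w x * Dw m φ x ^ 2) p + x₀ * √P := by
    have b1 := (le_abs_self _).trans (abs_ip_Res_sub H hω hc hg hp.l2)
    have b2 := mul_le_mul e2 (hp.nw_le hω) (nw_nonneg _) hx₀.le
    linarith
  set e := nw m ω (Dw m fun y => -s⁻¹ * Res m ω c φ y + -t * Res m ω c Ft y - -s⁻¹ * φ y)
  have e0 : 0 ≤ e := nw_nonneg _
  have a6 : e * (2 * nw m ω (Dw m fun y => -s⁻¹ * φ y) + e) ≤
      (x₀ / δ + x₀ * nw m ω (Dw m Ft)) * (2 * (nw m ω (Dw m φ) / δ) +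
          (x₀ / δ + x₀ * nw m ω (Dw m Ft))) :=
    mul_le_mul a3 (by linarith) (by have := nw_nonneg (m := m) (ω := ω) (Dw m fun y => -s⁻¹ * φ y)
                                    positivity) (by positivity)
  have a7 := mul_le_mul_of_nonneg_left a6 (mul_nonneg hP hW0)
  rw [a4] at a1
  have a8 := mul_le_mul_of_nonneg_left (a1.trans (add_le_add
    (mul_le_mul_of_nonneg_left a5 (by positivity)) a7)) hs0.le
  refine a8.trans ?_
  have a9 : s * (s⁻¹ ^ 2 * (x₀ * √P)) ≤ x₀ * √P / δ := by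
    have : s * (s⁻¹ ^ 2 * (x₀ * √P)) = s⁻¹ * (x₀ * √P) := by field_simp
    rw [this, div_eq_inv_mul]
    exact mul_le_mul_of_nonneg_right hsδ (by positivity)
  have a10 : s * (s⁻¹ ^ 2 * ip m ω (fun x => w x * Dw m φ x ^ 2) p) =
      s⁻¹ * ip m ω (fun x => w x * Dw m φ x ^ 2) p := by field_simp
  have a11 := mul_le_of_le_one_left (b := P * W * ((x₀ / δ + x₀ * nw m ω (Dw m Ft)) *
    (2 * (nw m ω (Dw m φ) / δ) + (x₀ / δ + x₀ * nw m ω (Dw m Ft))))) (by positivity) hs1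
  linarith

theorem action_key [m.IsOpenPosMeasure] (h : RS m k τ₀) (hF : BL F) (hG : Measurable G) {B : ℝ}
    (hB : ∀ x, |G x| ≤ B) (hB0 : 0 ≤ B) (hH : HasWeakHessLe m F G) (hε : 0 < ε) (hφb : BL φ)
    (hφ : IsSobolev m φ) {a : ℝ} (ha : 0 ≤ a) (hDφ : ∀ᵐ x ∂m, Dw m φ x ^ 2 ≤ 2 * (a - φ x))
    (hCL : 0 ≤ CL) (hlap : ∀ v, IsSobolev m v → (∀ᵐ x ∂m, 0 ≤ v x) → Integrable v m →
      ∫ x, Gm m φ v x ∂m ≤ CL * ∫ x, v x ∂m) (hFb : BL Ft) (hFs : IsSobolev m Ft)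
    (hFF : ∀ᵐ x ∂m, Gm m φ Ft x = Gm m φ F x) (P : ℝ) {δ η : ℝ} (hδ : 0 < δ) (hη : 0 < η) :
    ∃ t₀ : ℝ, 0 < t₀ ∧ ∀ t, 0 < t → t ≤ t₀ → ∀ s ∈ Icc δ 1, ∀ p, Dens m (wt F ε) p P →
      ∀ R : (X → ℝ) → X → ℝ, R = Res m (wt F ε) (ε * (t * s)) →
      ip m (wt F ε) (fun x => (s ^ 2)⁻¹ * R φ x - (s ^ 2)⁻¹ * (R (R φ) x - R φ x) -
        t / s * (R (R Ft) x - R Ft x)) p +
      1 / 2 * ip m (wt F ε) (fun x => Dw m (fun y => -s⁻¹ * R φ y + -t * R Ft y) x ^ 2) p ≤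
      a / s ^ 2 + t * (ε * CL / δ +
        s⁻¹ * ip m (wt F ε) (fun x => (ε * k / 2 + G x) * Dw m φ x ^ 2) p + η) := by
  have H := h.hilb
  have hk := h.k_nonneg
  have hω := Wt.wt hF ε
  obtain ⟨θ₀, hθ₀, hwg⟩ := wgrad h hF hG hB hH hε
  obtain ⟨L, hL⟩ := hFb.Dw_le (m := m)
  have hw : Measurable fun x => ε * k / 2 + G x := hG.const_add _
  have hW : ∀ x, |ε * k / 2 + G x| ≤ ε * k / 2 + B := fun x => by
    refine (abs_add_le _ _).trans (add_le_add (le_of_eq (abs_of_nonneg (by positivity))) (hB x))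
  obtain ⟨x₀, hx₀, hE⟩ := exists_pos_le_of_continuous (E := fun x₀ : ℝ =>
    √(ε * x₀ * P / δ) * nw m (wt F ε) (Dw m Ft) + x₀ * √P / δ + x₀ * L ^ 2 / 2 +
      (x₀ * √P / δ + P * (ε * k / 2 + B) * ((x₀ / δ + x₀ * nw m (wt F ε) (Dw m Ft)) *
        (2 * (nw m (wt F ε) (Dw m φ) / δ) + (x₀ / δ + x₀ * nw m (wt F ε) (Dw m Ft))))))
    (by fun_prop) (by simp) hη
  have hγ := memLp_Gm_BL H hF hφ
  have hg : MemLp (fun x => (ε * k / 2 + G x) * Dw m φ x ^ 2) 2 m :=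
    memLp_bdd_mul (memLp_Dw_sq hφb hφ) hw.aestronglyMeasurable (ae_of_all _ hW)
  obtain ⟨c₁, hc₁, h1⟩ := nw_Res_tendsto H hω hγ hx₀
  obtain ⟨c₂, hc₂, h2⟩ := nw_Res_tendsto H hω hg hx₀
  obtain ⟨c₃, hc₃, h3⟩ := nw_Dw_Res_tendsto H hω hφ hx₀
  refine ⟨min (min x₀ θ₀) (min c₁ (min c₂ c₃) / ε), by positivity, fun t ht ht' s hs p hp R hR => ?_⟩
  simp only [le_min_iff, le_div_iff₀' hε] at ht'
  obtain ⟨⟨t1, t2⟩, t3, t4, t5⟩ := ht'
  have hs0 : 0 < s := hδ.trans_le hs.1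
  have hθ : 0 < t * s := by positivity
  have hts : t * s ≤ t := mul_le_of_le_one_right ht.le hs.2
  have hc : 0 < ε * (t * s) := by positivity
  have hc' : ε * (t * s) ≤ ε * t := mul_le_mul_of_nonneg_left hts hε.le
  have hP := hp.P_nonneg
  have hh := hp.res H hω hc
  have A1 := action_A1 H hF hε hφ hCL hlap hFs ht hs0 hp hR
  have A3 := action_A3 H hω hF hφb hφ ha hDφ hFb hFF hL (t := t) hs0 hh
  have A4 := action_A4 H hω hc hφb hφ hFs hw (by positivity) hW ht t1 hδ hs.1 hs.2 hp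
    (h3 _ hc (hc'.trans t5)) (h2 _ hc (hc'.trans t4))
  have sψ : IsSobolev m fun y => -s⁻¹ * φ y + -t * Ft y :=
    sob_add (sob_const_mul hφ _) (sob_const_mul hFs _)
  have A2 := hwg (t * s) hθ (hts.trans t2) (fun y => -s⁻¹ * φ y + -t * Ft y) p
    ((hφb.const_mul _).add (hFb.const_mul _)) sψ hp.l2 hp.nonneg
  have eD := Dw_congr (sob_Res H hω hc sψ.1).2.1 (Res_lin H hω hc hφ.1 hFs.1 (-s⁻¹) (-t))
  have A5 := (neg_le_abs _).trans (abs_ip_Res_sub H hω hc hγ hh.l2)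
  have A6 := mul_le_mul (h1 _ hc (hc'.trans t3)) (hh.nw_le hω) (nw_nonneg _) hx₀.le
  rw [← hR] at A2 A3 A4 A5 A6 eD
  have r1 : ∫ x, p x * Dw m (R fun y => -s⁻¹ * φ y + -t * Ft y) x ^ 2 * wt F ε x ∂m =
      ip m (wt F ε) (fun x => Dw m (fun y => -s⁻¹ * R φ y + -t * R Ft y) x ^ 2) p := by
    refine integral_congr_ae ?_
    filter_upwards [eD] with x hx
    rw [hx]; ring
  have r2 : ∫ x, R p x * (ε * k / 2 + G x) *
      Dw m (R fun y => -s⁻¹ * φ y + -t * Ft y) x ^ 2 * wt F ε x ∂m =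
      ∫ x, R p x * (ε * k / 2 + G x) *
        Dw m (fun y => -s⁻¹ * R φ y + -t * R Ft y) x ^ 2 * wt F ε x ∂m := by
    refine integral_congr_ae ?_
    filter_upwards [eD] with x hx
    rw [hx]
  rw [r1, r2] at A2
  have hsδ : s⁻¹ ≤ δ⁻¹ := inv_anti₀ hδ hs.1
  have b1 : √(ε * t * P / s) * nw m (wt F ε) (Dw m Ft) ≤
      √(ε * x₀ * P / δ) * nw m (wt F ε) (Dw m Ft) := by
    refine mul_le_mul_of_nonneg_right (Real.sqrt_le_sqrt ?_) (nw_nonneg _)
    gcongr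
    exact hs.1
  have b2 : s⁻¹ * (ε * CL) ≤ ε * CL / δ := by
    rw [div_eq_inv_mul]
    exact mul_le_mul_of_nonneg_right hsδ (by positivity)
  have b3 : s⁻¹ * (ip m (wt F ε) (Gm m φ F) (R p) - ip m (wt F ε) (Gm m φ F) (R (R p))) ≤
      x₀ * √P / δ := by
    rw [div_eq_inv_mul]
    refine (mul_le_mul_of_nonneg_left (c := x₀ * √P) (by linarith) (by positivity)).trans ?_
    exact mul_le_mul_of_nonneg_right hsδ (by positivity)
  have b4 : t * (L : ℝ) ^ 2 / 2 ≤ x₀ * L ^ 2 / 2 := by gcongr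
  have c1 := mul_le_mul_of_nonneg_left b1 ht.le
  have c2 := mul_le_mul_of_nonneg_left b2 ht.le
  have c3 := mul_le_mul_of_nonneg_left b3 ht.le
  have c4 := mul_le_mul_of_nonneg_left b4 ht.le
  have c5 := mul_le_mul_of_nonneg_left A4 ht.le
  have c6 := mul_le_mul_of_nonneg_left hE ht.le
  rw [div_eq_mul_inv t s] at A1 A3
  rw [div_eq_mul_inv t s, div_eq_mul_inv a]
  linarith

end Crest.Agent.R242
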