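import Crest.Agent.R242.CalcD0

/-!
Row 242: chain rule and Leibniz rule for the minimal weak upper gradient.
-/

set_option autoImplicit false

open MeasureTheory Set Filter Metric Crest.GeometryTopology.SyntheticRicci
open scoped ENNReal NNReal Topology

namespace Crest.Agent.R242

variable {X : Type*} [MetricSpace X] [ProperSpace X] [MeasurableSpace X] [BorelSpace X]
  {m : Measure X} [IsLocallyFiniteMeasure m] {f g : X → ℝ}

/-- truncation to an interval -/
noncomputable def calcd_cl (p q t : ℝ) : ℝ := max p (min t q)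

theorem calcd_cl_lip (p q : ℝ) : LipschitzWith 1 (calcd_cl p q) :=
  (LipschitzWith.id.min_const q).const_max p

theorem calcd_cl_eq {p q t : ℝ} (h1 : p ≤ t) (h2 : t ≤ q) : calcd_cl p q t = t := by
  unfold calcd_cl
  rw [min_eq_left h2, max_eq_right h1]

theorem calcd_cl_mem {p q : ℝ} (h : p ≤ q) (t : ℝ) : calcd_cl p q t ∈ Icc p q :=
  ⟨le_max_left _ _, max_le h (min_le_right _ _)⟩

theorem calcd_cl_abs {a : ℝ} (h : 0 ≤ a) (t : ℝ) : |calcd_cl (-a) a t| ≤ a :=
  abs_le.2 (calcd_cl_mem (by linarith) t)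

theorem calcd_cl_abs_le {a : ℝ} (h : 0 ≤ a) (t : ℝ) : |calcd_cl (-a) a t| ≤ |t| := by
  have h0 : calcd_cl (-a) a 0 = 0 := calcd_cl_eq (by linarith) h
  have := (calcd_cl_lip (-a) a).dist_le_mul t 0
  rw [h0] at this
  simpa [Real.dist_eq] using this

theorem calcd_cl_sub_abs_le {a : ℝ} (h : 0 ≤ a) (t : ℝ) : |calcd_cl (-a) a t - t| ≤ |t| := by
  unfold calcd_cl
  rcases le_total t a with h1 | h1
  · rw [min_eq_left h1]
    rcases le_total (-a) t with h2 | h2
    · rw [max_eq_right h2]; simp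
    · rw [max_eq_left h2, abs_of_nonneg (by linarith), abs_of_nonpos (by linarith)]
      linarith
  · rw [min_eq_right h1, max_eq_right (by linarith), abs_of_nonpos (by linarith),
      abs_of_nonneg (by linarith)]
    linarith

theorem calcd_mul_le (hf : IsSobolevLoc m f) (hg : IsSobolevLoc m g)
    (hs : IsSobolevLoc m fun x => f x * g x) :
    ∀ᵐ x ∂m, Dw m (fun y => f y * g y) x ≤ |g x| * Dw m f x + |f x| * Dw m g x := by
  have key : ∀ a b : ℝ, ∀ᵐ x ∂m, |f x| ≤ a → |g x| ≤ b →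
      Dw m (fun y => f y * g y) x ≤ b * Dw m f x + a * Dw m g x := by
    intro a b
    by_cases ha : 0 ≤ a
    swap
    · exact Eventually.of_forall fun x h1 _ => absurd ((abs_nonneg _).trans h1) ha
    by_cases hb : 0 ≤ b
    swap
    · exact Eventually.of_forall fun x _ h1 => absurd ((abs_nonneg _).trans h1) hb
    have hF := sl_comp_lip hf (calcd_cl_lip (-a) a)
    have hG := sl_comp_lip hg (calcd_cl_lip (-b) b)
    have bF : ∀ᵐ x ∂m, |calcd_cl (-a) a (f x)| ≤ a :=
      Eventually.of_forall fun x => calcd_cl_abs ha _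
    have bG : ∀ᵐ x ∂m, |calcd_cl (-b) b (g x)| ≤ b :=
      Eventually.of_forall fun x => calcd_cl_abs hb _
    have hFG := sl_mul_bdd hF hG bF bG
    have hw := wug_mul_bdd (l2b_aemeasurable (sl_l2 hF)) bF bG (wug_Dw hF) (wug_Dw hG)
    filter_upwards [Dw_le hFG hw, Dw_loc hs hFG, Dw_comp_lip_le hf (calcd_cl_lip (-a) a),
      Dw_comp_lip_le hg (calcd_cl_lip (-b) b)] with x h1 h2 h3 h4 h5 h6
    rw [abs_le] at h5 h6
    rw [h2 (by rw [calcd_cl_eq h5.1 h5.2, calcd_cl_eq h6.1 h6.2])]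
    simp only [NNReal.coe_one, one_mul] at h3 h4
    exact h1.trans (add_le_add (mul_le_mul_of_nonneg_left h3 hb) (mul_le_mul_of_nonneg_left h4 ha))
  have key' : ∀ᵐ x ∂m, ∀ a b : ℚ, |f x| ≤ a → |g x| ≤ b →
      Dw m (fun y => f y * g y) x ≤ b * Dw m f x + a * Dw m g x := by
    rw [ae_all_iff]; intro a
    rw [ae_all_iff]; intro b
    exact key a b
  filter_upwards [key', Dw_nonneg hf, Dw_nonneg hg] with x h h1 h2
  refine le_of_forall_pos_le_add fun η hη => ?_
  set S := Dw m f x + Dw m g x + 1 with hS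
  have hS0 : 0 < S := by linarith
  have hδ : 0 < η / S := div_pos hη hS0
  obtain ⟨a, ha1, ha2⟩ := exists_rat_btwn (show |f x| < |f x| + η / S by linarith)
  obtain ⟨b, hb1, hb2⟩ := exists_rat_btwn (show |g x| < |g x| + η / S by linarith)
  have h3 := h a b ha1.le hb1.le
  have h4 : η / S * S = η := div_mul_cancel₀ _ hS0.ne'
  have h5 := mul_le_mul_of_nonneg_right ha2.le h2
  have h6 := mul_le_mul_of_nonneg_right hb2.le h1
  rw [hS] at h4
  nlinarith

/-- product with a bounded function with bounded gradient -/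
theorem sl_mul (hf : IsSobolevLoc m f) (hg : IsSobolevLoc m g) {b L : ℝ}
    (hb : ∀ᵐ x ∂m, |g x| ≤ b) (hL : ∀ᵐ x ∂m, Dw m g x ≤ L) :
    IsSobolevLoc m fun x => f x * g x := by
  have mf := l2b_aemeasurable (sl_l2 hf)
  have mg := l2b_aemeasurable (sl_l2 hg)
  have habs : IsL2OnBalls m fun x => |f x| := fun o R => (sl_l2 hf o R).abs
  have hfg : IsL2OnBalls m fun x => f x * g x := by
    refine l2b_of_le (l2b_const_mul habs b) (mf.mul mg) ?_
    filter_upwards [hb] with x h
    rw [abs_mul, mul_comm b]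
    exact mul_le_mul_of_nonneg_left h (abs_nonneg _)
  have hD : IsL2OnBalls m fun x => b * Dw m f x + L * |f x| :=
    l2b_add (l2b_const_mul (Dw_l2 hf) b) (l2b_const_mul habs L)
  have hF : ∀ n : ℕ, IsSobolevLoc m fun x => calcd_cl (-n) n (f x) :=
    fun n => sl_comp_lip hf (calcd_cl_lip _ _)
  have hFg : ∀ n : ℕ, IsSobolevLoc m fun x => calcd_cl (-n) n (f x) * g x := fun n =>
    sl_mul_bdd (hF n) hg (Eventually.of_forall fun x => calcd_cl_abs (Nat.cast_nonneg n) _) hb
  have hW : ∀ n : ℕ, IsWUGLoc m (fun x => calcd_cl (-n) n (f x) * g x)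
      fun x => b * Dw m f x + L * |f x| := by
    intro n
    refine wug_mono (wug_Dw (hFg n)) hD ?_
    filter_upwards [calcd_mul_le (hF n) hg (hFg n), Dw_comp_lip_le hf (calcd_cl_lip (-n) n), hb, hL,
      Dw_nonneg (hF n), Dw_nonneg hg] with x h1 h2 h3 h4 h5 h6
    simp only [NNReal.coe_one, one_mul] at h2
    refine h1.trans (add_le_add ?_ ?_)
    · exact mul_le_mul h3 h2 h5 ((abs_nonneg _).trans h3)
    · rw [mul_comm L]
      exact mul_le_mul (calcd_cl_abs_le (Nat.cast_nonneg n) _) h4 h6 (abs_nonneg _)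
  refine sobLoc_of_wug hfg (wug_closure (G := fun _ x => b * Dw m f x + L * |f x|)
    (fun n => sl_l2 (hFg n)) hfg hD (hW 0).2.1 hW ?_ ?_)
  · intro o R
    have hlim := tendsto_integral_of_dominated_convergence (μ := m.restrict (ball o R))
      (F := fun (n : ℕ) x => (calcd_cl (-n) n (f x) * g x - f x * g x) ^ 2) (f := fun _ => 0)
      (fun x => (f x * g x) ^ 2) ?_ ?_ ?_ ?_
    · simpa using hlim
    · intro n
      exact ((((l2b_aemeasurable (sl_l2 (hFg n))).sub (mf.mul mg)).pow_const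
        2).restrict).aestronglyMeasurable
    · exact (hfg o R).integrable_sq
    · intro n
      refine Eventually.of_forall fun x => ?_
      rw [Real.norm_eq_abs, abs_of_nonneg (sq_nonneg _), ← sub_mul, mul_pow, mul_pow]
      exact mul_le_mul_of_nonneg_right
        (sq_le_sq.2 (calcd_cl_sub_abs_le (Nat.cast_nonneg n) _)) (sq_nonneg _)
    · refine Eventually.of_forall fun x => tendsto_const_nhds.congr' ?_
      obtain ⟨N, hN⟩ := exists_nat_ge |f x|
      filter_upwards [eventually_ge_atTop N] with n hn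
      have : |f x| ≤ n := hN.trans (Nat.cast_le.2 hn)
      rw [abs_le] at this
      rw [calcd_cl_eq this.1 this.2]
      simp
  · intro o R
    simp

theorem sl_mul_BL (hf : IsSobolevLoc m f) (hg : BL g) : IsSobolevLoc m fun x => f x * g x := by
  obtain ⟨B, hB⟩ := hg.bdd
  obtain ⟨L, hL⟩ := hg.Dw_le (m := m)
  exact sl_mul hf hg.sl (Eventually.of_forall hB) hL

/-- chain rule, inequality form -/
theorem Dw_comp_le (hf : IsSobolevLoc m f) {φ : ℝ → ℝ} (hφ : ContDiff ℝ 1 φ)
    (hs : IsSobolevLoc m fun x => φ (f x)) :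
    ∀ᵐ x ∂m, Dw m (fun y => φ (f y)) x ≤ |deriv φ (f x)| * Dw m f x := by
  have key : ∀ p q L : ℝ, ∀ᵐ x ∂m, LipschitzWith L.toNNReal (fun t => φ (calcd_cl p q t)) →
      p ≤ f x → f x ≤ q → Dw m (fun y => φ (f y)) x ≤ L.toNNReal * Dw m f x := by
    intro p q L
    by_cases hl : LipschitzWith L.toNNReal (fun t => φ (calcd_cl p q t))
    swap
    · exact Eventually.of_forall fun x h => absurd h hl
    filter_upwards [Dw_comp_lip_le hf hl, Dw_loc hs (sl_comp_lip hf hl)] with x h1 h2 _ h3 h4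
    rw [h2 (by rw [calcd_cl_eq h3 h4])]
    exact h1
  have key' : ∀ᵐ x ∂m, ∀ p q L : ℚ,
      LipschitzWith (L : ℝ).toNNReal (fun t => φ (calcd_cl p q t)) →
      p ≤ f x → f x ≤ q → Dw m (fun y => φ (f y)) x ≤ (L : ℝ).toNNReal * Dw m f x := by
    rw [ae_all_iff]; intro p
    rw [ae_all_iff]; intro q
    rw [ae_all_iff]; intro L
    exact key p q L
  filter_upwards [key', Dw_nonneg hf] with x h h1
  refine le_of_forall_pos_le_add fun η hη => ?_
  set S := Dw m f x + 1 with hS
  have hS0 : 0 < S := by linarith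
  have hδ : 0 < η / S := div_pos hη hS0
  obtain ⟨L, hL1, hL2⟩ :=
    exists_rat_btwn (show |deriv φ (f x)| < |deriv φ (f x)| + η / S by linarith)
  have hL0 : (0 : ℝ) ≤ L := (abs_nonneg _).trans hL1.le
  have hc : Continuous fun t => |deriv φ t| := (hφ.continuous_deriv le_rfl).abs
  have hev : ∀ᶠ t in 𝓝 (f x), |deriv φ t| < L := hc.continuousAt.eventually_lt_const hL1
  obtain ⟨δ, hδ0, hδ1⟩ := Metric.eventually_nhds_iff.1 hev
  obtain ⟨p, hp1, hp2⟩ := exists_rat_btwn (show f x - δ < f x by linarith)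
  obtain ⟨q, hq1, hq2⟩ := exists_rat_btwn (show f x < f x + δ by linarith)
  have hon : LipschitzOnWith (L : ℝ).toNNReal φ (Icc p q) := by
    refine (convex_Icc (p : ℝ) q).lipschitzOnWith_of_nnnorm_deriv_le
      (fun t _ => hφ.differentiable one_ne_zero t) fun t ht => ?_
    rw [← NNReal.coe_le_coe, coe_nnnorm, Real.coe_toNNReal _ hL0, Real.norm_eq_abs]
    refine (hδ1 ?_).le
    rw [Real.dist_eq, abs_lt]
    constructor <;> linarith [ht.1, ht.2]
  have hl : LipschitzWith (L : ℝ).toNNReal (fun t => φ (calcd_cl p q t)) := by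
    have hpq : (p : ℝ) ≤ q := by linarith
    refine LipschitzWith.of_dist_le_mul fun s t => ?_
    refine (hon.dist_le_mul _ (calcd_cl_mem hpq s) _ (calcd_cl_mem hpq t)).trans ?_
    refine mul_le_mul_of_nonneg_left ?_ (NNReal.coe_nonneg _)
    simpa using (calcd_cl_lip p q).dist_le_mul s t
  have h3 := h p q L hl hp2.le hq1.le
  rw [Real.coe_toNNReal _ hL0] at h3
  have h4 : η / S * S = η := div_mul_cancel₀ _ hS0.ne'
  have h5 := mul_le_mul_of_nonneg_right hL2.le h1
  rw [hS] at h4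
  nlinarith

/-- Leibniz rule, inequality form -/
theorem Dw_mul_le (hf : IsSobolevLoc m f) (hg : IsSobolevLoc m g)
    (hs : IsSobolevLoc m fun x => f x * g x) :
    ∀ᵐ x ∂m, Dw m (fun y => f y * g y) x ≤ |g x| * Dw m f x + |f x| * Dw m g x := by
  exact calcd_mul_le hf hg hs

theorem Dw_usq_le (y : X) {a : ℝ} (ha : 0 ≤ a) :
    ∀ᵐ x ∂m, Dw m (usq y a) x ≤ dist x y ∧ (a ≤ dist x y ^ 2 / 2 → Dw m (usq y a) x = 0) := by
  have hB : BL (usq y a) := BL.usq y ha
  obtain ⟨L, hL⟩ := hB.lip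
  have hw : IsWUGLoc m (usq y a) fun x => dist x y := by
    refine wug_of_slope hL (l2b_of_continuous (by fun_prop)) (fun x => dist_nonneg) ?_
    intro x η hη
    filter_upwards [ball_mem_nhds x hη] with z hz
    rw [mem_ball] at hz
    have h1 : dist z y ≤ dist z x + dist x y := dist_triangle _ _ _
    have h2 : 0 ≤ dist z y := dist_nonneg
    have h3 : 0 ≤ dist x y := dist_nonneg
    have h4 : 0 ≤ dist z x := dist_nonneg
    have h5 : dist z y ^ 2 / 2 ≤ dist x y ^ 2 / 2 + (dist x y + η) * dist z x := by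
      have : dist z y ^ 2 ≤ (dist z x + dist x y) ^ 2 := pow_le_pow_left₀ h2 h1 2
      nlinarith
    have h6 : 0 ≤ (dist x y + η) * dist z x := by positivity
    unfold usq
    rcases le_total (dist x y ^ 2 / 2) a with h | h
    · rw [min_eq_left h]
      linarith [min_le_left (dist z y ^ 2 / 2) a]
    · rw [min_eq_right h]
      linarith [min_le_right (dist z y ^ 2 / 2) a]
  filter_upwards [Dw_le hB.sl hw, Dw_loc_const (m := m) hB.sl a] with x h1 h2
  exact ⟨h1, fun h => h2 (min_eq_right h)⟩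

theorem Dw_cut (o : X) (R : ℝ) : ∀ᵐ x ∂m, Dw m (cut o R) x ≤ 1 ∧
    (dist x o ≤ R ∨ R + 1 ≤ dist x o → Dw m (cut o R) x = 0) := by
  have hs : IsSobolevLoc m (cut o R) := sl_lip (cut_lip o R)
  filter_upwards [Dw_lip_le (m := m) (cut_lip o R), Dw_loc_const hs 1, Dw_loc_const hs 0]
    with x h1 h2 h3
  refine ⟨by simpa using h1, ?_⟩
  rintro (h | h)
  · exact h2 (cut_eq_one h)
  · exact h3 (cut_eq_zero h)

end Crest.Agent.R242
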