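import Crest.Agent.R242.Plan
import Crest.Agent.R242.CalcD

/-!
Row 242: the variation of Sobolev functions along couplings.
-/

set_option autoImplicit false
set_option linter.unusedSectionVars false

open MeasureTheory Set Filter Metric Crest.GeometryTopology.SyntheticRicci
open scoped ENNReal NNReal Topology

namespace Crest.Agent.R242

variable {X : Type*} [MetricSpace X] [ProperSpace X] [MeasurableSpace X] [BorelSpace X]
  {m : Measure X} [IsLocallyFiniteMeasure m] {κ N : ℝ} {f : X → ℝ}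

theorem t1_meas (t : ℝ) : Measurable fun γ : UCurve X => γ.ext t :=
  (continuous_ext.comp (continuous_id.prodMk continuous_const)).measurable

theorem t1_cst_map (P : Measure (UCurve X)) (s t : ℝ) :
    cst (P.map fun γ => (γ.ext s, γ.ext t)) = ∫ γ, dist (γ.ext s) (γ.ext t) ^ 2 ∂P := by
  unfold cst
  rw [integral_map ((t1_meas s).prodMk (t1_meas t)).aemeasurable
    (by fun_prop : Continuous fun p : X × X => dist p.1 p.2 ^ 2).aestronglyMeasurable]

theorem t1_endpointLaw (P : Measure (UCurve X)) :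
    endpointLaw P = P.map fun γ => (γ.ext 0, γ.ext 1) := by
  simp only [endpointLaw, ext_zero, ext_one]

theorem t1_memLp {P : Measure (UCurve X)} [IsProbabilityMeasure P] (hb : HasBoundedTracks P) :
    MemLp (fun γ : UCurve X => dist (γ.ext 0) (γ.ext 1)) 2 P := by
  obtain ⟨o, R, hR⟩ := hb
  refine MemLp.of_bound ((t1_meas 0).dist (t1_meas 1)).aestronglyMeasurable (R + R) ?_
  filter_upwards [hR] with γ hγ
  rw [Real.norm_eq_abs, abs_dist, ext_zero, ext_one]
  exact (dist_triangle_right _ _ o).trans (add_le_add (hγ 0) (hγ 1))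

/-- the estimate along a geodesic test plan -/
theorem t1_core (hf : IsSobolevLoc m f) {P : Measure (UCurve X)} (hP : IsTestPlan2 m P)
    (hb : HasBoundedTracks P) (hg : ∀ᵐ γ ∂P, IsCSGeodesic γ) {β : ℝ}
    (hβ : ∀ t ∈ Icc (0 : ℝ) 1, ∫ x, Dw m f x ^ 2 ∂(P.map fun γ => γ.ext t) ≤ β) :
    |∫ x, f x ∂(P.map fun γ => γ.ext 1) - ∫ x, f x ∂(P.map fun γ => γ.ext 0)| ≤
      √β * √(∫ γ, dist (γ.ext 0) (γ.ext 1) ^ 2 ∂P) := by
  have := hP.1
  obtain ⟨C, o, R, hA⟩ := tp_adm hP hb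
  have fi : ∀ t, Integrable f (P.map fun γ => γ.ext t) := fun t => (hA t).integrable hf.1
  have fi' : ∀ t, Integrable (fun γ : UCurve X => f (γ.ext t)) P := fun t =>
    (fi t).comp_measurable (t1_meas t)
  rw [integral_map (t1_meas 1).aemeasurable (fi 1).1, integral_map (t1_meas 0).aemeasurable (fi 0).1,
    ← integral_sub (fi' 1) (fi' 0)]
  refine abs_integral_le_integral_abs.trans ?_
  rw [← ENNReal.ofReal_le_ofReal_iff (by positivity),
    ofReal_integral_eq_lintegral_ofReal (f := fun γ : UCurve X => |f (γ.ext 1) - f (γ.ext 0)|)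
      ((fi' 1).sub (fi' 0)).abs
      (ae_of_all _ fun _ => abs_nonneg _)]
  have h1 := (wug_Dw hf).2.2 P hP hb
  simp only [← ext_zero, ← ext_one] at h1
  refine h1.trans ?_
  have h2 : ∫⁻ γ, (∫⁻ t in Icc (0 : ℝ) 1, ENNReal.ofReal (Dw m f (γ.ext t)) * upperSpeed γ t) ∂P ≤
      ∫⁻ γ, (∫⁻ t in Icc (0 : ℝ) 1, ENNReal.ofReal (Dw m f (γ.ext t)) *
        ENNReal.ofReal (dist (γ.ext 0) (γ.ext 1))) ∂P := by
    refine lintegral_mono_ae ?_
    filter_upwards [hg] with γ hγ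
    refine lintegral_mono fun t => mul_le_mul_right ?_ _
    rw [ext_zero, ext_one, ← edist_dist]
    exact geo_upperSpeed_le hγ t
  refine h2.trans ?_
  rw [lintegral_lintegral_swap]
  · refine le_trans (setLIntegral_mono' measurableSet_Icc
      (g := fun _ => ENNReal.ofReal (√β * √(∫ γ, dist (γ.ext 0) (γ.ext 1) ^ 2 ∂P)))
      fun t ht => ?_) (by simp)
    have d2 : MemLp (Dw m f) 2 (P.map fun γ => γ.ext t) := (hA t).memLp (Dw_l2 hf)
    have d2' : MemLp (fun γ : UCurve X => Dw m f (γ.ext t)) 2 P :=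
      d2.comp_of_map (t1_meas t).aemeasurable
    have d0 : ∀ᵐ γ ∂P, 0 ≤ Dw m f (γ.ext t) := tp_ae hP t (Dw_nonneg hf)
    have e : ∫⁻ γ, ENNReal.ofReal (Dw m f (γ.ext t)) * ENNReal.ofReal (dist (γ.ext 0) (γ.ext 1)) ∂P
        = ENNReal.ofReal (∫ γ, Dw m f (γ.ext t) * dist (γ.ext 0) (γ.ext 1) ∂P) := by
      rw [ofReal_integral_eq_lintegral_ofReal
        (f := fun γ : UCurve X => Dw m f (γ.ext t) * dist (γ.ext 0) (γ.ext 1))
        (d2'.integrable_mul (t1_memLp hb))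
        (by filter_upwards [d0] with γ hγ using mul_nonneg hγ dist_nonneg)]
      refine lintegral_congr fun γ => ?_
      rw [ENNReal.ofReal_mul' dist_nonneg]
    rw [e]
    refine ENNReal.ofReal_le_ofReal ((le_abs_self _).trans
      ((abs_integral_mul_le d2' (t1_memLp hb)).trans ?_))
    refine mul_le_mul_of_nonneg_right (Real.sqrt_le_sqrt ?_) (Real.sqrt_nonneg _)
    have := hβ t ht
    rwa [integral_map (t1_meas t).aemeasurable d2.integrable_sq.1] at this
  · exact (((Dw_aemeasurable hf).comp_quasiMeasurePreserving (tp_qmp hP)).ennreal_ofReal).mul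
      ((((t1_meas 0).dist (t1_meas 1)).comp measurable_fst).ennreal_ofReal).aemeasurable

/-- normalisation of the marginals and the geodesic plan between them -/
theorem t1_plan (h : CDk m κ N) {q : Measure (X × X)} {C : ℝ≥0} {o : X} {R : ℝ}
    (h₀ : Adm m q.fst C o R) (h₁ : Adm m q.snd C o R) (hq : q ≠ 0) :
    ∃ (M : ℝ≥0) (P : Measure (UCurve X)), 0 < M ∧ (M : ℝ) = q.real univ ∧ IsTestPlan2 m P ∧
      HasBoundedTracks P ∧ (∀ᵐ γ ∂P, IsCSGeodesic γ) ∧ q.fst = M • P.map (fun γ => γ.ext 0) ∧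
      q.snd = M • P.map (fun γ => γ.ext 1) ∧
      M * ∫ γ, dist (γ.ext 0) (γ.ext 1) ^ 2 ∂P ≤ cst q ∧
      ∀ t : ℝ, Adm m (M • P.map fun γ => γ.ext t) (C * (Real.exp (κ * (2 * R) ^ 2)).toNNReal) o
        (3 * R) := by
  have := h₀.isFiniteMeasure
  have hfin : IsFiniteMeasure q := ⟨by rw [← Measure.fst_univ]; exact measure_lt_top _ _⟩
  set M : ℝ≥0 := measureUnivNNReal q with hM
  have M0 : 0 < M := measureUnivNNReal_pos hq
  have hMq : q univ = M := (coe_measureUnivNNReal q).symm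
  have adm : ∀ μ : Measure X, Adm m μ C o R → Adm m (M⁻¹ • μ) (M⁻¹ * C) o R := fun μ hμ =>
    ⟨by
      intro A
      have := mul_le_mul_right (hμ.le A) ((M⁻¹ : ℝ≥0) : ℝ≥0∞)
      simpa [mul_assoc] using this, Measure.ae_smul_measure hμ.inn _⟩
  have pr : ∀ μ : Measure X, μ univ = M → IsProbabilityMeasure (M⁻¹ • μ) := fun μ hμ =>
    ⟨by
      rw [Measure.smul_apply, hμ, ENNReal.smul_def, smul_eq_mul, ← ENNReal.coe_mul,
        inv_mul_cancel₀ M0.ne', ENNReal.coe_one]⟩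
  have p0 := pr q.fst (by rw [Measure.fst_univ, hMq])
  have p1 := pr q.snd (by rw [Measure.snd_univ, hMq])
  obtain ⟨P, hP, hb, hg, e0, e1, ho, hA⟩ := exists_plan h (adm _ h₀) (adm _ h₁)
  have := hP.1
  have hm := (t1_meas (X := X) 0).prodMk (t1_meas 1)
  have hc : cst (endpointLaw P) ≤ cst (M⁻¹ • q) := by
    have : IsFiniteMeasure (endpointLaw P) := by unfold endpointLaw; infer_instance
    refine ho.cst_le (o := o) (R := R) (e0 ▸ (adm _ h₀).inn) (e1 ▸ (adm _ h₁).inn) ?_ ?_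
    · rw [e0]; simp only [Measure.fst, Measure.map_smul]
    · rw [e1]; simp only [Measure.snd, Measure.map_smul]
  rw [t1_endpointLaw] at e0 e1 hc
  rw [Measure.fst_map_prodMk (t1_meas 1)] at e0
  rw [Measure.snd_map_prodMk (t1_meas 0)] at e1
  refine ⟨M, P, M0, ?_, hP, hb, hg, ?_, ?_, ?_, fun t => ⟨?_, ?_⟩⟩
  · rw [Measure.real, hMq, ENNReal.coe_toReal]
  · rw [e0, smul_smul, mul_inv_cancel₀ M0.ne', one_smul]
  · rw [e1, smul_smul, mul_inv_cancel₀ M0.ne', one_smul]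
  · rw [t1_cst_map] at hc
    have e : cst (M⁻¹ • q) = (M : ℝ)⁻¹ * cst q := by
      simp [cst, NNReal.smul_def]
    have M0' : (0 : ℝ) < M := M0
    rw [e, ← div_eq_inv_mul, le_div_iff₀ M0'] at hc
    linarith
  · intro A
    have := mul_le_mul_right ((hA t).le A) (M : ℝ≥0∞)
    refine le_of_eq_of_le (by simp) (this.trans_eq ?_)
    simp only [Measure.smul_apply, smul_eq_mul, ← mul_assoc, ← ENNReal.coe_mul]
    rw [mul_inv_cancel₀ M0.ne', one_mul]
  · exact Measure.ae_smul_measure (hA t).inn _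

theorem t1_scale {M : ℝ≥0} (μ ν : Measure X) :
    |∫ x, f x ∂(M • μ) - ∫ x, f x ∂(M • ν)| = M * |∫ x, f x ∂μ - ∫ x, f x ∂ν| := by
  simp only [integral_smul_nnreal_measure, NNReal.smul_def, smul_eq_mul, ← mul_sub, abs_mul,
    NNReal.abs_eq]

theorem var_le_of_bdd (h : CDk m κ N) (hf : IsSobolevLoc m f) {L : ℝ}
    (hL : ∀ᵐ x ∂m, Dw m f x ≤ L) {q : Measure (X × X)} {C : ℝ≥0} {o : X} {R : ℝ}
    (h₀ : Adm m q.fst C o R) (h₁ : Adm m q.snd C o R) :
    |∫ x, f x ∂q.snd - ∫ x, f x ∂q.fst| ≤ L * √(q.real univ * cst q) := by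
  rcases eq_or_ne q 0 with rfl | hq
  · simp
  obtain ⟨M, P, M0, hM, hP, hb, hg, e0, e1, hc, hA⟩ := t1_plan h h₀ h₁ hq
  have := hP.1
  have L0 : 0 ≤ L := by
    have h1 : ∀ᵐ γ ∂P, 0 ≤ L := by
      filter_upwards [tp_ae hP 0 hL, tp_ae hP 0 (Dw_nonneg hf)] with γ a b using b.trans a
    exact h1.exists.choose_spec
  obtain ⟨C', o', R', hA'⟩ := tp_adm hP hb
  have key := t1_core hf hP hb hg (β := L ^ 2) fun t _ => by
    have : IsProbabilityMeasure (P.map fun γ => γ.ext t) :=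
      Measure.isProbabilityMeasure_map (t1_meas t).aemeasurable
    refine (integral_mono_ae ((hA' t).memLp (Dw_l2 hf)).integrable_sq (integrable_const (L ^ 2))
      ?_).trans (by simp)
    filter_upwards [(hA' t).ac.ae_le hL, (hA' t).ac.ae_le (Dw_nonneg hf)] with x a b
    exact pow_le_pow_left₀ b a 2
  rw [e0, e1, t1_scale, ← hM]
  rw [Real.sqrt_sq L0] at key
  refine (mul_le_mul_of_nonneg_left key M.2).trans ?_
  rw [mul_left_comm]
  refine mul_le_mul_of_nonneg_left (Real.le_sqrt_of_sq_le ?_) L0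
  rw [mul_pow, Real.sq_sqrt (integral_nonneg fun _ => sq_nonneg _), sq, mul_assoc]
  exact mul_le_mul_of_nonneg_left hc M.2

theorem var_le (h : CDk m κ N) (hf : IsSobolevLoc m f) (C : ℝ≥0) (o : X) (R : ℝ) {η : ℝ}
    (hη : 0 < η) : ∃ δ : ℝ, 0 < δ ∧ ∀ q : Measure (X × X), Adm m q.fst C o R → Adm m q.snd C o R →
      cst q ≤ δ → |∫ x, f x ∂q.snd - ∫ x, f x ∂q.fst| ≤
        (√(∫ x, Dw m f x ^ 2 ∂q.fst) + η) * √(cst q) := by
  obtain ⟨δ, δ0, hδ⟩ := integral_sub_le_of_cst (m := m) (g := fun x => Dw m f x ^ 2)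
    (C * (Real.exp (κ * (2 * R) ^ 2)).toNNReal) o (3 * R)
    (IntegrableOn.mono_set (t := ball o (3 * R + 1)) (Dw_l2 hf o _).integrable_sq
      (closedBall_subset_ball (by linarith))) (pow_pos hη 2)
  refine ⟨δ, δ0, fun q h₀ h₁ hqδ => ?_⟩
  rcases eq_or_ne q 0 with rfl | hq
  · simp [cst]
  obtain ⟨M, P, M0, -, hP, hb, hg, e0, e1, hc, hA⟩ := t1_plan h h₀ h₁ hq
  have := hP.1
  have M0' : (0 : ℝ) < M := M0
  set A := ∫ x, Dw m f x ^ 2 ∂q.fst with hAdef
  have A0 : 0 ≤ A := integral_nonneg fun _ => sq_nonneg _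
  have key := t1_core hf hP hb hg (β := (A + η ^ 2) / M) fun t ht => by
    have f0 : (M • P.map fun γ => (γ.ext 0, γ.ext t)).fst = M • P.map fun γ => γ.ext 0 := by
      rw [← Measure.fst_map_prodMk (X := fun γ : UCurve X => γ.ext 0) (t1_meas t)]
      simp only [Measure.fst, Measure.map_smul]
    have f1 : (M • P.map fun γ => (γ.ext 0, γ.ext t)).snd = M • P.map fun γ => γ.ext t := by
      rw [← Measure.snd_map_prodMk (Y := fun γ : UCurve X => γ.ext t) (t1_meas 0)]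
      simp only [Measure.snd, Measure.map_smul]
    have h2 := hδ (M • P.map fun γ => (γ.ext 0, γ.ext t)) (f0 ▸ hA 0) (f1 ▸ hA t) (by
      have e : cst (M • P.map fun γ => (γ.ext 0, γ.ext t)) =
          M * cst (P.map fun γ => (γ.ext 0, γ.ext t)) := by simp [cst, NNReal.smul_def]
      rw [e, t1_cst_map]
      refine le_trans (mul_le_mul_of_nonneg_left ?_ M.2) (hc.trans hqδ)
      refine integral_mono_of_nonneg (ae_of_all _ fun _ => sq_nonneg _) (t1_memLp hb).integrable_sq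
        ?_
      filter_upwards [hg] with γ hγ
      refine pow_le_pow_left₀ dist_nonneg ?_ 2
      rw [geo_dist_ext hγ ⟨le_rfl, zero_le_one⟩ ht, ext_zero, ext_one, zero_sub, abs_neg,
        abs_of_nonneg ht.1]
      exact mul_le_of_le_one_left dist_nonneg ht.2)
    rw [f0, f1, ← e0, ← hAdef, integral_smul_nnreal_measure, NNReal.smul_def, smul_eq_mul] at h2
    rw [le_div_iff₀ M0']
    linarith [(abs_le.1 h2).2]
  rw [e1]
  conv_lhs => rw [e0]
  rw [t1_scale]
  refine (mul_le_mul_of_nonneg_left key M.2).trans ?_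
  set c := ∫ γ, dist (γ.ext 0) (γ.ext 1) ^ 2 ∂P
  have c0 : 0 ≤ c := integral_nonneg fun _ => sq_nonneg _
  have e : (M : ℝ) * (√((A + η ^ 2) / M) * √c) = √(A + η ^ 2) * √(M * c) := by
    rw [Real.sqrt_div' _ M0'.le, Real.sqrt_mul M0'.le]
    have := Real.sqrt_pos.2 M0'
    have h3 := Real.mul_self_sqrt M0'.le
    field_simp
    rw [sq, h3]
  refine e.trans_le (mul_le_mul ?_ (Real.sqrt_le_sqrt hc) (Real.sqrt_nonneg _) (by positivity))
  rw [Real.sqrt_le_left (by positivity)]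
  nlinarith [Real.sq_sqrt A0, Real.sqrt_nonneg A]

end Crest.Agent.R242
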