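import Crest.Agent.R242.ActionAux1
import Crest.Agent.R242.T1

/-!
Row 242: integration along a contracting family of measures.
-/

set_option autoImplicit false
set_option linter.unusedSectionVars false

open MeasureTheory Set Filter Metric Crest.GeometryTopology.SyntheticRicci
open scoped ENNReal NNReal Topology

namespace Crest.Agent.R242

variable {X : Type*} [MetricSpace X] [ProperSpace X] [MeasurableSpace X] [BorelSpace X]
  {m : Measure X} [IsLocallyFiniteMeasure m] {κ N : ℝ}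

/-- a family of measures contracting to a point -/
structure Fam (m : Measure X) (μ : ℝ → Measure X) (C : ℝ≥0) (y : X) (r δ l : ℝ) : Prop where
  r_nonneg : 0 ≤ r
  l_nonneg : 0 ≤ l
  δ_le : δ ≤ 1
  prob : ∀ s ∈ Icc δ 1, IsProbabilityMeasure (μ s)
  adm : ∀ s ∈ Icc δ 1, Adm m (μ s) C y (s * r)
  mom : ∀ s ∈ Icc δ 1, ∫ x, dist x y ^ 2 ∂(μ s) = s ^ 2 * l
  cpl : ∀ s ∈ Icc δ 1, ∀ s' ∈ Icc δ 1, ∃ q : Measure (X × X), q.fst = μ s ∧ q.snd = μ s' ∧
    cst q ≤ (s - s') ^ 2 * l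

variable {μ : ℝ → Measure X} {C : ℝ≥0} {y : X} {r δ l : ℝ}

theorem Fam.adm' (h : Fam m μ C y r δ l) {s : ℝ} (hs : s ∈ Icc δ 1) : Adm m (μ s) C y r :=
  (h.adm s hs).mono le_rfl le_rfl (mul_le_of_le_one_left h.r_nonneg hs.2)

theorem Fam.ev (_h : Fam m μ C y r δ l) (s : ℝ) {d : ℝ} (hd : 0 < d) :
    ∀ᶠ s' in 𝓝[Icc δ 1] s, s' ∈ Icc δ 1 ∧ (s - s') ^ 2 * l ≤ d := by
  have h1 : ContinuousAt (fun s' : ℝ => (s - s') ^ 2 * l) s := by fun_prop
  have h2 := h1.eventually (gt_mem_nhds (a := d) (by simpa using hd))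
  filter_upwards [self_mem_nhdsWithin, h2.filter_mono nhdsWithin_le_nhds] with s' a b
  exact ⟨a, b.le⟩

theorem Fam.cont (h : Fam m μ C y r δ l) {g : X → ℝ} (hg : IsL2OnBalls m g) :
    ContinuousOn (fun s => ∫ x, g x ∂(μ s)) (Icc δ 1) := by
  intro s hs
  have hi : IntegrableOn g (closedBall y r) m := by
    haveI : IsFiniteMeasure (m.restrict (ball y (r + 1))) :=
      isFiniteMeasure_restrict.2 measure_ball_lt_top.ne
    exact IntegrableOn.mono_set ((hg y (r + 1)).integrable (by norm_num))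
      (closedBall_subset_ball (by linarith))
  rw [ContinuousWithinAt, Metric.tendsto_nhds]
  intro η hη
  obtain ⟨d, hd, h1⟩ := integral_sub_le_of_cst C y r hi (half_pos hη)
  filter_upwards [h.ev s hd] with s' ⟨a, b⟩
  obtain ⟨q, e0, e1, hq⟩ := h.cpl s hs s' a
  have := h1 q (e0 ▸ h.adm' hs) (e1 ▸ h.adm' a) (hq.trans b)
  rw [e0, e1] at this
  rw [Real.dist_eq]
  linarith

theorem Fam.var (h : Fam m μ C y r δ l) (hc : CDk m κ N) {f : X → ℝ} (hf : IsSobolevLoc m f)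
    {s : ℝ} (hs : s ∈ Icc δ 1) {η : ℝ} (hη : 0 < η) : ∀ᶠ s' in 𝓝[Icc δ 1] s,
      |∫ x, f x ∂(μ s') - ∫ x, f x ∂(μ s)| ≤
        (√(∫ x, Dw m f x ^ 2 ∂(μ s)) + η) * (|s' - s| * √l) := by
  obtain ⟨d, hd, h1⟩ := var_le hc hf C y r hη
  filter_upwards [h.ev s hd] with s' ⟨a, b⟩
  obtain ⟨q, e0, e1, hq⟩ := h.cpl s hs s' a
  have := h1 q (e0 ▸ h.adm' hs) (e1 ▸ h.adm' a) (hq.trans b)
  rw [e0, e1] at this
  refine this.trans (mul_le_mul_of_nonneg_left ?_ (by positivity))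
  rw [← Real.sqrt_sq_eq_abs, ← Real.sqrt_mul (sq_nonneg _)]
  refine Real.sqrt_le_sqrt (hq.trans (le_of_eq ?_))
  ring

theorem nhdsGT_le_of_mem {a b s : ℝ} (hs : s ∈ Ico a b) : 𝓝[>] s ≤ 𝓝[Icc a b] s := by
  rw [← nhdsWithin_Ioc_eq_nhdsGT hs.2]
  exact nhdsWithin_mono _ fun x hx => ⟨hs.1.trans hx.1.le, hx.2⟩

theorem Fam.action (h : Fam m μ C y r δ l) (hc : CDk m κ N) {f g : ℝ → X → ℝ} {Ψ Ψ' : ℝ → ℝ}
    (hf : ∀ s ∈ Icc δ 1, IsSobolevLoc m (f s)) (hg : ∀ s ∈ Icc δ 1, IsL2OnBalls m (g s))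
    (hT : ∀ s ∈ Icc δ 1, ∃ K : ℝ, ∀ s' ∈ Icc δ 1,
      |∫ x, (f s' x - f s x - (s' - s) * g s x) ∂(μ s')| ≤ K * (s' - s) ^ 2)
    (hΨ : ∀ s ∈ Icc δ 1, HasDerivAt Ψ (Ψ' s) s)
    (hle : ∀ s ∈ Ioo δ 1, ∫ x, g s x ∂(μ s) + 1 / 2 * ∫ x, Dw m (f s) x ^ 2 ∂(μ s) + l / 2 ≤ Ψ' s) :
    ∫ x, f 1 x ∂(μ 1) - ∫ x, f δ x ∂(μ δ) ≤ Ψ 1 - Ψ δ := by
  have key : ∀ s ∈ Icc δ 1, ∀ s' ∈ Icc δ 1, ∫ x, f s' x ∂(μ s') =
      ∫ x, (f s' x - f s x - (s' - s) * g s x) ∂(μ s') + ∫ x, f s x ∂(μ s') +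
        (s' - s) * ∫ x, g s x ∂(μ s') := by
    intro s hs s' hs'
    have i1 := (h.adm' hs').integrable (hf s' hs').1
    have i2 := (h.adm' hs').integrable (hf s hs).1
    have i3 := (h.adm' hs').integrable (hg s hs)
    have := integral_lin3 i1 i2 i3 1 (-1) (-(s' - s))
    have e : ∫ x, (f s' x - f s x - (s' - s) * g s x) ∂(μ s') =
        ∫ x, (1 * f s' x + -1 * f s x + -(s' - s) * g s x) ∂(μ s') := by
      congr 1; ext x; ring
    rw [e, this]; ring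
  refine dini_le (A := fun s => ∫ x, f s x ∂(μ s)) h.δ_le ?_
    (fun s hs => (hΨ s hs).continuousAt.continuousWithinAt) ?_
  · intro s hs
    obtain ⟨K, hK⟩ := hT s hs
    have t1 : Tendsto (fun s' => ∫ x, (f s' x - f s x - (s' - s) * g s x) ∂(μ s'))
        (𝓝[Icc δ 1] s) (𝓝 0) := by
      refine squeeze_zero_norm' (a := fun s' => K * (s' - s) ^ 2) ?_ ?_
      · filter_upwards [self_mem_nhdsWithin] with s' hs' using hK s' hs'
      · have : ContinuousAt (fun s' : ℝ => K * (s' - s) ^ 2) s := by fun_prop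
        simpa using this.tendsto.mono_left nhdsWithin_le_nhds
    have t2 := h.cont (hf s hs).1 s hs
    have t3 := h.cont (hg s hs) s hs
    have t4 : Tendsto (fun s' : ℝ => s' - s) (𝓝[Icc δ 1] s) (𝓝 0) := by
      have : ContinuousAt (fun s' : ℝ => s' - s) s := by fun_prop
      simpa using this.tendsto.mono_left nhdsWithin_le_nhds
    have t5 := (t1.add t2).add (t4.mul t3)
    simp only [zero_add, zero_mul, add_zero] at t5
    refine t5.congr' ?_
    filter_upwards [self_mem_nhdsWithin] with s' hs' using (key s hs s' hs').symm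
  · intro s hs η hη
    have hs' : s ∈ Icc δ 1 := Ioo_subset_Icc_self hs
    have hle' := nhdsGT_le_of_mem (Ioo_subset_Ico_self hs)
    obtain ⟨K, hK⟩ := hT s hs'
    have hl := h.l_nonneg
    have v1 := (h.var hc (hf s hs') hs' (η := η / 4 / (√l + 1)) (by positivity)).filter_mono hle'
    have v2 := ((h.cont (hg s hs') s hs').tendsto.mono_left hle').eventually
      (gt_mem_nhds (a := ∫ x, g s x ∂(μ s) + η / 4) (by linarith))
    have v3 : ∀ᶠ s' in 𝓝[>] s, K * (s' - s) < η / 4 := by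
      have : ContinuousAt (fun s' : ℝ => K * (s' - s)) s := by fun_prop
      exact (this.eventually (gt_mem_nhds (by simpa using hη))).filter_mono nhdsWithin_le_nhds
    have v4 : ∀ᶠ s' in 𝓝[>] s, Ψ' s - η / 4 < slope Ψ s s' :=
      ((hasDerivAt_iff_tendsto_slope.1 (hΨ s hs')).mono_left (nhdsGT_le_nhdsNE s)).eventually
        (lt_mem_nhds (by linarith))
    filter_upwards [v1, v2, v3, v4, self_mem_nhdsWithin, hle' self_mem_nhdsWithin]
      with x a1 a2 a3 a4 a5 a6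
    have hx : 0 < x - s := sub_pos.2 a5
    rw [slope_def_field, lt_div_iff₀ hx] at a4
    rw [abs_of_pos hx] at a1
    have b1 := (le_abs_self _).trans (hK x a6)
    have b2 := (le_abs_self _).trans a1
    have b3 := key s hs' x a6
    have b4 := mul_le_mul_of_nonneg_left a2.le hx.le
    have b5 := mul_le_mul_of_nonneg_left a3.le hx.le
    have b6 := mul_le_mul_of_nonneg_left (hle s hs) hx.le
    set D := ∫ x, Dw m (f s) x ^ 2 ∂(μ s)
    have hD : 0 ≤ D := integral_nonneg fun _ => sq_nonneg _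
    have c1 : √D * √l ≤ 1 / 2 * D + l / 2 := by
      nlinarith [Real.sq_sqrt hD, Real.sq_sqrt hl, sq_nonneg (√D - √l)]
    have c2 : η / 4 / (√l + 1) * √l ≤ η / 4 := by
      rw [div_mul_eq_mul_div, div_le_iff₀ (by positivity)]
      nlinarith
    have c3 := mul_le_mul_of_nonneg_left c1 hx.le
    have c4 := mul_le_mul_of_nonneg_left c2 hx.le
    linarith

theorem Fam.dens (h : Fam m μ C y r δ l) {ω : X → ℝ} (hω : Wt ω) : ∃ P : ℝ, ∀ s ∈ Icc δ 1,
    ∃ p : X → ℝ, Dens m ω p P ∧ ∀ g : X → ℝ, ∫ x, g x ∂(μ s) = ip m ω g p := by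
  obtain ⟨c, hc, hb⟩ := hω.bdd
  refine ⟨C * c⁻¹, fun s hs => ?_⟩
  haveI := h.prob s hs
  obtain ⟨ρ, m1, b1, -, l2, l1, -, e⟩ := (h.adm s hs).exists_density
  have hi : ∀ x, |(ω x)⁻¹| ≤ c⁻¹ := fun x => by
    rw [abs_of_pos (inv_pos.2 (hω.pos x))]
    exact inv_anti₀ hc (hb x).1
  have e' : ∀ g : X → ℝ, ∫ x, g x ∂(μ s) = ip m ω g fun x => (ω x)⁻¹ * ρ x := fun g => by
    rw [e]
    unfold ip
    congr 1; ext x
    have := (hω.pos x).ne'
    field_simp
  refine ⟨fun x => (ω x)⁻¹ * ρ x, ⟨?_, ?_, ae_of_all _ fun x => ?_, ae_of_all _ fun x => ?_, ?_,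
    by positivity⟩, e'⟩
  · refine (l2.const_mul c⁻¹).mono (hω.meas.inv.mul m1).aestronglyMeasurable
      (ae_of_all _ fun x => ?_)
    rw [Real.norm_eq_abs, Real.norm_eq_abs, abs_mul, abs_mul]
    exact mul_le_mul_of_nonneg_right ((hi x).trans (le_abs_self _)) (abs_nonneg _)
  · exact l1.bdd_mul (c := c⁻¹) hω.meas.inv.aestronglyMeasurable (ae_of_all _ hi)
  · exact mul_nonneg (inv_pos.2 (hω.pos x)).le (b1 x).1
  · rw [mul_comm]
    exact mul_le_mul (b1 x).2 ((le_abs_self _).trans (hi x)) (inv_pos.2 (hω.pos x)).le C.2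
  · have := e' fun _ => 1
    simp only [ip, one_mul, integral_const, probReal_univ, smul_eq_mul] at this
    exact this.ge

theorem Fam.integral_usq (h : Fam m μ C y r δ l) {a : ℝ} (ha : r ^ 2 ≤ a) {s : ℝ}
    (hs : s ∈ Icc δ 1) : ∫ x, usq y a x ∂(μ s) = s ^ 2 * l / 2 := by
  rw [← h.mom s hs, ← integral_div]
  refine integral_congr_ae ?_
  filter_upwards [(h.adm' hs).inn] with x hx
  have : dist x y ^ 2 ≤ r ^ 2 := pow_le_pow_left₀ dist_nonneg hx 2
  exact min_eq_left (by nlinarith [sq_nonneg r])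

theorem Fam.grad_usq (h : Fam m μ C y r δ l) (hc : CDk m κ N) (hδ : 0 ≤ δ) {a : ℝ}
    (ha : r ^ 2 ≤ a) {s : ℝ} (hs : s ∈ Ico δ 1) :
    ∫ x, Dw m (usq y a) x ^ 2 ∂(μ s) = s ^ 2 * l := by
  have hs' : s ∈ Icc δ 1 := Ico_subset_Icc_self hs
  have ha0 : 0 ≤ a := (sq_nonneg r).trans ha
  have hu : IsSobolevLoc m (usq y a) := (BL.usq y ha0).sl
  have hl := h.l_nonneg
  have hs0 : 0 ≤ s := hδ.trans hs.1
  refine le_antisymm ?_ ?_
  · rw [← h.mom s hs']
    refine integral_mono_of_nonneg (ae_of_all _ fun _ => sq_nonneg _)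
      ((h.adm' hs').memLp (l2b_of_continuous (by fun_prop))).integrable_sq ?_
    filter_upwards [(h.adm' hs').ac.ae_le (Dw_usq_le (m := m) y ha0),
      (h.adm' hs').ac.ae_le (Dw_nonneg hu)] with x h1 h2
    exact pow_le_pow_left₀ h2 h1.1 2
  · set D := ∫ x, Dw m (usq y a) x ^ 2 ∂(μ s)
    have hD : 0 ≤ D := integral_nonneg fun _ => sq_nonneg _
    have h1 : s * l ≤ √D * √l := by
      refine le_of_forall_pos_le_add fun η hη => ?_
      have hle' := nhdsGT_le_of_mem hs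
      have w1 : ∀ᶠ x in 𝓝[>] s, x ∈ Ioi s := self_mem_nhdsWithin
      have w2 : ∀ᶠ x in 𝓝[>] s, x ∈ Icc δ 1 := hle' self_mem_nhdsWithin
      obtain ⟨x, a1, a5, a6⟩ := (((h.var hc hu hs' (η := η / (√l + 1))
        (by positivity)).filter_mono hle').and (w1.and w2)).exists
      have hx : 0 < x - s := sub_pos.2 a5
      rw [h.integral_usq ha a6, h.integral_usq ha hs', abs_of_pos hx] at a1
      have b2 := (le_abs_self _).trans a1
      have c2 : η / (√l + 1) * √l ≤ η := by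
        rw [div_mul_eq_mul_div, div_le_iff₀ (by positivity)]
        nlinarith
      have c3 := mul_le_mul_of_nonneg_left c2 hx.le
      have c4 : 0 ≤ (x - s) ^ 2 * l := by positivity
      refine le_of_mul_le_mul_left ?_ hx
      linarith
    rcases hl.eq_or_lt with e | hl'
    · rw [← e]; simpa using hD
    have h2 : s * √l ≤ √D := by
      refine le_of_mul_le_mul_right ?_ (Real.sqrt_pos.2 hl')
      rwa [mul_assoc, Real.mul_self_sqrt hl]
    have h3 := pow_le_pow_left₀ (by positivity) h2 2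
    rwa [mul_pow, Real.sq_sqrt hl, Real.sq_sqrt hD] at h3

end Crest.Agent.R242
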