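import Crest.Agent.R242.ActionAux3
import Crest.Agent.R242.ActionAux4

/-!
Row 242: the action estimate for a fixed family.
-/

set_option autoImplicit false
set_option linter.unusedSectionVars false

open MeasureTheory Set Filter Metric Crest.GeometryTopology.SyntheticRicci
open scoped ENNReal NNReal Topology

namespace Crest.Agent.R242

variable {X : Type*} [MetricSpace X] [ProperSpace X] [MeasurableSpace X] [BorelSpace X]
  {m : Measure X} [IsLocallyFiniteMeasure m] {F G Ft φ ω : X → ℝ} {ε CL k τ₀ κ N : ℝ}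

theorem action_taylor0 (H : IsInfHilbertian m) (hω : Wt ω) (hφ : MemLp φ 2 m) {b δ s s' : ℝ}
    (hb : 0 < b) (hδ : 0 < δ) (hs : δ ≤ s) (hs' : δ ≤ s') :
    nw m ω (fun x => Res m ω (b * s') φ x - Res m ω (b * s) φ x -
      (s' - s) / s * (Res m ω (b * s) (Res m ω (b * s) φ) x - Res m ω (b * s) φ x)) ≤
      (s' - s) ^ 2 * (4 / δ ^ 2 * nw m ω φ) := by
  have h0 : 0 < s := hδ.trans_le hs
  have h0' : 0 < s' := hδ.trans_le hs'
  have h1 := nw_Res_taylor H hω (c := b * s) (c' := b * s') (by positivity) (by positivity) hφ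
  have e1 : (b * s' - b * s) / (b * s) = (s' - s) / s := by field_simp
  have e2 : (b * s' - b * s) ^ 2 * (2 / (b * s') ^ 2 + 2 / (b * s * (b * s'))) =
      (s' - s) ^ 2 * (2 / s' ^ 2 + 2 / (s * s')) := by field_simp
  rw [e1, e2, mul_assoc] at h1
  refine h1.trans (mul_le_mul_of_nonneg_left (mul_le_mul_of_nonneg_right ?_ (nw_nonneg _))
    (sq_nonneg _))
  have a1 : 2 / s' ^ 2 ≤ 2 / δ ^ 2 := by gcongr
  have a2 : 2 / (s * s') ≤ 2 / δ ^ 2 := by rw [sq]; gcongr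
  have a3 : 4 / δ ^ 2 = 2 / δ ^ 2 + 2 / δ ^ 2 := by ring
  linarith

theorem action_taylor (H : IsInfHilbertian m) (hω : Wt ω) (hφ : MemLp φ 2 m) (hF : MemLp Ft 2 m)
    (hε : 0 < ε) {t δ s : ℝ} (ht : 0 < t) (hδ : 0 < δ) (hs : δ ≤ s) {R : ℝ → (X → ℝ) → X → ℝ}
    (hR : ∀ s, R s = Res m ω (ε * (t * s))) : ∃ K : ℝ, ∀ s', δ ≤ s' →
    nw m ω (fun x => (-s'⁻¹ * R s' φ x + -t * R s' Ft x) - (-s⁻¹ * R s φ x + -t * R s Ft x) -
      (s' - s) * ((s ^ 2)⁻¹ * R s φ x - (s ^ 2)⁻¹ * (R s (R s φ) x - R s φ x) -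
        t / s * (R s (R s Ft) x - R s Ft x))) ≤ K * (s' - s) ^ 2 := by
  have hR' : ∀ s, R s = Res m ω (ε * t * s) := fun s => by rw [hR, mul_assoc]
  have h0 : 0 < s := hδ.trans_le hs
  have l : ∀ s, δ ≤ s → ∀ f, MemLp f 2 m → MemLp (R s f) 2 m := fun s hs f hf => by
    have h0 : 0 < s := hδ.trans_le hs
    rw [hR]; exact memLp_Res H hω (by positivity) hf
  refine ⟨δ⁻¹ * (4 / δ ^ 2 * nw m ω φ) + t * (4 / δ ^ 2 * nw m ω Ft) +
    (s ^ 2 * δ)⁻¹ * nw m ω (fun x => R s (R s φ) x - 2 * R s φ x), fun s' hs' => ?_⟩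
  have h0' : 0 < s' := hδ.trans_le hs'
  have a1 := action_taylor0 H hω hφ (mul_pos hε ht) hδ hs hs'
  have a2 := action_taylor0 H hω hF (mul_pos hε ht) hδ hs hs'
  rw [← hR', ← hR'] at a1 a2
  have m1 : ∀ f, MemLp f 2 m → MemLp (fun x => R s' f x - R s f x -
      (s' - s) / s * (R s (R s f) x - R s f x)) 2 m := fun f hf =>
    ((l _ hs' _ hf).sub (l _ hs _ hf)).sub
      (((l _ hs _ (l _ hs _ hf)).sub (l _ hs _ hf)).const_mul _)
  have m2 : MemLp (fun x => R s (R s φ) x - 2 * R s φ x) 2 m :=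
    (l _ hs _ (l _ hs _ hφ)).sub ((l _ hs _ hφ).const_mul _)
  have e : (fun x => (-s'⁻¹ * R s' φ x + -t * R s' Ft x) - (-s⁻¹ * R s φ x + -t * R s Ft x) -
      (s' - s) * ((s ^ 2)⁻¹ * R s φ x - (s ^ 2)⁻¹ * (R s (R s φ) x - R s φ x) -
        t / s * (R s (R s Ft) x - R s Ft x))) = fun x =>
      1 * (-s'⁻¹ * (R s' φ x - R s φ x - (s' - s) / s * (R s (R s φ) x - R s φ x)) +
        -t * (R s' Ft x - R s Ft x - (s' - s) / s * (R s (R s Ft) x - R s Ft x))) +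
        ((s' - s) ^ 2 * (s ^ 2 * s')⁻¹) * (R s (R s φ) x - 2 * R s φ x) := by
    ext x; field_simp; ring
  rw [e]
  refine (nw_lin_le hω (((m1 φ hφ).const_mul _).add ((m1 Ft hF).const_mul _)) m2 _ _).trans ?_
  have a3 := nw_lin_le hω (m1 φ hφ) (m1 Ft hF) (-s'⁻¹) (-t)
  rw [abs_neg, abs_neg, abs_of_pos ht, abs_of_pos (inv_pos.2 h0')] at a3
  have n1 := nw_nonneg (m := m) (ω := ω) φ
  have b1 := mul_le_mul (inv_anti₀ hδ hs') a1 (nw_nonneg _) (by positivity)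
  have b2 := mul_le_mul_of_nonneg_left a2 ht.le
  have b3 : (s ^ 2 * s')⁻¹ ≤ (s ^ 2 * δ)⁻¹ := inv_anti₀ (by positivity) (by gcongr)
  have b4 := mul_le_mul_of_nonneg_left (mul_le_mul_of_nonneg_right b3
    (nw_nonneg (m := m) (ω := ω) (fun x => R s (R s φ) x - 2 * R s φ x))) (sq_nonneg (s' - s))
  rw [abs_one, one_mul, abs_of_nonneg (by positivity)]
  refine (add_le_add_left a3 _).trans ?_
  linarith

variable {μ : ℝ → Measure X} {C : ℝ≥0} {y : X} {r δ l : ℝ}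

/-- the action estimate in terms of an abstract potential -/
theorem action_abs [m.IsOpenPosMeasure] (hc : CDk m κ N) (h : RS m k τ₀) (hF : BL F)
    (hG : Measurable G) {B : ℝ}
    (hB : ∀ x, |G x| ≤ B) (hB0 : 0 ≤ B) (hH : HasWeakHessLe m F G) (hε : 0 < ε) (hφb : BL φ)
    (hφ : IsSobolev m φ) {a : ℝ} (ha : 0 ≤ a) (hDφ : ∀ᵐ x ∂m, Dw m φ x ^ 2 ≤ 2 * (a - φ x))
    (hCL : 0 ≤ CL) (hlap : ∀ v, IsSobolev m v → (∀ᵐ x ∂m, 0 ≤ v x) → Integrable v m →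
      ∫ x, Gm m φ v x ∂m ≤ CL * ∫ x, v x ∂m) (hFb : BL Ft) (hFs : IsSobolev m Ft)
    (hFF : ∀ᵐ x ∂m, Gm m φ Ft x = Gm m φ F x) (hμ : Fam m μ C y r δ l) (hδ : 0 < δ)
    (h1 : ∀ s ∈ Icc δ 1, ∫ x, φ x ∂(μ s) = a - s ^ 2 * l / 2) {w₀ : ℝ}
    (h2 : ∀ s ∈ Ioo δ 1, ∫ x, (ε * k / 2 + G x) * Dw m φ x ^ 2 ∂(μ s) ≤ w₀ * (s ^ 2 * l))
    {p₁ : X → ℝ} (hp₁ : IsSobolev m p₁) (e₁ : ∀ g : X → ℝ, ∫ x, g x ∂(μ 1) = ip m (wt F ε) g p₁) :
    ε * ∫ x, Gm m p₁ φ x * wt F ε x ∂m ≤ ∫ x, Ft x ∂(μ 1) - ∫ x, Ft x ∂(μ δ) + ε * CL -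
      ∫ x, Gm m φ F x ∂(μ δ) + (1 - δ ^ 2) / 2 * (w₀ * l) + ε * CL / δ := by
  have H := h.hilb
  have hω := Wt.wt hF ε
  obtain ⟨P, hP⟩ := hμ.dens hω
  choose! p hp ep using hP
  have i0 : δ ∈ Icc δ 1 := ⟨le_rfl, hμ.δ_le⟩
  have i1 : (1 : ℝ) ∈ Icc δ 1 := ⟨hμ.δ_le, le_rfl⟩
  refine le_of_forall_pos_le_add fun η' hη' => ?_
  obtain ⟨η, hη, rfl⟩ : ∃ η : ℝ, 0 < η ∧ η' = 5 * η := ⟨η' / 5, by positivity, by ring⟩
  obtain ⟨t₁, ht₁, k1⟩ := action_key h hF hG hB hB0 hH hε hφb hφ ha hDφ hCL hlap hFb hFs hFF P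
    hδ hη
  obtain ⟨t₂, ht₂, k2⟩ := action_start H hF hε hφ hCL hlap P hη
  obtain ⟨t₃, ht₃, k3⟩ := action_end H hω hε hφ hp₁ hη
  obtain ⟨c₄, hc₄, k4⟩ := nw_Res_tendsto H hω hFs.1 (η := η / (√P + 1)) (by positivity)
  obtain ⟨t, ht, t1, t2, t3, t4⟩ : ∃ t : ℝ, 0 < t ∧ t ≤ t₁ ∧ t ≤ t₂ ∧ t ≤ t₃ ∧ ε * t ≤ c₄ := by
    refine ⟨min (min t₁ t₂) (min t₃ (c₄ / ε)), by positivity, ?_, ?_, ?_, ?_⟩
    · exact (min_le_left _ _).trans (min_le_left _ _)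
    · exact (min_le_left _ _).trans (min_le_right _ _)
    · exact (min_le_right _ _).trans (min_le_left _ _)
    · rw [← le_div_iff₀' hε]
      exact (min_le_right _ _).trans (min_le_right _ _)
  obtain ⟨R, hR⟩ : ∃ R : ℝ → (X → ℝ) → X → ℝ, ∀ s, R s = Res m (wt F ε) (ε * (t * s)) :=
    ⟨_, fun _ => rfl⟩
  have sb : ∀ s ∈ Icc δ 1, ∀ f, MemLp f 2 m → IsSobolev m (R s f) := fun s hs f hf => by
    have h0 : 0 < s := hδ.trans_le hs.1
    rw [hR]; exact sob_Res H hω (by positivity) hf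
  have sf : ∀ s ∈ Icc δ 1, IsSobolev m fun x => -s⁻¹ * R s φ x + -t * R s Ft x := fun s hs =>
    sob_add (sob_const_mul (sb s hs φ hφ.1) _) (sob_const_mul (sb s hs Ft hFs.1) _)
  have sg : ∀ s ∈ Icc δ 1, MemLp (fun x => (s ^ 2)⁻¹ * R s φ x -
      (s ^ 2)⁻¹ * (R s (R s φ) x - R s φ x) - t / s * (R s (R s Ft) x - R s Ft x)) 2 m :=
    fun s hs => (((sb s hs φ hφ.1).1.const_mul _).sub
      (((sb s hs _ (sb s hs φ hφ.1).1).1.sub (sb s hs φ hφ.1).1).const_mul _)).sub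
      (((sb s hs _ (sb s hs Ft hFs.1).1).1.sub (sb s hs Ft hFs.1).1).const_mul _)
  have main := hμ.action hc (f := fun s x => -s⁻¹ * R s φ x + -t * R s Ft x)
    (g := fun s x => (s ^ 2)⁻¹ * R s φ x - (s ^ 2)⁻¹ * (R s (R s φ) x - R s φ x) -
      t / s * (R s (R s Ft) x - R s Ft x))
    (Ψ := fun s => -a * s⁻¹ + (l / 2 + t * (ε * CL / δ + η)) * s + t * (w₀ * l) / 2 * s ^ 2)
    (Ψ' := fun s => a / s ^ 2 + (l / 2 + t * (ε * CL / δ + η)) + t * (w₀ * l) * s)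
    (fun s hs => (sf s hs).2.1) (fun s hs => l2b_of_memLp (sg s hs)) (fun s hs => by
      obtain ⟨K, hK⟩ := action_taylor H hω hφ.1 hFs.1 hε ht hδ hs.1 hR
      refine ⟨K * √P, fun s' hs' => ?_⟩
      rw [ep s' hs']
      refine (abs_ip_le hω (((sf s' hs').1.sub (sf s hs).1).sub ((sg s hs).const_mul _))
        (hp s' hs').l2).trans ?_
      rw [mul_right_comm]
      exact mul_le_mul (hK s' hs'.1) ((hp s' hs').nw_le hω) (nw_nonneg _)
        ((nw_nonneg _).trans (hK s' hs'.1)))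
    (fun s hs => by
      have h0 : s ≠ 0 := (hδ.trans_le hs.1).ne'
      have := (((hasDerivAt_inv h0).const_mul (-a)).add
        ((hasDerivAt_id' s).const_mul (l / 2 + t * (ε * CL / δ + η)))).add
        ((hasDerivAt_pow 2 s).const_mul (t * (w₀ * l) / 2))
      refine this.congr_deriv ?_
      rw [div_eq_mul_inv a]
      push_cast
      ring)
    (fun s hs => by
      have hs' := Ioo_subset_Icc_self hs
      have h0 : 0 < s := hδ.trans hs.1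
      have a1 := k1 t ht t1 s hs' (p s) (hp s hs') (R s) (hR s)
      rw [← ep s hs', ← ep s hs', ← ep s hs'] at a1
      have a2 : s⁻¹ * ∫ x, (ε * k / 2 + G x) * Dw m φ x ^ 2 ∂(μ s) ≤ w₀ * l * s := by
        refine (mul_le_mul_of_nonneg_left (h2 s hs) (inv_pos.2 h0).le).trans (le_of_eq ?_)
        field_simp
      have a3 := mul_le_mul_of_nonneg_left a2 ht.le
      linarith)
  have split : ∀ s ∈ Icc δ 1, ∫ x, (-s⁻¹ * R s φ x + -t * R s Ft x) ∂(μ s) =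
      -s⁻¹ * ∫ x, R s φ x ∂(μ s) + -t * ∫ x, R s Ft x ∂(μ s) := fun s hs =>
    integral_lin2 ((hμ.adm' hs).integrable (sb s hs φ hφ.1).2.1.1)
      ((hμ.adm' hs).integrable (sb s hs Ft hFs.1).2.1.1) _ _
  have cF : ∀ s ∈ Icc δ 1, |∫ x, R s Ft x ∂(μ s) - ∫ x, Ft x ∂(μ s)| ≤ η := fun s hs => by
    have h0 : 0 < s := hδ.trans_le hs.1
    rw [ep s hs, ep s hs, ← ip_sub hω (sb s hs Ft hFs.1).1 hFs.1 (hp s hs).l2]
    refine (abs_ip_le hω ((sb s hs Ft hFs.1).1.sub hFs.1) (hp s hs).l2).trans ?_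
    have a1 := k4 (ε * (t * s)) (by positivity)
      ((mul_le_mul_of_nonneg_left (mul_le_of_le_one_right ht.le hs.2) hε.le).trans t4)
    rw [← hR] at a1
    refine (mul_le_mul a1 (((hp s hs).nw_le hω).trans (le_add_of_nonneg_right zero_le_one))
      (nw_nonneg _) (by positivity)).trans (le_of_eq ?_)
    field_simp
  have e1 := k3 (t * 1) (by positivity) (by rwa [mul_one])
  rw [← hR, ← e₁, ← e₁, h1 1 i1] at e1
  have e2 := k2 (t * δ) (by positivity) ((mul_le_of_le_one_right ht.le hμ.δ_le).trans t2) (p δ)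
    (hp δ i0)
  rw [← hR, ← ep δ i0, ← ep δ i0, ← ep δ i0, h1 δ i0] at e2
  have e3 := mul_le_mul_of_nonneg_left e2 (inv_pos.2 hδ).le
  have e4 : δ⁻¹ * (t * δ * (ε * CL - ∫ x, Gm m φ F x ∂(μ δ) + η)) =
      t * (ε * CL - ∫ x, Gm m φ F x ∂(μ δ) + η) := by field_simp
  have e5 : δ⁻¹ * (δ ^ 2 * l / 2) = δ * l / 2 := by field_simp
  have e6 := mul_le_mul_of_nonneg_left ((le_abs_self _).trans (cF 1 i1)) ht.le
  have e7 := mul_le_mul_of_nonneg_left ((neg_le_abs _).trans (cF δ i0)) ht.le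
  have e8 : 0 ≤ t * (ε * CL / δ + η) * δ := by positivity
  rw [split 1 i1, split δ i0, inv_one] at main
  refine le_of_mul_le_mul_left ?_ ht
  rw [e4] at e3
  linarith

end Crest.Agent.R242
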