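import Crest.Agent.R242.Boch1

/-!
Row 242: the Bochner inequality.
-/

set_option autoImplicit false

open MeasureTheory Set Filter Metric Crest.GeometryTopology.SyntheticRicci
open scoped ENNReal NNReal Topology

namespace Crest.Agent.R242

theorem boch_int_mul {Ω : Type*} [MeasurableSpace Ω] {μ : Measure Ω} {u v : Ω → ℝ}
    (hu : MemLp u 2 μ) (hv : MemLp v 2 μ) : Integrable (fun x => u x * v x) μ :=
  hu.integrable_mul hv

/-- continuity of the `L²` pairing -/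
theorem boch_tendsto_pair {Ω ι : Type*} [MeasurableSpace Ω] {μ : Measure Ω} {l : Filter ι}
    {F : ι → Ω → ℝ} {f w : Ω → ℝ} (hF : ∀ᶠ i in l, MemLp (F i) 2 μ) (hf : MemLp f 2 μ)
    (hw : MemLp w 2 μ) (h : Tendsto (fun i => ∫ x, (F i x - f x) ^ 2 ∂μ) l (𝓝 0)) :
    Tendsto (fun i => ∫ x, F i x * w x ∂μ) l (𝓝 (∫ x, f x * w x ∂μ)) := by
  rw [tendsto_iff_norm_sub_tendsto_zero]
  have h1 : Tendsto (fun i => √(∫ x, (F i x - f x) ^ 2 ∂μ) * √(∫ x, w x ^ 2 ∂μ)) l (𝓝 0) := by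
    have := (h.sqrt).mul_const (√(∫ x, w x ^ 2 ∂μ))
    simpa using this
  refine squeeze_zero' (Eventually.of_forall fun _ => norm_nonneg _) ?_ h1
  filter_upwards [hF] with i hi
  have e : ∫ x, F i x * w x ∂μ - ∫ x, f x * w x ∂μ = ∫ x, (F i x - f x) * w x ∂μ := by
    rw [← integral_sub (boch_int_mul hi hw) (boch_int_mul hf hw)]
    congr 1
    funext x
    ring
  rw [e, Real.norm_eq_abs]
  exact abs_integral_mul_le (f := fun x => F i x - f x) (hi.sub hf) hw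

variable {X : Type*} [MetricSpace X] [ProperSpace X] [MeasurableSpace X] [BorelSpace X]
  {m : Measure X} [IsLocallyFiniteMeasure m] [m.IsOpenPosMeasure] {k τ₀ τ : ℝ} {f g g' : X → ℝ}

omit [m.IsOpenPosMeasure] in
/-- continuity of `v ↦ ∫ Γ(g, v) u` for a bounded gradient of `g` -/
theorem boch_tendsto_Gm {ι : Type*} {l : Filter ι} (H : IsInfHilbertian m)
    (hg : IsSobolevLoc m g) {L : ℝ} (hL : ∀ᵐ x ∂m, Dw m g x ≤ L) {V : ι → X → ℝ} {v u : X → ℝ}
    (hV : ∀ᶠ i in l, IsSobolev m (V i)) (hv : IsSobolev m v) (hu : MemLp u 2 m)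
    (h : Tendsto (fun i => ∫ x, Dw m (fun y => V i y - v y) x ^ 2 ∂m) l (𝓝 0)) :
    Tendsto (fun i => ∫ x, Gm m g (V i) x * u x ∂m) l (𝓝 (∫ x, Gm m g v x * u x ∂m)) := by
  refine boch_tendsto_pair (hV.mono fun i hi => memLp_Gm H hg hi hL) (memLp_Gm H hg hv hL) hu ?_
  have h1 : Tendsto (fun i => L ^ 2 * ∫ x, Dw m (fun y => V i y - v y) x ^ 2 ∂m) l (𝓝 0) := by
    simpa using h.const_mul (L ^ 2)
  refine squeeze_zero' (Eventually.of_forall fun _ => integral_nonneg fun _ => sq_nonneg _) ?_ h1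
  filter_upwards [hV] with i hi
  have hs := sob_sub hi hv
  rw [← integral_const_mul]
  refine integral_mono_ae ?_ ?_ ?_
  · exact ((memLp_Gm H hg hi hL).sub (memLp_Gm H hg hv hL)).integrable_sq
  · exact (hs.2.2.integrable_sq).const_mul _
  · filter_upwards [Gm_sub_right H (sob_sl hi) (sob_sl hv) hg, abs_Gm_le H hg (sob_sl hs), hL,
      Dw_nonneg hg, Dw_nonneg (sob_sl hs)] with x e1 e2 e3 e4 e5
    rw [← e1, ← mul_pow, ← sq_abs]
    refine pow_le_pow_left₀ (abs_nonneg _) (e2.trans ?_) 2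
    exact mul_le_mul_of_nonneg_right e3 e5

omit [m.IsOpenPosMeasure] in
/-- continuity of the energy form -/
theorem boch_tendsto_energy {ι : Type*} {l : Filter ι} (H : IsInfHilbertian m)
    {V : ι → X → ℝ} {v u : X → ℝ}
    (hV : ∀ᶠ i in l, IsSobolev m (V i)) (hv : IsSobolev m v) (hu : IsSobolev m u)
    (h : Tendsto (fun i => ∫ x, Dw m (fun y => V i y - v y) x ^ 2 ∂m) l (𝓝 0)) :
    Tendsto (fun i => ∫ x, Gm m (V i) u x ∂m) l (𝓝 (∫ x, Gm m v u x ∂m)) := by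
  rw [tendsto_iff_norm_sub_tendsto_zero]
  have h1 : Tendsto (fun i => 1 * (√(∫ x, Dw m (fun y => V i y - v y) x ^ 2 ∂m) *
      √(∫ x, Dw m u x ^ 2 ∂m))) l (𝓝 0) := by
    have := (h.sqrt).mul_const (√(∫ x, Dw m u x ^ 2 ∂m))
    simpa using this
  refine squeeze_zero' (Eventually.of_forall fun _ => norm_nonneg _) ?_ h1
  filter_upwards [hV] with i hi
  have e : ∫ x, Gm m (V i) u x ∂m - ∫ x, Gm m v u x ∂m =
      ∫ x, Gm m (fun y => V i y - v y) u x * 1 ∂m := by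
    rw [← integral_sub (integrable_Gm H hi hu) (integrable_Gm H hv hu)]
    refine integral_congr_ae ?_
    filter_upwards [Gm_sub_left H (sob_sl hi) (sob_sl hv) (sob_sl hu)] with x e1
    rw [e1, mul_one]
  rw [e, Real.norm_eq_abs]
  exact abs_integral_Gm_mul_le H (sob_sub hi hv) hu (w := fun _ => 1) aemeasurable_const
    (Eventually.of_forall fun _ => by simp)

theorem boch_memLp_mul_bdd {Ω : Type*} [MeasurableSpace Ω] {μ : Measure Ω} {u v : Ω → ℝ}
    (hu : MemLp u 2 μ) (hv : AEMeasurable v μ) {B : ℝ}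
    (hB : ∀ᵐ x ∂μ, |v x| ≤ B) : MemLp (fun x => u x * v x) 2 μ := by
  refine (hu.const_mul B).mono (hu.1.mul hv.aestronglyMeasurable) ?_
  filter_upwards [hB] with x hx
  rw [Real.norm_eq_abs, Real.norm_eq_abs, abs_mul, abs_mul, mul_comm]
  exact mul_le_mul_of_nonneg_right (hx.trans (le_abs_self _)) (abs_nonneg _)

theorem Good.boch_memLp_sq (hg : Good m g) : MemLp (fun y => Dw m g y ^ 2) 2 m := by
  obtain ⟨L, hL⟩ := hg.bl.Dw_le (m := m)
  have h := boch_memLp_mul_bdd hg.sob.2.2 (Dw_aemeasurable (sob_sl hg.sob)) (B := L) (by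
    filter_upwards [hL, Dw_nonneg (sob_sl hg.sob)] with x h1 h2
    rwa [abs_of_nonneg h2])
  simpa only [sq] using h

/-- the Bochner inequality against functions in the domain of the Laplacian -/
theorem boch_pre (h : RS m k τ₀) (hg : Good m g) {u Lu : X → ℝ} (hu : IsWeakLaplacian m u Lu)
    (h0 : ∀ᵐ x ∂m, 0 ≤ u x) :
    2 * ∫ x, Gm m g (Lap m g) x * u x ∂m ≤
      k * ∫ x, u x * Dw m g x ^ 2 ∂m + ∫ x, Lu x * Dw m g x ^ 2 ∂m := by
  have H := h.hilb
  obtain ⟨L, hL⟩ := hg.bl.Dw_le (m := m)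
  have hW := hg.boch_memLp_sq
  have hD := hg.sob_Lap
  have hu2 : MemLp u 2 m := hu.1.1
  have hLu : MemLp Lu 2 m := hu.2.1
  have hgl := sob_sl hg.sob
  -- the inequality at positive times
  have key : ∀ τ, 0 < τ → τ ≤ τ₀ →
      (1 - k * τ) * (2 * ∫ x, Gm m g (Jr m τ (Lap m g)) x * u x ∂m) ≤
        k * ∫ x, u x * Dw m g x ^ 2 ∂m + ∫ x, Jr m τ Lu x * Dw m g x ^ 2 ∂m := by
    intro τ hτ hτ'
    have hkτ : k * τ ≤ 1 / 2 := (mul_le_mul_of_nonneg_left hτ' h.k_nonneg).trans h.kτ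
    have hpos : 0 < 1 - k * τ := by linarith
    have hJD : IsSobolev m (Jr m τ (Lap m g)) := sob_Res H Wt.one hτ hD.1
    have hJg : IsSobolev m (Jr m τ g) := sob_Res H Wt.one hτ hg.sob.1
    have hJW : IsSobolev m (Jr m τ fun y => Dw m g y ^ 2) := sob_Res H Wt.one hτ hW
    have hJL : IsSobolev m (Jr m τ Lu) := sob_Res H Wt.one hτ hLu
    have hJu : IsSobolev m (Jr m τ u) := sob_Res H Wt.one hτ hu2
    have hcD := sl_const_mul (sob_sl hJD) τ
    have e1 : Jr m τ g =ᵐ[m] fun y => g y + τ * Jr m τ (Lap m g) y := by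
      filter_upwards [Jr_sub_self H hτ hg.weakLap] with x hx
      linarith
    have hG : MemLp (Gm m g (Jr m τ (Lap m g))) 2 m := memLp_Gm H hgl hJD hL
    have hpt : ∀ᵐ x ∂m, (1 - k * τ) * (u x * Dw m g x ^ 2 +
        2 * τ * (Gm m g (Jr m τ (Lap m g)) x * u x)) ≤
          u x * Jr m τ (fun y => Dw m g y ^ 2) x * 1 := by
      filter_upwards [h.grad τ hτ hτ' g hg.bl hg.sob, Dw_congr (sob_sl hJg) e1,
        Dw_add_sq H hgl hcD, Gm_const_mul_right H (sob_sl hJD) hgl τ, h0] with x a1 a2 a3 a4 a5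
      rw [a2, a3, a4] at a1
      have a6 : (1 - k * τ) * (Dw m g x ^ 2 + 2 * (τ * Gm m g (Jr m τ (Lap m g)) x)) ≤
          Jr m τ (fun y => Dw m g y ^ 2) x := by
        have a7 := mul_le_mul_of_nonneg_left a1 hpos.le
        rw [mul_inv_cancel_left₀ hpos.ne'] at a7
        refine le_trans (mul_le_mul_of_nonneg_left ?_ hpos.le) a7
        nlinarith [sq_nonneg (Dw m (fun y => τ * Jr m τ (Lap m g) y) x)]
      have a8 := mul_le_mul_of_nonneg_left a6 a5
      nlinarith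
    have i1 : Integrable (fun x => u x * Dw m g x ^ 2) m := hu2.integrable_mul hW
    have i2 : Integrable (fun x => Gm m g (Jr m τ (Lap m g)) x * u x) m := hG.integrable_mul hu2
    have i3 : Integrable (fun x => u x * Jr m τ (fun y => Dw m g y ^ 2) x * 1) m :=
      (hu2.integrable_mul hJW.1).mul_const 1
    have i4 : Integrable (fun x => Jr m τ Lu x * Dw m g x ^ 2) m := hJL.1.integrable_mul hW
    have hint := integral_mono_ae ((i1.add (i2.const_mul (2 * τ))).const_mul (1 - k * τ)) i3 hpt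
    have e2 : ∫ x, u x * Jr m τ (fun y => Dw m g y ^ 2) x * 1 ∂m =
        ∫ x, u x * Dw m g x ^ 2 ∂m + τ * ∫ x, Jr m τ Lu x * Dw m g x ^ 2 ∂m := by
      rw [← Res_symm H Wt.one hτ hu2 hW, ← integral_const_mul, ← integral_add i1 (i4.const_mul τ)]
      refine integral_congr_ae ?_
      filter_upwards [Jr_sub_self H hτ hu] with x hx
      have : Jr m τ u x = u x + τ * Jr m τ Lu x := by linarith
      change Jr m τ u x * Dw m g x ^ 2 * 1 = _
      rw [this]
      ring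
    rw [e2, integral_const_mul] at hint
    have e3 : ∫ x, ((fun x => u x * Dw m g x ^ 2) +
        fun x => 2 * τ * (Gm m g (Jr m τ (Lap m g)) x * u x)) x ∂m =
        ∫ x, u x * Dw m g x ^ 2 ∂m + 2 * τ * ∫ x, Gm m g (Jr m τ (Lap m g)) x * u x ∂m := by
      rw [← integral_const_mul, ← integral_add i1 (i2.const_mul (2 * τ))]
      rfl
    rw [e3] at hint
    refine le_of_mul_le_mul_left ?_ hτ
    nlinarith
  have hev : ∀ᶠ τ in 𝓝[>] (0 : ℝ), 0 < τ ∧ τ ≤ τ₀ := by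
    filter_upwards [Ioc_mem_nhdsGT h.τ_pos] with τ hτ using hτ
  have t1 : Tendsto (fun τ => ∫ x, Gm m g (Jr m τ (Lap m g)) x * u x ∂m) (𝓝[>] 0)
      (𝓝 (∫ x, Gm m g (Lap m g) x * u x ∂m)) :=
    boch_tendsto_Gm H hgl hL (hev.mono fun τ hτ => sob_Res H Wt.one hτ.1 hD.1) hD hu2
      (Res_tendsto_sob H Wt.one hD)
  have t2 : Tendsto (fun τ => ∫ x, Jr m τ Lu x * Dw m g x ^ 2 ∂m) (𝓝[>] 0)
      (𝓝 (∫ x, Lu x * Dw m g x ^ 2 ∂m)) :=
    boch_tendsto_pair (hev.mono fun τ hτ => (sob_Res H Wt.one hτ.1 hLu).1) hLu hW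
      (Res_tendsto H Wt.one hLu)
  have t3 : Tendsto (fun τ : ℝ => 1 - k * τ) (𝓝[>] 0) (𝓝 1) := by
    have : Tendsto (fun τ : ℝ => 1 - k * τ) (𝓝 0) (𝓝 (1 - k * 0)) :=
      (continuous_const.sub (continuous_const.mul continuous_id)).tendsto 0
    simpa using this.mono_left nhdsWithin_le_nhds
  have t4 := t3.mul (t1.const_mul 2)
  rw [one_mul] at t4
  exact le_of_tendsto_of_tendsto t4 (t2.const_add _) (hev.mono fun τ hτ => key τ hτ.1 hτ.2)

theorem Good.sob_Gm_self (h : RS m k τ₀) (hg : Good m g) : IsSobolev m (Gm m g g) := by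
  have H := h.hilb
  obtain ⟨L, hL⟩ := hg.bl.Dw_le (m := m)
  have hW := hg.boch_memLp_sq
  have hD := hg.sob_Lap
  have hgl := sob_sl hg.sob
  have hG : MemLp (Gm m g (Lap m g)) 2 m := memLp_Gm H hgl hD hL
  refine sob_congr (f := fun y => Dw m g y ^ 2) ?_ ((Gm_self hgl).mono fun x hx => hx.symm)
  refine sob_of_approx_energy H hW (c₀ := 1) (M := k * (√(∫ x, (Dw m g x ^ 2) ^ 2 ∂m) *
    √(∫ x, (Dw m g x ^ 2) ^ 2 ∂m)) + 2 * (√(∫ x, Gm m g (Lap m g) x ^ 2 ∂m) *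
      √(∫ x, (Dw m g x ^ 2) ^ 2 ∂m))) one_pos ?_
  intro c hc _
  have hu := weakLap_Jr H hc hW
  have hu2 : MemLp (Jr m c fun y => Dw m g y ^ 2) 2 m := hu.1.1
  have hpre := boch_pre h hg hu
    (Res_nonneg H Wt.one hc hW (Eventually.of_forall fun _ => sq_nonneg _))
  have hn : √(∫ x, Jr m c (fun y => Dw m g y ^ 2) x ^ 2 ∂m) ≤ √(∫ x, (Dw m g x ^ 2) ^ 2 ∂m) := by
    have := (Res_energy H Wt.one hc hW).1
    simp only [mul_one] at this
    exact Real.sqrt_le_sqrt this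
  have b1 := (abs_le.mp (abs_integral_mul_le hu2 hW)).2
  have b2 := (abs_le.mp (abs_integral_mul_le hG hu2)).1
  have e : ∫ x, (Dw m g x ^ 2 - Jr m c (fun y => Dw m g y ^ 2) x) * Dw m g x ^ 2 ∂m =
      -(c * ∫ x, (Jr m c (fun y => Dw m g y ^ 2) x - Dw m g x ^ 2) / c * Dw m g x ^ 2 ∂m) := by
    rw [← integral_const_mul, ← integral_neg]
    congr 1
    funext x
    field_simp
    ring
  rw [e, ← mul_neg]
  refine mul_le_mul_of_nonneg_left ?_ hc.le
  have b3 := mul_le_mul_of_nonneg_right hn (Real.sqrt_nonneg (∫ x, (Dw m g x ^ 2) ^ 2 ∂m))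
  have b4 := mul_le_mul_of_nonneg_left hn (Real.sqrt_nonneg (∫ x, Gm m g (Lap m g) x ^ 2 ∂m))
  have b5 := mul_le_mul_of_nonneg_left (b1.trans b3) h.k_nonneg
  linarith

theorem Good.sob_Gm (h : RS m k τ₀) (hg : Good m g) (hg' : Good m g') :
    IsSobolev m (Gm m g g') := by
  have H := h.hilb
  have h1 : Good m fun x => g x + g' x := by
    simpa using (hg.lin H hg' 1 1).1
  have h2 : Good m fun x => g x - g' x := by
    simpa [sub_eq_add_neg] using (hg.lin H hg' 1 (-1)).1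
  refine sob_congr (sob_const_mul (sob_sub (h1.sob_Gm_self h) (h2.sob_Gm_self h)) (1 / 4)) ?_
  filter_upwards [Gm_self (sob_sl h1.sob), Gm_self (sob_sl h2.sob)] with x e1 e2
  rw [e1, e2]
  change _ = (Dw m (fun y => g y + g' y) x ^ 2 - Dw m (fun y => g y - g' y) x ^ 2) / 4
  ring

/-- integration by parts -/
theorem boch_ibp (H : IsInfHilbertian m) (hg : Good m g) {w : X → ℝ} (hw : IsSobolev m w) :
    ∫ x, Gm m g (Lap m g) x * w x ∂m + ∫ x, Gm m g w x * Lap m g x ∂m =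
      -∫ x, w x * (Lap m g x * Lap m g x) ∂m := by
  obtain ⟨L, hL⟩ := hg.bl.Dw_le (m := m)
  obtain ⟨B, hB⟩ := hg.2
  have hD := hg.sob_Lap
  have hgl := sob_sl hg.sob
  have hG : MemLp (Gm m g (Lap m g)) 2 m := memLp_Gm H hgl hD hL
  have hDD : MemLp (fun x => Lap m g x * Lap m g x) 2 m :=
    boch_memLp_mul_bdd hD.1 hD.1.1.aemeasurable hB
  have bdd : ∀ p : X → ℝ, IsSobolev m p → ∀ a : ℝ, (∀ᵐ x ∂m, |p x| ≤ a) →
      ∫ x, p x * Gm m g (Lap m g) x ∂m + ∫ x, Gm m g p x * Lap m g x ∂m =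
        -∫ x, p x * (Lap m g x * Lap m g x) ∂m := by
    intro p hp a ha
    have hs := sob_mul_bdd hp hD ha hB
    have e := hg.weakLap.2.2 _ hs
    rw [← integral_add (boch_int_mul hp.1 hG) (boch_int_mul (memLp_Gm H hgl hp hL) hD.1)]
    have e1 : ∫ x, p x * (Lap m g x * Lap m g x) ∂m = ∫ x, Lap m g x * (p x * Lap m g x) ∂m := by
      congr 1
      funext x
      ring
    rw [e1, ← e]
    refine integral_congr_ae ?_
    filter_upwards [Gm_mul_right H (sob_sl hp) (sob_sl hD) (sob_sl hs) hgl] with x hx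
    change _ = Gm m g (fun y => p y * Lap m g y) x
    rw [hx]
    ring
  have hp : ∀ n : ℕ, IsSobolev m fun x => max (-(n : ℝ)) (min n (w x)) := by
    intro n
    refine sob_comp_lip hw (φ := fun t => max (-(n : ℝ)) (min n t)) (L := 1) ?_ ?_
    · exact (LipschitzWith.id.const_min _).const_max _
    · simp
  have hb : ∀ n : ℕ, ∀ᵐ x ∂m, |max (-(n : ℝ)) (min n (w x))| ≤ n := by
    intro n
    refine Eventually.of_forall fun x => abs_le.mpr ⟨le_max_left _ _, max_le ?_ (min_le_left _ _)⟩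
    have : (0 : ℝ) ≤ n := Nat.cast_nonneg n
    linarith
  obtain ⟨s1, s2⟩ := sob_trunc_tendsto hw
  have s1' : Tendsto (fun n : ℕ => ∫ x, (max (-(n : ℝ)) (min n (w x)) - w x) ^ 2 ∂m) atTop
      (𝓝 0) := by
    refine s1.congr fun n => ?_
    congr 1
    funext x
    ring
  have s2' : Tendsto (fun n : ℕ => ∫ x, Dw m (fun y => max (-(n : ℝ)) (min n (w y)) - w y) x ^ 2 ∂m)
      atTop (𝓝 0) := by
    refine s2.congr fun n => integral_congr_ae ?_
    filter_upwards [Dw_sub_comm (sob_sl hw) (sob_sl (hp n))] with x hx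
    rw [hx]
  have t1 := boch_tendsto_pair (F := fun (n : ℕ) x => max (-(n : ℝ)) (min n (w x)))
    (Eventually.of_forall fun n => (hp n).1) hw.1 hG s1'
  have t2 := boch_tendsto_Gm H hgl hL (V := fun (n : ℕ) x => max (-(n : ℝ)) (min n (w x)))
    (Eventually.of_forall hp) hw hD.1 s2'
  have t3 := boch_tendsto_pair (F := fun (n : ℕ) x => max (-(n : ℝ)) (min n (w x)))
    (Eventually.of_forall fun n => (hp n).1) hw.1 hDD s1'
  have e := tendsto_nhds_unique (t1.add t2) (t3.neg.congr fun n => (bdd _ (hp n) n (hb n)).symm)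
  rw [← e]
  congr 2
  funext x
  ring

/-- the Bochner inequality -/
theorem bochner (h : RS m k τ₀) (hg : Good m g) {w : X → ℝ} (hw : IsSobolev m w)
    (h0 : ∀ᵐ x ∂m, 0 ≤ w x) :
    -(k / 2 * ∫ x, w x * Gm m g g x ∂m) ≤ -(1 / 2 * ∫ x, Gm m w (Gm m g g) x ∂m) +
      ∫ x, (Gm m w g x + w x * Lap m g x) * Lap m g x ∂m := by
  have H := h.hilb
  obtain ⟨L, hL⟩ := hg.bl.Dw_le (m := m)
  obtain ⟨B, hB⟩ := hg.2
  have hD := hg.sob_Lap
  have hgl := sob_sl hg.sob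
  have hG : MemLp (Gm m g (Lap m g)) 2 m := memLp_Gm H hgl hD hL
  have hW := hg.sob_Gm_self h
  have hDD : MemLp (fun x => Lap m g x * Lap m g x) 2 m :=
    boch_memLp_mul_bdd hD.1 hD.1.1.aemeasurable hB
  have key : ∀ c : ℝ, 0 < c → 2 * ∫ x, Jr m c w x * Gm m g (Lap m g) x ∂m ≤
      k * ∫ x, Jr m c w x * Gm m g g x ∂m - ∫ x, Gm m (Jr m c w) (Gm m g g) x ∂m := by
    intro c hc
    have hu := weakLap_Jr H hc hw.1
    have hpre := boch_pre h hg hu (Res_nonneg H Wt.one hc hw.1 h0)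
    have e := hu.2.2 _ hW
    have e1 : ∫ x, Jr m c w x * Gm m g (Lap m g) x ∂m =
        ∫ x, Gm m g (Lap m g) x * Jr m c w x ∂m := by
      congr 1
      funext x
      ring
    have e2 : ∫ x, Jr m c w x * Gm m g g x ∂m = ∫ x, Jr m c w x * Dw m g x ^ 2 ∂m := by
      refine integral_congr_ae ?_
      filter_upwards [Gm_self hgl] with x hx
      rw [hx]
    have e3 : ∫ x, (Jr m c w x - w x) / c * Gm m g g x ∂m =
        ∫ x, (Jr m c w x - w x) / c * Dw m g x ^ 2 ∂m := by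
      refine integral_congr_ae ?_
      filter_upwards [Gm_self hgl] with x hx
      rw [hx]
    change ∫ x, Gm m (Jr m c w) (Gm m g g) x ∂m =
      -∫ x, (Jr m c w x - w x) / c * Gm m g g x ∂m at e
    rw [e1, e2, e, e3]
    linarith
  have hev : ∀ᶠ c in 𝓝[>] (0 : ℝ), 0 < c := self_mem_nhdsWithin
  have hS : ∀ᶠ c in 𝓝[>] (0 : ℝ), IsSobolev m (Jr m c w) :=
    hev.mono fun c hc => sob_Res H Wt.one hc hw.1
  have t1 := boch_tendsto_pair (hS.mono fun c hc => hc.1) hw.1 hG (Res_tendsto H Wt.one hw.1)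
  have t2 := boch_tendsto_pair (hS.mono fun c hc => hc.1) hw.1 hW.1 (Res_tendsto H Wt.one hw.1)
  have t3 := boch_tendsto_energy H hS hw hW (Res_tendsto_sob H Wt.one hw)
  have lim := le_of_tendsto_of_tendsto (t1.const_mul 2) ((t2.const_mul k).sub t3)
    (hev.mono key)
  have ibp := boch_ibp H hg hw
  have e4 : ∫ x, (Gm m w g x + w x * Lap m g x) * Lap m g x ∂m =
      ∫ x, Gm m g w x * Lap m g x ∂m + ∫ x, w x * (Lap m g x * Lap m g x) ∂m := by
    rw [← integral_add (boch_int_mul (memLp_Gm H hgl hw hL) hD.1) (boch_int_mul hw.1 hDD)]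
    refine integral_congr_ae ?_
    filter_upwards [Gm_comm (sob_sl hw) hgl] with x hx
    rw [hx]
    ring
  have e5 : ∫ x, w x * Gm m g (Lap m g) x ∂m = ∫ x, Gm m g (Lap m g) x * w x ∂m := by
    congr 1
    funext x
    ring
  rw [e4]
  linarith

end Crest.Agent.R242
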