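import Crest.Agent.R242.Res

/-!
Row 242: test functions.
-/

set_option autoImplicit false
set_option linter.unusedSectionVars false

open MeasureTheory Set Filter Metric Crest.GeometryTopology.SyntheticRicci
open scoped ENNReal NNReal Topology

namespace Crest.Agent.R242

variable {X : Type*} [MetricSpace X] [ProperSpace X] [MeasurableSpace X] [BorelSpace X]
  {m : Measure X} [IsLocallyFiniteMeasure m] [m.IsOpenPosMeasure] {k τ₀ τ : ℝ} {f g g' : X → ℝ}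

theorem Good.bl (hg : Good m g) : BL g := ⟨hg.1.2.1, hg.1.1⟩

theorem Good.weakLap (hg : Good m g) : IsWeakLaplacian m g (Lap m g) :=
  let ⟨_, h⟩ := hg.1.2.2.1; (Lap_eq h).1

theorem Good.sob (hg : Good m g) : IsSobolev m g := hg.weakLap.1

theorem Good.sob_Lap (hg : Good m g) : IsSobolev m (Lap m g) := hg.1.2.2.2

theorem good_of {L : X → ℝ} (hg : BL g) (hL : IsWeakLaplacian m g L) (hs : IsSobolev m L) {B : ℝ}
    (hB : ∀ᵐ x ∂m, |L x| ≤ B) : Good m g ∧ Lap m g =ᵐ[m] L := by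
  have e := (Lap_eq hL).2
  refine ⟨⟨⟨hg.bdd, hg.lip, ⟨L, hL⟩, sob_congr hs e.symm⟩, B, ?_⟩, e⟩
  filter_upwards [e, hB] with x h1 h2
  rwa [h1]

/-- a bounded Sobolev function with bounded gradient has a bounded Lipschitz representative -/
theorem exists_BL_rep (h : RS m k τ₀) (hf : IsSobolevLoc m f) {a b : ℝ} {L : ℝ≥0} (hab : a ≤ b)
    (hB : ∀ᵐ x ∂m, a ≤ f x ∧ f x ≤ b) (hL : ∀ᵐ x ∂m, Dw m f x ≤ L) :
    ∃ g : X → ℝ, LipschitzWith L g ∧ (∀ x, a ≤ g x ∧ g x ≤ b) ∧ f =ᵐ[m] g := by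
  obtain ⟨g, hg, e⟩ := h.s2l f L hf hL
  refine ⟨fun x => max a (min b (g x)), (hg.const_min b).const_max a,
    fun x => ⟨le_max_left _ _, max_le hab (min_le_left _ _)⟩, ?_⟩
  filter_upwards [e, hB] with x h1 h2
  rw [← h1, min_eq_right h2.2, max_eq_right h2.1]

theorem boch0_bl {L : ℝ≥0} {a b : ℝ} (hg : LipschitzWith L g) (hb : ∀ x, a ≤ g x ∧ g x ≤ b) :
    BL g :=
  ⟨⟨L, hg⟩, max |a| |b|, fun x => abs_le_max_abs_abs (hb x).1 (hb x).2⟩

theorem Dw_Jr_le (h : RS m k τ₀) (hτ : 0 < τ) (hτ' : τ ≤ τ₀) (hf : IsSobolev m f) {B L : ℝ}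
    (hB : ∀ᵐ x ∂m, |f x| ≤ B) (hL : ∀ᵐ x ∂m, Dw m f x ≤ L) :
    ∀ᵐ x ∂m, Dw m (Jr m τ f) x ≤ 2 * L := by
  obtain ⟨g, hg, hb, e⟩ := exists_BL_rep h (sob_sl hf) (a := -|B|) (b := |B|) (L := L.toNNReal)
    (by linarith [abs_nonneg B])
    (hB.mono fun x hx => abs_le.mp (hx.trans (le_abs_self B)))
    (hL.mono fun x hx => hx.trans (Real.le_coe_toNNReal L))
  have hs := sob_congr hf e
  have hD : ∀ᵐ x ∂m, 0 ≤ Dw m g x ∧ Dw m g x ≤ L := by
    filter_upwards [Dw_congr (sob_sl hf) e, Dw_nonneg (sob_sl hs), hL] with x h1 h2 h3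
    exact ⟨h2, h1 ▸ h3⟩
  have hm : MemLp (fun y => Dw m g y ^ 2) 2 m := by
    refine hs.2.2.of_le_mul (c := L) (hs.2.2.1.pow 2) (hD.mono fun x hx => ?_)
    rw [Real.norm_of_nonneg (sq_nonneg _), Real.norm_of_nonneg hx.1, sq]
    exact mul_le_mul_of_nonneg_right hx.2 hx.1
  have hk : 1 / 2 ≤ 1 - k * τ := by
    linarith [mul_le_mul_of_nonneg_left hτ' h.k_nonneg, h.kτ]
  have hk' : (1 - k * τ)⁻¹ ≤ 2 := by
    rw [inv_le_comm₀ (by linarith) two_pos]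
    linarith
  filter_upwards [Dw_congr (sob_sl (sob_Res h.hilb Wt.one hτ hf.1))
      (Res_congr h.hilb Wt.one hτ hf.1 e), h.grad τ hτ hτ' g (boch0_bl hg hb) hs,
    Res_le_const h.hilb Wt.one hτ hm (sq_nonneg L)
      (hD.mono fun x hx => pow_le_pow_left₀ hx.1 hx.2 2), hD] with x h1 h2 h3 h4
  have hL0 : 0 ≤ L := h4.1.trans h4.2
  have h5 := mul_le_mul_of_nonneg_left h3 (inv_nonneg.mpr (by linarith : 0 ≤ 1 - k * τ))
  have h6 := mul_le_mul_of_nonneg_right hk' (sq_nonneg L)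
  rw [h1]
  exact le_of_sq_le_sq (by nlinarith [sq_nonneg L]) (by linarith)

/-- the resolvent produces test functions -/
theorem good_Jr (h : RS m k τ₀) (hτ : 0 < τ) (hτ' : τ ≤ τ₀) (hf : IsSobolev m f) {a b : ℝ}
    {L : ℝ≥0} (ha : a ≤ 0) (hb : 0 ≤ b) (hB : ∀ᵐ x ∂m, a ≤ f x ∧ f x ≤ b)
    (hL : ∀ᵐ x ∂m, Dw m f x ≤ L) :
    ∃ g : X → ℝ, Good m g ∧ LipschitzWith (2 * L) g ∧ (∀ x, a ≤ g x ∧ g x ≤ b) ∧
      g =ᵐ[m] Jr m τ f ∧ ∀ᵐ x ∂m, Lap m g x = (g x - f x) / τ := by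
  have hu := sob_Res h.hilb Wt.one hτ hf.1
  have h1 : ∀ᵐ x ∂m, a ≤ Jr m τ f x ∧ Jr m τ f x ≤ b := by
    filter_upwards [Res_le_const h.hilb Wt.one hτ hf.1 hb (hB.mono fun x hx => hx.2),
      Res_const_mul h.hilb Wt.one hτ hf.1 (-1),
      Res_le_const h.hilb Wt.one hτ (hf.1.const_mul (-1)) (neg_nonneg.mpr ha)
        (hB.mono fun x hx => by linarith [hx.1])] with x h1 h2 h3
    exact ⟨by linarith, h1⟩
  have h2 := Dw_Jr_le h hτ hτ' hf (B := max |a| |b|)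
    (hB.mono fun x hx => abs_le_max_abs_abs hx.1 hx.2) hL
  obtain ⟨g, hg, hb', e⟩ := exists_BL_rep h (sob_sl hu) (L := 2 * L) (ha.trans hb) h1
    (by simpa using h2)
  have h3 : IsWeakLaplacian m g fun x => τ⁻¹ * (g x - f x) :=
    weakLap_congr (weakLap_Jr h.hilb hτ hf.1) e (e.mono fun x hx => by
      simp only [div_eq_inv_mul]
      rw [← hx])
  obtain ⟨h4, h5⟩ := good_of (boch0_bl hg hb') h3 (sob_const_mul (sob_sub h3.1 hf) _)
    (B := τ⁻¹ * (b - a)) (hB.mono fun x hx => by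
      rw [abs_mul, abs_of_pos (inv_pos.mpr hτ)]
      refine mul_le_mul_of_nonneg_left (abs_le.mpr ⟨?_, ?_⟩) (inv_pos.mpr hτ).le <;>
        linarith [hb' x |>.1, hb' x |>.2, hx.1, hx.2])
  exact ⟨g, h4, hg, hb', e.symm, h5.mono fun x hx => by rw [hx, div_eq_inv_mul]⟩

theorem Good.lin (H : IsInfHilbertian m) (hg : Good m g) (hg' : Good m g') (a b : ℝ) :
    Good m (fun x => a * g x + b * g' x) ∧
      ∀ᵐ x ∂m, Lap m (fun x => a * g x + b * g' x) x = a * Lap m g x + b * Lap m g' x := by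
  have s1 := sob_const_mul hg.sob a
  have s2 := sob_const_mul hg'.sob b
  have hs := sob_add (sob_const_mul hg.sob_Lap a) (sob_const_mul hg'.sob_Lap b)
  obtain ⟨B, hB⟩ := hg.2
  obtain ⟨B', hB'⟩ := hg'.2
  refine good_of ((hg.bl.const_mul a).add (hg'.bl.const_mul b)) ⟨sob_add s1 s2, hs.1, fun v hv => ?_⟩
    hs (B := |a| * B + |b| * B') ?_
  · have e : ∀ᵐ x ∂m, Gm m (fun x => a * g x + b * g' x) v x = a * Gm m g v x + b * Gm m g' v x := by
      filter_upwards [Gm_add_left H (sob_sl s1) (sob_sl s2) (sob_sl hv),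
        Gm_const_mul_left H (sob_sl hg.sob) (sob_sl hv) a,
        Gm_const_mul_left H (sob_sl hg'.sob) (sob_sl hv) b] with x h1 h2 h3
      rw [h1, h2, h3]
    have i1 : Integrable (fun x => Lap m g x * v x) m := hg.sob_Lap.1.integrable_mul hv.1
    have i2 : Integrable (fun x => Lap m g' x * v x) m := hg'.sob_Lap.1.integrable_mul hv.1
    rw [integral_congr_ae e, integral_add ((integrable_Gm H hg.sob hv).const_mul a)
      ((integrable_Gm H hg'.sob hv).const_mul b), integral_const_mul, integral_const_mul,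
      hg.weakLap.2.2 v hv, hg'.weakLap.2.2 v hv]
    simp only [add_mul, mul_assoc]
    rw [integral_add (i1.const_mul a) (i2.const_mul b), integral_const_mul, integral_const_mul]
    ring
  · filter_upwards [hB, hB'] with x h1 h2
    refine (abs_add_le _ _).trans ?_
    rw [abs_mul, abs_mul]
    gcongr

end Crest.Agent.R242
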