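import Crest.Agent.R242.Boch0

/-!
Row 242: regularisation from `L^∞` to Lipschitz.
-/

set_option autoImplicit false

open MeasureTheory Set Filter Metric Crest.GeometryTopology.SyntheticRicci
open scoped ENNReal NNReal Topology

namespace Crest.Agent.R242

variable {X : Type*} [MetricSpace X] [ProperSpace X] [MeasurableSpace X] [BorelSpace X]
  {m : Measure X} [IsLocallyFiniteMeasure m] [m.IsOpenPosMeasure] {k τ₀ τ : ℝ} {f g g' : X → ℝ}

omit [MetricSpace X] [ProperSpace X] [BorelSpace X] [IsLocallyFiniteMeasure m]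
  [m.IsOpenPosMeasure] in
theorem boch1_memLp_mul (hf : MemLp f 2 m) (hg : MemLp g 2 m) {B : ℝ}
    (hB : ∀ᵐ x ∂m, |g x| ≤ B) : MemLp (fun x => f x * g x) 2 m := by
  refine hf.of_le_mul (c := B) (hf.1.mul hg.1) ?_
  filter_upwards [hB] with x hx
  rw [norm_mul, mul_comm]
  exact mul_le_mul_of_nonneg_right hx (norm_nonneg _)

omit [m.IsOpenPosMeasure] in
theorem boch1_memLp_sq (hf : IsSobolev m f) {L : ℝ} (hL : ∀ᵐ x ∂m, Dw m f x ≤ L) :
    MemLp (fun x => Dw m f x ^ 2) 2 m := by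
  simp only [sq]
  refine boch1_memLp_mul hf.2.2 hf.2.2 (B := L) ?_
  filter_upwards [hL, Dw_nonneg (sob_sl hf)] with x h1 h2
  rwa [abs_of_nonneg h2]

omit [m.IsOpenPosMeasure] in
/-- the equation of the square of a solution -/
theorem boch1_energy (H : IsInfHilbertian m) (hτ : 0 < τ) (hf : MemLp f 2 m) {B L : ℝ}
    (hB0 : 0 ≤ B) (hB : ∀ᵐ x ∂m, |f x| ≤ B) (hL : ∀ᵐ x ∂m, Dw m (Jr m τ f) x ≤ L) :
    ∀ᵐ x ∂m, 2 * τ * Jr m τ (fun y => Dw m (Jr m τ f) y ^ 2) x ≤ B ^ 2 := by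
  obtain ⟨hu, hres⟩ := isRes_Res H Wt.one hτ hf
  have huB := abs_Res_le H Wt.one hτ hf hB0 hB
  unfold Jr at hL ⊢
  generalize Res m (fun _ => 1) τ f = u at hu hres huB hL ⊢
  have hD := boch1_memLp_sq hu hL
  have huu := boch1_memLp_mul hu.1 hu.1 huB
  have hfu := boch1_memLp_mul hf hu.1 huB
  have hw : IsSobolev m fun x => u x * u x := sob_mul_bdd hu hu huB huB
  have hF : MemLp (fun x => 2 * (f x * u x) - u x * u x) 2 m := (hfu.const_mul 2).sub huu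
  have hF' : MemLp (fun x => 1 * (2 * (f x * u x) - u x * u x) + (-(2 * τ)) * Dw m u x ^ 2) 2 m :=
    (hF.const_mul 1).add (hD.const_mul _)
  have key : IsRes m (fun _ => 1) τ
      (fun x => 1 * (2 * (f x * u x) - u x * u x) + (-(2 * τ)) * Dw m u x ^ 2)
      fun x => u x * u x := by
    refine ⟨hw, fun v hv => ?_⟩
    have hvu : IsSobolev m fun x => v x * u x := sob_mul hv (sob_sl hu) huB hL
    have h1 := hres _ hvu
    have i1 : Integrable (fun x => u x * u x * v x) m := huu.integrable_mul hv.1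
    have i2 : Integrable (fun x => u x * Gm m u v x) m :=
      hu.1.integrable_mul (memLp_Gm H (sob_sl hu) hv hL)
    have i3 : Integrable (fun x => Dw m u x ^ 2 * v x) m := hD.integrable_mul hv.1
    have i4 : Integrable (fun x => f x * u x * v x) m := hfu.integrable_mul hv.1
    have e1 : ∫ x, u x * (v x * u x) * 1 ∂m = ∫ x, u x * u x * v x ∂m :=
      integral_congr_ae (Eventually.of_forall fun x => by ring)
    have e2 : ∫ x, Gm m u (fun y => v y * u y) x * 1 ∂m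
        = ∫ x, Dw m u x ^ 2 * v x ∂m + ∫ x, u x * Gm m u v x ∂m := by
      rw [← integral_add i3 i2]
      refine integral_congr_ae ?_
      filter_upwards [Gm_mul_right H (sob_sl hv) (sob_sl hu) (sob_sl hvu) (sob_sl hu),
        Gm_self (sob_sl hu)] with x h2 h3
      rw [h2, h3]
      ring
    have e3 : ∫ x, f x * (v x * u x) * 1 ∂m = ∫ x, f x * u x * v x ∂m :=
      integral_congr_ae (Eventually.of_forall fun x => by ring)
    have e4 : ∫ x, u x * u x * v x * 1 ∂m = ∫ x, u x * u x * v x ∂m := by simp only [mul_one]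
    have e5 : ∫ x, Gm m (fun y => u y * u y) v x * 1 ∂m = 2 * ∫ x, u x * Gm m u v x ∂m := by
      rw [← integral_const_mul]
      refine integral_congr_ae ?_
      filter_upwards [Gm_mul_left H (sob_sl hu) (sob_sl hu) (sob_sl hw) (sob_sl hv)] with x h2
      rw [h2]
      ring
    have e6 : ∫ x, (1 * (2 * (f x * u x) - u x * u x) + (-(2 * τ)) * Dw m u x ^ 2) * v x * 1 ∂m
        = 2 * ∫ x, f x * u x * v x ∂m - ∫ x, u x * u x * v x ∂m
          - 2 * τ * ∫ x, Dw m u x ^ 2 * v x ∂m := by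
      have i5 : Integrable (fun x => 2 * (f x * u x * v x) - u x * u x * v x) m :=
        (i4.const_mul 2).sub i1
      rw [← integral_const_mul, ← integral_const_mul, ← integral_sub (i4.const_mul 2) i1,
        ← integral_sub i5 (i3.const_mul _)]
      exact integral_congr_ae (Eventually.of_forall fun x => by ring)
    rw [e1, e2, e3] at h1
    rw [e4, e5, e6]
    linarith
  have hle : ∀ᵐ x ∂m, 2 * (f x * u x) - u x * u x ≤ B ^ 2 := by
    filter_upwards [hB] with x hx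
    nlinarith [sq_nonneg (f x - u x), sq_le_sq' (abs_le.1 hx).1 (abs_le.1 hx).2]
  filter_upwards [key.eq_Res H Wt.one hτ hF', Res_lin H Wt.one hτ hF hD 1 (-(2 * τ)),
    Res_le_const H Wt.one hτ hF (sq_nonneg B) hle] with x h1 h2 h3
  have h4 := mul_self_nonneg (u x)
  rw [h1, h2] at h4
  linarith

omit [m.IsOpenPosMeasure] in
theorem boch1_mono (H : IsInfHilbertian m) {σ : ℝ} (hσ : 0 < σ) (hστ : σ ≤ τ) (hf : MemLp f 2 m)
    (h0 : ∀ᵐ x ∂m, 0 ≤ f x) : ∀ᵐ x ∂m, σ * Jr m σ f x ≤ τ * Jr m τ f x := by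
  have hτ := hσ.trans_le hστ
  filter_upwards [Res_ident H Wt.one hτ hσ hf, Res_nonneg H Wt.one hσ (sob_Res H Wt.one hτ hf).1
    (Res_nonneg H Wt.one hτ hf h0)] with x h1 h2
  have := mul_nonneg (sub_nonneg.2 hστ) h2
  linarith

theorem boch1_twice (h : RS m k τ₀) {σ : ℝ} (hσ : 0 < σ) (hστ : σ ≤ τ) (hτ' : τ ≤ τ₀)
    (hf : IsSobolev m f) {B : ℝ} {L : ℝ≥0} (hB0 : 0 ≤ B) (hB : ∀ᵐ x ∂m, |f x| ≤ B)
    (hL : ∀ᵐ x ∂m, Dw m f x ≤ L) :
    ∀ᵐ x ∂m, σ * Dw m (Jr m σ (Jr m τ f)) x ≤ B * √σ := by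
  have H := h.hilb
  have hτ := hσ.trans_le hστ
  have hu := sob_Res H Wt.one hτ hf.1
  have hL' := Dw_Jr_le h hτ hτ' hf hB hL
  have hD := boch1_memLp_sq hu hL'
  obtain ⟨g, hg1, hg2, hg3⟩ := exists_BL_rep h (sob_sl hu) (a := -B) (b := B) (L := 2 * L)
    (by linarith) ((abs_Res_le H Wt.one hτ hf.1 hB0 hB).mono fun x hx => abs_le.1 hx)
    (by simpa using hL')
  have hg := sob_congr hu hg3
  have e1 := Dw_congr (sob_sl (sob_Res H Wt.one hσ hu.1)) (Res_congr H Wt.one hσ hu.1 hg3)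
  have e2 : Jr m σ (fun y => Dw m (Jr m τ f) y ^ 2) =ᵐ[m] Jr m σ fun y => Dw m g y ^ 2 := by
    refine Res_congr H Wt.one hσ hD ?_
    filter_upwards [Dw_congr (sob_sl hu) hg3] with x hx
    rw [hx]
  have h0 : ∀ᵐ x ∂m, 0 ≤ Dw m (Jr m τ f) x ^ 2 := Eventually.of_forall fun x => sq_nonneg _
  have hk : (1 - k * σ)⁻¹ ≤ 2 := by
    have h1 : k * σ ≤ k * τ₀ := mul_le_mul_of_nonneg_left (hστ.trans hτ') h.k_nonneg
    have h2 := h.kτ
    rw [inv_le_comm₀ (by linarith) two_pos]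
    linarith
  filter_upwards [h.grad σ hσ (hστ.trans hτ') g ⟨⟨_, hg1⟩, B, fun x => abs_le.2 (hg2 x)⟩ hg, e1, e2,
    boch1_mono H hσ hστ hD h0, boch1_energy H hτ hf.1 hB0 hB hL', Res_nonneg H Wt.one hσ hD h0]
    with x h1 h2 h3 h4 h5 h6
  rw [← h3] at h1
  rw [← h2] at h1
  have h7 := h1.trans (mul_le_mul_of_nonneg_right hk h6)
  refine (abs_le_of_sq_le_sq' ?_ (mul_nonneg hB0 (Real.sqrt_nonneg σ))).2
  rw [mul_pow, mul_pow, Real.sq_sqrt hσ.le]
  have h8 := mul_le_mul_of_nonneg_left h7 hσ.le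
  have h9 : σ * Dw m (Jr m σ (Jr m τ f)) x ^ 2 ≤ B ^ 2 := by linarith
  have := mul_le_mul_of_nonneg_left h9 hσ.le
  nlinarith

theorem boch1_step (h : RS m k τ₀) (hτ : 0 < τ) (hτ' : τ ≤ τ₀)
    (hf : IsSobolev m f) {B : ℝ} {L : ℝ≥0} (hB0 : 0 ≤ B) (hB : ∀ᵐ x ∂m, |f x| ≤ B)
    (hL : ∀ᵐ x ∂m, Dw m f x ≤ L) :
    ∀ᵐ x ∂m, τ * Dw m (Jr m τ f) x ≤ τ / 2 * Dw m (Jr m (τ / 2) f) x + B * √(τ / 2) := by
  have H := h.hilb
  have hσ : 0 < τ / 2 := half_pos hτ
  have hu := sob_Res H Wt.one hτ hf.1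
  have s0 := sob_sl hu
  have s1 := sob_sl (sob_Res H Wt.one hσ hf.1)
  have s2 := sob_sl (sob_Res H Wt.one hσ hu.1)
  have e : (fun y => τ * Jr m τ f y) =ᵐ[m]
      fun y => τ / 2 * Jr m (τ / 2) f y + τ / 2 * Jr m (τ / 2) (Jr m τ f) y := by
    filter_upwards [Res_ident H Wt.one hτ hσ hf.1] with x hx
    linarith
  filter_upwards [Dw_congr (sl_const_mul s0 τ) e, Dw_const_mul s0 τ, Dw_const_mul s1 (τ / 2),
    Dw_const_mul s2 (τ / 2), Dw_add_le (sl_const_mul s1 (τ / 2)) (sl_const_mul s2 (τ / 2)),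
    boch1_twice h hσ (half_le_self hτ.le) hτ' hf hB0 hB hL] with x h1 h2 h3 h4 h5 h6
  rw [abs_of_pos hτ] at h2
  rw [abs_of_pos hσ] at h3 h4
  rw [← h1, h2, h3, h4] at h5
  linarith

theorem boch1_lip (h : RS m k τ₀) (hτ : 0 < τ) (hτ' : τ ≤ τ₀)
    (hf : IsSobolev m f) {B : ℝ} {L : ℝ≥0} (hB0 : 0 ≤ B) (hB : ∀ᵐ x ∂m, |f x| ≤ B)
    (hL : ∀ᵐ x ∂m, Dw m f x ≤ L) : ∀ᵐ x ∂m, Dw m (Jr m τ f) x ≤ 4 * B / √τ := by
  have key : ∀ (n : ℕ) (t : ℝ), 0 < t → t ≤ τ₀ →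
      ∀ᵐ x ∂m, t * Dw m (Jr m t f) x ≤ 2 * L * t * (1 / 2) ^ n + 4 * B * √t := by
    intro n
    induction n with
    | zero =>
      intro t ht ht'
      filter_upwards [Dw_Jr_le h ht ht' hf hB hL] with x hx
      have h1 := mul_le_mul_of_nonneg_left hx ht.le
      have h2 := mul_nonneg hB0 (Real.sqrt_nonneg t)
      linarith
    | succ n ih =>
      intro t ht ht'
      have h0 : 5 * √(t / 2) ≤ 4 * √t := by
        refine (abs_le_of_sq_le_sq' ?_ (by positivity)).2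
        rw [mul_pow, mul_pow, Real.sq_sqrt ht.le, Real.sq_sqrt (half_pos ht).le]
        linarith
      have h1 := mul_le_mul_of_nonneg_left h0 hB0
      filter_upwards [boch1_step h ht ht' hf hB0 hB hL,
        ih (t / 2) (half_pos ht) ((half_le_self ht.le).trans ht')] with x h2 h3
      rw [pow_succ]
      linarith
  filter_upwards [ae_all_iff.2 fun n => key n τ hτ hτ'] with x hx
  have hlim : Tendsto (fun n : ℕ => 2 * L * τ * (1 / 2 : ℝ) ^ n + 4 * B * √τ) atTop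
      (𝓝 (2 * L * τ * 0 + 4 * B * √τ)) :=
    ((tendsto_pow_atTop_nhds_zero_of_lt_one (by norm_num) (by norm_num)).const_mul _).add_const _
  have h1 := ge_of_tendsto' hlim hx
  have h2 := Real.sqrt_pos.2 hτ
  rw [le_div_iff₀ h2]
  refine le_of_mul_le_mul_right ?_ h2
  rw [mul_assoc, Real.mul_self_sqrt hτ.le]
  linarith

/-- regularisation from `L^∞` to Lipschitz -/
theorem Dw_Jr_le_of_bdd (h : RS m k τ₀) (hτ : 0 < τ) (hτ' : τ ≤ τ₀) (hf : MemLp f 2 m) {B : ℝ}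
    (hB0 : 0 ≤ B) (hB : ∀ᵐ x ∂m, |f x| ≤ B) : ∀ᵐ x ∂m, Dw m (Jr m τ f) x ≤ 4 * B / √τ := by
  have H := h.hilb
  have hex := fun n : ℕ => exists_lip_approx hf (a := -B) (b := B) (by linarith) hB0
    (hB.mono fun x hx => abs_le.1 hx) (Nat.one_div_pos_of_nat (n := n))
  choose G hG1 hG2 hG3 hG4 using hex
  have hS : ∀ n, IsSobolev m (G n) := fun n =>
    let ⟨_, hL⟩ := hG1 n
    sob_of_compactSupport hL (hG2 n)
  refine Dw_le_of_tendsto (F := fun n => Jr m τ (G n)) (fun n => sob_Res H Wt.one hτ (hS n).1)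
    (sob_Res H Wt.one hτ hf) (fun n => ?_) ?_
  · obtain ⟨L, hL⟩ := hG1 n
    exact boch1_lip h hτ hτ' (hS n) hB0 (Eventually.of_forall fun x => abs_le.2 (hG3 n x))
      (Dw_lip_le hL)
  · have hlim : Tendsto (fun n : ℕ => τ⁻¹ * (1 / ((n : ℝ) + 1))) atTop (𝓝 (τ⁻¹ * 0)) :=
      tendsto_one_div_add_atTop_nhds_zero_nat.const_mul _
    rw [mul_zero] at hlim
    refine squeeze_zero (fun n => integral_nonneg fun x => sq_nonneg _) (fun n => ?_) hlim
    have hd : MemLp (fun y => G n y - f y) 2 m := (hS n).1.sub hf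
    have h1 := (Res_energy H Wt.one hτ hd).2
    have e1 : ∫ x, Dw m (Jr m τ fun y => G n y - f y) x ^ 2 * 1 ∂m
        = ∫ x, Dw m (fun y => Jr m τ (G n) y - Jr m τ f y) x ^ 2 ∂m := by
      refine integral_congr_ae ?_
      filter_upwards [Dw_congr (sob_sl (sob_Res H Wt.one hτ hd))
        (Res_sub H Wt.one hτ (hS n).1 hf)] with x hx
      rw [hx, mul_one]
    have e2 : ∫ x, (G n x - f x) ^ 2 * 1 ∂m = ∫ x, (f x - G n x) ^ 2 ∂m :=
      integral_congr_ae (Eventually.of_forall fun x => by ring)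
    rw [e1, e2] at h1
    rw [le_inv_mul_iff₀ hτ]
    exact h1.trans (hG4 n)

end Crest.Agent.R242
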