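import Crest.Agent.R242.WUG

/-!
Row 242: the local Sobolev class.
-/

set_option autoImplicit false

open MeasureTheory Set Filter Metric Crest.GeometryTopology.SyntheticRicci
open scoped ENNReal NNReal Topology

namespace Crest.Agent.R242

variable {X : Type*} [MetricSpace X] [ProperSpace X] [MeasurableSpace X] [BorelSpace X]
  {m : Measure X} [IsLocallyFiniteMeasure m] {f g : X → ℝ}

theorem sl_l2 (hf : IsSobolevLoc m f) : IsL2OnBalls m f := hf.1

theorem Dw_l2 (hf : IsSobolevLoc m f) : IsL2OnBalls m (Dw m f) := (wug_Dw hf).1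

theorem Dw_nonneg (hf : IsSobolevLoc m f) : ∀ᵐ x ∂m, 0 ≤ Dw m f x := (wug_Dw hf).2.1

theorem Dw_aemeasurable (hf : IsSobolevLoc m f) : AEMeasurable (Dw m f) m :=
  l2b_aemeasurable (Dw_l2 hf)

theorem calcd0_lip_mul (c : ℝ) : LipschitzWith ‖c‖₊ fun y : ℝ => c * y :=
  lipschitzWith_smul c

theorem calcd0_wug_const_mul {D : X → ℝ} (h : IsWUGLoc m f D) (c : ℝ) :
    IsWUGLoc m (fun x => c * f x) fun x => |c| * D x :=
  wug_comp_lip (calcd0_lip_mul c) h

theorem calcd0_wug_neg {D : X → ℝ} (h : IsWUGLoc m f D) : IsWUGLoc m (fun x => -f x) D := by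
  simpa using calcd0_wug_const_mul h (-1)

theorem sl_congr (hf : IsSobolevLoc m f) (h : f =ᵐ[m] g) : IsSobolevLoc m g := by
  exact sobLoc_of_wug (l2b_congr hf.1 h) (wug_congr (wug_Dw hf) h EventuallyEq.rfl)

theorem Dw_congr (hf : IsSobolevLoc m f) (h : f =ᵐ[m] g) : Dw m f =ᵐ[m] Dw m g := by
  have hg := sl_congr hf h
  filter_upwards [Dw_le hf (wug_congr (wug_Dw hg) h.symm EventuallyEq.rfl),
    Dw_le hg (wug_congr (wug_Dw hf) h EventuallyEq.rfl)] with x h1 h2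
  exact le_antisymm h1 h2

theorem sl_const (c : ℝ) : IsSobolevLoc m fun _ => c := by
  exact sobLoc_of_wug (l2b_of_continuous continuous_const) (wug_const c)

theorem Dw_const (c : ℝ) : ∀ᵐ x ∂m, Dw m (fun _ => c) x = 0 := by
  filter_upwards [Dw_le (sl_const (m := m) c) (wug_const c), Dw_nonneg (sl_const (m := m) c)]
    with x h1 h2
  exact le_antisymm h1 h2

theorem sl_add (hf : IsSobolevLoc m f) (hg : IsSobolevLoc m g) :
    IsSobolevLoc m fun x => f x + g x := by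
  exact sobLoc_of_wug (l2b_add hf.1 hg.1)
    (wug_add (l2b_aemeasurable hf.1) (wug_Dw hf) (wug_Dw hg))

theorem sl_sub (hf : IsSobolevLoc m f) (hg : IsSobolevLoc m g) :
    IsSobolevLoc m fun x => f x - g x := by
  have h1 : IsSobolevLoc m fun x => -g x :=
    sobLoc_of_wug (by simpa using l2b_const_mul hg.1 (-1)) (calcd0_wug_neg (wug_Dw hg))
  simpa [sub_eq_add_neg] using sl_add hf h1

theorem sl_neg (hf : IsSobolevLoc m f) : IsSobolevLoc m fun x => -f x := by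
  exact sobLoc_of_wug (by simpa using l2b_const_mul hf.1 (-1)) (calcd0_wug_neg (wug_Dw hf))

theorem sl_const_mul (hf : IsSobolevLoc m f) (c : ℝ) : IsSobolevLoc m fun x => c * f x := by
  exact sobLoc_of_wug (l2b_const_mul hf.1 c) (calcd0_wug_const_mul (wug_Dw hf) c)

theorem sl_comp_lip (hf : IsSobolevLoc m f) {φ : ℝ → ℝ} {L : ℝ≥0} (hφ : LipschitzWith L φ) :
    IsSobolevLoc m fun x => φ (f x) := by
  refine sobLoc_of_wug ?_ (wug_comp_lip hφ (wug_Dw hf))
  have h1 : IsL2OnBalls m fun x => |f x| := fun o R => (hf.1 o R).abs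
  refine l2b_of_le (l2b_add (l2b_of_continuous (continuous_const (y := |φ 0|)))
    (l2b_const_mul h1 L)) (hφ.continuous.measurable.comp_aemeasurable (l2b_aemeasurable hf.1))
    (Eventually.of_forall fun x => ?_)
  have h2 := hφ.dist_le_mul (f x) 0
  rw [Real.dist_eq, Real.dist_eq, sub_zero] at h2
  have h3 := abs_sub_abs_le_abs_sub (φ (f x)) (φ 0)
  linarith

theorem sl_lip {L : ℝ≥0} (hf : LipschitzWith L f) : IsSobolevLoc m f := by
  exact sobLoc_of_wug (l2b_of_continuous hf.continuous) (wug_lip hf)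

theorem BL.sl (hf : BL f) : IsSobolevLoc m f := by
  obtain ⟨L, hL⟩ := hf.lip
  exact sl_lip hL

theorem sl_mul_bdd (hf : IsSobolevLoc m f) (hg : IsSobolevLoc m g) {a b : ℝ}
    (ha : ∀ᵐ x ∂m, |f x| ≤ a) (hb : ∀ᵐ x ∂m, |g x| ≤ b) : IsSobolevLoc m fun x => f x * g x := by
  refine sobLoc_of_wug (l2b_of_bdd ((l2b_aemeasurable hf.1).mul (l2b_aemeasurable hg.1))
    (B := a * b) ?_) (wug_mul_bdd (l2b_aemeasurable hf.1) ha hb (wug_Dw hf) (wug_Dw hg))
  filter_upwards [ha, hb] with x h1 h2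
  rw [abs_mul]
  exact mul_le_mul h1 h2 (abs_nonneg _) ((abs_nonneg _).trans h1)

theorem Dw_lip_le {L : ℝ≥0} (hf : LipschitzWith L f) : ∀ᵐ x ∂m, Dw m f x ≤ L := by
  exact Dw_le (sl_lip hf) (wug_lip hf)

theorem BL.Dw_le (hf : BL f) : ∃ L : ℝ≥0, ∀ᵐ x ∂m, Dw m f x ≤ L := by
  obtain ⟨L, hL⟩ := hf.lip
  exact ⟨L, Dw_lip_le hL⟩

theorem Dw_add_le (hf : IsSobolevLoc m f) (hg : IsSobolevLoc m g) :
    ∀ᵐ x ∂m, Dw m (fun y => f y + g y) x ≤ Dw m f x + Dw m g x := by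
  exact Dw_le (sl_add hf hg) (wug_add (l2b_aemeasurable hf.1) (wug_Dw hf) (wug_Dw hg))

theorem Dw_sub_le (hf : IsSobolevLoc m f) (hg : IsSobolevLoc m g) :
    ∀ᵐ x ∂m, Dw m (fun y => f y - g y) x ≤ Dw m f x + Dw m g x := by
  refine Dw_le (sl_sub hf hg) ?_
  simpa [sub_eq_add_neg] using
    wug_add (l2b_aemeasurable hf.1) (wug_Dw hf) (calcd0_wug_neg (wug_Dw hg))

theorem Dw_const_mul (hf : IsSobolevLoc m f) (c : ℝ) :
    ∀ᵐ x ∂m, Dw m (fun y => c * f y) x = |c| * Dw m f x := by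
  rcases eq_or_ne c 0 with rfl | hc
  · filter_upwards [Dw_const (m := m) 0] with x hx
    simpa using hx
  have h1 := sl_const_mul hf c
  have h2 := calcd0_wug_const_mul (wug_Dw h1) c⁻¹
  simp only [inv_mul_cancel_left₀ hc] at h2
  filter_upwards [Dw_le h1 (calcd0_wug_const_mul (wug_Dw hf) c), Dw_le hf h2] with x h3 h4
  refine le_antisymm h3 ?_
  have h5 := mul_le_mul_of_nonneg_left h4 (abs_nonneg c)
  rwa [← mul_assoc, ← abs_mul, mul_inv_cancel₀ hc, abs_one, one_mul] at h5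

theorem Dw_neg (hf : IsSobolevLoc m f) : ∀ᵐ x ∂m, Dw m (fun y => -f y) x = Dw m f x := by
  simpa using Dw_const_mul hf (-1)

theorem Dw_sub_comm (hf : IsSobolevLoc m f) (hg : IsSobolevLoc m g) :
    ∀ᵐ x ∂m, Dw m (fun y => f y - g y) x = Dw m (fun y => g y - f y) x := by
  filter_upwards [Dw_neg (sl_sub hg hf)] with x hx
  simpa using hx

theorem abs_Dw_sub_le (hf : IsSobolevLoc m f) (hg : IsSobolevLoc m g) :
    ∀ᵐ x ∂m, |Dw m f x - Dw m g x| ≤ Dw m (fun y => f y - g y) x := by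
  filter_upwards [Dw_add_le hg (sl_sub hf hg), Dw_sub_le hf (sl_sub hf hg)] with x h1 h2
  simp only [add_sub_cancel, sub_sub_cancel] at h1 h2
  exact abs_sub_le_iff.2 ⟨by linarith, by linarith⟩

theorem Dw_add_const (hf : IsSobolevLoc m f) (c : ℝ) :
    ∀ᵐ x ∂m, Dw m (fun y => f y + c) x = Dw m f x := by
  filter_upwards [abs_Dw_sub_le (sl_add hf (sl_const c)) hf, Dw_const (m := m) c] with x h1 h2
  simp only [add_sub_cancel_left] at h1
  rw [h2] at h1
  exact sub_eq_zero.1 (abs_nonpos_iff.1 h1)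

/-- locality -/
theorem Dw_loc (hf : IsSobolevLoc m f) (hg : IsSobolevLoc m g) :
    ∀ᵐ x ∂m, f x = g x → Dw m f x = Dw m g x := by
  filter_upwards [abs_Dw_sub_le hf hg, Dw_eq_zero (sl_sub hf hg)] with x h1 h2 h
  rw [h2 (sub_eq_zero.2 h)] at h1
  exact sub_eq_zero.1 (abs_nonpos_iff.1 h1)

theorem Dw_loc_const (hf : IsSobolevLoc m f) (c : ℝ) : ∀ᵐ x ∂m, f x = c → Dw m f x = 0 := by
  filter_upwards [Dw_loc hf (sl_const c), Dw_const (m := m) c] with x h1 h2 h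
  rw [h1 h, h2]

theorem Dw_comp_lip_le (hf : IsSobolevLoc m f) {φ : ℝ → ℝ} {L : ℝ≥0} (hφ : LipschitzWith L φ) :
    ∀ᵐ x ∂m, Dw m (fun y => φ (f y)) x ≤ L * Dw m f x := by
  exact Dw_le (sl_comp_lip hf hφ) (wug_comp_lip hφ (wug_Dw hf))

end Crest.Agent.R242
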