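import Crest.Agent.R242.CalcG1

/-!
Row 242: integrability of the gradient pairing; the weak Laplacian.
-/

set_option autoImplicit false

open MeasureTheory Set Filter Metric Crest.GeometryTopology.SyntheticRicci
open scoped ENNReal NNReal Topology

namespace Crest.Agent.R242

variable {X : Type*} [MetricSpace X] [ProperSpace X] [MeasurableSpace X] [BorelSpace X]
  {m : Measure X} [IsLocallyFiniteMeasure m] {f g h : X → ℝ}

theorem calcg_integrable (H : IsInfHilbertian m) (hf : IsSobolevLoc m f) (hg : IsSobolevLoc m g)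
    {μ : Measure X} (hμ : μ ≪ m) (h1 : MemLp (Dw m f) 2 μ) (h2 : MemLp (Dw m g) 2 μ) :
    Integrable (Gm m f g) μ := by
  refine Integrable.mono' (h1.integrable_mul h2)
    ((Gm_aemeasurable hf hg).mono_ac hμ).aestronglyMeasurable ?_
  filter_upwards [hμ.ae_le (abs_Gm_le H hf hg)] with x hx
  exact hx

theorem calcg_abs_le (H : IsInfHilbertian m) (hf : IsSobolevLoc m f) (hg : IsSobolevLoc m g)
    {L : ℝ} (hL : ∀ᵐ x ∂m, Dw m f x ≤ L) : ∀ᵐ x ∂m, |Gm m f g x| ≤ L * Dw m g x := by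
  filter_upwards [abs_Gm_le H hf hg, hL, Dw_nonneg hg] with x h1 h2 h3
  exact h1.trans (mul_le_mul_of_nonneg_right h2 h3)

theorem integrable_Gm (H : IsInfHilbertian m) (hf : IsSobolev m f) (hg : IsSobolev m g) :
    Integrable (Gm m f g) m :=
  calcg_integrable H hf.2.1 hg.2.1 Measure.AbsolutelyContinuous.rfl hf.2.2 hg.2.2

theorem memLp_Gm (H : IsInfHilbertian m) (hf : IsSobolevLoc m f) (hg : IsSobolev m g) {L : ℝ}
    (hL : ∀ᵐ x ∂m, Dw m f x ≤ L) : MemLp (Gm m f g) 2 m :=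
  (hg.2.2.const_mul L).mono' (Gm_aemeasurable hf hg.2.1).aestronglyMeasurable
    (calcg_abs_le H hf hg.2.1 hL)

theorem l2b_Gm (H : IsInfHilbertian m) (hf : IsSobolevLoc m f) (hg : IsSobolevLoc m g) {L : ℝ}
    (hL : ∀ᵐ x ∂m, Dw m f x ≤ L) : IsL2OnBalls m (Gm m f g) :=
  l2b_of_le (l2b_const_mul (Dw_l2 hg) L) (Gm_aemeasurable hf hg) (calcg_abs_le H hf hg hL)

theorem integrable_Gm_adm (H : IsInfHilbertian m) (hf : IsSobolevLoc m f) (hg : IsSobolevLoc m g)
    {μ : Measure X} {C : ℝ≥0} {o : X} {R : ℝ} (hμ : Adm m μ C o R) : Integrable (Gm m f g) μ :=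
  calcg_integrable H hf hg hμ.ac (hμ.memLp (Dw_l2 hf)) (hμ.memLp (Dw_l2 hg))

theorem integrable_Gm_of_support (H : IsInfHilbertian m) (hf : IsSobolevLoc m f)
    (hg : IsSobolevLoc m g) {o : X} {R c : ℝ} (h : ∀ᵐ x ∂m, R < dist x o → g x = c) :
    Integrable (Gm m f g) m := by
  have h1 : IntegrableOn (Gm m f g) (ball o (R + 1)) m :=
    calcg_integrable H hf hg Measure.absolutelyContinuous_restrict (Dw_l2 hf o _) (Dw_l2 hg o _)
  refine h1.integrable_of_ae_notMem_eq_zero ?_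
  filter_upwards [h, Gm_loc_const_right H hg hf c] with x h1 h2 hx
  refine h2 (h1 ?_)
  rw [mem_ball, not_lt] at hx
  linarith

/-- Cauchy-Schwarz for the energy with a bounded factor -/
theorem abs_integral_Gm_mul_le (H : IsInfHilbertian m) (hf : IsSobolev m f) (hg : IsSobolev m g)
    {w : X → ℝ} {B : ℝ} (hw : AEMeasurable w m) (hB : ∀ᵐ x ∂m, |w x| ≤ B) :
    |∫ x, Gm m f g x * w x ∂m| ≤ B * (√(∫ x, Dw m f x ^ 2 ∂m) * √(∫ x, Dw m g x ^ 2 ∂m)) := by
  have hi : Integrable (fun x => Dw m f x * Dw m g x) m := hf.2.2.integrable_mul hg.2.2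
  have h1 : |∫ x, Gm m f g x * w x ∂m| ≤ ∫ x, B * (Dw m f x * Dw m g x) ∂m := by
    rw [← Real.norm_eq_abs]
    refine norm_integral_le_of_norm_le (hi.const_mul B) ?_
    filter_upwards [abs_Gm_le H hf.2.1 hg.2.1, hB] with x h1 h2
    rw [Real.norm_eq_abs, abs_mul, mul_comm]
    exact mul_le_mul h2 h1 (abs_nonneg _) ((abs_nonneg _).trans h2)
  rw [integral_const_mul] at h1
  rcases eq_or_ne m 0 with rfl | hm
  · simp
  have : NeBot (ae m) := ae_neBot.2 hm
  obtain ⟨x, hx⟩ := hB.exists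
  exact h1.trans (mul_le_mul_of_nonneg_left
    ((le_abs_self _).trans (abs_integral_mul_le hf.2.2 hg.2.2)) ((abs_nonneg _).trans hx))

/-- uniqueness of the weak Laplacian -/
theorem Lap_eq {L : X → ℝ} (hL : IsWeakLaplacian m f L) :
    IsWeakLaplacian m f (Lap m f) ∧ Lap m f =ᵐ[m] L := by
  have hex : ∃ L : X → ℝ, IsWeakLaplacian m f L := ⟨L, hL⟩
  have h1 : IsWeakLaplacian m f (Lap m f) := by
    unfold Lap weakLaplacian
    rw [dif_pos hex]
    exact Classical.choose_spec hex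
  refine ⟨h1, ?_⟩
  have h2 := ae_eq_zero_of_sob (m := m) (f := fun x => Lap m f x - L x) (h1.2.1.sub hL.2.1)
    fun v hv => by
      have e1 := h1.2.2 v hv
      have e2 := hL.2.2 v hv
      have i1 : Integrable (fun x => Lap m f x * v x) m := h1.2.1.integrable_mul hv.1
      have i2 : Integrable (fun x => L x * v x) m := hL.2.1.integrable_mul hv.1
      simp only [sub_mul]
      rw [integral_sub i1 i2]
      linarith
  filter_upwards [h2] with x hx
  exact sub_eq_zero.1 hx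

theorem weakLap_congr {L L' : X → ℝ} (hL : IsWeakLaplacian m f L) (e : f =ᵐ[m] g)
    (e' : L =ᵐ[m] L') : IsWeakLaplacian m g L' := by
  refine ⟨sob_congr hL.1 e, hL.2.1.ae_eq e', fun v hv => ?_⟩
  have h1 := hL.2.2 v hv
  have h2 : ∫ x, gradPairing m f v x ∂m = ∫ x, gradPairing m g v x ∂m :=
    integral_congr_ae (Gm_congr hL.1.2.1 hv.2.1 e (ae_eq_refl v))
  have h3 : ∫ x, L x * v x ∂m = ∫ x, L' x * v x ∂m :=
    integral_congr_ae (e'.mul (ae_eq_refl v))
  rw [← h2, ← h3, h1]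

end Crest.Agent.R242
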