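import Crest.Agent.R242.Par

/-!
Row 242: bilinearity of the gradient pairing.
-/

set_option autoImplicit false

open MeasureTheory Set Filter Metric Crest.GeometryTopology.SyntheticRicci
open scoped ENNReal NNReal Topology

namespace Crest.Agent.R242

/-- an almost everywhere additive and bounded family is linear in the parameter -/
theorem calcg0_linear {Ω : Type*} [MeasurableSpace Ω] {μ : Measure Ω} {φ : ℝ → Ω → ℝ} {B : Ω → ℝ}
    (hadd : ∀ c d, ∀ᵐ x ∂μ, φ (c + d) x = φ c x + φ d x)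
    (hbd : ∀ c, ∀ᵐ x ∂μ, |φ c x| ≤ |c| * B x) (c : ℝ) : ∀ᵐ x ∂μ, φ c x = c * φ 1 x := by
  have h1 : ∀ᵐ x ∂μ, ∀ q q' : ℚ, φ ((q : ℝ) + q') x = φ q x + φ q' x :=
    ae_all_iff.2 fun q => ae_all_iff.2 fun q' => hadd q q'
  have h2 : ∀ᵐ x ∂μ, ∀ q : ℚ, φ (c - q + q) x = φ (c - q) x + φ q x :=
    ae_all_iff.2 fun q => hadd _ _
  have h3 : ∀ᵐ x ∂μ, ∀ q : ℚ, |φ (c - q) x| ≤ |c - q| * B x :=
    ae_all_iff.2 fun q => hbd _
  filter_upwards [h1, h2, h3] with x h1 h2 h3
  let ψ : ℚ →+ ℝ := AddMonoidHom.mk' (fun q => φ q x) fun q q' => by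
    rw [Rat.cast_add]; exact h1 q q'
  have hψ : ∀ q : ℚ, φ q x = q * φ 1 x := by
    intro q
    have := map_rat_smul ψ q 1
    simpa [ψ, Rat.smul_def] using this
  have hb : ∀ q : ℚ, |φ c x - c * φ 1 x| ≤ |c - q| * (|B x| + |φ 1 x|) := by
    intro q
    have e := h2 q
    rw [sub_add_cancel, hψ q] at e
    have e2 : φ c x - c * φ 1 x = φ (c - q) x - (c - q) * φ 1 x := by rw [e]; ring
    rw [e2]
    calc |φ (c - q) x - (c - q) * φ 1 x| ≤ |φ (c - q) x| + |(c - q) * φ 1 x| := abs_sub _ _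
      _ ≤ |c - q| * |B x| + |c - q| * |φ 1 x| := by
          rw [abs_mul]
          have := mul_le_mul_of_nonneg_left (le_abs_self (B x)) (abs_nonneg (c - q))
          linarith [h3 q]
      _ = |c - q| * (|B x| + |φ 1 x|) := by ring
  have h0 : |φ c x - c * φ 1 x| ≤ 0 := by
    refine le_of_forall_pos_le_add fun η hη => ?_
    have hM : 0 < |B x| + |φ 1 x| + 1 := by positivity
    obtain ⟨q, hq⟩ := exists_rat_near c (div_pos hη hM)
    have h4 := hb q
    have h5 : |c - q| * (|B x| + |φ 1 x| + 1) < η := (lt_div_iff₀ hM).1 hq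
    nlinarith [abs_nonneg (c - q)]
  exact sub_eq_zero.1 (abs_nonpos_iff.1 h0)

variable {X : Type*} [MetricSpace X] [ProperSpace X] [MeasurableSpace X] [BorelSpace X]
  {m : Measure X} [IsLocallyFiniteMeasure m] {f g h : X → ℝ}

omit [ProperSpace X] [BorelSpace X] [IsLocallyFiniteMeasure m] in
theorem calcg0_Gm (x : X) : Gm m f g x =
    (Dw m (fun y => f y + g y) x ^ 2 - Dw m (fun y => f y - g y) x ^ 2) / 4 := rfl

theorem calcg0_par (H : IsInfHilbertian m) (hf : IsSobolevLoc m f) (hg : IsSobolevLoc m g)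
    (p q : X → ℝ) (hp : ∀ y, p y = f y + g y) (hq : ∀ y, q y = f y - g y) :
    ∀ᵐ x ∂m, Dw m p x ^ 2 + Dw m q x ^ 2 = 2 * Dw m f x ^ 2 + 2 * Dw m g x ^ 2 := by
  obtain rfl : p = fun y => f y + g y := funext hp
  obtain rfl : q = fun y => f y - g y := funext hq
  exact Dw_par H hf hg

theorem calcg0_neg (hf : IsSobolevLoc m f) (p : X → ℝ) (hp : ∀ y, p y = -f y) :
    ∀ᵐ x ∂m, Dw m p x = Dw m f x := by
  obtain rfl : p = fun y => -f y := funext hp
  exact Dw_neg hf

theorem calcg0_add_sq (H : IsInfHilbertian m) (hf : IsSobolevLoc m f) (hg : IsSobolevLoc m g) :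
    ∀ᵐ x ∂m, Dw m (fun y => f y + g y) x ^ 2 = Dw m f x ^ 2 + 2 * Gm m f g x + Dw m g x ^ 2 := by
  filter_upwards [Dw_par H hf hg] with x hx
  rw [calcg0_Gm]
  linarith

theorem calcg0_sub_sq (H : IsInfHilbertian m) (hf : IsSobolevLoc m f) (hg : IsSobolevLoc m g) :
    ∀ᵐ x ∂m, Dw m (fun y => f y - g y) x ^ 2 = Dw m f x ^ 2 - 2 * Gm m f g x + Dw m g x ^ 2 := by
  filter_upwards [Dw_par H hf hg] with x hx
  rw [calcg0_Gm]
  linarith

theorem abs_Gm_le (H : IsInfHilbertian m) (hf : IsSobolevLoc m f) (hg : IsSobolevLoc m g) :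
    ∀ᵐ x ∂m, |Gm m f g x| ≤ Dw m f x * Dw m g x := by
  filter_upwards [calcg0_add_sq H hf hg, calcg0_sub_sq H hf hg, Dw_add_le hf hg, Dw_sub_le hf hg,
    Dw_nonneg (sl_add hf hg), Dw_nonneg (sl_sub hf hg)] with x h1 h2 h3 h4 h5 h6
  have h7 := pow_le_pow_left₀ h5 h3 2
  have h8 := pow_le_pow_left₀ h6 h4 2
  rw [abs_le]
  constructor <;> nlinarith

theorem Gm_add_left (H : IsInfHilbertian m) (hf : IsSobolevLoc m f) (hg : IsSobolevLoc m g)
    (hh : IsSobolevLoc m h) :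
    ∀ᵐ x ∂m, Gm m (fun y => f y + g y) h x = Gm m f h x + Gm m g h x := by
  have p1 := calcg0_par H (sl_add hf hh) hg (fun y => f y + g y + h y) (fun y => f y + h y - g y)
    (fun y => by ring) (fun y => by ring)
  have p2 := calcg0_par H (sl_add hg hh) hf (fun y => f y + g y + h y) (fun y => g y + h y - f y)
    (fun y => by ring) (fun y => by ring)
  have p3 := calcg0_par H (sl_sub hf hh) hg (fun y => f y + g y - h y) (fun y => f y - h y - g y)
    (fun y => by ring) (fun y => by ring)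
  have p4 := calcg0_par H (sl_sub hg hh) hf (fun y => f y + g y - h y) (fun y => g y - h y - f y)
    (fun y => by ring) (fun y => by ring)
  have n1 := calcg0_neg (sl_sub (sl_add hf hh) hg) (fun y => g y - h y - f y) (fun y => by ring)
  have n2 := calcg0_neg (sl_sub (sl_add hg hh) hf) (fun y => f y - h y - g y) (fun y => by ring)
  filter_upwards [p1, p2, p3, p4, n1, n2] with x p1 p2 p3 p4 n1 n2
  rw [n1] at p4
  rw [n2] at p3
  simp only [calcg0_Gm]
  linarith

theorem Gm_const_mul_left (H : IsInfHilbertian m) (hf : IsSobolevLoc m f) (hh : IsSobolevLoc m h)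
    (c : ℝ) : ∀ᵐ x ∂m, Gm m (fun y => c * f y) h x = c * Gm m f h x := by
  have key := calcg0_linear (μ := m) (φ := fun c x => Gm m (fun y => c * f y) h x)
    (B := fun x => Dw m f x * Dw m h x) ?_ ?_ c
  · simpa only [one_mul] using key
  · intro c d
    have e : (fun y => (c + d) * f y) = fun y => c * f y + d * f y := funext fun y => by ring
    simp only [e]
    exact Gm_add_left H (sl_const_mul hf c) (sl_const_mul hf d) hh
  · intro c
    filter_upwards [abs_Gm_le H (sl_const_mul hf c) hh, Dw_const_mul hf c] with x h1 h2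
    rw [h2, mul_assoc] at h1
    exact h1

theorem Gm_sub_left (H : IsInfHilbertian m) (hf : IsSobolevLoc m f) (hg : IsSobolevLoc m g)
    (hh : IsSobolevLoc m h) :
    ∀ᵐ x ∂m, Gm m (fun y => f y - g y) h x = Gm m f h x - Gm m g h x := by
  filter_upwards [Gm_add_left H (sl_sub hf hg) hg hh] with x hx
  simp only [sub_add_cancel] at hx
  have hx' : Gm m f h x = Gm m (fun y => f y - g y) h x + Gm m g h x := hx
  linarith

theorem Gm_add_right (H : IsInfHilbertian m) (hf : IsSobolevLoc m f) (hg : IsSobolevLoc m g)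
    (hh : IsSobolevLoc m h) :
    ∀ᵐ x ∂m, Gm m h (fun y => f y + g y) x = Gm m h f x + Gm m h g x := by
  filter_upwards [Gm_add_left H hf hg hh, Gm_comm hh (sl_add hf hg), Gm_comm hh hf, Gm_comm hh hg]
    with x h1 h2 h3 h4
  rw [h2, h3, h4, h1]

theorem Gm_const_mul_right (H : IsInfHilbertian m) (hf : IsSobolevLoc m f) (hh : IsSobolevLoc m h)
    (c : ℝ) : ∀ᵐ x ∂m, Gm m h (fun y => c * f y) x = c * Gm m h f x := by
  filter_upwards [Gm_const_mul_left H hf hh c, Gm_comm hh (sl_const_mul hf c), Gm_comm hh hf]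
    with x h1 h2 h3
  rw [h2, h3, h1]

theorem Gm_sub_right (H : IsInfHilbertian m) (hf : IsSobolevLoc m f) (hg : IsSobolevLoc m g)
    (hh : IsSobolevLoc m h) :
    ∀ᵐ x ∂m, Gm m h (fun y => f y - g y) x = Gm m h f x - Gm m h g x := by
  filter_upwards [Gm_sub_left H hf hg hh, Gm_comm hh (sl_sub hf hg), Gm_comm hh hf, Gm_comm hh hg]
    with x h1 h2 h3 h4
  rw [h2, h3, h4, h1]

theorem Gm_loc_const_right (H : IsInfHilbertian m) (hf : IsSobolevLoc m f) (hh : IsSobolevLoc m h)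
    (c : ℝ) : ∀ᵐ x ∂m, f x = c → Gm m h f x = 0 := by
  filter_upwards [abs_Gm_le H hh hf, Dw_loc_const hf c] with x h1 h2 hx
  rw [h2 hx, mul_zero] at h1
  exact abs_nonpos_iff.1 h1

theorem Dw_add_sq (H : IsInfHilbertian m) (hf : IsSobolevLoc m f) (hg : IsSobolevLoc m g) :
    ∀ᵐ x ∂m, Dw m (fun y => f y + g y) x ^ 2 = Dw m f x ^ 2 + 2 * Gm m f g x + Dw m g x ^ 2 :=
  calcg0_add_sq H hf hg

theorem Dw_sub_sq (H : IsInfHilbertian m) (hf : IsSobolevLoc m f) (hg : IsSobolevLoc m g) :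
    ∀ᵐ x ∂m, Dw m (fun y => f y - g y) x ^ 2 = Dw m f x ^ 2 - 2 * Gm m f g x + Dw m g x ^ 2 :=
  calcg0_sub_sq H hf hg

end Crest.Agent.R242
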