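import Crest.Agent.R242.CalcG0

/-!
Row 242: Leibniz rule and chain rule for the gradient pairing.
-/

set_option autoImplicit false

open MeasureTheory Set Filter Metric Crest.GeometryTopology.SyntheticRicci
open scoped ENNReal NNReal Topology

namespace Crest.Agent.R242

variable {X : Type*} [MetricSpace X] [ProperSpace X] [MeasurableSpace X] [BorelSpace X]
  {m : Measure X} [IsLocallyFiniteMeasure m] {f g h : X → ℝ}

theorem calcg1_lim {A B K d : ℝ} (h : ∀ c : ℚ, |A - c * B| ≤ K * |d - c|) : A = d * B := by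
  have h1 : |A - d * B| ≤ K * |d - d| :=
    Rat.denseRange_cast.induction_on (p := fun c : ℝ => |A - c * B| ≤ K * |d - c|) d
      (isClosed_le (by fun_prop) (by fun_prop)) h
  rw [sub_self, abs_zero, mul_zero, abs_nonpos_iff] at h1
  linarith

theorem calcg1_lim2 {A B C K D E p q : ℝ}
    (h : ∀ a b : ℚ, |A - b * B - a * C| ≤ K * (|q + -b| * D + |p + -a| * E)) :
    A = p * C + q * B := by
  have h0 : ∀ a : ℚ, |A - q * B - a * C| ≤ K * (|q + -q| * D + |p + -a| * E) := fun a =>
    Rat.denseRange_cast.induction_on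
      (p := fun b : ℝ => |A - b * B - a * C| ≤ K * (|q + -b| * D + |p + -a| * E)) q
      (isClosed_le (by fun_prop) (by fun_prop)) (h a)
  have h1 : |A - q * B - p * C| ≤ K * (|q + -q| * D + |p + -p| * E) :=
    Rat.denseRange_cast.induction_on
      (p := fun a : ℝ => |A - q * B - a * C| ≤ K * (|q + -q| * D + |p + -a| * E)) p
      (isClosed_le (by fun_prop) (by fun_prop)) h0
  simp only [add_neg_cancel, abs_zero, zero_mul, add_zero, mul_zero, abs_nonpos_iff] at h1
  linarith

/-- Leibniz rule -/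
theorem Gm_mul_right (H : IsInfHilbertian m) (hf : IsSobolevLoc m f) (hg : IsSobolevLoc m g)
    (hs : IsSobolevLoc m fun x => f x * g x) (hh : IsSobolevLoc m h) :
    ∀ᵐ x ∂m, Gm m h (fun y => f y * g y) x = f x * Gm m h g x + g x * Gm m h f x := by
  have key : ∀ a b : ℝ, ∀ᵐ x ∂m,
      |Gm m h (fun y => f y * g y) x - b * Gm m h f x - a * Gm m h g x| ≤
        Dw m h x * (|g x + -b| * Dw m f x + |f x + -a| * Dw m g x) := fun a b => by
    have h1 := sl_const_mul hf b
    have h2 := sl_const_mul hg a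
    have h3 := sl_sub hs h1
    have h4 := sl_sub h3 h2
    have e : (fun y => (f y + -a) * (g y + -b)) =
        fun y => f y * g y - b * f y - a * g y + a * b := by funext y; ring
    have h5 : IsSobolevLoc m fun y => (f y + -a) * (g y + -b) := by
      rw [e]; exact sl_add h4 (sl_const _)
    have h6 := Dw_mul_le (sl_add hf (sl_const (-a))) (sl_add hg (sl_const (-b))) h5
    rw [e] at h6
    filter_upwards [h6, Dw_add_const h4 (a * b), Dw_add_const hf (-a), Dw_add_const hg (-b),
      abs_Gm_le H hh h4, Gm_sub_right H h3 h2 hh, Gm_sub_right H hs h1 hh,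
      Gm_const_mul_right H hf hh b, Gm_const_mul_right H hg hh a, Dw_nonneg hh] with
      x e1 e2 e3 e4 e5 e6 e7 e8 e9 e10
    rw [e2, e3, e4] at e1
    rw [e6, e7, e8, e9] at e5
    exact e5.trans (mul_le_mul_of_nonneg_left e1 e10)
  filter_upwards [ae_all_iff.2 fun a : ℚ => ae_all_iff.2 fun b : ℚ => key a b] with x hx
  exact calcg1_lim2 hx

theorem Gm_mul_left (H : IsInfHilbertian m) (hf : IsSobolevLoc m f) (hg : IsSobolevLoc m g)
    (hs : IsSobolevLoc m fun x => f x * g x) (hh : IsSobolevLoc m h) :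
    ∀ᵐ x ∂m, Gm m (fun y => f y * g y) h x = f x * Gm m g h x + g x * Gm m f h x := by
  filter_upwards [Gm_mul_right H hf hg hs hh, Gm_comm hs hh, Gm_comm hf hh, Gm_comm hg hh] with
    x e1 e2 e3 e4
  rw [e2, e3, e4, e1]

/-- chain rule -/
theorem Gm_comp_right (H : IsInfHilbertian m) (hf : IsSobolevLoc m f) {φ : ℝ → ℝ}
    (hφ : ContDiff ℝ 1 φ) (hs : IsSobolevLoc m fun x => φ (f x)) (hh : IsSobolevLoc m h) :
    ∀ᵐ x ∂m, Gm m h (fun y => φ (f y)) x = deriv φ (f x) * Gm m h f x := by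
  have key : ∀ c : ℝ, ∀ᵐ x ∂m, |Gm m h (fun y => φ (f y)) x - c * Gm m h f x| ≤
      Dw m h x * Dw m f x * |deriv φ (f x) - c| := fun c => by
    have h1 := sl_const_mul hf c
    have h2 := sl_sub hs h1
    have hψ : ContDiff ℝ 1 fun t => φ t - c * t := by fun_prop
    have hd : ∀ t, deriv (fun t => φ t - c * t) t = deriv φ t - c := fun t => by
      have := ((hφ.differentiable one_ne_zero t).hasDerivAt.sub
        ((hasDerivAt_id t).const_mul c)).deriv
      rw [mul_one] at this
      exact this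
    filter_upwards [Dw_comp_le hf hψ h2, abs_Gm_le H hh h2, Gm_sub_right H hs h1 hh,
      Gm_const_mul_right H hf hh c, Dw_nonneg hh] with x e1 e2 e3 e4 e5
    rw [hd] at e1
    rw [e3, e4] at e2
    calc _ ≤ _ := e2
      _ ≤ _ := mul_le_mul_of_nonneg_left e1 e5
      _ = _ := by ring
  filter_upwards [ae_all_iff.2 fun c : ℚ => key c] with x hx
  exact calcg1_lim hx

theorem Gm_comp_left (H : IsInfHilbertian m) (hf : IsSobolevLoc m f) {φ : ℝ → ℝ}
    (hφ : ContDiff ℝ 1 φ) (hs : IsSobolevLoc m fun x => φ (f x)) (hh : IsSobolevLoc m h) :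
    ∀ᵐ x ∂m, Gm m (fun y => φ (f y)) h x = deriv φ (f x) * Gm m f h x := by
  filter_upwards [Gm_comp_right H hf hφ hs hh, Gm_comm hs hh, Gm_comm hf hh] with x e1 e2 e3
  rw [e2, e3, e1]

theorem Gm_comp_monotone (H : IsInfHilbertian m) (hf : IsSobolevLoc m f) {φ : ℝ → ℝ} {L : ℝ≥0}
    (hφ : LipschitzWith L φ) (hm : Monotone φ) :
    ∀ᵐ x ∂m, 0 ≤ Gm m f (fun y => φ (f y)) x := by
  set c : ℝ := 1 / (L + 1) with hc
  have hc0 : 0 < c := by positivity
  have hcL : c * L ≤ 1 := by
    rw [hc, div_mul_eq_mul_div, div_le_one (by positivity)]; linarith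
  have hψ : LipschitzWith 1 fun t => t - c * φ t := by
    have h1 : ∀ s t, s ≤ t → |t - c * φ t - (s - c * φ s)| ≤ t - s := fun s t hst => by
      have h2 : 0 ≤ φ t - φ s := sub_nonneg.2 (hm hst)
      have h3 : φ t - φ s ≤ L * (t - s) := by
        have := hφ.dist_le_mul t s
        rwa [Real.dist_eq, Real.dist_eq, abs_of_nonneg h2, abs_of_nonneg (sub_nonneg.2 hst)]
          at this
      have h4 := mul_le_mul_of_nonneg_left h3 hc0.le
      have h5 := mul_le_mul_of_nonneg_right hcL (sub_nonneg.2 hst)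
      have h6 := mul_nonneg hc0.le h2
      rw [abs_le]; constructor <;> nlinarith
    refine LipschitzWith.of_dist_le_mul fun s t => ?_
    rw [NNReal.coe_one, one_mul, Real.dist_eq, Real.dist_eq]
    rcases le_total s t with hst | hst
    · rw [abs_sub_comm, abs_sub_comm s, abs_of_nonneg (sub_nonneg.2 hst)]; exact h1 s t hst
    · rw [abs_of_nonneg (sub_nonneg.2 hst)]; exact h1 t s hst
  have hs := sl_comp_lip hf hφ
  have h1 := sl_const_mul hs c
  filter_upwards [Dw_comp_lip_le hf hψ, Dw_sub_sq H hf h1, Dw_nonneg (sl_sub hf h1),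
    Gm_const_mul_right H hs hf c] with x e1 e2 e3 e4
  rw [NNReal.coe_one, one_mul] at e1
  have e5 := pow_le_pow_left₀ e3 e1 2
  rw [e2, e4] at e5
  have e6 : 0 ≤ c * Gm m f (fun y => φ (f y)) x := by
    nlinarith [sq_nonneg (Dw m (fun y => c * φ (f y)) x)]
  exact nonneg_of_mul_nonneg_right e6 hc0

theorem Gm_comp_antitone (H : IsInfHilbertian m) (hf : IsSobolevLoc m f) {φ : ℝ → ℝ} {L : ℝ≥0}
    (hφ : LipschitzWith L φ) (hm : Antitone φ) :
    ∀ᵐ x ∂m, Gm m f (fun y => φ (f y)) x ≤ 0 := by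
  have h1 : LipschitzWith L fun t => -1 * φ t := by
    simp only [neg_one_mul]; exact hφ.neg
  have h2 : Monotone fun t => -1 * φ t := fun s t hst => by have := hm hst; linarith
  filter_upwards [Gm_comp_monotone H hf h1 h2, Gm_const_mul_right H (sl_comp_lip hf hφ) hf (-1)]
    with x e1 e2
  rw [e2] at e1
  linarith

theorem Gm_wt (H : IsInfHilbertian m) {F : X → ℝ} (hF : BL F) (ε : ℝ) (hh : IsSobolevLoc m h) :
    ∀ᵐ x ∂m, Gm m h (wt F ε) x = wt F ε x * Gm m h F x / ε := by
  have hφ : ContDiff ℝ 1 fun t : ℝ => Real.exp (t / ε) := by fun_prop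
  have hd : ∀ t, deriv (fun t : ℝ => Real.exp (t / ε)) t = Real.exp (t / ε) * (1 / ε) :=
    fun t => ((hasDerivAt_id t).div_const ε).exp.deriv
  filter_upwards [Gm_comp_right H hF.sl hφ (hF.wt ε).sl hh] with x e1
  rw [hd] at e1
  refine e1.trans ?_
  unfold wt
  ring

end Crest.Agent.R242
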