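import Crest.Agent.R242.CalcD

/-!
Row 242: the global Sobolev class.
-/

set_option autoImplicit false
set_option linter.unusedSectionVars false

open MeasureTheory Set Filter Metric Crest.GeometryTopology.SyntheticRicci
open scoped ENNReal NNReal Topology

namespace Crest.Agent.R242

variable {X : Type*} [MetricSpace X] [ProperSpace X] [MeasurableSpace X] [BorelSpace X]
  {m : Measure X} [IsLocallyFiniteMeasure m] {f g : X → ℝ}

theorem sob_sl (hf : IsSobolev m f) : IsSobolevLoc m f := hf.2.1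

theorem calcw_mk (hf : MemLp f 2 m) (hs : IsSobolevLoc m f) {D : X → ℝ} (hD : MemLp D 2 m)
    (h : ∀ᵐ x ∂m, Dw m f x ≤ D x) : IsSobolev m f := by
  refine ⟨hf, hs, hD.mono' (Dw_aemeasurable hs).aestronglyMeasurable ?_⟩
  filter_upwards [h, Dw_nonneg hs] with x h1 h2
  rwa [Real.norm_of_nonneg h2]

theorem sob_congr (hf : IsSobolev m f) (h : f =ᵐ[m] g) : IsSobolev m g := by
  exact ⟨hf.1.ae_eq h, sl_congr hf.2.1 h, hf.2.2.ae_eq (Dw_congr hf.2.1 h)⟩

theorem sob_zero : IsSobolev m fun _ => 0 := by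
  exact calcw_mk MemLp.zero' (sl_const 0) MemLp.zero' ((Dw_const 0).mono fun x hx => hx.le)

theorem sob_add (hf : IsSobolev m f) (hg : IsSobolev m g) : IsSobolev m fun x => f x + g x := by
  exact calcw_mk (hf.1.add hg.1) (sl_add hf.2.1 hg.2.1) (hf.2.2.add hg.2.2)
    (Dw_add_le hf.2.1 hg.2.1)

theorem sob_sub (hf : IsSobolev m f) (hg : IsSobolev m g) : IsSobolev m fun x => f x - g x := by
  exact calcw_mk (hf.1.sub hg.1) (sl_sub hf.2.1 hg.2.1) (hf.2.2.add hg.2.2)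
    (Dw_sub_le hf.2.1 hg.2.1)

theorem sob_neg (hf : IsSobolev m f) : IsSobolev m fun x => -f x := by
  exact calcw_mk hf.1.neg (sl_neg hf.2.1) hf.2.2 ((Dw_neg hf.2.1).mono fun x hx => hx.le)

theorem sob_const_mul (hf : IsSobolev m f) (c : ℝ) : IsSobolev m fun x => c * f x := by
  exact calcw_mk (hf.1.const_mul c) (sl_const_mul hf.2.1 c) (hf.2.2.const_mul |c|)
    ((Dw_const_mul hf.2.1 c).mono fun x hx => hx.le)

theorem sob_comp_lip (hf : IsSobolev m f) {φ : ℝ → ℝ} {L : ℝ≥0} (hφ : LipschitzWith L φ)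
    (h0 : φ 0 = 0) : IsSobolev m fun x => φ (f x) := by
  exact calcw_mk (hφ.comp_memLp h0 hf.1) (sl_comp_lip hf.2.1 hφ) (hf.2.2.const_mul L)
    (Dw_comp_lip_le hf.2.1 hφ)

theorem calcw_memLp_mul (hf : MemLp f 2 m) (hg : AEMeasurable g m) {b : ℝ}
    (hb : ∀ᵐ x ∂m, |g x| ≤ b) : MemLp (fun x => f x * g x) 2 m := by
  refine (hf.abs.const_mul b).mono' (hf.1.mul hg.aestronglyMeasurable) ?_
  filter_upwards [hb] with x hx
  rw [Real.norm_eq_abs, abs_mul, mul_comm]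
  exact mul_le_mul_of_nonneg_right hx (abs_nonneg _)

theorem sob_mul_bdd (hf : IsSobolev m f) (hg : IsSobolev m g) {a b : ℝ}
    (ha : ∀ᵐ x ∂m, |f x| ≤ a) (hb : ∀ᵐ x ∂m, |g x| ≤ b) : IsSobolev m fun x => f x * g x := by
  have hs := sl_mul_bdd hf.2.1 hg.2.1 ha hb
  refine calcw_mk (calcw_memLp_mul hf.1 hg.1.1.aemeasurable hb) hs
    ((hf.2.2.const_mul b).add (hg.2.2.const_mul a)) ?_
  filter_upwards [Dw_mul_le hf.2.1 hg.2.1 hs, ha, hb, Dw_nonneg hf.2.1, Dw_nonneg hg.2.1]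
    with x h1 h2 h3 h4 h5
  exact h1.trans (add_le_add (mul_le_mul_of_nonneg_right h3 h4) (mul_le_mul_of_nonneg_right h2 h5))

theorem sob_mul (hf : IsSobolev m f) (hg : IsSobolevLoc m g) {b L : ℝ}
    (hb : ∀ᵐ x ∂m, |g x| ≤ b) (hL : ∀ᵐ x ∂m, Dw m g x ≤ L) : IsSobolev m fun x => f x * g x := by
  have hs := sl_mul hf.2.1 hg hb hL
  refine calcw_mk (calcw_memLp_mul hf.1 (l2b_aemeasurable hg.1) hb) hs
    ((hf.2.2.const_mul b).add (hf.1.abs.const_mul L)) ?_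
  filter_upwards [Dw_mul_le hf.2.1 hg hs, hb, hL, Dw_nonneg hf.2.1] with x h1 h2 h3 h4
  refine h1.trans (add_le_add (mul_le_mul_of_nonneg_right h2 h4) ?_)
  exact (mul_le_mul_of_nonneg_left h3 (abs_nonneg _)).trans_eq (mul_comm _ _)

theorem sob_mul_BL (hf : IsSobolev m f) (hg : BL g) : IsSobolev m fun x => f x * g x := by
  obtain ⟨b, hb⟩ := hg.bdd
  obtain ⟨L, hL⟩ := hg.Dw_le (m := m)
  exact sob_mul hf hg.sl (Eventually.of_forall hb) hL

theorem sob_of_support (hf : IsSobolevLoc m f) {o : X} {R : ℝ}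
    (h : ∀ᵐ x ∂m, R < dist x o → f x = 0) : IsSobolev m f := by
  refine ⟨memLp_of_l2b hf.1 h, hf, memLp_of_l2b (Dw_l2 hf) (o := o) (R := R) ?_⟩
  filter_upwards [h, Dw_eq_zero hf] with x h1 h2 h3 using h2 (h1 h3)

theorem sob_of_compactSupport {L : ℝ≥0} (hf : LipschitzWith L f) (hc : HasCompactSupport f) :
    IsSobolev m f := by
  rcases isEmpty_or_nonempty X with hX | ⟨⟨o⟩⟩
  · rw [Subsingleton.elim f fun _ => 0]
    exact sob_zero
  obtain ⟨R, -, hR⟩ := exists_ball_of_hasCompactSupport hc o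
  exact sob_of_support (sl_lip hf) (Eventually.of_forall hR)

theorem sob_of_wug {D : X → ℝ} (hf : MemLp f 2 m) (hD : MemLp D 2 m) (h : IsWUGLoc m f D) :
    IsSobolev m f := by
  have hs := sobLoc_of_wug (l2b_of_memLp hf) h
  exact calcw_mk hf hs hD (Dw_le hs h)

theorem calcw_norm_sq (hf : MemLp f 2 m) (hg : MemLp g 2 m) :
    ‖hf.toLp f - hg.toLp g‖ ^ 2 = ∫ x, (f x - g x) ^ 2 ∂m := by
  rw [← real_inner_self_eq_norm_sq, L2.inner_def]
  refine integral_congr_ae ?_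
  filter_upwards [Lp.coeFn_sub (hf.toLp f) (hg.toLp g), hf.coeFn_toLp, hg.coeFn_toLp]
    with x h1 h2 h3
  rw [real_inner_self_eq_norm_sq, h1, Pi.sub_apply, h2, h3, Real.norm_eq_abs, sq_abs]

theorem calcw_L2_complete {F : ℕ → X → ℝ} (hF : ∀ n, MemLp (F n) 2 m)
    (h : ∀ η : ℝ, 0 < η → ∃ n₀, ∀ n ≥ n₀, ∀ n' ≥ n₀, ∫ x, (F n x - F n' x) ^ 2 ∂m ≤ η) :
    ∃ f, MemLp f 2 m ∧ Tendsto (fun n => ∫ x, (F n x - f x) ^ 2 ∂m) atTop (𝓝 0) := by
  have h1 : CauchySeq fun n => (hF n).toLp (F n) := by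
    refine Metric.cauchySeq_iff.2 fun ε hε => ?_
    obtain ⟨n₀, hn⟩ := h ((ε / 2) ^ 2) (by positivity)
    refine ⟨n₀, fun n h2 n' h3 => ?_⟩
    have h4 := hn n h2 n' h3
    rw [← calcw_norm_sq (hF n) (hF n')] at h4
    rw [dist_eq_norm]
    exact (le_of_sq_le_sq h4 (by positivity)).trans_lt (half_lt_self hε)
  obtain ⟨u, hu⟩ := cauchySeq_tendsto_of_complete h1
  refine ⟨u, Lp.memLp u, ?_⟩
  have h2 := (tendsto_iff_norm_sub_tendsto_zero.1 hu).pow 2
  rw [zero_pow two_ne_zero] at h2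
  refine h2.congr fun n => ?_
  rw [← calcw_norm_sq (hF n) (Lp.memLp u), Lp.toLp_coeFn]

theorem calcw_sq_le {u w : X → ℝ} (hw : MemLp w 2 m) (h : ∀ᵐ x ∂m, |u x| ≤ |w x|) :
    ∫ x, u x ^ 2 ∂m ≤ ∫ x, w x ^ 2 ∂m :=
  integral_mono_of_nonneg (Eventually.of_forall fun _ => sq_nonneg _) hw.integrable_sq
    (h.mono fun _ hx => sq_le_sq.2 hx)

theorem calcw_ae_zero {u : X → ℝ} (hu : MemLp u 2 m) (h : ∫ x, u x ^ 2 ∂m ≤ 0) :
    ∀ᵐ x ∂m, u x = 0 := by
  have h1 := (integral_eq_zero_iff_of_nonneg (fun x => sq_nonneg (u x)) hu.integrable_sq).1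
    (le_antisymm h (integral_nonneg fun x => sq_nonneg _))
  filter_upwards [h1] with x hx using pow_eq_zero_iff two_ne_zero |>.1 hx

theorem calcw_nonpos {u : X → ℝ} (hu : AEMeasurable u m) {w : ℕ → X → ℝ}
    (hw : ∀ n, MemLp (w n) 2 m) (h : ∀ n, ∀ᵐ x ∂m, u x ≤ w n x)
    (ht : Tendsto (fun n => ∫ x, w n x ^ 2 ∂m) atTop (𝓝 0)) : ∀ᵐ x ∂m, u x ≤ 0 := by
  have h1 : ∀ n, ∀ᵐ x ∂m, |max (u x) 0| ≤ |w n x| := fun n => (h n).mono fun x hx => by
    rw [abs_of_nonneg (le_max_right _ _)]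
    exact max_le (hx.trans (le_abs_self _)) (abs_nonneg _)
  have h2 : MemLp (fun x => max (u x) 0) 2 m :=
    (hw 0).mono (hu.max aemeasurable_const).aestronglyMeasurable (h1 0)
  filter_upwards [calcw_ae_zero h2 (ge_of_tendsto' ht fun n => calcw_sq_le (hw n) (h1 n))]
    with x hx using (le_max_left _ _).trans hx.le

theorem calcw_ball {w : ℕ → X → ℝ} (hw : ∀ n, MemLp (w n) 2 m)
    (ht : Tendsto (fun n => ∫ x, w n x ^ 2 ∂m) atTop (𝓝 0)) (o : X) (R : ℝ) :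
    Tendsto (fun n => ∫ x in ball o R, w n x ^ 2 ∂m) atTop (𝓝 0) :=
  squeeze_zero (fun _ => integral_nonneg fun _ => sq_nonneg _)
    (fun n => setIntegral_le_integral (hw n).integrable_sq
      (Eventually.of_forall fun _ => sq_nonneg _)) ht

theorem calcw_limit {F : ℕ → X → ℝ} (hF : ∀ n, IsSobolev m (F n)) (hf : MemLp f 2 m)
    (ht : Tendsto (fun n => ∫ x, (F n x - f x) ^ 2 ∂m) atTop (𝓝 0))
    (h : ∀ η : ℝ, 0 < η → ∃ n₀, ∀ n ≥ n₀, ∀ n' ≥ n₀,
      ∫ x, Dw m (fun y => F n y - F n' y) x ^ 2 ∂m ≤ η) :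
    ∃ D, MemLp D 2 m ∧ IsWUGLoc m f D ∧
      Tendsto (fun n => ∫ x, (Dw m (F n) x - D x) ^ 2 ∂m) atTop (𝓝 0) := by
  obtain ⟨D, hD, hDt⟩ := calcw_L2_complete (F := fun n => Dw m (F n)) (fun n => (hF n).2.2)
    fun η hη => by
      obtain ⟨n₀, hn⟩ := h η hη
      refine ⟨n₀, fun n h1 n' h2 => (calcw_sq_le (sob_sub (hF n) (hF n')).2.2 ?_).trans
        (hn n h1 n' h2)⟩
      exact (abs_Dw_sub_le (hF n).2.1 (hF n').2.1).mono fun x hx => hx.trans (le_abs_self _)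
  have h0 : ∀ᵐ x ∂m, 0 ≤ D x := by
    have h1 := calcw_nonpos (u := fun x => -D x) hD.1.aemeasurable.neg
      (fun n => (hF n).2.2.sub hD) (fun n => (Dw_nonneg (hF n).2.1).mono fun x hx => by
        rw [Pi.sub_apply]; linarith) hDt
    exact h1.mono fun x hx => neg_nonpos.1 hx
  exact ⟨D, hD, wug_closure (fun n => (hF n).2.1.1) (l2b_of_memLp hf) (l2b_of_memLp hD) h0
    (fun n => wug_Dw (hF n).2.1) (calcw_ball (fun n => (hF n).1.sub hf) ht)
    (calcw_ball (fun n => (hF n).2.2.sub hD) hDt), hDt⟩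

theorem calcw_dominated {W : ℕ → X → ℝ} (hW : ∀ n, AEMeasurable (W n) m) {B : X → ℝ}
    (hB : MemLp B 2 m) (h : ∀ n, ∀ᵐ x ∂m, |W n x| ≤ B x)
    (h0 : ∀ᵐ x ∂m, ∀ᶠ n in atTop, W n x = 0) :
    Tendsto (fun n => ∫ x, W n x ^ 2 ∂m) atTop (𝓝 0) := by
  have h1 := tendsto_integral_of_dominated_convergence (μ := m) (F := fun n x => W n x ^ 2)
    (f := fun _ => (0 : ℝ)) (fun x => B x ^ 2)
    (fun n => ((hW n).pow_const 2).aestronglyMeasurable) hB.integrable_sq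
    (fun n => (h n).mono fun x hx => by
      rw [Real.norm_of_nonneg (sq_nonneg _)]
      exact sq_le_sq.2 (hx.trans (le_abs_self _)))
    (h0.mono fun x hx => tendsto_const_nhds.congr' (hx.mono fun n hn => by simp [hn]))
  rwa [integral_zero] at h1

theorem calcw_dominated' {G : ℕ → X → ℝ} (hG : ∀ n, IsSobolevLoc m (G n)) {B : X → ℝ}
    (hB : MemLp B 2 m) (h : ∀ n, ∀ᵐ x ∂m, Dw m (G n) x ≤ B x)
    (h0 : ∀ x, ∀ᶠ n in atTop, G n x = 0) :
    Tendsto (fun n => ∫ x, Dw m (G n) x ^ 2 ∂m) atTop (𝓝 0) := by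
  refine calcw_dominated (fun n => Dw_aemeasurable (hG n)) hB (fun n => ?_) ?_
  · filter_upwards [h n, Dw_nonneg (hG n)] with x h1 h2
    rwa [abs_of_nonneg h2]
  · filter_upwards [ae_all_iff.2 fun n => Dw_eq_zero (hG n)] with x hx
    exact (h0 x).mono fun n hn => hx n hn

/-- completeness of `W^{1,2}` -/
theorem sob_complete {F : ℕ → X → ℝ} (hF : ∀ n, IsSobolev m (F n))
    (h : ∀ η : ℝ, 0 < η → ∃ n₀, ∀ n ≥ n₀, ∀ n' ≥ n₀, ∫ x, (F n x - F n' x) ^ 2 ∂m ≤ η ∧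
      ∫ x, Dw m (fun y => F n y - F n' y) x ^ 2 ∂m ≤ η) :
    ∃ f, IsSobolev m f ∧ Tendsto (fun n => ∫ x, (F n x - f x) ^ 2 ∂m) atTop (𝓝 0) ∧
      Tendsto (fun n => ∫ x, Dw m (fun y => F n y - f y) x ^ 2 ∂m) atTop (𝓝 0) := by
  obtain ⟨f, hf, ht⟩ := calcw_L2_complete (fun n => (hF n).1)
    fun η hη => (h η hη).imp fun n₀ hn n h1 n' h2 => (hn n h1 n' h2).1
  obtain ⟨D, hD, hw, -⟩ := calcw_limit hF hf ht
    fun η hη => (h η hη).imp fun n₀ hn n h1 n' h2 => (hn n h1 n' h2).2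
  have hs := sob_of_wug hf hD hw
  refine ⟨f, hs, ht, Metric.tendsto_atTop.2 fun ε hε => ?_⟩
  obtain ⟨n₀, hn⟩ := h (ε / 4) (by positivity)
  refine ⟨n₀, fun n h1 => ?_⟩
  obtain ⟨E, hE, hEw, hEt⟩ := calcw_limit (F := fun j y => F n y - F j y)
    (f := fun y => F n y - f y) (fun j => sob_sub (hF n) (hF j)) ((hF n).1.sub hf)
    (ht.congr fun j => integral_congr_ae (Eventually.of_forall fun x => by ring))
    fun η hη => (h η hη).imp fun n₁ hn₁ j h2 j' h3 => by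
      have h4 : (fun y => F n y - F j y - (F n y - F j' y)) = fun y => F j' y - F j y := by
        funext y; ring
      rw [h4]
      exact (hn₁ j' h3 j h2).2
  have h2 : ∫ x, E x ^ 2 ∂m ≤ ε / 2 := by
    have h3 := (hEt.const_mul 2).add_const (ε / 2)
    rw [mul_zero, zero_add] at h3
    refine ge_of_tendsto h3 ?_
    filter_upwards [eventually_ge_atTop n₀] with j hj
    have h4 := (sob_sub (hF n) (hF j)).2.2
    have h5 := (hn n h1 j hj).2
    have h6 : ∫ x, E x ^ 2 ∂m ≤ ∫ x, (2 * (Dw m (fun y => F n y - F j y) x - E x) ^ 2 +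
        2 * Dw m (fun y => F n y - F j y) x ^ 2) ∂m := by
      refine integral_mono hE.integrable_sq (((h4.sub hE).integrable_sq.const_mul 2).add
        (h4.integrable_sq.const_mul 2)) fun x => ?_
      beta_reduce
      nlinarith [sq_nonneg (2 * Dw m (fun y => F n y - F j y) x - E x)]
    have h7 : Integrable (fun x => (Dw m (fun y => F n y - F j y) x - E x) ^ 2) m :=
      (h4.sub hE).integrable_sq
    rw [integral_add (h7.const_mul 2) (h4.integrable_sq.const_mul 2),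
      integral_const_mul, integral_const_mul] at h6
    linarith
  have h3 := (sob_sub (hF n) hs).2.1
  have h4 : ∫ x, Dw m (fun y => F n y - f y) x ^ 2 ∂m ≤ ∫ x, E x ^ 2 ∂m := by
    refine calcw_sq_le hE ?_
    filter_upwards [Dw_le h3 hEw, Dw_nonneg h3] with x h5 h6
    rw [abs_of_nonneg h6]
    exact h5.trans (le_abs_self _)
  rw [Real.dist_eq, sub_zero, abs_of_nonneg (integral_nonneg fun x => sq_nonneg _)]
  linarith

/-- cutting off far away does not change much -/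
theorem sob_cut_tendsto (hf : IsSobolev m f) (o : X) :
    Tendsto (fun n : ℕ => ∫ x, (f x - f x * cut o n x) ^ 2 ∂m) atTop (𝓝 0) ∧
    Tendsto (fun n : ℕ => ∫ x, Dw m (fun y => f y - f y * cut o n y) x ^ 2 ∂m) atTop (𝓝 0) := by
  have hs : ∀ n : ℕ, IsSobolev m fun y => f y * cut o n y := fun n => sob_mul_BL hf (BL.cut o n)
  have h0 : ∀ x, ∀ᶠ n : ℕ in atTop, f x - f x * cut o n x = 0 := fun x =>
    (tendsto_natCast_atTop_atTop.eventually_ge_atTop (dist x o)).mono fun n hn => by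
      rw [cut_eq_one hn, mul_one, sub_self]
  refine ⟨calcw_dominated (fun n => (sob_sub hf (hs n)).1.1.aemeasurable) hf.1.abs
    (fun n => Eventually.of_forall fun x => ?_) (Eventually.of_forall h0),
    calcw_dominated' (fun n => (sob_sub hf (hs n)).2.1) (hf.2.2.add (hf.2.2.add hf.1.abs))
      (fun n => ?_) h0⟩
  · have h1 := cut_mem o n x
    rw [← mul_one_sub, abs_mul, abs_of_nonneg (sub_nonneg.2 h1.2)]
    exact mul_le_of_le_one_right (abs_nonneg _) (by linarith [h1.1])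
  · filter_upwards [Dw_sub_le hf.2.1 (hs n).2.1, Dw_mul_le hf.2.1 (BL.cut o n).sl (hs n).2.1,
      Dw_cut (m := m) o n, Dw_nonneg hf.2.1] with x h1 h2 h3 h4
    have h5 := cut_mem o n x
    rw [abs_of_nonneg h5.1] at h2
    refine h1.trans (add_le_add le_rfl (h2.trans (add_le_add ?_ ?_)))
    · exact mul_le_of_le_one_left h4 h5.2
    · exact mul_le_of_le_one_right (abs_nonneg _) h3.1

/-- truncation of the values does not change much -/
theorem sob_trunc_tendsto (hf : IsSobolev m f) :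
    Tendsto (fun n : ℕ => ∫ x, (f x - max (-(n : ℝ)) (min n (f x))) ^ 2 ∂m) atTop (𝓝 0) ∧
    Tendsto (fun n : ℕ => ∫ x, Dw m (fun y => f y - max (-(n : ℝ)) (min n (f y))) x ^ 2 ∂m)
      atTop (𝓝 0) := by
  have hφ : ∀ n : ℕ, LipschitzWith (1 + 1) fun t : ℝ => t - max (-(n : ℝ)) (min n t) := fun n =>
    LipschitzWith.id.sub ((LipschitzWith.id.const_min (n : ℝ)).const_max (-(n : ℝ)))
  have hs : ∀ n : ℕ, IsSobolev m fun y => f y - max (-(n : ℝ)) (min n (f y)) := fun n =>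
    sob_comp_lip hf (hφ n) (by simp)
  have h0 : ∀ x, ∀ᶠ n : ℕ in atTop, f x - max (-(n : ℝ)) (min n (f x)) = 0 := fun x =>
    (tendsto_natCast_atTop_atTop.eventually_ge_atTop |f x|).mono fun n hn => by
      rw [min_eq_right (abs_le.1 hn).2, max_eq_right (abs_le.1 hn).1, sub_self]
  refine ⟨calcw_dominated (fun n => (hs n).1.1.aemeasurable) hf.1.abs
    (fun n => Eventually.of_forall fun x => ?_) (Eventually.of_forall h0),
    calcw_dominated' (B := fun x => ((1 + 1 : ℝ≥0) : ℝ) * Dw m f x) (fun n => (hs n).2.1)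
      (hf.2.2.const_mul _) (fun n => Dw_comp_lip_le (φ := fun t : ℝ =>
        t - max (-(n : ℝ)) (min n t)) hf.2.1 (hφ n)) h0⟩
  have h1 : (0 : ℝ) ≤ n := n.cast_nonneg
  have h2 := le_abs_self (f x)
  have h3 := neg_abs_le (f x)
  change _ ≤ |f x|
  rw [abs_le]
  rcases le_total (n : ℝ) (f x) with h4 | h4
  · rw [min_eq_left h4, max_eq_right (by linarith)]
    constructor <;> linarith
  · rw [min_eq_right h4]
    rcases le_total (-(n : ℝ)) (f x) with h5 | h5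
    · rw [max_eq_right h5]
      constructor <;> linarith
    · rw [max_eq_left h5]
      constructor <;> linarith

/-- an almost everywhere bound on the gradient passes to limits in `W^{1,2}` -/
theorem Dw_le_of_tendsto {F : ℕ → X → ℝ} (hF : ∀ n, IsSobolev m (F n)) (hf : IsSobolev m f)
    {M : ℝ} (hM : ∀ n, ∀ᵐ x ∂m, Dw m (F n) x ≤ M)
    (h : Tendsto (fun n => ∫ x, Dw m (fun y => F n y - f y) x ^ 2 ∂m) atTop (𝓝 0)) :
    ∀ᵐ x ∂m, Dw m f x ≤ M := by
  have h1 := calcw_nonpos (u := fun x => Dw m f x - M) ((Dw_aemeasurable hf.2.1).sub_const M)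
    (fun n => (sob_sub (hF n) hf).2.2) (fun n => by
      filter_upwards [abs_Dw_sub_le (hF n).2.1 hf.2.1, hM n] with x h2 h3
      linarith [(abs_le.1 h2).1]) h
  exact h1.mono fun x hx => sub_nonpos.1 hx

/-- a function orthogonal to all Sobolev functions vanishes -/
theorem ae_eq_zero_of_sob (hf : MemLp f 2 m) (h : ∀ v, IsSobolev m v → ∫ x, f x * v x ∂m = 0) :
    ∀ᵐ x ∂m, f x = 0 := by
  refine calcw_ae_zero hf (le_of_forall_pos_le_add fun η hη => ?_)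
  obtain ⟨g, ⟨L, hL⟩, hc, -, hg⟩ := exists_lip_approx' hf hη
  have hs : IsSobolev m g := sob_of_compactSupport hL hc
  have h1 : Integrable (fun x => f x * g x) m := hf.integrable_mul hs.1
  have h2 : ∫ x, (f x ^ 2 - 2 * (f x * g x)) ∂m ≤ ∫ x, (f x - g x) ^ 2 ∂m :=
    integral_mono (hf.integrable_sq.sub (h1.const_mul 2)) (hf.sub hs.1).integrable_sq
      fun x => by beta_reduce; nlinarith [sq_nonneg (g x)]
  rw [integral_sub hf.integrable_sq (h1.const_mul 2), integral_const_mul, h g hs] at h2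
  linarith

end Crest.Agent.R242
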