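import Crest.Agent.R242.Res

/-!
Row 242: decay of the resolvent.
-/

set_option autoImplicit false

open MeasureTheory Set Filter Metric Crest.GeometryTopology.SyntheticRicci
open scoped ENNReal NNReal Topology

namespace Crest.Agent.R242

variable {X : Type*} [MetricSpace X] [ProperSpace X] [MeasurableSpace X] [BorelSpace X]
  {m : Measure X} [IsLocallyFiniteMeasure m] {κ N : ℝ}

/-- truncated exponential weight -/
noncomputable def decay_W (o : X) (β : ℝ) (n : ℕ) (x : X) : ℝ := Real.exp (β * min (dist x o) n)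

omit [ProperSpace X] [MeasurableSpace X] [BorelSpace X] in
theorem decay_lip (o : X) (n : ℕ) : LipschitzWith 1 fun x : X => min (dist x o) (n : ℝ) :=
  (LipschitzWith.dist_left o).min_const _

omit [ProperSpace X] [MeasurableSpace X] [BorelSpace X] in
theorem decay_BL0 (o : X) (n : ℕ) : BL fun x : X => min (dist x o) (n : ℝ) :=
  ⟨⟨1, decay_lip o n⟩, ⟨n, fun x => by
    rw [abs_of_nonneg (le_min dist_nonneg (Nat.cast_nonneg n))]
    exact min_le_right _ _⟩⟩

theorem decay_cd (β : ℝ) : ContDiff ℝ 1 fun t : ℝ => Real.exp (β * t) := by fun_prop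

theorem decay_BL (o : X) (β : ℝ) (n : ℕ) : BL (decay_W o β n) :=
  (decay_BL0 o n).comp_contDiff (decay_cd β)

theorem decay_DW (o : X) {β : ℝ} (hβ : 0 ≤ β) (n : ℕ) :
    ∀ᵐ x ∂m, Dw m (decay_W o β n) x ≤ β * decay_W o β n x := by
  have h1 := Dw_comp_le (m := m) (decay_BL0 o n).sl (decay_cd β) (decay_BL o β n).sl
  filter_upwards [h1, Dw_lip_le (m := m) (decay_lip o n)] with x hx hx'
  have hd : deriv (fun t : ℝ => Real.exp (β * t)) (min (dist x o) n) = β * decay_W o β n x := by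
    have := ((hasDerivAt_id (min (dist x o) (n : ℝ))).const_mul β).exp
    simp only [id, mul_one] at this
    rw [this.deriv, mul_comm]
    rfl
  have hp : 0 ≤ β * decay_W o β n x := mul_nonneg hβ (Real.exp_pos _).le
  rw [hd, abs_of_nonneg hp] at hx
  refine le_trans hx ?_
  simpa using mul_le_mul_of_nonneg_left hx' hp

theorem decay_mul_int {f g : X → ℝ} (hf : Integrable f m) (hg : BL g) :
    Integrable (fun x => f x * g x) m := by
  obtain ⟨B, hB⟩ := hg.bdd
  exact hf.mul_bdd hg.continuous.aestronglyMeasurable (Eventually.of_forall hB)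

theorem decay_step (H : IsInfHilbertian m) (o : X) {β τ R : ℝ} (hβ : 0 ≤ β) (hτ : 0 < τ)
    (hβτ : τ * β ^ 2 ≤ 1 / 2) {ρ s : X → ℝ} (hρ : MemLp ρ 2 m)
    (hR : ∀ᵐ x ∂m, R < dist x o → ρ x = 0) (hs : IsRes m (fun _ => 1) τ ρ s) (n : ℕ) :
    Integrable (fun x => (s x ^ 2 + τ * Dw m s x ^ 2) * decay_W o β n x) m ∧
    ∫ x, (s x ^ 2 + τ * Dw m s x ^ 2) * decay_W o β n x ∂m ≤
      2 * Real.exp (β * R) * ∫ x, ρ x ^ 2 ∂m := by
  have hW := decay_BL o β n
  have hv : IsSobolev m fun x => s x * decay_W o β n x := sob_mul_BL hs.1 hW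
  have e := hs.2 _ hv
  simp only [mul_one] at e
  have i0 : Integrable (fun x => (s x ^ 2 + τ * Dw m s x ^ 2) * decay_W o β n x) m :=
    decay_mul_int (hs.1.1.integrable_sq.add (hs.1.2.2.integrable_sq.const_mul τ)) hW
  have i1 : Integrable (fun x => s x * (s x * decay_W o β n x)) m := hs.1.1.integrable_mul hv.1
  have i2 : Integrable (fun x => Gm m s (fun x => s x * decay_W o β n x) x) m :=
    integrable_Gm H hs.1 hv
  have i3 : Integrable (fun x => ρ x * (s x * decay_W o β n x)) m := hρ.integrable_mul hv.1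
  have i4 : Integrable (fun x => ρ x ^ 2) m := hρ.integrable_sq
  have j1 : Integrable (fun x => s x * (s x * decay_W o β n x) +
      τ * Gm m s (fun x => s x * decay_W o β n x) x) m := i1.add (i2.const_mul τ)
  have j2 : Integrable (fun x => s x * (s x * decay_W o β n x) +
      τ * Gm m s (fun x => s x * decay_W o β n x) x - ρ x * (s x * decay_W o β n x)) m := j1.sub i3
  refine ⟨i0, ?_⟩
  have key : ∫ x, (s x ^ 2 + τ * Dw m s x ^ 2) * decay_W o β n x ∂m ≤
      ∫ x, (2 * (s x * (s x * decay_W o β n x) +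
        τ * Gm m s (fun x => s x * decay_W o β n x) x - ρ x * (s x * decay_W o β n x)) +
        2 * Real.exp (β * R) * ρ x ^ 2) ∂m := by
    refine integral_mono_ae i0 ((j2.const_mul 2).add (i4.const_mul _)) ?_
    filter_upwards [Gm_mul_right H hs.1.2.1 hW.sl hv.2.1 hs.1.2.1, Gm_self hs.1.2.1,
      abs_Gm_le H hs.1.2.1 hW.sl, decay_DW (m := m) o hβ n, Dw_nonneg hs.1.2.1, hR]
      with x h1 h2 h3 h4 h5 h6
    rw [h1, h2]
    have hp : 0 < decay_W o β n x := Real.exp_pos _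
    set W := decay_W o β n x with hWx
    set D := Dw m s x
    set G := Gm m s (decay_W o β n) x
    have h7 : |G| ≤ D * (β * W) := h3.trans (mul_le_mul_of_nonneg_left h4 h5)
    have h8 : -(|s x| * (D * (β * W))) ≤ s x * G := by
      have : |s x * G| ≤ |s x| * (D * (β * W)) := by
        rw [abs_mul]
        exact mul_le_mul_of_nonneg_left h7 (abs_nonneg _)
      exact (abs_le.1 this).1
    have h9 : ρ x ^ 2 * W ≤ Real.exp (β * R) * ρ x ^ 2 := by
      by_cases hx : R < dist x o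
      · simp [h6 hx]
      · rw [mul_comm]
        refine mul_le_mul_of_nonneg_right (Real.exp_le_exp.2 ?_) (sq_nonneg _)
        exact mul_le_mul_of_nonneg_left ((min_le_left _ _).trans (not_lt.1 hx)) hβ
    have h10 : 2 * (|s x| * (D * β)) ≤ D ^ 2 + β ^ 2 * s x ^ 2 := by
      nlinarith [sq_nonneg (D - β * |s x|), sq_abs (s x)]
    have h11 : 2 * (ρ x * s x) ≤ 2 * ρ x ^ 2 + s x ^ 2 / 2 := by
      nlinarith [sq_nonneg (2 * ρ x - s x)]
    have h12 := mul_le_mul_of_nonneg_left h8 hτ.le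
    have h13 := mul_le_mul_of_nonneg_left h10 (mul_pos hτ hp).le
    have h14 := mul_le_mul_of_nonneg_left h11 hp.le
    have h15 := mul_le_mul_of_nonneg_right hβτ (mul_nonneg hp.le (sq_nonneg (s x)))
    nlinarith
  refine key.trans (le_of_eq ?_)
  rw [integral_add (j2.const_mul 2) (i4.const_mul _), integral_const_mul, integral_const_mul,
    integral_sub j1 i3, integral_add i1 (i2.const_mul τ), integral_const_mul, e]
  ring

theorem decay_lim (H : IsInfHilbertian m) (o : X) {β τ R : ℝ} (hβ : 0 ≤ β) (hτ : 0 < τ)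
    (hβτ : τ * β ^ 2 ≤ 1 / 2) {ρ s : X → ℝ} (hρ : MemLp ρ 2 m)
    (hR : ∀ᵐ x ∂m, R < dist x o → ρ x = 0) (hs : IsRes m (fun _ => 1) τ ρ s) :
    Integrable (fun x => (s x ^ 2 + τ * Dw m s x ^ 2) * Real.exp (β * dist x o)) m := by
  have step := decay_step H o hβ hτ hβτ hρ hR hs
  have hp : ∀ x, 0 ≤ s x ^ 2 + τ * Dw m s x ^ 2 := fun x => by positivity
  have hmeas : AEStronglyMeasurable
      (fun x => (s x ^ 2 + τ * Dw m s x ^ 2) * Real.exp (β * dist x o)) m :=
    (hs.1.1.integrable_sq.add (hs.1.2.2.integrable_sq.const_mul τ)).aestronglyMeasurable.mul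
      (by fun_prop : Continuous fun x => Real.exp (β * dist x o)).aestronglyMeasurable
  refine ⟨hmeas, ?_⟩
  rw [hasFiniteIntegral_iff_ofReal
    (Eventually.of_forall fun x => mul_nonneg (hp x) (Real.exp_pos _).le)]
  have hlim : Tendsto (fun n : ℕ => ∫⁻ x, ENNReal.ofReal
      ((s x ^ 2 + τ * Dw m s x ^ 2) * decay_W o β n x) ∂m) atTop
      (𝓝 (∫⁻ x, ENNReal.ofReal ((s x ^ 2 + τ * Dw m s x ^ 2) * Real.exp (β * dist x o)) ∂m)) := by
    refine lintegral_tendsto_of_tendsto_of_monotone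
      (fun n => (step n).1.aemeasurable.ennreal_ofReal) (Eventually.of_forall fun x => ?_)
      (Eventually.of_forall fun x => ?_)
    · intro a b hab
      refine ENNReal.ofReal_le_ofReal (mul_le_mul_of_nonneg_left (Real.exp_le_exp.2 ?_) (hp x))
      exact mul_le_mul_of_nonneg_left (min_le_min_left _ (Nat.cast_le.2 hab)) hβ
    · refine tendsto_const_nhds.congr' ?_
      filter_upwards [tendsto_natCast_atTop_atTop.eventually_ge_atTop (dist x o)] with n hn
      rw [decay_W, min_eq_left hn]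
  refine lt_of_le_of_lt (le_of_tendsto' hlim fun n => ?_)
    (ENNReal.ofReal_lt_top (r := 2 * Real.exp (β * R) * ∫ x, ρ x ^ 2 ∂m))
  rw [← ofReal_integral_eq_lintegral_ofReal (step n).1
    (Eventually.of_forall fun x => mul_nonneg (hp x) (Real.exp_pos _).le)]
  exact ENNReal.ofReal_le_ofReal (step n).2

theorem decay_alg {b τ d s D : ℝ} (hb : 0 < b) (hτ : 0 < τ) (hd : 0 ≤ d) (hD : 0 ≤ D) :
    (1 + d ^ 2) * (|s| + D) ≤ (1 + 8 / b ^ 2) *
      ((1 + τ⁻¹) * ((s ^ 2 + τ * D ^ 2) * Real.exp (2 * b * d)) + Real.exp (-(b * d))) := by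
  set E := Real.exp (b * d / 2) with hE
  have hEp : 0 < E := Real.exp_pos _
  have h1 : 1 + d ^ 2 ≤ (1 + 8 / b ^ 2) * E := by
    have h2 := Real.quadratic_le_exp_of_nonneg (x := b * d / 2) (by positivity)
    have h3 : 1 + b ^ 2 * d ^ 2 / 8 ≤ E := by nlinarith [mul_nonneg hb.le hd]
    have h4 : (1 + 8 / b ^ 2) * (1 + b ^ 2 * d ^ 2 / 8) = 1 + d ^ 2 + (8 / b ^ 2 + b ^ 2 * d ^ 2 / 8) := by
      field_simp
      ring
    have h5 : 0 ≤ 8 / b ^ 2 + b ^ 2 * d ^ 2 / 8 := by positivity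
    have h6 := mul_le_mul_of_nonneg_left h3 (by positivity : 0 ≤ 1 + 8 / b ^ 2)
    linarith
  have e1 : Real.exp (2 * b * d) = E ^ 4 := by
    rw [hE, ← Real.exp_nat_mul]
    congr 1
    push_cast
    ring
  have e2 : Real.exp (-(b * d)) = (E⁻¹) ^ 2 := by
    rw [hE, ← Real.exp_neg, ← Real.exp_nat_mul]
    congr 1
    push_cast
    ring
  have hI : E * E⁻¹ = 1 := mul_inv_cancel₀ hEp.ne'
  have h7 : E * (|s| + D) ≤ (s ^ 2 + D ^ 2) * E ^ 4 + (E⁻¹) ^ 2 := by
    have a1 : E * |s| = (E ^ 2 * |s|) * E⁻¹ := by linear_combination (-(E * |s|)) * hI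
    have a2 : E * D = (E ^ 2 * D) * E⁻¹ := by linear_combination (-(E * D)) * hI
    have a3 : (E ^ 2 * |s|) ^ 2 = s ^ 2 * E ^ 4 := by rw [mul_pow, sq_abs]; ring
    nlinarith [sq_nonneg (E ^ 2 * |s| - E⁻¹), sq_nonneg (E ^ 2 * D - E⁻¹), sq_nonneg (E ^ 2 * |s|),
      sq_nonneg (E ^ 2 * D)]
  have h8 : s ^ 2 + D ^ 2 ≤ (1 + τ⁻¹) * (s ^ 2 + τ * D ^ 2) := by
    have a1 : (1 + τ⁻¹) * (s ^ 2 + τ * D ^ 2) = s ^ 2 + D ^ 2 + (τ * D ^ 2 + τ⁻¹ * s ^ 2) := by
      field_simp
      ring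
    have a2 : 0 ≤ τ * D ^ 2 + τ⁻¹ * s ^ 2 := by positivity
    linarith
  rw [e1, e2]
  calc (1 + d ^ 2) * (|s| + D) ≤ (1 + 8 / b ^ 2) * E * (|s| + D) :=
        mul_le_mul_of_nonneg_right h1 (by positivity)
    _ = (1 + 8 / b ^ 2) * (E * (|s| + D)) := by ring
    _ ≤ _ := by
        refine mul_le_mul_of_nonneg_left (h7.trans ?_) (by positivity)
        have := mul_le_mul_of_nonneg_right h8 (by positivity : 0 ≤ E ^ 4)
        linarith

theorem decay_cut_tendsto (o : X) {f : X → ℝ} (hf : Integrable f m) :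
    Tendsto (fun n : ℕ => ∫ x, f x * cut o n x ∂m) atTop (𝓝 (∫ x, f x ∂m)) := by
  refine tendsto_integral_of_dominated_convergence (fun x => ‖f x‖)
    (fun n => (decay_mul_int hf (BL.cut o n)).aestronglyMeasurable) hf.norm
    (fun n => Eventually.of_forall fun x => ?_) (Eventually.of_forall fun x => ?_)
  · rw [norm_mul, Real.norm_of_nonneg (cut_mem o n x).1]
    exact mul_le_of_le_one_right (norm_nonneg _) (cut_mem o n x).2
  · refine tendsto_const_nhds.congr' ?_
    filter_upwards [tendsto_natCast_atTop_atTop.eventually_ge_atTop (dist x o)] with n hn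
    rw [cut_eq_one hn, mul_one]

theorem decay_mass (H : IsInfHilbertian m) (o : X) {τ : ℝ} {ρ s : X → ℝ} (hρ : Integrable ρ m)
    (hs : IsRes m (fun _ => 1) τ ρ s) (h1 : Integrable s m) (h2 : Integrable (Dw m s) m) :
    ∫ x, s x ∂m = ∫ x, ρ x ∂m := by
  have hc : ∀ n : ℕ, IsSobolev m (cut o n) := fun n =>
    sob_of_support (BL.cut o n).sl (o := o) (R := n + 1)
      (Eventually.of_forall fun x hx => cut_eq_zero hx.le)
  have t3 : Tendsto (fun n : ℕ => ∫ x, Gm m s (cut o n) x ∂m) atTop (𝓝 (∫ _, (0 : ℝ) ∂m)) := by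
    have a1 : ∀ᵐ x ∂m, ∀ n : ℕ, |Gm m s (cut o n) x| ≤ Dw m s x * Dw m (cut o n) x :=
      ae_all_iff.2 fun n => abs_Gm_le H hs.1.2.1 (hc n).2.1
    have a2 := ae_all_iff.2 fun n : ℕ => Dw_cut (m := m) o n
    refine tendsto_integral_of_dominated_convergence (Dw m s)
      (fun n => (integrable_Gm H hs.1 (hc n)).aestronglyMeasurable) h2 (fun n => ?_) ?_
    · filter_upwards [a1, a2, Dw_nonneg hs.1.2.1] with x b1 b2 b3
      exact (b1 n).trans (mul_le_of_le_one_right b3 (b2 n).1)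
    · filter_upwards [a1, a2] with x b1 b2
      refine tendsto_const_nhds.congr' ?_
      filter_upwards [tendsto_natCast_atTop_atTop.eventually_ge_atTop (dist x o)] with n hn
      have := b1 n
      rw [(b2 n).2 (Or.inl hn), mul_zero] at this
      exact (abs_nonpos_iff.1 this).symm
  have t4 := (decay_cut_tendsto o h1).add (t3.const_mul τ)
  have t5 := decay_cut_tendsto o hρ
  have e : ∀ n : ℕ, ∫ x, s x * cut o n x ∂m + τ * ∫ x, Gm m s (cut o n) x ∂m =
      ∫ x, ρ x * cut o n x ∂m := fun n => by simpa only [mul_one] using hs.2 _ (hc n)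
  simp only [e, integral_zero, mul_zero, add_zero] at t4
  exact tendsto_nhds_unique t4 t5

/-- decay of the resolvent -/
theorem Jr_decay (h : CDk m κ N) (H : IsInfHilbertian m) (o : X) : ∃ τ₀ : ℝ, 0 < τ₀ ∧
    ∀ τ, 0 < τ → τ ≤ τ₀ → ∀ (ρ : X → ℝ) (R : ℝ), MemLp ρ 2 m →
      (∀ᵐ x ∂m, R < dist x o → ρ x = 0) →
      Integrable (fun x => (1 + dist x o ^ 2) * (|Jr m τ ρ x| + Dw m (Jr m τ ρ) x)) m ∧
        ∫ x, Jr m τ ρ x ∂m = ∫ x, ρ x ∂m := by
  obtain ⟨b, hb, hint⟩ := h.growth o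
  refine ⟨1 / (8 * b ^ 2), by positivity, fun τ hτ hτ' ρ R hρ hR => ?_⟩
  have hs : IsRes m (fun _ => 1) τ ρ (Jr m τ ρ) := isRes_Res H Wt.one hτ hρ
  set s := Jr m τ ρ
  have hβτ : τ * (2 * b) ^ 2 ≤ 1 / 2 := by
    rw [le_div_iff₀ (by positivity)] at hτ'
    linarith
  have i1 := decay_lim H o (by positivity) hτ hβτ hρ hR hs
  have ms : AEStronglyMeasurable s m := hs.1.1.aestronglyMeasurable
  have mD : AEStronglyMeasurable (Dw m s) m := hs.1.2.2.aestronglyMeasurable
  have i2 : Integrable (fun x => (1 + dist x o ^ 2) * (|s x| + Dw m s x)) m := by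
    refine Integrable.mono' (((i1.const_mul (1 + τ⁻¹)).add hint).const_mul (1 + 8 / b ^ 2))
      ((by fun_prop : Continuous fun x => 1 + dist x o ^ 2).aestronglyMeasurable.mul
        (ms.norm.add mD)) ?_
    filter_upwards [Dw_nonneg hs.1.2.1] with x hx
    rw [Real.norm_of_nonneg (by positivity)]
    exact decay_alg hb hτ dist_nonneg hx
  refine ⟨i2, decay_mass H o (integrable_of_l2b (l2b_of_memLp hρ) hR) hs ?_ ?_⟩
  · refine i2.mono' ms ?_
    filter_upwards [Dw_nonneg hs.1.2.1] with x hx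
    rw [Real.norm_eq_abs]
    nlinarith [abs_nonneg (s x), mul_nonneg (sq_nonneg (dist x o)) (add_nonneg (abs_nonneg (s x)) hx)]
  · refine i2.mono' mD ?_
    filter_upwards [Dw_nonneg hs.1.2.1] with x hx
    rw [Real.norm_of_nonneg hx]
    nlinarith [abs_nonneg (s x), mul_nonneg (sq_nonneg (dist x o)) (add_nonneg (abs_nonneg (s x)) hx)]

end Crest.Agent.R242
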