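import Crest.Agent.R242.KL
import Crest.Agent.R242.Decay

/-!
Row 242: contraction of the resolvent in the transport distance.
-/

set_option autoImplicit false

open MeasureTheory Set Filter Metric Crest.GeometryTopology.SyntheticRicci
open scoped ENNReal NNReal Topology

namespace Crest.Agent.R242

variable {X : Type*} [MetricSpace X] [ProperSpace X] [MeasurableSpace X] [BorelSpace X]
  {m : Measure X} [IsLocallyFiniteMeasure m] {κ N : ℝ}

omit [ProperSpace X] [IsLocallyFiniteMeasure m] in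
theorem contr_meas (o : X) (r : ℝ) : MeasurableSet {x : X | r < dist x o} :=
  (isOpen_lt continuous_const (by fun_prop)).measurableSet

omit [ProperSpace X] [IsLocallyFiniteMeasure m] in
theorem contr_tail {w : X → ℝ} (hw : Integrable w m) (o : X) :
    Tendsto (fun n : ℕ => ∫ x in {x | (n : ℝ) < dist x o}, w x ∂m) atTop (𝓝 0) := by
  have h := tendsto_setIntegral_of_antitone (μ := m) (f := w)
    (s := fun n : ℕ => {x | (n : ℝ) < dist x o}) (fun n => contr_meas o n)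
    (fun a b hab x hx => by
      simp only [mem_ofPred_eq] at hx ⊢
      exact lt_of_le_of_lt (by exact_mod_cast hab) hx) ⟨0, hw.integrableOn⟩
  have e : (⋂ n : ℕ, {x : X | (n : ℝ) < dist x o}) = ∅ := by
    ext x
    simp only [mem_iInter, mem_ofPred_eq, mem_empty_iff_false, iff_false, not_forall, not_lt]
    exact exists_nat_ge _
  rwa [e, Measure.restrict_empty, integral_zero_measure] at h

theorem contr_one (H : IsInfHilbertian m) {τ : ℝ} (hτ : 0 < τ) {ρ s : X → ℝ} {C : ℝ≥0} {o : X}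
    {r : ℝ} (hr : 0 ≤ r) (hres : IsRes m (fun _ => 1) τ ρ s) (hs : ∀ᵐ x ∂m, 0 ≤ s x ∧ s x ≤ C)
    (hρi : Integrable ρ m) (hρ0 : ∀ x, 0 ≤ ρ x) (hρr : ∀ x, r < dist x o → ρ x = 0)
    (hρ1 : ∫ x, ρ x ∂m = 1)
    (hw : Integrable (fun x => (1 + dist x o ^ 2) * (|s x| + Dw m s x)) m)
    (hs1 : ∫ x, s x ∂m = 1) {T : ℝ}
    (hT : ∫ x in {x | r < dist x o}, (1 + dist x o ^ 2) * (|s x| + Dw m s x) ∂m ≤ T)
    (hT2 : T ≤ 1 / 2) :
    ∃ s' : X → ℝ, IsSobolevLoc m s' ∧
      (∀ᵐ x ∂m, 0 ≤ s' x ∧ s' x ≤ ((2 * C : ℝ≥0) : ℝ) ∧ (r + 1 < dist x o → s' x = 0)) ∧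
      ∫ x, s' x ∂m = 1 ∧ (∀ (ν : Measure X) (β : ℝ), Close m ν s' β → Close m ν s (β + 2 * T)) ∧
      ∀ φ : X → ℝ, LipschitzWith (2 * (r + 1 + 2)).toNNReal φ →
        (∀ x, |φ x| ≤ 4 * (r + 1 + 2) ^ 2) →
        ∫ x, φ x * s' x ∂m ≤
          ∫ x, φ x * ρ x ∂m - τ * ∫ x, Gm m φ s' x ∂m + 80 * (1 + τ) * T := by
  have hsob := hres.1
  have hsl := sob_sl hsob
  have hD0 := Dw_nonneg hsl
  set w : X → ℝ := fun x => (1 + dist x o ^ 2) * (|s x| + Dw m s x) with hwdef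
  set t : X → ℝ := indicator {x | r < dist x o} w with htdef
  have hti : Integrable t m := hw.indicator (contr_meas o r)
  have htT : ∫ x, t x ∂m ≤ T := by rwa [htdef, integral_indicator (contr_meas o r)]
  have hsi : Integrable s m := by
    refine hw.mono' hsob.1.aestronglyMeasurable ?_
    filter_upwards [hD0] with x hx
    rw [Real.norm_eq_abs]
    have h1 : 0 ≤ dist x o ^ 2 * (|s x| + Dw m s x) := by positivity
    simp only [hwdef]
    nlinarith
  set χ : X → ℝ := cut o r with hχdef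
  have hχB : BL χ := BL.cut o r
  have hχm : ∀ x, 0 ≤ χ x ∧ χ x ≤ 1 := cut_mem o r
  have hχa : AEStronglyMeasurable χ m := hχB.continuous.aestronglyMeasurable
  have hsχi : Integrable (fun x => s x * χ x) m :=
    hsi.mul_bdd (c := 1) hχa (Eventually.of_forall fun x => by
      rw [Real.norm_eq_abs, abs_of_nonneg (hχm x).1]; exact (hχm x).2)
  set a : ℝ := ∫ x, s x * χ x ∂m with hadef
  -- the basic tail bound
  have htail : ∀ᵐ x ∂m, ∀ A B : ℝ, 0 ≤ A → 0 ≤ B → A ≤ 40 * (1 + r ^ 2) → B ≤ 40 * (1 + r ^ 2) →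
      r < dist x o → A * s x + B * Dw m s x ≤ 40 * t x := by
    filter_upwards [hD0, hs] with x hx hx' A B hA hB hA' hB' hrx
    have e : t x = w x := indicator_of_mem (show x ∈ {x | r < dist x o} from hrx) w
    rw [e, hwdef]
    dsimp only
    rw [abs_of_nonneg hx'.1]
    have h1 : r ^ 2 ≤ dist x o ^ 2 := by gcongr
    have h2 : A * s x ≤ 40 * (1 + dist x o ^ 2) * s x := by
      apply mul_le_mul_of_nonneg_right _ hx'.1; linarith
    have h3 : B * Dw m s x ≤ 40 * (1 + dist x o ^ 2) * Dw m s x := by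
      apply mul_le_mul_of_nonneg_right _ hx; linarith
    linarith
  have ht0 : ∀ᵐ x ∂m, 0 ≤ t x := by
    filter_upwards [hD0] with x hx
    refine indicator_apply_nonneg ?_
    intro _
    simp only [hwdef]
    positivity
  have hsd : Integrable (fun x => s x - s x * χ x) m := hsi.sub hsχi
  have h1a : 1 - a = ∫ x, (s x - s x * χ x) ∂m := by
    rw [integral_sub hsi hsχi, hs1]
  have hBa : ∀ B : ℝ, 0 ≤ B → B ≤ 40 * (1 + r ^ 2) → B * (1 - a) ≤ 40 * T := by
    intro B hB hB'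
    rw [h1a, ← integral_const_mul]
    refine le_trans (integral_mono_ae ((hsi.sub hsχi).const_mul B) (hti.const_mul 40) ?_) ?_
    · filter_upwards [htail, hs, ht0, hD0] with x hx hx' hx0 hxD
      show B * (s x - s x * χ x) ≤ 40 * t x
      by_cases hrx : r < dist x o
      · have h1 := hx B 0 hB le_rfl hB' (by positivity) hrx
        have h2 : 0 ≤ B * (s x * χ x) := mul_nonneg hB (mul_nonneg hx'.1 (hχm x).1)
        nlinarith
      · have : χ x = 1 := cut_eq_one (not_lt.mp hrx)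
        rw [this]
        nlinarith
    · rw [integral_const_mul]; linarith
  have ha1 : a ≤ 1 := by
    have : 0 ≤ 1 - a := by
      rw [h1a]
      refine integral_nonneg_of_ae ?_
      filter_upwards [hs] with x hx
      show 0 ≤ s x - s x * χ x
      nlinarith [(hχm x).2, hx.1]
    linarith
  have haT : 1 - a ≤ T := by
    have := hBa 40 (by norm_num) (by nlinarith)
    linarith
  have ha2 : 1 / 2 ≤ a := by linarith
  have ha0 : 0 < a := by linarith
  have hT0 : 0 ≤ T := by linarith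
  have hsχ : IsSobolevLoc m fun x => s x * χ x := sl_mul_BL hsl hχB
  have hs' : IsSobolevLoc m fun x => a⁻¹ * (s x * χ x) := sl_const_mul hsχ _
  have hsupp : ∀ x, r + 1 < dist x o → a⁻¹ * (s x * χ x) = 0 := by
    intro x hx
    have : χ x = 0 := cut_eq_zero hx.le
    rw [this]; simp
  have hinv : a⁻¹ ≤ 2 := by
    rw [inv_le_comm₀ ha0 (by norm_num)]; linarith
  have hinv1 : 1 ≤ a⁻¹ := by
    rw [le_inv_comm₀ (by norm_num) ha0]; linarith
  refine ⟨fun x => a⁻¹ * (s x * χ x), hs', ?_, ?_, ?_, ?_⟩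
  · filter_upwards [hs] with x hx
    refine ⟨mul_nonneg (by positivity) (mul_nonneg hx.1 (hχm x).1), ?_, hsupp x⟩
    push_cast
    have h1 : s x * χ x ≤ C := by nlinarith [(hχm x).2, hx.1, hx.2]
    exact mul_le_mul hinv h1 (mul_nonneg hx.1 (hχm x).1) (by norm_num)
  · rw [integral_const_mul, ← hadef, inv_mul_cancel₀ ha0.ne']
  · intro ν β hν g hg hg1
    have h1 := hν g hg hg1
    have hg1' : ∀ᵐ x ∂m, ‖g x‖ ≤ 1 := hg1
    have i1 : Integrable (fun x => g x * (a⁻¹ * (s x * χ x))) m :=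
      (hsχi.const_mul _).bdd_mul hg hg1'
    have i2 : Integrable (fun x => g x * s x) m := hsi.bdd_mul hg hg1'
    have h2 : |∫ x, g x * (a⁻¹ * (s x * χ x)) ∂m - ∫ x, g x * s x ∂m| ≤ 2 * T := by
      rw [← integral_sub i1 i2]
      have h3 : ‖∫ x, (g x * (a⁻¹ * (s x * χ x)) - g x * s x) ∂m‖ ≤
          ∫ x, ((a⁻¹ - 1) * (s x * χ x) + (s x - s x * χ x)) ∂m := by
        refine norm_integral_le_of_norm_le ((hsχi.const_mul _).add (hsi.sub hsχi)) ?_
        filter_upwards [hs, hg1] with x hx hgx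
        have p1 : 0 ≤ (a⁻¹ - 1) * (s x * χ x) :=
          mul_nonneg (by linarith) (mul_nonneg hx.1 (hχm x).1)
        have p2 : 0 ≤ s x - s x * χ x := by nlinarith [(hχm x).2, hx.1]
        have e : g x * (a⁻¹ * (s x * χ x)) - g x * s x =
            g x * ((a⁻¹ - 1) * (s x * χ x) - (s x - s x * χ x)) := by ring
        rw [e, Real.norm_eq_abs, abs_mul]
        have p3 : |(a⁻¹ - 1) * (s x * χ x) - (s x - s x * χ x)| ≤
            (a⁻¹ - 1) * (s x * χ x) + (s x - s x * χ x) := by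
          rw [abs_le]; constructor <;> linarith
        calc _ ≤ 1 * ((a⁻¹ - 1) * (s x * χ x) + (s x - s x * χ x)) :=
              mul_le_mul hgx p3 (abs_nonneg _) (by norm_num)
          _ = _ := one_mul _
      rw [integral_add (hsχi.const_mul _) hsd, integral_const_mul, ← hadef, ← h1a,
        Real.norm_eq_abs] at h3
      have e : (a⁻¹ - 1) * a = 1 - a := by field_simp
      linarith
    calc _ ≤ |∫ x, g x ∂ν - ∫ x, g x * (a⁻¹ * (s x * χ x)) ∂m| +
          |∫ x, g x * (a⁻¹ * (s x * χ x)) ∂m - ∫ x, g x * s x ∂m| := abs_sub_le _ _ _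
      _ ≤ β + 2 * T := add_le_add h1 h2
  · intro φ hφ hφB
    set B : ℝ := 4 * (r + 1 + 2) ^ 2 with hB
    have hB0 : 0 ≤ B := by positivity
    have hB1 : B ≤ 40 * (1 + r ^ 2) := by rw [hB]; nlinarith [sq_nonneg (3 * r - 1)]
    have hL1 : 2 * (r + 1 + 2) ≤ 40 * (1 + r ^ 2) := by nlinarith [sq_nonneg (r - 1)]
    have hL0 : 0 ≤ 2 * (r + 1 + 2) := by positivity
    have hφL : BL φ := ⟨⟨_, hφ⟩, ⟨_, hφB⟩⟩
    have hφs : IsSobolevLoc m φ := hφL.sl
    have hχs : IsSobolevLoc m χ := hχB.sl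
    have hv : IsSobolev m fun x => φ x * χ x := by
      refine sob_of_support (hφL.mul hχB).sl (o := o) (R := r + 1) (Eventually.of_forall ?_)
      intro x hx
      have : χ x = 0 := cut_eq_zero hx.le
      rw [this, mul_zero]
    have key := hres.2 _ hv
    simp only [mul_one] at key
    have e1 : ∫ x, s x * (φ x * χ x) ∂m = a * ∫ x, φ x * (a⁻¹ * (s x * χ x)) ∂m := by
      rw [← integral_const_mul]
      refine integral_congr_ae (Eventually.of_forall fun x => ?_)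
      dsimp only
      field_simp
    have e2 : ∫ x, ρ x * (φ x * χ x) ∂m = ∫ x, φ x * ρ x ∂m := by
      refine integral_congr_ae (Eventually.of_forall fun x => ?_)
      dsimp only
      by_cases hrx : r < dist x o
      · rw [hρr x hrx]; simp
      · have : χ x = 1 := cut_eq_one (not_lt.mp hrx)
        rw [this]; ring
    have iG1 : Integrable (Gm m s fun x => φ x * χ x) m := integrable_Gm H hsob hv
    have iG2 : Integrable (Gm m φ fun x => a⁻¹ * (s x * χ x)) m :=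
      integrable_Gm_of_support H hφs hs' (o := o) (R := r + 1) (c := 0)
        (Eventually.of_forall hsupp)
    have e3 : a * ∫ x, Gm m φ (fun x => a⁻¹ * (s x * χ x)) x ∂m ≤
        ∫ x, Gm m s (fun x => φ x * χ x) x ∂m + 40 * T := by
      rw [← integral_const_mul]
      refine le_trans (integral_mono_ae (iG2.const_mul a) (iG1.add (hti.const_mul 40)) ?_) ?_
      · filter_upwards [Gm_mul_right H hφs hχs (sob_sl hv) hsl, Gm_mul_right H hsl hχs hsχ hφs,
          Gm_comm hsl hφs, Gm_const_mul_right H hsχ hφs a⁻¹, abs_Gm_le H hφs hχs,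
          abs_Gm_le H hsl hχs, Dw_cut (m := m) o r, Dw_lip_le (m := m) hφ, htail, hs, ht0, hD0,
          Dw_nonneg hφs, Dw_nonneg hχs] with x g1 g2 g3 g4 g5 g6 g7 g8 g9 hx hx0 hxD hxφ hxχ
        show a * Gm m φ (fun x => a⁻¹ * (s x * χ x)) x ≤
          Gm m s (fun x => φ x * χ x) x + 40 * t x
        rw [g4, g1, g2, g3, ← mul_assoc, mul_inv_cancel₀ ha0.ne', one_mul]
        rw [Real.coe_toNNReal _ hL0] at g8
        have goal : s x * Gm m φ χ x - φ x * Gm m s χ x ≤ 40 * t x := by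
          by_cases hrx : r < dist x o
          · have h1 := g9 _ _ hL0 hB0 hL1 hB1 hrx
            have h2 : Gm m φ χ x ≤ 2 * (r + 1 + 2) := by
              refine (le_abs_self _).trans (g5.trans ?_)
              calc _ ≤ 2 * (r + 1 + 2) * 1 := mul_le_mul g8 g7.1 hxχ hL0
                _ = _ := mul_one _
            have h3 : |Gm m s χ x| ≤ Dw m s x := by
              refine g6.trans ?_
              calc _ ≤ Dw m s x * 1 := mul_le_mul_of_nonneg_left g7.1 hxD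
                _ = _ := mul_one _
            have h4 : |φ x * Gm m s χ x| ≤ B * Dw m s x := by
              rw [abs_mul]; exact mul_le_mul (hφB x) h3 (abs_nonneg _) hB0
            have h5 := neg_abs_le (φ x * Gm m s χ x)
            have h6 : s x * Gm m φ χ x ≤ s x * (2 * (r + 1 + 2)) :=
              mul_le_mul_of_nonneg_left h2 hx.1
            linarith
          · have h0 : Dw m χ x = 0 := g7.2 (Or.inl (not_lt.mp hrx))
            rw [h0, mul_zero, abs_nonpos_iff] at g5 g6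
            rw [g5, g6]
            linarith
        linarith
      · rw [integral_add' iG1 (hti.const_mul 40), integral_const_mul]
        linarith
    have e4 : ∫ x, φ x * ρ x ∂m ≤ B := by
      have iφ : Integrable (fun x => φ x * ρ x) m :=
        hρi.bdd_mul (c := B) hφL.continuous.aestronglyMeasurable (Eventually.of_forall hφB)
      calc _ ≤ ∫ x, B * ρ x ∂m := by
            refine integral_mono iφ (hρi.const_mul B) fun x => ?_
            exact mul_le_mul_of_nonneg_right ((le_abs_self _).trans (hφB x)) (hρ0 x)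
        _ = B := by rw [integral_const_mul, hρ1, mul_one]
    have e5 := hBa B hB0 hB1
    rw [e1, e2] at key
    set U := ∫ x, φ x * (a⁻¹ * (s x * χ x)) ∂m
    set V := ∫ x, φ x * ρ x ∂m
    set G := ∫ x, Gm m φ (fun x => a⁻¹ * (s x * χ x)) x ∂m
    set G' := ∫ x, Gm m s (fun x => φ x * χ x) x ∂m
    have e6 : (1 - a) * V ≤ (1 - a) * B := mul_le_mul_of_nonneg_left e4 (by linarith)
    have e7 : τ * (a * G) ≤ τ * (G' + 40 * T) := mul_le_mul_of_nonneg_left e3 hτ.le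
    have e8 : a * (U - V + τ * G) ≤ 40 * (1 + τ) * T := by nlinarith
    have e9 : 40 * (1 + τ) * T ≤ a * (80 * (1 + τ) * T) := by
      have : 0 ≤ (1 + τ) * T := by positivity
      nlinarith
    have := le_of_mul_le_mul_left (e8.trans e9) ha0
    linarith

theorem contr_side (H : IsInfHilbertian m) {ρ : X → ℝ} {C : ℝ≥0} {o : X} {R : ℝ} {μ : Measure X}
    [IsProbabilityMeasure μ] (hm : Measurable ρ)
    (hρ : ∀ x, 0 ≤ ρ x ∧ ρ x ≤ C ∧ (R < dist x o → ρ x = 0))
    (e : μ = m.withDensity (fun x => ENNReal.ofReal (ρ x))) {τ : ℝ} (hτ : 0 < τ) :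
    MemLp ρ 2 m ∧ Integrable ρ m ∧ ∫ x, ρ x ∂m = 1 ∧ Adm m μ C o R ∧
      (∀ g : X → ℝ, ∫ x, g x ∂μ = ∫ x, g x * ρ x ∂m) ∧
      IsRes m (fun _ => 1) τ ρ (Jr m τ ρ) ∧ ∀ᵐ x ∂m, 0 ≤ Jr m τ ρ x ∧ Jr m τ ρ x ≤ C := by
  have hl : IsL2OnBalls m ρ := l2b_of_bdd hm.aemeasurable (B := C)
    (Eventually.of_forall fun x => by rw [abs_of_nonneg (hρ x).1]; exact (hρ x).2.1)
  have hs : ∀ᵐ x ∂m, R < dist x o → ρ x = 0 := Eventually.of_forall fun x => (hρ x).2.2
  have h2 := memLp_of_l2b hl hs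
  obtain ⟨h3, h4⟩ := adm_withDensity (C := C) hm.aemeasurable
    (Eventually.of_forall fun x => ⟨(hρ x).1, (hρ x).2.1⟩) hs
  rw [← e] at h3 h4
  refine ⟨h2, integrable_of_l2b hl hs, ?_, h3, h4, isRes_Res H Wt.one hτ h2, ?_⟩
  · have := h4 fun _ => 1
    simpa using this.symm
  · exact (Res_nonneg H Wt.one hτ h2 (Eventually.of_forall fun x => (hρ x).1)).and
      (Res_le_const H Wt.one hτ h2 C.2 (Eventually.of_forall fun x => (hρ x).2.1))

theorem Jr_contr (h : CDk m κ N) (H : IsInfHilbertian m) (o : X) : ∃ τ₀ : ℝ, 0 < τ₀ ∧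
    8 * κ * τ₀ ≤ 1 / 2 ∧ ∀ τ, 0 < τ → τ ≤ τ₀ → ∀ (q : Measure (X × X)) (ρ₀ ρ₁ : X → ℝ) (C : ℝ≥0)
      (R : ℝ), IsProbabilityMeasure q → Measurable ρ₀ → Measurable ρ₁ →
      (∀ x, 0 ≤ ρ₀ x ∧ ρ₀ x ≤ C ∧ (R < dist x o → ρ₀ x = 0)) →
      (∀ x, 0 ≤ ρ₁ x ∧ ρ₁ x ≤ C ∧ (R < dist x o → ρ₁ x = 0)) →
      q.fst = m.withDensity (fun x => ENNReal.ofReal (ρ₀ x)) →
      q.snd = m.withDensity (fun x => ENNReal.ofReal (ρ₁ x)) → ∀ β : ℝ, 0 < β →
      ∃ (q' : Measure (X × X)) (R' : ℝ), IsProbabilityMeasure q' ∧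
        Adm m q'.fst (2 * C + 1) o R' ∧ Adm m q'.snd (2 * C + 1) o R' ∧
        Close m q'.fst (Jr m τ ρ₀) β ∧ Close m q'.snd (Jr m τ ρ₁) β ∧
        cst q' ≤ (1 - 8 * κ * τ)⁻¹ * cst q + β := by
  obtain ⟨τ₁, hτ₁, hdec⟩ := Jr_decay h H o
  have hκ := h.κ_nonneg
  have hτκ : 8 * κ * min τ₁ (16 * κ + 1)⁻¹ ≤ 1 / 2 := by
    have h1 : 8 * κ * min τ₁ (16 * κ + 1)⁻¹ ≤ 8 * κ * (16 * κ + 1)⁻¹ :=
      mul_le_mul_of_nonneg_left (min_le_right _ _) (by positivity)
    have h2 : 8 * κ * (16 * κ + 1)⁻¹ ≤ 1 / 2 := by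
      rw [← div_eq_mul_inv, div_le_iff₀ (by positivity)]; linarith
    exact h1.trans h2
  refine ⟨min τ₁ (16 * κ + 1)⁻¹, by positivity, hτκ, ?_⟩
  intro τ hτ hτ' q ρ₀ ρ₁ C R hq m₀ m₁ b₀ b₁ e₀ e₁ β hβ
  have hκτ : 8 * κ * τ ≤ 1 / 2 :=
    (mul_le_mul_of_nonneg_left hτ' (by positivity)).trans hτκ
  obtain ⟨l₀, i₀, j₀, a₀, g₀, r₀, s₀⟩ := contr_side H m₀ b₀ e₀ hτ
  obtain ⟨l₁, i₁, j₁, a₁, g₁, r₁, s₁⟩ := contr_side H m₁ b₁ e₁ hτ
  obtain ⟨w₀, k₀⟩ := hdec τ hτ (hτ'.trans (min_le_left _ _)) ρ₀ R l₀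
    (Eventually.of_forall fun x => (b₀ x).2.2)
  obtain ⟨w₁, k₁⟩ := hdec τ hτ (hτ'.trans (min_le_left _ _)) ρ₁ R l₁
    (Eventually.of_forall fun x => (b₁ x).2.2)
  rw [j₀] at k₀
  rw [j₁] at k₁
  set T : ℝ := min (1 / 2) (β / (1000 * (1 + τ))) with hTdef
  have hT0 : 0 < T := by positivity
  have hT1 : T ≤ 1 / 2 := min_le_left _ _
  have hT2 : 1000 * (1 + τ) * T ≤ β := by
    have : T ≤ β / (1000 * (1 + τ)) := min_le_right _ _
    rw [le_div_iff₀ (by positivity)] at this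
    linarith
  obtain ⟨n, hn0, hn1, hnR⟩ := (((contr_tail w₀ o).eventually (ge_mem_nhds hT0)).and
    (((contr_tail w₁ o).eventually (ge_mem_nhds hT0)).and
      (tendsto_natCast_atTop_atTop.eventually (eventually_ge_atTop R)))).exists
  have hn : (0 : ℝ) ≤ n := n.cast_nonneg
  obtain ⟨u₀, us₀, ub₀, ui₀, uc₀, uφ₀⟩ := contr_one H hτ hn r₀ s₀ i₀ (fun x => (b₀ x).1)
    (fun x hx => (b₀ x).2.2 (hnR.trans_lt hx)) j₀ w₀ k₀ hn0 hT1
  obtain ⟨u₁, us₁, ub₁, ui₁, uc₁, uφ₁⟩ := contr_one H hτ hn r₁ s₁ i₁ (fun x => (b₁ x).1)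
    (fun x hx => (b₁ x).2.2 (hnR.trans_lt hx)) j₁ w₁ k₁ hn1 hT1
  obtain ⟨q', φ, ψ, hq', A₀, A₁, c₀, c₁, hφ, hψ, hb, hle, hc, hG⟩ :=
    kl_sum h H us₀ us₁ (R := (n : ℝ) + 1) (by positivity) ub₀ ub₁ ui₀ ui₁ hT0
  have hτT : 0 ≤ τ * T := by positivity
  have h3T : T + 2 * T ≤ β := by nlinarith
  refine ⟨q', _, hq', A₀, A₁, fun g hg hg1 => (uc₀ _ _ c₀ g hg hg1).trans h3T,
    fun g hg hg1 => (uc₁ _ _ c₁ g hg hg1).trans h3T, ?_⟩
  have p₀ := uφ₀ φ hφ fun x => (hb x).1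
  have p₁ := uφ₁ ψ hψ fun x => (hb x).2
  have hφc := hφ.continuous
  have hψc := hψ.continuous
  have iφ : Integrable (fun p : X × X => φ p.1) q :=
    Integrable.of_bound (by fun_prop) _ (Eventually.of_forall fun p => (hb p.1).1)
  have iψ : Integrable (fun p : X × X => ψ p.2) q :=
    Integrable.of_bound (by fun_prop) _ (Eventually.of_forall fun p => (hb p.2).2)
  have id2 : Integrable (fun p : X × X => dist p.1 p.2 ^ 2) q := by
    refine Integrable.of_bound (by fun_prop) ((2 * R) ^ 2) ?_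
    filter_upwards [ae_dist_le a₀.inn a₁.inn] with p hp
    rw [Real.norm_eq_abs, abs_of_nonneg (by positivity)]
    gcongr
  have p₂ : ∫ x, φ x * ρ₀ x ∂m + ∫ x, ψ x * ρ₁ x ∂m ≤ cst q / 2 := by
    rw [← g₀, ← g₁, Measure.fst, Measure.snd,
      integral_map measurable_fst.aemeasurable hφc.aestronglyMeasurable,
      integral_map measurable_snd.aemeasurable hψc.aestronglyMeasurable, ← integral_add iφ iψ,
      cst, ← integral_div]
    exact integral_mono (iφ.add iψ) (id2.div_const 2) fun p => hle p.1 p.2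
  have p₃ := mul_le_mul_of_nonneg_left hG hτ.le
  have hpos : 0 < 1 - 8 * κ * τ := by linarith
  have p₄ : (1 - 8 * κ * τ) * cst q' ≤ cst q + β / 2 := by nlinarith
  have p₅ : (1 - 8 * κ * τ) * cst q' ≤ (1 - 8 * κ * τ) * ((1 - 8 * κ * τ)⁻¹ * cst q + β) := by
    rw [mul_add, ← mul_assoc, mul_inv_cancel₀ hpos.ne', one_mul]
    nlinarith
  exact le_of_mul_le_mul_left p₅ hpos

end Crest.Agent.R242
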