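import Mathlib

/-!
Row 242: one-dimensional lemmas.
-/

set_option autoImplicit false

open MeasureTheory Set Filter
open scoped ENNReal NNReal Topology

namespace Crest.Agent.R242

theorem oned_prim {a : ℝ → ℝ≥0∞} {s t : ℝ} (ha : AEMeasurable a (volume.restrict (Icc s t)))
    (hfin : ∫⁻ r in Icc s t, a r ≠ ⊤) :
    ∃ f : ℝ → ℝ, Integrable f ∧ (∀ r, 0 ≤ f r) ∧ (∀ r, ENNReal.ofReal (f r) ≤ a r) ∧
      ∀ x y, s ≤ x → x ≤ y → y ≤ t →
        ∫⁻ r in Icc x y, a r = ENNReal.ofReal |(∫ r in s..y, f r) - ∫ r in s..x, f r| := by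
  have hi : Integrable ((Icc s t).indicator fun r => (a r).toReal) :=
    (integrable_indicator_iff measurableSet_Icc).2 (integrable_toReal_of_lintegral_ne_top ha hfin)
  have h0 : ∀ r, 0 ≤ (Icc s t).indicator (fun r => (a r).toReal) r := fun r =>
    indicator_nonneg (fun _ _ => ENNReal.toReal_nonneg) r
  refine ⟨_, hi, h0, fun r => ?_, fun x y hx hxy hy => ?_⟩
  · by_cases hr : r ∈ Icc s t
    · rw [indicator_of_mem hr]; exact ENNReal.ofReal_toReal_le
    · rw [indicator_of_notMem hr]; simp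
  · have hsub : Icc x y ⊆ Icc s t := Icc_subset_Icc hx hy
    have hfin' : ∫⁻ r in Icc x y, a r ≠ ⊤ := ne_top_of_le_ne_top hfin (lintegral_mono_set hsub)
    have ha' : AEMeasurable a (volume.restrict (Icc x y)) := ha.mono_set hsub
    rw [intervalIntegral.integral_interval_sub_left hi.intervalIntegrable hi.intervalIntegrable,
      abs_of_nonneg (intervalIntegral.integral_nonneg hxy fun r _ => h0 r),
      intervalIntegral.integral_of_le hxy, ← integral_Icc_eq_integral_Ioc,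
      setIntegral_congr_fun measurableSet_Icc (g := fun r => (a r).toReal)
        (fun r hr => indicator_of_mem (hsub hr) _),
      integral_toReal ha' (ae_lt_top' ha' hfin'), ENNReal.ofReal_toReal hfin']

theorem oned_core {g A : ℝ → ℝ} {H : ℝ → ℝ≥0∞} {s t : ℝ} (hst : s ≤ t)
    (hA : AbsolutelyContinuousOnInterval A s t)
    (h : ∀ x ∈ Icc s t, ∀ y ∈ Icc s t, |g y - g x| ≤ |A y - A x|)
    (hH : ∀ᵐ r ∂(volume.restrict (Icc s t)), ∀ g', HasDerivAt g g' r → ENNReal.ofReal |g'| ≤ H r) :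
    ENNReal.ofReal |g t - g s| ≤ ∫⁻ r in Icc s t, H r := by
  have hg : AbsolutelyContinuousOnInterval g s t := by
    rw [absolutelyContinuousOnInterval_iff] at hA ⊢
    intro ε hε
    obtain ⟨δ, hδ, h1⟩ := hA ε hε
    refine ⟨δ, hδ, fun E hE hE' => lt_of_le_of_lt (Finset.sum_le_sum fun i hi => ?_) (h1 E hE hE')⟩
    have := hE.1 i hi
    rw [uIcc_of_le hst] at this
    exact h _ this.2 _ this.1
  rw [← hg.integral_deriv_eq_sub, intervalIntegral.integral_of_le hst,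
    ← integral_Icc_eq_integral_Ioc, ← Real.enorm_eq_ofReal_abs]
  refine (enorm_integral_le_lintegral_enorm _).trans (lintegral_mono_ae ?_)
  have hd := hg.ae_differentiableAt
  rw [uIcc_of_le hst, ← ae_restrict_iff' measurableSet_Icc] at hd
  filter_upwards [hH, hd] with r h1 h2
  rw [Real.enorm_eq_ofReal_abs]
  exact h1 _ h2.hasDerivAt

theorem oned_two {a : ℝ → ℝ≥0∞} {g A : ℝ → ℝ} {s t : ℝ}
    (hA : ∀ x y, s ≤ x → x ≤ y → y ≤ t → ∫⁻ r in Icc x y, a r = ENNReal.ofReal |A y - A x|)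
    {x y : ℝ} (hx : s ≤ x) (hxy : x ≤ y) (hy : y ≤ t) :
    ENNReal.ofReal |g y - g x| ≤ ∫⁻ r in Icc x y, a r ↔ |g y - g x| ≤ |A y - A x| := by
  rw [hA x y hx hxy hy, ENNReal.ofReal_le_ofReal_iff (abs_nonneg _)]

theorem oned_ext {g A : ℝ → ℝ} (hA : Continuous A)
    (h : ∀ s t : ℚ, 0 ≤ s → s ≤ t → t ≤ 1 → |g t - g s| ≤ |A t - A s|) :
    ∃ w : ℝ → ℝ, Continuous w ∧ w 0 = g 0 ∧ w 1 = g 1 ∧
      ∀ K : Set (ℝ × ℝ × ℝ × ℝ), IsClosed K →
        (∀ s t : ℚ, 0 ≤ s → s ≤ 1 → 0 ≤ t → t ≤ 1 → ((s : ℝ), (t : ℝ), g s, g t) ∈ K) →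
        ∀ x ∈ Icc (0 : ℝ) 1, ∀ y ∈ Icc (0 : ℝ) 1, (x, y, w x, w y) ∈ K := by
  let c : ℚ → ℚ := fun q => max 0 (min 1 q)
  let cr : ℝ → ℝ := fun x => max 0 (min 1 x)
  have hc : ∀ q : ℚ, ((c q : ℚ) : ℝ) = cr q := fun q => by simp [c, cr]
  have c0 : ∀ q, 0 ≤ c q := fun q => le_max_left _ _
  have c1 : ∀ q, c q ≤ 1 := fun q => max_le zero_le_one (min_le_left _ _)
  have hcr : Continuous cr := by fun_prop
  have h' : ∀ s t : ℚ, |g (c t) - g (c s)| ≤ |A (cr t) - A (cr s)| := by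
    intro s t
    rw [← hc, ← hc]
    rcases le_total (c s) (c t) with hle | hle
    · exact h _ _ (c0 s) hle (c1 t)
    · rw [abs_sub_comm, abs_sub_comm (A _)]
      exact h _ _ (c0 t) hle (c1 s)
  have hu : UniformContinuous fun x => A (cr x) :=
    (CompactSpace.uniformContinuous_of_continuous
      (f := fun x : Icc (0 : ℝ) 1 => A x) (by fun_prop)).comp
      (LipschitzWith.projIcc (zero_le_one' ℝ)).uniformContinuous
  have hu' : UniformContinuous fun q : ℚ => g (c q) := by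
    rw [Metric.uniformContinuous_iff] at hu ⊢
    intro ε hε
    obtain ⟨δ, hδ, h1⟩ := hu ε hε
    exact ⟨δ, hδ, fun {s t} hst => lt_of_le_of_lt (h' t s) (h1 hst)⟩
  have he := Rat.isUniformEmbedding_coe_real.isUniformInducing
  have hd : DenseRange ((↑) : ℚ → ℝ) := Rat.denseRange_cast
  have w1 := (uniformContinuous_uniformly_extend he hd hu').continuous
  have w2 := uniformly_extend_of_ind he hd hu'
  set w := (he.isDenseInducing hd).extend fun q : ℚ => g (c q)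
  have w3 : ∀ q : ℚ, w (cr q) = g (c q) := fun q => by
    rw [← hc, w2]
    simp only [c]
    rw [min_eq_right (c1 q), max_eq_right (c0 q)]
  refine ⟨w, w1, by simpa [c] using w2 0, by simpa [c] using w2 1, fun K hK hK' x hx y hy => ?_⟩
  have key : ∀ x y : ℝ, (cr x, cr y, w (cr x), w (cr y)) ∈ K := by
    intro x y
    refine hd.induction_on₂ (p := fun x y => (cr x, cr y, w (cr x), w (cr y)) ∈ K)
      (hK.preimage (f := fun p : ℝ × ℝ => (cr p.1, cr p.2, w (cr p.1), w (cr p.2)))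
        (by fun_prop)) (fun s t => ?_) x y
    rw [w3, w3, ← hc, ← hc]
    exact hK' _ _ (c0 s) (c1 s) (c0 t) (c1 t)
  have e : ∀ x ∈ Icc (0 : ℝ) 1, cr x = x := fun x hx => by
    simp only [cr]; rw [min_eq_right hx.2, max_eq_right hx.1]
  simpa only [e x hx, e y hy] using key x y

theorem oned_ext_le {g w A : ℝ → ℝ} (hA : Continuous A)
    (h : ∀ s t : ℚ, 0 ≤ s → s ≤ t → t ≤ 1 → |g t - g s| ≤ |A t - A s|)
    (hw : ∀ K : Set (ℝ × ℝ × ℝ × ℝ), IsClosed K →
        (∀ s t : ℚ, 0 ≤ s → s ≤ 1 → 0 ≤ t → t ≤ 1 → ((s : ℝ), (t : ℝ), g s, g t) ∈ K) →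
        ∀ x ∈ Icc (0 : ℝ) 1, ∀ y ∈ Icc (0 : ℝ) 1, (x, y, w x, w y) ∈ K) :
    ∀ x ∈ Icc (0 : ℝ) 1, ∀ y ∈ Icc (0 : ℝ) 1, |w y - w x| ≤ |A y - A x| := by
  refine hw {p | |p.2.2.2 - p.2.2.1| ≤ |A p.2.1 - A p.1|} (isClosed_le (by fun_prop) (by fun_prop))
    fun s t s0 s1 t0 t1 => ?_
  rcases le_total s t with hle | hle
  · exact h _ _ s0 hle t1
  · have := h _ _ t0 hle s1
    rwa [abs_sub_comm, abs_sub_comm (A _)] at this

theorem oned_rat {a : ℝ → ℝ≥0∞} {g A : ℝ → ℝ}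
    (hA : ∀ x y, 0 ≤ x → x ≤ y → y ≤ 1 → ∫⁻ r in Icc x y, a r = ENNReal.ofReal |A y - A x|)
    (h : ∀ s t : ℚ, 0 ≤ s → s ≤ t → t ≤ 1 →
      ENNReal.ofReal |g t - g s| ≤ ∫⁻ r in Icc (s : ℝ) t, a r) (s t : ℚ) (h0 : 0 ≤ s) (h1 : s ≤ t)
    (h2 : t ≤ 1) : |g t - g s| ≤ |A t - A s| :=
  (oned_two hA (by exact_mod_cast h0) (by exact_mod_cast h1) (by exact_mod_cast h2)).1
    (h s t h0 h1 h2)

theorem oned_slope {w A : ℝ → ℝ} {r w' A' : ℝ} (hw : HasDerivAt w w' r) (hA : HasDerivAt A A' r)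
    (h : ∀ᶠ y in 𝓝 r, |w y - w r| ≤ |A y - A r|) : |w'| ≤ |A'| := by
  refine le_of_tendsto_of_tendsto hw.tendsto_slope.abs hA.tendsto_slope.abs ?_
  filter_upwards [nhdsWithin_le_nhds h] with y hy
  simp only [slope_def_field, abs_div]
  exact div_le_div_of_nonneg_right hy (abs_nonneg _)

/-- Several integrable bounds for the increments over rational intervals can be replaced by their
infimum. -/
theorem oned_iInf {g : ℝ → ℝ} {G : ℕ → ℝ → ℝ≥0∞}
    (hG : ∀ i, AEMeasurable (G i) (volume.restrict (Icc (0 : ℝ) 1)))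
    (hfin : ∀ i, ∫⁻ r in Icc (0 : ℝ) 1, G i r ≠ ⊤)
    (h : ∀ i (s t : ℚ), 0 ≤ s → s ≤ t → t ≤ 1 →
      ENNReal.ofReal |g t - g s| ≤ ∫⁻ r in Icc (s : ℝ) t, G i r) :
    ENNReal.ofReal |g 1 - g 0| ≤ ∫⁻ r in Icc (0 : ℝ) 1, ⨅ i, G i r := by
  choose f fi f0 f1 f2 using fun i => oned_prim (hG i) (hfin i)
  have hc : ∀ i, Continuous fun x => ∫ r in (0 : ℝ)..x, f i r := fun i =>
    intervalIntegral.continuous_primitive (fun _ _ => (fi i).intervalIntegrable) 0
  have hr := fun i => oned_rat (A := fun x => ∫ r in (0 : ℝ)..x, f i r) (f2 i) (h i)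
  obtain ⟨w, -, w0, w1, hw⟩ := oned_ext (hc 0) (hr 0)
  have hle := fun i => oned_ext_le (hc i) (hr i) hw
  rw [← w0, ← w1]
  refine oned_core zero_le_one
    ((fi 0).intervalIntegrable.absolutelyContinuousOnInterval_intervalIntegral left_mem_uIcc)
    (hle 0) ?_
  have hd := ae_all_iff.2 fun i =>
    ((fi i).intervalIntegrable (a := 0) (b := 1)).ae_hasDerivAt_integral
  rw [← Measure.restrict_congr_set Ioo_ae_eq_Icc, ae_restrict_iff' measurableSet_Ioo]
  filter_upwards [hd] with r h1 h2 g' hg'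
  refine le_iInf fun i => le_trans (ENNReal.ofReal_le_ofReal ?_) (f1 i r)
  have h3 := h1 i (by rw [uIcc_of_le zero_le_one]; exact Ioo_subset_Icc_self h2) 0 left_mem_uIcc
  rw [← abs_of_nonneg (f0 i r)]
  refine oned_slope hg' h3 ?_
  filter_upwards [Icc_mem_nhds h2.1 h2.2] with y hy
  exact hle i r (Ioo_subset_Icc_self h2) y hy

/-- Locality: the bound may be cut off on the zero set. -/
theorem oned_loc {g : ℝ → ℝ} {G : ℝ → ℝ≥0∞}
    (hG : AEMeasurable G (volume.restrict (Icc (0 : ℝ) 1)))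
    (hfin : ∫⁻ r in Icc (0 : ℝ) 1, G r ≠ ⊤)
    (h : ∀ s t : ℚ, 0 ≤ s → s ≤ t → t ≤ 1 →
      ENNReal.ofReal |g t - g s| ≤ ∫⁻ r in Icc (s : ℝ) t, G r)
    (h' : ∀ᵐ r ∂(volume.restrict (Icc (0 : ℝ) 1)), ∀ s : ℚ, 0 ≤ s → s ≤ 1 →
      ENNReal.ofReal |g r - g s| ≤ ∫⁻ x in uIcc r (s : ℝ), G x) :
    ENNReal.ofReal |g 1 - g 0| ≤ ∫⁻ r in Icc (0 : ℝ) 1, {r | g r ≠ 0}.indicator G r := by
  obtain ⟨f, fi, -, -, f2⟩ := oned_prim hG hfin
  have hc : Continuous fun x => ∫ r in (0 : ℝ)..x, f r :=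
    intervalIntegral.continuous_primitive (fun _ _ => fi.intervalIntegrable) 0
  set A : ℝ → ℝ := fun x => ∫ r in (0 : ℝ)..x, f r with hA
  have hr := oned_rat (A := A) f2 h
  obtain ⟨w, wc, w0, w1, hw⟩ := oned_ext hc hr
  have hle := oned_ext_le hc hr hw
  have hle' : ∀ x y, 0 ≤ x → x ≤ y → y ≤ 1 →
      ENNReal.ofReal |w y - w x| ≤ ∫⁻ r in Icc x y, G r := fun x y h0 h1 h2 =>
    (oned_two (A := A) f2 h0 h1 h2).2 (hle x ⟨h0, h1.trans h2⟩ y ⟨h0.trans h1, h2⟩)
  have hae : ∀ᵐ r ∂(volume.restrict (Icc (0 : ℝ) 1)), g r = w r := by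
    filter_upwards [h', ae_restrict_mem measurableSet_Icc] with r h1 h2
    have := hw {p | |g r - p.2.2.1| ≤ |A r - A p.1|} (isClosed_le (by fun_prop) (by fun_prop))
      (fun s t s0 s1 _ _ => ?_) r h2 r h2
    · simpa [sub_eq_zero] using this
    · have h3 := h1 s s0 s1
      have s0' : (0 : ℝ) ≤ s := by exact_mod_cast s0
      have s1' : (s : ℝ) ≤ 1 := by exact_mod_cast s1
      rcases le_total r s with hle | hle
      · rw [uIcc_of_le hle, abs_sub_comm] at h3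
        have := (oned_two (A := A) f2 h2.1 hle s1').1 h3
        rwa [abs_sub_comm, abs_sub_comm (A _)] at this
      · rw [uIcc_of_ge hle] at h3
        exact (oned_two (A := A) f2 s0' hle h2.2).1 h3
  have e : ∫⁻ r in Icc (0 : ℝ) 1, {r | g r ≠ 0}.indicator G r =
      ∫⁻ r in Icc (0 : ℝ) 1, {r | w r ≠ 0}.indicator G r := by
    refine lintegral_congr_ae ?_
    filter_upwards [hae] with r hr
    by_cases h0 : w r = 0 <;> simp [indicator, hr, h0]
  rw [e, ← w0, ← w1]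
  have hZc : IsCompact (Icc (0 : ℝ) 1 ∩ w ⁻¹' {0}) :=
    isCompact_Icc.inter_right (isClosed_singleton.preimage wc)
  rcases (Icc (0 : ℝ) 1 ∩ w ⁻¹' {0}).eq_empty_or_nonempty with hZ | hZ
  · refine (hle' 0 1 le_rfl zero_le_one le_rfl).trans (le_of_eq ?_)
    refine setLIntegral_congr_fun measurableSet_Icc fun r hr => (indicator_of_mem ?_ _).symm
    intro h0
    exact (hZ ▸ (⟨hr, h0⟩ : r ∈ Icc (0 : ℝ) 1 ∩ w ⁻¹' {0}) : r ∈ (∅ : Set ℝ))
  obtain ⟨s₁, ⟨a1, a2⟩, a3⟩ := hZc.exists_isLeast hZ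
  obtain ⟨s₂, ⟨b1, b2⟩, b3⟩ := hZc.exists_isGreatest hZ
  have a2' : w s₁ = 0 := a2
  have b2' : w s₂ = 0 := b2
  have h12 : s₁ ≤ s₂ := a3 ⟨b1, b2⟩
  calc ENNReal.ofReal |w 1 - w 0| ≤ ENNReal.ofReal (|w s₁ - w 0| + |w 1 - w s₂|) := by
        apply ENNReal.ofReal_le_ofReal
        rw [a2', b2', show w 1 - w 0 = (0 - w 0) + (w 1 - 0) by ring]
        exact abs_add_le _ _
    _ ≤ (∫⁻ r in Icc 0 s₁, G r) + ∫⁻ r in Icc s₂ 1, G r := by
        rw [ENNReal.ofReal_add (abs_nonneg _) (abs_nonneg _)]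
        exact add_le_add (hle' _ _ le_rfl a1.1 a1.2) (hle' _ _ b1.1 b1.2 le_rfl)
    _ = (∫⁻ r in Ico 0 s₁, {r | w r ≠ 0}.indicator G r) +
          ∫⁻ r in Ioc s₂ 1, {r | w r ≠ 0}.indicator G r := by
        rw [← Measure.restrict_congr_set (Ico_ae_eq_Icc (a := 0) (b := s₁)),
          ← Measure.restrict_congr_set (Ioc_ae_eq_Icc (a := s₂) (b := 1))]
        congr 1
        · refine setLIntegral_congr_fun measurableSet_Ico fun r hr => (indicator_of_mem ?_ _).symm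
          exact fun h0 => hr.2.not_ge (a3 ⟨⟨hr.1, hr.2.le.trans a1.2⟩, h0⟩)
        · refine setLIntegral_congr_fun measurableSet_Ioc fun r hr => (indicator_of_mem ?_ _).symm
          exact fun h0 => hr.1.not_ge (b3 ⟨⟨b1.1.trans hr.1.le, hr.2⟩, h0⟩)
    _ ≤ _ := by
        rw [← lintegral_union measurableSet_Ioc
          (Set.disjoint_left.2 fun r h1 h2 => (h1.2.trans_le h12).not_ge h2.1.le)]
        refine lintegral_mono_set (union_subset ?_ ?_)
        · exact fun r hr => ⟨hr.1, hr.2.le.trans a1.2⟩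
        · exact fun r hr => ⟨b1.1.trans hr.1.le, hr.2⟩

/-- An absolutely continuous function is controlled by any bound on its derivative. -/
theorem oned_deriv {g : ℝ → ℝ} {a H : ℝ → ℝ≥0∞} {s t : ℝ} (hst : s ≤ t)
    (ha : AEMeasurable a (volume.restrict (Icc s t))) (hfin : ∫⁻ r in Icc s t, a r ≠ ⊤)
    (h : ∀ x y, s ≤ x → x ≤ y → y ≤ t → ENNReal.ofReal |g y - g x| ≤ ∫⁻ r in Icc x y, a r)
    (hH : ∀ᵐ r ∂(volume.restrict (Icc s t)), ∀ g', HasDerivAt g g' r → ENNReal.ofReal |g'| ≤ H r) :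
    ENNReal.ofReal |g t - g s| ≤ ∫⁻ r in Icc s t, H r := by
  obtain ⟨f, fi, -, -, f2⟩ := oned_prim ha hfin
  refine oned_core hst
    (fi.intervalIntegrable.absolutelyContinuousOnInterval_intervalIntegral left_mem_uIcc)
    (fun x hx y hy => ?_) hH
  rcases le_total x y with hle | hle
  · exact (oned_two (A := fun x => ∫ r in s..x, f r) f2 hx.1 hle hy.2).1 (h x y hx.1 hle hy.2)
  · rw [abs_sub_comm, abs_sub_comm (∫ r in s..y, f r)]
    exact (oned_two (A := fun x => ∫ r in s..x, f r) f2 hy.1 hle hx.2).1 (h y x hy.1 hle hx.2)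

/-- Comparison of increments from right Dini derivatives. -/
theorem dini_le {A Ψ : ℝ → ℝ} {a b : ℝ} (hab : a ≤ b) (hA : ContinuousOn A (Icc a b))
    (hΨ : ContinuousOn Ψ (Icc a b))
    (h : ∀ s ∈ Ioo a b, ∀ η : ℝ, 0 < η → ∀ᶠ x in 𝓝[>] s,
      A x - A s ≤ Ψ x - Ψ s + η * (x - s)) :
    A b - A a ≤ Ψ b - Ψ a := by
  rcases hab.eq_or_lt with rfl | hab'
  · simp
  have hf : ContinuousOn (fun x => A x - Ψ x) (Icc a b) := hA.sub hΨ
  have key : ∀ c ∈ Ioo a b, A b - Ψ b ≤ A c - Ψ c := by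
    intro c hc
    refine image_le_of_liminf_slope_right_le_deriv_boundary (f := fun x => A x - Ψ x)
      (B := fun _ => A c - Ψ c) (B' := fun _ => 0) (hf.mono (Icc_subset_Icc_left hc.1.le)) le_rfl
      continuousOn_const (fun x _ => hasDerivWithinAt_const _ _ _) (fun x hx r hr => ?_)
      ⟨hc.2.le, le_rfl⟩
    refine Eventually.frequently ?_
    filter_upwards [h x ⟨hc.1.trans_le hx.1, hx.2⟩ (r / 2) (half_pos hr), self_mem_nhdsWithin]
      with z h1 h2
    have h3 : 0 < z - x := sub_pos.2 h2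
    rw [slope_def_field, div_lt_iff₀ h3]
    nlinarith [mul_pos hr h3]
  have h1 : Tendsto (fun x => A x - Ψ x) (𝓝[>] a) (𝓝 (A a - Ψ a)) :=
    ((hf a (left_mem_Icc.2 hab)).mono_of_mem_nhdsWithin (Icc_mem_nhdsGT hab')).tendsto
  have := ge_of_tendsto h1 (mem_of_superset (Ioo_mem_nhdsGT hab') key)
  linarith

theorem oned_mvt {ψ ψ' : ℝ → ℝ} (hd : ∀ x, HasDerivAt ψ (ψ' x) x) {C h : ℝ} (h0 : ψ 0 = 0)
    (hb : ∀ x ∈ Icc 0 h, |ψ' x| ≤ C) : ∀ x ∈ Icc 0 h, |ψ x| ≤ C * h := by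
  intro x hx
  have := norm_image_sub_le_of_norm_deriv_le_segment' (f := ψ) (f' := ψ') (a := 0) (b := h)
    (fun y _ => (hd y).hasDerivWithinAt) (fun y hy => hb y (Ico_subset_Icc_self hy)) x hx
  rw [h0, sub_zero, sub_zero] at this
  exact this.trans (mul_le_mul_of_nonneg_left hx.2 ((abs_nonneg _).trans (hb x hx)))

theorem oned_taylor {φ φ₁ φ₂ φ₃ : ℝ → ℝ} (d0 : ∀ t, HasDerivAt φ (φ₁ t) t)
    (d1 : ∀ t, HasDerivAt φ₁ (φ₂ t) t) (d2 : ∀ t, HasDerivAt φ₂ (φ₃ t) t) {L : ℝ}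
    (hL : ∀ t, ‖φ₃ t‖ ≤ L) (t : ℝ) {h : ℝ} (hh : 0 ≤ h) :
    |φ (t + h) + φ (t - h) - 2 * φ t - h ^ 2 * φ₂ t| ≤ 2 * L * h ^ 3 := by
  have a3 := oned_mvt (ψ := fun x => φ₂ (t + x) + φ₂ (t - x) - 2 * φ₂ t)
    (ψ' := fun x => φ₃ (t + x) - φ₃ (t - x)) (C := 2 * L) (h := h)
    (fun x => ((((d2 (t + x)).comp_const_add t x).fun_add
      ((d2 (t - x)).comp_const_sub t x)).sub_const _).congr_deriv (by ring)) (by simp; ring)
    (fun x _ => (abs_sub _ _).trans (by
      have := hL (t + x); have := hL (t - x); simp only [Real.norm_eq_abs] at *; linarith))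
  have a2 := oned_mvt (ψ := fun x => φ₁ (t + x) - φ₁ (t - x) - 2 * x * φ₂ t)
    (ψ' := fun x => φ₂ (t + x) + φ₂ (t - x) - 2 * φ₂ t) (h := h)
    (fun x => ((((d1 (t + x)).comp_const_add t x).fun_sub
      ((d1 (t - x)).comp_const_sub t x)).fun_sub
        (((hasDerivAt_id x).const_mul 2).mul_const (φ₂ t))).congr_deriv (by ring)) (by simp) a3
  have a1 := oned_mvt (ψ := fun x => φ (t + x) + φ (t - x) - 2 * φ t - x ^ 2 * φ₂ t)
    (ψ' := fun x => φ₁ (t + x) - φ₁ (t - x) - 2 * x * φ₂ t) (h := h)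
    (fun x => (((((d0 (t + x)).comp_const_add t x).fun_add
      ((d0 (t - x)).comp_const_sub t x)).sub_const _).fun_sub
        ((hasDerivAt_pow 2 x).mul_const (φ₂ t))).congr_deriv (by simp; ring)) (by simp; ring) a2
  exact (a1 h ⟨hh, le_rfl⟩).trans (le_of_eq (by ring))

/-- Second differences bound the distributional second derivative. -/
theorem second_diff_le {g H φ : ℝ → ℝ} (hg : Continuous g) (hH : Continuous H)
    (h : ∀ η : ℝ, 0 < η → ∃ h₀ : ℝ, 0 < h₀ ∧ ∀ s h : ℝ, 0 < h → h < h₀ → 0 ≤ s - h → s + h ≤ 1 →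
      g (s + h) + g (s - h) - 2 * g s ≤ h ^ 2 * (H s + η))
    (hφ : ContDiff ℝ ((⊤ : ℕ∞) : WithTop ℕ∞) φ) (hc : HasCompactSupport φ)
    (hs : tsupport φ ⊆ Ioo (0 : ℝ) 1) (h0 : ∀ t, 0 ≤ φ t) :
    ∫ t in Icc (0 : ℝ) 1, g t * iteratedDeriv 2 φ t ≤ ∫ t in Icc (0 : ℝ) 1, H t * φ t := by
  have hd : ∀ n : ℕ, Differentiable ℝ (iteratedDeriv n φ) := fun n =>
    hφ.differentiable_iteratedDeriv n (by exact_mod_cast ENat.natCast_lt_top n)
  have hcs : ∀ n : ℕ, HasCompactSupport (iteratedDeriv n φ) := by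
    intro n
    induction n with
    | zero => simpa using hc
    | succ n ih => rw [iteratedDeriv_succ]; exact ih.deriv
  obtain ⟨L, hL⟩ := (hd 3).continuous.bounded_above_of_compact_support (hcs 3)
  have hL0 : 0 ≤ L := (norm_nonneg _).trans (hL 0)
  have d0 : ∀ t, HasDerivAt φ (iteratedDeriv 1 φ t) t := fun t => by
    simpa using (hφ.differentiable (by simp) t).hasDerivAt
  have d1 : ∀ n t, HasDerivAt (iteratedDeriv n φ) (iteratedDeriv (n + 1) φ t) t := fun n t => by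
    rw [iteratedDeriv_succ]; exact (hd n t).hasDerivAt
  have tay := fun t h hh => oned_taylor d0 (d1 1) (d1 2) hL t (h := h) hh
  obtain ⟨δ, hδ, hδ'⟩ := hc.isCompact.exists_thickening_subset_open isOpen_Ioo hs
  have near : ∀ s, φ s ≠ 0 → ∀ u : ℝ, |u| < δ → s + u ∈ Ioo (0 : ℝ) 1 := fun s h1 u hu =>
    hδ' (Metric.mem_thickening_iff.2 ⟨s, subset_tsupport _ h1, by simpa [Real.dist_eq] using hu⟩)
  have hφc := hφ.continuous
  have h2c := (hd 2).continuous
  have z0 : ∀ t, t ∉ Icc (0 : ℝ) 1 → ∀ u : ℝ, |u| < δ → φ (t + u) = 0 := by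
    intro t ht u hu
    by_contra h1
    have := near _ h1 (-u) (by rwa [abs_neg])
    rw [add_neg_cancel_right] at this
    exact ht (Ioo_subset_Icc_self this)
  set I := ∫ t in Icc (0 : ℝ) 1, g t * iteratedDeriv 2 φ t with hI
  set J := ∫ t in Icc (0 : ℝ) 1, H t * φ t with hJ
  set P := ∫ t in Icc (0 : ℝ) 1, φ t with hP
  set Q := ∫ t in Icc (0 : ℝ) 1, |g t| with hQ
  have key : ∀ η : ℝ, 0 < η → I ≤ J + η * P := by
    intro η hη
    obtain ⟨h₀, hh₀, hh⟩ := h η hη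
    have step : ∀ u : ℝ, 0 < u → u < min h₀ δ → I ≤ J + η * P + u * (2 * L * Q) := by
      intro u u0 u1
      have u2 : |u| < δ := by rw [abs_of_pos u0]; exact u1.trans_le (min_le_right _ _)
      have u3 : |-u| < δ := by rwa [abs_neg]
      have u4 : |(0 : ℝ)| < δ := by simpa using hδ
      have i1 : ∀ (k : ℝ → ℝ) (v : ℝ), Continuous k → Integrable fun t => k t * φ (t + v) :=
        fun k v hk => Continuous.integrable_of_hasCompactSupport (by fun_prop)
          (hc.comp_homeomorph (Homeomorph.addRight v)).mul_left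
      have i2 : ∀ k : ℝ → ℝ, Continuous k → Integrable fun t => k t * φ t := fun k hk => by
        simpa using i1 k 0 hk
      have e1 : ∫ t in Icc (0 : ℝ) 1, g t * (φ (t + u) + φ (t - u) - 2 * φ t) =
          ∫ s, (g (s + u) + g (s - u) - 2 * g s) * φ s := by
        rw [setIntegral_eq_integral_of_forall_compl_eq_zero fun t ht => by
          have a1 := z0 t ht u u2
          have a2 := z0 t ht (-u) u3
          have a3 := z0 t ht 0 u4
          rw [add_zero] at a3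
          rw [sub_eq_add_neg t, a1, a2, a3]; simp]
        have b1 : ∫ t, g t * φ (t + u) = ∫ s, g (s - u) * φ s := by
          rw [← integral_add_right_eq_self (fun s => g (s - u) * φ s) u]; simp
        have b2 : ∫ t, g t * φ (t + -u) = ∫ s, g (s + u) * φ s := by
          rw [← integral_add_right_eq_self (fun s => g (s + u) * φ s) (-u)]; simp
        have c1 : ∀ t, g t * (φ (t + u) + φ (t - u) - 2 * φ t) =
            g t * φ (t + u) + g t * φ (t + -u) - 2 * g t * φ t := fun t => by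
          rw [sub_eq_add_neg t]; ring
        have c2 : ∀ s, (g (s + u) + g (s - u) - 2 * g s) * φ s =
            g (s - u) * φ s + g (s + u) * φ s - 2 * g s * φ s := fun s => by ring
        simp only [c1, c2]
        have j1 : Integrable fun t => g t * φ (t + u) + g t * φ (t + -u) :=
          (i1 g u hg).add (i1 g (-u) hg)
        have j2 : Integrable fun s => g (s - u) * φ s := i2 _ (by fun_prop)
        have j3 : Integrable fun s => g (s + u) * φ s := i2 _ (by fun_prop)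
        have j4 : Integrable fun s => g (s - u) * φ s + g (s + u) * φ s := j2.add j3
        have j5 : Integrable fun s => 2 * g s * φ s := i2 (fun s => 2 * g s) (by fun_prop)
        rw [integral_sub j1 j5, integral_sub j4 j5, integral_add (i1 g u hg) (i1 g (-u) hg),
          integral_add j2 j3, b1, b2]
      have e2 : ∫ s, (g (s + u) + g (s - u) - 2 * g s) * φ s ≤
          ∫ s, (u ^ 2 * (H s + η)) * φ s := by
        refine integral_mono (i2 _ (by fun_prop)) (i2 _ (by fun_prop)) fun s => ?_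
        by_cases h1 : φ s = 0
        · simp [h1]
        · refine mul_le_mul_of_nonneg_right (hh s u u0 (u1.trans_le (min_le_left _ _)) ?_ ?_) (h0 s)
          · exact (near s h1 (-u) u3).1.le
          · exact (near s h1 u u2).2.le
      have ci : ∀ k : ℝ → ℝ, Continuous k → IntegrableOn k (Icc (0 : ℝ) 1) := fun k hk =>
        hk.continuousOn.integrableOn_Icc
      have e3 : ∫ s, (u ^ 2 * (H s + η)) * φ s = u ^ 2 * (J + η * P) := by
        rw [← setIntegral_eq_integral_of_forall_compl_eq_zero (s := Icc (0 : ℝ) 1) fun t ht => by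
          have a3 := z0 t ht 0 u4
          rw [add_zero] at a3
          rw [a3, mul_zero], hJ, hP, ← integral_const_mul,
          ← integral_add (ci _ (by fun_prop)) (ci _ (by fun_prop)), ← integral_const_mul]
        congr 1
        funext s
        ring
      have e4 : u ^ 2 * I ≤ (∫ t in Icc (0 : ℝ) 1, g t * (φ (t + u) + φ (t - u) - 2 * φ t)) +
          2 * L * u ^ 3 * Q := by
        rw [hI, hQ, ← integral_const_mul, ← integral_const_mul,
          ← integral_add (ci _ (by fun_prop)) (ci _ (by fun_prop))]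
        refine integral_mono (ci _ (by fun_prop)) (ci _ (by fun_prop)) fun t => ?_
        have a1 := mul_le_mul_of_nonneg_left (tay t u u0.le) (abs_nonneg (g t))
        rw [← abs_mul] at a1
        have a2 := neg_abs_le (g t * (φ (t + u) + φ (t - u) - 2 * φ t -
          u ^ 2 * iteratedDeriv (1 + 1) φ t))
        simp only
        norm_num at a1 a2 ⊢
        nlinarith
      have e5 : u ^ 2 * I ≤ u ^ 2 * (J + η * P + u * (2 * L * Q)) := by nlinarith
      exact le_of_mul_le_mul_left e5 (by positivity)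
    have t1 : Tendsto (fun u : ℝ => J + η * P + u * (2 * L * Q)) (𝓝[>] 0)
        (𝓝 (J + η * P + 0 * (2 * L * Q))) :=
      (Continuous.tendsto (by fun_prop) 0).mono_left nhdsWithin_le_nhds
    rw [zero_mul, add_zero] at t1
    exact ge_of_tendsto t1 (mem_of_superset (Ioo_mem_nhdsGT (lt_min hh₀ hδ))
      fun u hu => step u hu.1 hu.2)
  have t1 : Tendsto (fun η : ℝ => J + η * P) (𝓝[>] 0) (𝓝 (J + 0 * P)) :=
    (Continuous.tendsto (by fun_prop) 0).mono_left nhdsWithin_le_nhds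
  rw [zero_mul, add_zero] at t1
  exact ge_of_tendsto t1 (mem_of_superset self_mem_nhdsWithin key)

end Crest.Agent.R242
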