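import Crest.Agent.R242.Defs
import Crest.Agent.R242.OneD

/-!
Row 242: the space of curves.
-/

set_option autoImplicit false

open MeasureTheory Set Filter Metric Crest.GeometryTopology.SyntheticRicci
open scoped ENNReal NNReal Topology

namespace Crest.Agent.R242

variable {X : Type*} [MetricSpace X]

/-- curves are continuous maps -/
def curveHomeo (X : Type*) [MetricSpace X] : UCurve X ≃ₜ C(unitInterval, X) where
  toFun := UCurve.toMap
  invFun := UCurve.mk
  left_inv _ := rfl
  right_inv _ := rfl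
  continuous_toFun := continuous_induced_dom
  continuous_invFun := continuous_induced_rng.2 continuous_id

instance curveT2 : T2Space (UCurve X) := (curveHomeo X).isEmbedding.t2Space

instance curvePolish [ProperSpace X] : PolishSpace (UCurve X) := by
  have : PolishSpace C(unitInterval, X) := inferInstance
  exact (curveHomeo X).isClosedEmbedding.polishSpace

theorem continuous_ext : Continuous fun p : UCurve X × ℝ => p.1.ext p.2 := by
  exact continuous_eval.comp (((curveHomeo X).continuous.comp continuous_fst).prodMk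
    ((continuous_projIcc (h := zero_le_one)).comp continuous_snd))

theorem continuous_ev (t : unitInterval) : Continuous fun γ : UCurve X => γ.toMap t := by
  exact (continuous_eval_const t).comp (curveHomeo X).continuous

theorem ext_coe (γ : UCurve X) (t : unitInterval) : γ.ext t = γ.toMap t := by
  rw [UCurve.ext, projIcc_val]

theorem ext_of_mem (γ : UCurve X) {t : ℝ} (ht : t ∈ Icc (0 : ℝ) 1) :
    γ.ext t = γ.toMap ⟨t, ht⟩ := by
  exact ext_coe γ ⟨t, ht⟩

theorem ext_zero (γ : UCurve X) : γ.ext 0 = γ.toMap 0 := ext_coe γ 0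

theorem ext_one (γ : UCurve X) : γ.ext 1 = γ.toMap 1 := ext_coe γ 1

theorem measurable_ev [MeasurableSpace X] [BorelSpace X] (t : unitInterval) :
    Measurable fun γ : UCurve X => γ.toMap t := (continuous_ev t).measurable

theorem measurable_ext [ProperSpace X] [MeasurableSpace X] [BorelSpace X] :
    Measurable fun p : UCurve X × ℝ => p.1.ext p.2 := by
  exact continuous_ext.measurable

theorem measurable_upperSpeed [ProperSpace X] :
    Measurable fun p : UCurve X × ℝ => upperSpeed p.1 p.2 := by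
  obtain ⟨s, hs⟩ := (𝓝[≠] (0 : ℝ)).exists_antitone_basis
  have e : (fun p : UCurve X × ℝ => upperSpeed p.1 p.2) = fun p => ⨅ n, ⨆ h ∈ s n,
      ENNReal.ofReal (dist (p.1.ext (p.2 + h)) (p.1.ext p.2) / |h|) := by
    funext p
    have h1 := (Homeomorph.addLeft p.2).map_punctured_nhds_eq 0
    simp only [Homeomorph.coe_addLeft, add_zero] at h1
    rw [upperSpeed, ← h1, ← Filter.limsup_comp, hs.toHasBasis.limsup_eq_iInf_iSup]
    simp
  rw [e]
  refine Measurable.iInf fun n => LowerSemicontinuous.measurable ?_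
  refine lowerSemicontinuous_biSup fun h _ => Continuous.lowerSemicontinuous ?_
  refine ENNReal.continuous_ofReal.comp (Continuous.div_const (Continuous.dist ?_ continuous_ext) _)
  exact continuous_ext.comp (f := fun p : UCurve X × ℝ => (p.1, p.2 + h)) (by fun_prop)

/-- the upper speed controls the distance -/
theorem edist_le_lintegral_speed {γ : UCurve X} (h : HasL2Speed γ) {s t : ℝ} (hst : s ≤ t) :
    edist (γ.ext s) (γ.ext t) ≤ ∫⁻ r in Icc s t, upperSpeed γ r := by
  obtain ⟨a, ha, hfin, hb⟩ := h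
  have hb' : ∀ x y : ℝ, x ≤ y →
      edist (γ.ext x) (γ.ext y) ≤ ∫⁻ r in Icc x y, (Icc (0 : ℝ) 1).indicator a r := by
    intro x y hxy
    refine (hb _ _ (monotone_projIcc zero_le_one hxy)).trans ?_
    rw [← Measure.restrict_congr_set Ioo_ae_eq_Icc, setLIntegral_indicator measurableSet_Icc]
    refine lintegral_mono_set fun r hr => ?_
    simp only [coe_projIcc, mem_Ioo, max_lt_iff, min_lt_iff, lt_max_iff, lt_min_iff] at hr
    obtain ⟨⟨h1, h2⟩, h3⟩ := hr
    have h4 : r < 1 ∧ r < y := h3.resolve_left (not_lt.2 h1.le)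
    exact ⟨⟨h1.le, h4.1.le⟩, (h2.resolve_left (not_lt.2 h4.1.le)).le, h4.2.le⟩
  have hf : ∫⁻ r in Icc s t, (Icc (0 : ℝ) 1).indicator a r ≠ ⊤ := by
    refine ne_top_of_le_ne_top ?_ (setLIntegral_le_lintegral _ _)
    rw [lintegral_indicator measurableSet_Icc]
    have h1 : ∫⁻ r in Icc (0 : ℝ) 1, a r ≤ ∫⁻ r in Icc (0 : ℝ) 1, (1 + a r ^ 2) := by
      refine lintegral_mono fun r => ?_
      rcases le_total (a r) 1 with h2 | h2
      · exact h2.trans le_self_add
      · exact (le_self_pow₀ h2 two_ne_zero).trans le_add_self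
    refine ne_top_of_le_ne_top ?_ h1
    rw [lintegral_add_left measurable_const]
    exact ENNReal.add_ne_top.2 ⟨by simp, hfin.ne⟩
  have key := oned_deriv (g := fun r => dist (γ.ext r) (γ.ext s)) (H := upperSpeed γ) hst
    (ha.indicator measurableSet_Icc).aemeasurable hf (fun x y _ hxy _ => by
      refine le_trans ?_ (hb' x y hxy)
      rw [edist_dist, dist_comm (γ.ext x) (γ.ext y)]
      exact ENNReal.ofReal_le_ofReal (abs_dist_sub_le _ _ _))
    (ae_of_all _ fun r g' hg' => by
      have h1 := ((ENNReal.continuous_ofReal.tendsto _).comp hg'.tendsto_slope.abs).limsup_eq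
      rw [← h1, upperSpeed]
      refine limsup_le_limsup (Eventually.of_forall fun y => ?_)
      simp only [Function.comp, slope_def_field, abs_div]
      exact ENNReal.ofReal_le_ofReal
        (div_le_div_of_nonneg_right (abs_dist_sub_le _ _ _) (abs_nonneg _)))
  rwa [dist_self, sub_zero, abs_dist, dist_comm, ← edist_dist] at key

theorem geo_dist_ext {γ : UCurve X} (h : IsCSGeodesic γ) {s t : ℝ} (hs : s ∈ Icc (0 : ℝ) 1)
    (ht : t ∈ Icc (0 : ℝ) 1) :
    dist (γ.ext s) (γ.ext t) = |s - t| * dist (γ.toMap 0) (γ.toMap 1) := by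
  rw [ext_of_mem γ hs, ext_of_mem γ ht]
  exact h _ _

theorem geo_hasL2Speed {γ : UCurve X} (h : IsCSGeodesic γ) : HasL2Speed γ := by
  refine ⟨fun _ => edist (γ.toMap 0) (γ.toMap 1), measurable_const, ?_, fun s t hst => ?_⟩
  · simp [ENNReal.pow_lt_top (edist_lt_top _ _)]
  · rw [setLIntegral_const, Real.volume_Icc, edist_dist, edist_dist, h s t, abs_sub_comm,
      abs_of_nonneg (sub_nonneg.2 hst), ENNReal.ofReal_mul (sub_nonneg.2 hst), mul_comm]

theorem geo_upperSpeed_le {γ : UCurve X} (h : IsCSGeodesic γ) (t : ℝ) :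
    upperSpeed γ t ≤ edist (γ.toMap 0) (γ.toMap 1) := by
  refine limsup_le_of_le (h := Eventually.of_forall fun s => ?_)
  rw [edist_dist]
  refine ENNReal.ofReal_le_ofReal (div_le_of_le_mul₀ (abs_nonneg _) dist_nonneg ?_)
  rw [UCurve.ext, UCurve.ext, h, mul_comm]
  exact mul_le_mul_of_nonneg_left (abs_projIcc_sub_projIcc zero_le_one) dist_nonneg

theorem isClosed_geodesic : IsClosed {γ : UCurve X | IsCSGeodesic γ} := by
  simp only [IsCSGeodesic, ofPred_forall]
  exact isClosed_iInter fun s => isClosed_iInter fun t =>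
    isClosed_eq ((continuous_ev s).dist (continuous_ev t))
      (continuous_const.mul ((continuous_ev 0).dist (continuous_ev 1)))

theorem isCompact_geodesic {K : Set X} (hK : IsCompact K) :
    IsCompact {γ : UCurve X | IsCSGeodesic γ ∧ ∀ t, γ.toMap t ∈ K} := by
  let T : Set (unitInterval → X) :=
    {f | (∀ s t : unitInterval, dist (f s) (f t) = |(s : ℝ) - (t : ℝ)| * dist (f 0) (f 1)) ∧
      ∀ t, f t ∈ K}
  have hlip : ∀ f ∈ T, ∀ s t, dist (f s) (f t) ≤ diam K * dist s t := by
    intro f hf s t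
    rw [hf.1, mul_comm]
    exact mul_le_mul_of_nonneg_right (dist_le_diam_of_mem hK.isBounded (hf.2 0) (hf.2 1))
      (abs_nonneg _)
  have hT : IsCompact T := by
    refine (isCompact_univ_pi fun _ : unitInterval => hK).of_isClosed_subset ?_
      fun f hf t _ => hf.2 t
    simp only [T, ofPred_and, ofPred_forall]
    refine IsClosed.inter (isClosed_iInter fun s => isClosed_iInter fun t =>
      isClosed_eq (by fun_prop) (by fun_prop)) (isClosed_iInter fun t => ?_)
    exact hK.isClosed.preimage (continuous_apply t)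
  have hS : IsCompact {f : C(unitInterval, X) | (f : unitInterval → X) ∈ T} := by
    refine ArzelaAscoli.isCompact_of_equicontinuous _ ?_ ?_
    · convert hT using 1
      refine Subset.antisymm (by rintro _ ⟨f, hf, rfl⟩; exact hf) fun f hf => ?_
      exact ⟨⟨f, (LipschitzWith.of_dist_le' (hlip f hf)).continuous⟩, hf, rfl⟩
    · refine Metric.equicontinuous_of_continuity_modulus (fun r => diam K * r) ?_ _
        fun s t f => hlip f f.2 s t
      exact (Continuous.tendsto' (by fun_prop) _ _ (by simp))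
  exact (curveHomeo X).isCompact_preimage.2 hS

/-- the curve restricted to `[s, t]` and reparametrised -/
noncomputable def restr (s t : ℝ) (γ : UCurve X) : UCurve X :=
  ⟨⟨fun r => γ.ext (s + r * (t - s)),
    continuous_ext.comp (f := fun r : unitInterval => (γ, s + r * (t - s))) (by fun_prop)⟩⟩

theorem restr_apply (s t : ℝ) (γ : UCurve X) (r : unitInterval) :
    (restr s t γ).toMap r = γ.ext (s + r * (t - s)) := rfl

theorem continuous_restr (s t : ℝ) : Continuous (restr (X := X) s t) := by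
  refine continuous_induced_rng.2 (ContinuousMap.continuous_of_continuous_uncurry _ ?_)
  exact continuous_ext.comp (f := fun p : UCurve X × unitInterval => (p.1, s + p.2 * (t - s)))
    (by fun_prop)

theorem curve_lintegral_affine (g : ℝ → ℝ≥0∞) (s x y : ℝ) {c : ℝ} (hc : 0 < c) :
    ∫⁻ r in Icc x y, ENNReal.ofReal c * g (s + r * c) = ∫⁻ r in Icc (s + x * c) (s + y * c), g r := by
  have h1 : (fun r => s + r * c) '' Icc x y = Icc (s + x * c) (s + y * c) := by
    rw [← image_const_add_Icc, ← image_mul_right_Icc' _ _ hc, image_image]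
  rw [← h1, lintegral_image_eq_lintegral_abs_deriv_mul measurableSet_Icc (f' := fun _ => c)
    (fun r _ => (by simpa using ((hasDerivAt_id r).mul_const c).const_add s :
      HasDerivAt (fun r => s + r * c) c r).hasDerivWithinAt)
    (fun a _ b _ e => mul_right_cancel₀ hc.ne' (add_left_cancel e)), abs_of_pos hc]

theorem l2speed_restr {γ : UCurve X} (h : HasL2Speed γ) {s t : ℝ} (hs : 0 ≤ s) (hst : s ≤ t)
    (ht : t ≤ 1) : HasL2Speed (restr s t γ) := by
  rcases hst.eq_or_lt with rfl | hst'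
  · exact ⟨0, measurable_const, by simp, fun x y _ => by simp [restr_apply]⟩
  obtain ⟨a, ha, hfin, hb⟩ := h
  have hc : 0 < t - s := sub_pos.2 hst'
  refine ⟨fun r => ENNReal.ofReal (t - s) * a (s + r * (t - s)), by fun_prop, ?_, fun x y hxy => ?_⟩
  · have e : ∀ r, (ENNReal.ofReal (t - s) * a (s + r * (t - s))) ^ 2 =
        ENNReal.ofReal (t - s) * (ENNReal.ofReal (t - s) * a (s + r * (t - s)) ^ 2) := fun r => by
      ring
    simp only [e]
    rw [lintegral_const_mul' _ _ ENNReal.ofReal_ne_top,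
      curve_lintegral_affine (fun r => a r ^ 2) s 0 1 hc]
    refine ENNReal.mul_lt_top ENNReal.ofReal_lt_top (lt_of_le_of_lt (lintegral_mono_set ?_) hfin)
    exact Icc_subset_Icc (by linarith) (by linarith)
  · have hm : ∀ z : unitInterval, s + z * (t - s) ∈ Icc (0 : ℝ) 1 := fun z =>
      ⟨by nlinarith [z.2.1], by nlinarith [z.2.2]⟩
    rw [curve_lintegral_affine a s x y hc, restr_apply, restr_apply, ext_of_mem γ (hm x),
      ext_of_mem γ (hm y)]
    exact hb ⟨_, hm x⟩ ⟨_, hm y⟩ (by simp only; nlinarith)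

theorem upperSpeed_restr (γ : UCurve X) {s t r : ℝ} (hst : s < t) (hr : r ∈ Ioo (0 : ℝ) 1) :
    upperSpeed (restr s t γ) r = ENNReal.ofReal (t - s) * upperSpeed γ (s + r * (t - s)) := by
  have hc : 0 < t - s := sub_pos.2 hst
  have h1 := ((Homeomorph.mulRight₀ (t - s) hc.ne').trans (Homeomorph.addLeft s)).map_punctured_nhds_eq r
  have h2 : map (fun x => s + x * (t - s)) (𝓝[≠] r) = 𝓝[≠] (s + r * (t - s)) := h1
  rw [upperSpeed, upperSpeed, ← h2, ← Filter.limsup_comp,
    ← ENNReal.limsup_const_mul_of_ne_top ENNReal.ofReal_ne_top]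
  refine limsup_congr ?_
  filter_upwards [nhdsWithin_le_nhds (Icc_mem_nhds hr.1 hr.2)] with x hx
  rw [ext_of_mem _ hx, ext_of_mem _ (Ioo_subset_Icc_self hr), restr_apply, restr_apply,
    Function.comp, ← ENNReal.ofReal_mul hc.le,
    show s + x * (t - s) - (s + r * (t - s)) = (t - s) * (x - r) by ring, abs_mul, abs_of_pos hc,
    ← mul_div_assoc, mul_div_mul_left _ _ hc.ne']

theorem curve_geo_of_le {γ : UCurve X} (h : ∀ s t : unitInterval, (s : ℝ) ≤ t →
    dist (γ.toMap s) (γ.toMap t) ≤ ((t : ℝ) - s) * dist (γ.toMap 0) (γ.toMap 1)) :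
    IsCSGeodesic γ := by
  have key : ∀ s t : unitInterval, (s : ℝ) ≤ t →
      dist (γ.toMap s) (γ.toMap t) = |(s : ℝ) - t| * dist (γ.toMap 0) (γ.toMap 1) := by
    intro s t hst
    rw [abs_sub_comm, abs_of_nonneg (sub_nonneg.2 hst)]
    refine le_antisymm (h s t hst) ?_
    have h1 := h 0 s s.2.1
    have h2 := h t 1 t.2.2
    have h3 := dist_triangle4 (γ.toMap 0) (γ.toMap s) (γ.toMap t) (γ.toMap 1)
    simp only [Icc.coe_zero, Icc.coe_one] at h1 h2
    linarith
  intro s t
  rcases le_total (s : ℝ) t with hst | hst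
  · exact key s t hst
  · rw [dist_comm, abs_sub_comm]
    exact key t s hst

theorem curve_concat_cont {Y : Type*} [TopologicalSpace Y] {f : Y → UCurve X × UCurve X}
    {g : Y → ℝ} (hf : Continuous f) (hg : Continuous g)
    (h : ∀ y, (f y).1.toMap 1 = (f y).2.toMap 0) :
    Continuous fun y => if g y ≤ 1 / 2 then (f y).1.ext (2 * g y) else (f y).2.ext (2 * g y - 1) := by
  refine Continuous.if_le
    (continuous_ext.comp (f := fun y => ((f y).1, 2 * g y)) (by fun_prop))
    (continuous_ext.comp (f := fun y => ((f y).2, 2 * g y - 1)) (by fun_prop)) hg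
    continuous_const fun y hy => ?_
  rw [hy, show (2 : ℝ) * (1 / 2) = 1 by norm_num, sub_self, ext_one, ext_zero, h]

theorem curve_ext_proj (γ : UCurve X) {f : ℝ → ℝ} {r : ℝ} (h0 : r < 0 → f r ≤ 0 ∧ f 0 ≤ 0)
    (h1 : 1 < r → 1 ≤ f r ∧ 1 ≤ f 1) :
    γ.ext (f (projIcc (0 : ℝ) 1 zero_le_one r)) = γ.ext (f r) := by
  rcases lt_or_ge r 0 with hr | hr
  · rw [projIcc_of_le_left _ hr.le, UCurve.ext, UCurve.ext, projIcc_of_le_left _ (h0 hr).1,
      projIcc_of_le_left _ (h0 hr).2]
  rcases lt_or_ge 1 r with hr' | hr'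
  · rw [projIcc_of_right_le _ hr'.le, UCurve.ext, UCurve.ext, projIcc_of_right_le _ (h1 hr').1,
      projIcc_of_right_le _ (h1 hr').2]
  · rw [projIcc_of_mem _ ⟨hr, hr'⟩]

/-- concatenation of two geodesics of the same length meeting at the midpoint of the far ends -/
theorem exists_concat [ProperSpace X] : ∃ c : UCurve X × UCurve X → UCurve X, Measurable c ∧
    ∀ p : UCurve X × UCurve X, p.1.toMap 1 = p.2.toMap 0 →
      (∀ r : ℝ, r ≤ 1 / 2 → (c p).ext r = p.1.ext (2 * r)) ∧
      (∀ r : ℝ, 1 / 2 ≤ r → (c p).ext r = p.2.ext (2 * r - 1)) ∧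
      (IsCSGeodesic p.1 → IsCSGeodesic p.2 →
        dist (p.1.toMap 0) (p.1.toMap 1) = dist (p.1.toMap 0) (p.2.toMap 1) / 2 →
        dist (p.2.toMap 0) (p.2.toMap 1) = dist (p.1.toMap 0) (p.2.toMap 1) / 2 →
        IsCSGeodesic (c p)) := by
  classical
  let S : Set (UCurve X × UCurve X) := {p | p.1.toMap 1 = p.2.toMap 0}
  have hS : IsClosed S :=
    isClosed_eq ((continuous_ev 1).comp continuous_fst) ((continuous_ev 0).comp continuous_snd)
  let c₀ : S → UCurve X := fun p => ⟨⟨fun r : unitInterval =>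
      if (r : ℝ) ≤ 1 / 2 then p.1.1.ext (2 * r) else p.1.2.ext (2 * r - 1),
    curve_concat_cont (f := fun _ => p.1) continuous_const continuous_subtype_val fun _ => p.2⟩⟩
  have hc₀ : Continuous c₀ := by
    refine continuous_induced_rng.2 (ContinuousMap.continuous_of_continuous_uncurry _ ?_)
    exact curve_concat_cont (f := fun q : S × unitInterval => q.1.1) (g := fun q => q.2)
      (by fun_prop) (by fun_prop) fun q => q.1.2
  refine ⟨fun p => if h : p ∈ S then c₀ ⟨p, h⟩ else p.1, ?_, fun p hp => ?_⟩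
  · exact Measurable.dite (s := S) (f := c₀) (g := fun p => p.1.1) hc₀.measurable
      (measurable_fst.comp measurable_subtype_coe) hS.measurableSet
  have hp' : p ∈ S := hp
  simp only [dif_pos hp']
  have e1 : ∀ r : ℝ, r ≤ 1 / 2 → (c₀ ⟨p, hp'⟩).ext r = p.1.ext (2 * r) := by
    intro r hr
    have h1 : (projIcc (0 : ℝ) 1 zero_le_one r : ℝ) ≤ 1 / 2 := by
      rw [coe_projIcc]
      exact max_le (by norm_num) ((min_le_right _ _).trans hr)
    refine (if_pos h1).trans ?_
    exact curve_ext_proj p.1 (f := fun r => 2 * r) (fun h => ⟨by linarith, by norm_num⟩)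
      (fun h => ⟨by linarith, by norm_num⟩)
  have e2 : ∀ r : ℝ, 1 / 2 ≤ r → (c₀ ⟨p, hp'⟩).ext r = p.2.ext (2 * r - 1) := by
    intro r hr
    rcases hr.eq_or_lt with rfl | hr'
    · rw [e1 _ le_rfl, show (2 : ℝ) * (1 / 2) = 1 by norm_num, sub_self, ext_one, ext_zero, hp]
    have h1 : ¬ (projIcc (0 : ℝ) 1 zero_le_one r : ℝ) ≤ 1 / 2 := by
      rw [coe_projIcc, not_le]
      exact lt_max_of_lt_right (lt_min (by norm_num) hr')
    refine (if_neg h1).trans ?_
    exact curve_ext_proj p.2 (f := fun r => 2 * r - 1) (fun h => ⟨by linarith, by norm_num⟩)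
      (fun h => ⟨by linarith, by norm_num⟩)
  refine ⟨e1, e2, fun g1 g2 d1 d2 => curve_geo_of_le fun s t hst => ?_⟩
  have a0 : (c₀ ⟨p, hp'⟩).toMap 0 = p.1.toMap 0 := by
    rw [← ext_zero, e1 0 (by norm_num), mul_zero, ext_zero]
  have a1 : (c₀ ⟨p, hp'⟩).toMap 1 = p.2.toMap 1 := by
    rw [← ext_one, e2 1 (by norm_num), show (2 : ℝ) * 1 - 1 = 1 by norm_num, ext_one]
  have b1 : ∀ x y : ℝ, 0 ≤ x → x ≤ y → y ≤ 1 / 2 → dist ((c₀ ⟨p, hp'⟩).ext x) ((c₀ ⟨p, hp'⟩).ext y) =
      (y - x) * dist (p.1.toMap 0) (p.2.toMap 1) := by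
    intro x y h0 h1 h2
    rw [e1 x (h1.trans h2), e1 y h2, geo_dist_ext g1 ⟨by linarith, by linarith⟩
      ⟨by linarith, by linarith⟩, d1, abs_of_nonpos (by linarith)]
    ring
  have b2 : ∀ x y : ℝ, 1 / 2 ≤ x → x ≤ y → y ≤ 1 → dist ((c₀ ⟨p, hp'⟩).ext x) ((c₀ ⟨p, hp'⟩).ext y) =
      (y - x) * dist (p.1.toMap 0) (p.2.toMap 1) := by
    intro x y h0 h1 h2
    rw [e2 x h0, e2 y (h0.trans h1), geo_dist_ext g2 ⟨by linarith, by linarith⟩
      ⟨by linarith, by linarith⟩, d2, abs_of_nonpos (by linarith)]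
    ring
  rw [a0, a1, ← ext_coe, ← ext_coe]
  rcases le_total (t : ℝ) (1 / 2) with ht | ht
  · exact (b1 s t s.2.1 hst ht).le
  rcases le_total (1 / 2 : ℝ) s with hs | hs
  · exact (b2 s t hs hst t.2.2).le
  refine (dist_triangle _ ((c₀ ⟨p, hp'⟩).ext (1 / 2)) _).trans (le_of_eq ?_)
  rw [b1 s _ s.2.1 hs le_rfl, b2 _ t le_rfl ht t.2.2]
  ring

end Crest.Agent.R242
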