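import Mathlib
import Crest.Prelude.Def_SyntheticRicci

/-!
Row 242 (weak Hessian bounds along geodesics): shared definitions.
-/

set_option autoImplicit false

open MeasureTheory Set Filter Metric Crest.GeometryTopology.SyntheticRicci
open scoped ENNReal NNReal Topology

namespace Crest.Agent.R242

variable {X : Type*} [MetricSpace X] [MeasurableSpace X]

/-- minimal weak upper gradient -/
noncomputable abbrev Dw (m : Measure X) (f : X → ℝ) : X → ℝ := minWeakGrad m f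

/-- gradient pairing -/
noncomputable abbrev Gm (m : Measure X) (f g : X → ℝ) : X → ℝ := gradPairing m f g

/-- weak Laplacian -/
noncomputable abbrev Lap (m : Measure X) (f : X → ℝ) : X → ℝ := weakLaplacian m f

/-- `μ` has density at most `C` and lives in the closed ball of radius `R` around `o`. -/
structure Adm (m μ : Measure X) (C : ℝ≥0) (o : X) (R : ℝ) : Prop where
  le : μ ≤ (C : ℝ≥0∞) • m
  inn : ∀ᵐ x ∂μ, dist x o ≤ R

/-- real-valued quadratic cost -/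
noncomputable def cst (q : Measure (X × X)) : ℝ := ∫ p, dist p.1 p.2 ^ 2 ∂q

/-- `q` is an optimal coupling of its own marginals -/
def Opt (q : Measure (X × X)) : Prop :=
  ∀ q' : Measure (X × X), q'.fst = q.fst → q'.snd = q.snd → quadCost q ≤ quadCost q'

/-- `η` is concentrated on triples `(x₀, xₜ, x₁)` with `xₜ` a `t`-intermediate point -/
def IsTri (t : ℝ) (η : Measure (X × X × X)) : Prop :=
  ∀ᵐ p ∂η, dist p.1 p.2.1 = t * dist p.1 p.2.2 ∧ dist p.2.1 p.2.2 = (1 - t) * dist p.1 p.2.2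

/-- law of the end points -/
noncomputable def ends (η : Measure (X × X × X)) : Measure (X × X) :=
  η.map fun p => (p.1, p.2.2)

/-- law of the middle point -/
noncomputable def mid (η : Measure (X × X × X)) : Measure X := η.map fun p => p.2.1

/-- The consequences of the curvature-dimension condition that are used. -/
structure CDk (m : Measure X) (κ N : ℝ) : Prop where
  κ_nonneg : 0 ≤ κ
  one_lt : 1 < N
  ex : ∀ μ₀ μ₁ : Measure X, IsProbabilityMeasure μ₀ → IsProbabilityMeasure μ₁ →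
    (∃ o R, ∀ᵐ x ∂μ₀, dist x o ≤ R) → (∃ o R, ∀ᵐ x ∂μ₁, dist x o ≤ R) → μ₀ ≪ m → μ₁ ≪ m →
    ∃ P : Measure (UCurve X), IsProbabilityMeasure P ∧ (∀ᵐ γ ∂P, IsCSGeodesic γ) ∧
      IsOptCouplingOf (endpointLaw P) μ₀ μ₁ ∧
      ∀ N' : ℝ, N ≤ N' → ∀ t : unitInterval,
        (∫⁻ γ, (ENNReal.ofReal ((1 - (t : ℝ)) *
                Real.exp (-(κ * t * dist (γ.toMap 0) (γ.toMap 1) ^ 2 / N'))) *
              μ₀.rnDeriv m (γ.toMap 0) ^ (-1 / N') +
            ENNReal.ofReal ((t : ℝ) *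
                Real.exp (-(κ * (1 - t) * dist (γ.toMap 0) (γ.toMap 1) ^ 2 / N'))) *
              μ₁.rnDeriv m (γ.toMap 1) ^ (-1 / N')) ∂P) ≤
          renyiPower m (timeMarginal P t) N'
  growth : ∀ o : X, ∃ b : ℝ, 0 < b ∧ Integrable (fun x => Real.exp (-(b * dist x o))) m

/-- `G` bounds the slope of `u` along cheap couplings. -/
def SlopeLe (m : Measure X) (u G : X → ℝ) : Prop :=
  ∀ (μ : Measure X) (C : ℝ≥0) (o : X) (R : ℝ), IsProbabilityMeasure μ → Adm m μ C o R →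
    ∀ η : ℝ, 0 < η → ∃ δ : ℝ, 0 < δ ∧ ∀ q : Measure (X × X), q.fst = μ → Adm m q.snd C o R →
      cst q ≤ δ → ∫ x, u x ∂q.snd - ∫ x, u x ∂μ ≤ (√(∫ x, G x ^ 2 ∂μ) + η) * √(cst q)

/-- `ν` is within `β` of `ρ m` in total variation -/
def Close (m ν : Measure X) (ρ : X → ℝ) (β : ℝ) : Prop :=
  ∀ g : X → ℝ, AEStronglyMeasurable g m → (∀ᵐ x ∂m, |g x| ≤ 1) →
    |∫ x, g x ∂ν - ∫ x, g x * ρ x ∂m| ≤ β

/-- bounded Lipschitz functions -/
structure BL (f : X → ℝ) : Prop where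
  lip : ∃ L : ℝ≥0, LipschitzWith L f
  bdd : ∃ B : ℝ, ∀ x, |f x| ≤ B

/-- truncated half squared distance -/
noncomputable def usq (y : X) (a : ℝ) (x : X) : ℝ := min (dist x y ^ 2 / 2) a

/-- admissible weights -/
structure Wt (ω : X → ℝ) : Prop where
  meas : Measurable ω
  bdd : ∃ c : ℝ, 0 < c ∧ ∀ x, c ≤ ω x ∧ ω x ≤ c⁻¹

/-- `u` solves `u - c L u = f` weakly, for the form with weight `ω` -/
def IsRes (m : Measure X) (ω : X → ℝ) (c : ℝ) (f u : X → ℝ) : Prop :=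
  IsSobolev m u ∧ ∀ v : X → ℝ, IsSobolev m v →
    ∫ x, u x * v x * ω x ∂m + c * ∫ x, Gm m u v x * ω x ∂m = ∫ x, f x * v x * ω x ∂m

open Classical in
/-- the weighted resolvent -/
noncomputable def Res (m : Measure X) (ω : X → ℝ) (c : ℝ) (f : X → ℝ) : X → ℝ :=
  if h : ∃ u, IsRes m ω c f u then h.choose else 0

/-- the resolvent of the Laplacian -/
noncomputable abbrev Jr (m : Measure X) (τ : ℝ) (f : X → ℝ) : X → ℝ := Res m (fun _ => 1) τ f

/-- test functions with bounded Laplacian -/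
def Good (m : Measure X) (g : X → ℝ) : Prop :=
  IsTestFn m g ∧ ∃ B : ℝ, ∀ᵐ x ∂m, |Lap m g x| ≤ B

/-- The analytic consequences of the Riemannian curvature-dimension condition. -/
structure RS (m : Measure X) (k τ₀ : ℝ) : Prop where
  hilb : IsInfHilbertian m
  k_nonneg : 0 ≤ k
  τ_pos : 0 < τ₀
  kτ : k * τ₀ ≤ 1 / 2
  grad : ∀ τ, 0 < τ → τ ≤ τ₀ → ∀ f : X → ℝ, BL f → IsSobolev m f →
    ∀ᵐ x ∂m, Dw m (Jr m τ f) x ^ 2 ≤ (1 - k * τ)⁻¹ * Jr m τ (fun y => Dw m f y ^ 2) x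
  s2l : ∀ (f : X → ℝ) (L : ℝ≥0), IsSobolevLoc m f → (∀ᵐ x ∂m, Dw m f x ≤ L) →
    ∃ g : X → ℝ, LipschitzWith L g ∧ f =ᵐ[m] g
  lap : ∀ a : ℝ, 0 < a → ∃ C : ℝ, 0 ≤ C ∧ ∀ (y : X) (v : X → ℝ), IsSobolevLoc m v →
    (∀ᵐ x ∂m, 0 ≤ v x) →
    -∫ x, Gm m (usq y a) v x ∂m ≤ C * ∫ x in closedBall y (√(2 * a)), v x ∂m

/-- the weight of the drifted Laplacian -/
noncomputable def wt (F : X → ℝ) (ε : ℝ) (x : X) : ℝ := Real.exp (F x / ε)

end Crest.Agent.R242
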