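import Crest.Agent.R242.HV

/-!
Row 242: Laplacian comparison.
-/

set_option autoImplicit false

open MeasureTheory Set Filter Metric Crest.GeometryTopology.SyntheticRicci
open scoped ENNReal NNReal Topology

namespace Crest.Agent.R242

variable {X : Type*} [MetricSpace X] [ProperSpace X] [MeasurableSpace X] [BorelSpace X]
  {m : Measure X} [IsLocallyFiniteMeasure m] {κ N : ℝ}

/-- the growth of the density bound -/
theorem lapc_slope (N b : ℝ) {ε : ℝ} (hε : 0 < ε) :
    ∀ᶠ t : ℝ in 𝓝[>] 0, ((1 - t) ^ N)⁻¹ * Real.exp (t * b) ≤ 1 + (N + b + ε) * t := by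
  have h1 : HasDerivAt (fun t : ℝ => 1 - t) (-1) 0 := by
    simpa using (hasDerivAt_id (0 : ℝ)).const_sub 1
  have h2 := (h1.rpow_const (p := N) (Or.inl (by norm_num))).inv (by simp)
  have h3 := ((hasDerivAt_id (0 : ℝ)).mul_const b).exp
  have h4 : HasDerivAt (fun t : ℝ => ((1 - t) ^ N)⁻¹ * Real.exp (t * b)) (N + b) 0 := by
    refine (h2.mul h3).congr_deriv ?_
    simp
  have h5 := h4.tendsto_slope_zero_right
  have h6 := h5.eventually (gt_mem_nhds (show N + b < N + b + ε by linarith))
  filter_upwards [h6, self_mem_nhdsWithin] with t ht ht0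
  have ht0 : 0 < t := ht0
  simp only [zero_add, sub_zero, Real.one_rpow, inv_one, zero_mul, Real.exp_zero, mul_one,
    smul_eq_mul] at ht
  rw [inv_mul_lt_iff₀ ht0] at ht
  linarith

/-- Laplacian comparison for the truncated squared distance -/
theorem lap_comparison [m.IsOpenPosMeasure] (h : CDk m κ N) (H : IsInfHilbertian m) {a : ℝ}
    (ha : 0 < a) (y : X) {v : X → ℝ} (hv : IsSobolevLoc m v) (h0 : ∀ᵐ x ∂m, 0 ≤ v x) :
    -∫ x, Gm m (usq y a) v x ∂m ≤ (N + 2 * κ * a) * ∫ x in closedBall y (√(2 * a)), v x ∂m := by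
  set R : ℝ := √(2 * a) with hR
  have hR2 : R ^ 2 = 2 * a := Real.sq_sqrt (by linarith)
  have hR0 : 0 < R := Real.sqrt_pos.2 (by linarith)
  set B : Set X := closedBall y R with hB
  have hBm : MeasurableSet B := measurableSet_closedBall
  have hB0 : m B ≠ 0 := (measure_closedBall_pos m y hR0).ne'
  have hB1 : m B ≠ ⊤ := measure_closedBall_lt_top.ne
  set c : ℝ≥0 := (m B)⁻¹.toNNReal with hc
  have hcc : (c : ℝ≥0∞) = (m B)⁻¹ := ENNReal.coe_toNNReal (ENNReal.inv_ne_top.2 hB0)
  have hc0 : (0 : ℝ) < c := by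
    have : (c : ℝ≥0∞) ≠ 0 := by rw [hcc]; exact ENNReal.inv_ne_zero.2 hB1
    exact NNReal.coe_pos.2 (pos_iff_ne_zero.2 (ENNReal.coe_ne_zero.1 this))
  set μ : Measure X := (c : ℝ≥0∞) • m.restrict B with hμ
  have hBa : Adm m (m.restrict B) 1 y R :=
    ⟨by simpa using Measure.restrict_le_self, (ae_restrict_iff' hBm).2 (Eventually.of_forall fun _ h => h)⟩
  have : IsProbabilityMeasure μ := ⟨by
    rw [hμ, Measure.smul_apply, Measure.restrict_apply_univ, hcc, smul_eq_mul,
      ENNReal.inv_mul_cancel hB0 hB1]⟩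
  have hμa : Adm m μ c y R :=
    ⟨smul_le_smul_left _ Measure.restrict_le_self, Measure.ae_smul_measure hBa.inn _⟩
  have hμa2 : Adm m μ (2 * c) y R := hμa.mono le_rfl (by rw [two_mul]; exact le_self_add) le_rfl
  have hφ : IsSobolevLoc m (usq y a) := (BL.usq y ha.le).sl
  have hφc : Continuous (usq y a) := (BL.usq y ha.le).continuous
  have hD := Dw_usq_le (m := m) y ha.le
  set V : ℝ := ∫ x in B, v x ∂m with hV
  set J : ℝ := ∫ x, Gm m (usq y a) v x ∂m with hJ
  have hvB : Integrable v (m.restrict B) := hBa.integrable hv.1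
  have hV0 : 0 ≤ V := integral_nonneg_of_ae (ae_restrict_of_ae h0)
  have hI : ∫ x, Gm m (usq y a) v x ∂μ = c * J := by
    rw [hμ, integral_smul_measure, ENNReal.coe_toReal, smul_eq_mul,
      setIntegral_eq_integral_of_ae_compl_eq_zero]
    filter_upwards [hD, abs_Gm_le H hφ hv] with x h1 h2 hx
    have hx : R < dist x y := by simpa [hB] using hx
    have h3 : a ≤ dist x y ^ 2 / 2 := by nlinarith
    rw [h1.2 h3, zero_mul] at h2
    exact abs_nonpos_iff.1 h2
  have hvμ : ∫ x, v x ∂μ = c * V := by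
    rw [hμ, integral_smul_measure, ENNReal.coe_toReal, smul_eq_mul]
  have hdc : Continuous fun x : X => dist x y ^ 2 := by fun_prop
  set d : ℝ := ∫ x, dist x y ^ 2 ∂μ with hd
  have hDd : ∫ x, Dw m (usq y a) x ^ 2 ∂μ ≤ d := by
    refine integral_mono_of_nonneg (Eventually.of_forall fun x => sq_nonneg _)
      (hμa.integrable (l2b_of_continuous hdc)) ?_
    filter_upwards [hμa.ac hD, hμa.ac (Dw_nonneg hφ)] with x h1 h2
    exact pow_le_pow_left₀ h2 h1.1 2
  have key : ∀ ε : ℝ, 0 < ε → -(c * J + ε) ≤ c * (N + 2 * κ * a + ε) * V := by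
    intro ε hε
    obtain ⟨t₀, β, ht₀, hβ, hHV⟩ := horiz_vert h H hφ hv hμa2 d hε
    have e1 := lapc_slope N (κ * R ^ 2) hε
    have e2 : ∀ᶠ t : ℝ in 𝓝[>] 0, (N + κ * R ^ 2 + ε) * t < 1 := by
      have : Tendsto (fun t : ℝ => (N + κ * R ^ 2 + ε) * t) (𝓝 0) (𝓝 ((N + κ * R ^ 2 + ε) * 0)) :=
        tendsto_id.const_mul _
      exact (this.eventually (gt_mem_nhds (by simp))).filter_mono nhdsWithin_le_nhds
    have e3 : ∀ᶠ t : ℝ in 𝓝[>] 0, t < min t₀ 1 :=
      (gt_mem_nhds (lt_min ht₀ one_pos)).filter_mono nhdsWithin_le_nhds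
    obtain ⟨t, ⟨⟨h1, h2⟩, h3⟩, ht0⟩ := (((e1.and e2).and e3).and self_mem_nhdsWithin).exists
    have ht0 : 0 < t := ht0
    obtain ⟨ht1, ht2⟩ := lt_min_iff.1 h3
    obtain ⟨q, hq1, hq2, hq3⟩ := exists_contr h hμa (s := 1 - t) (by linarith) (by linarith)
    have hg : ((1 - t) ^ N)⁻¹ * Real.exp (κ * (1 - (1 - t)) * R ^ 2) ≤
        1 + (N + 2 * κ * a + ε) * t := by
      convert h1 using 3
      · ring
      · rw [hR2]; ring
    set g : ℝ := ((1 - t) ^ N)⁻¹ * Real.exp (κ * (1 - (1 - t)) * R ^ 2) with hgdef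
    have hg0 : 0 ≤ g := by
      have : 0 ≤ 1 - t := by linarith
      positivity
    have hin1 : ∀ᵐ p ∂q, dist p.1 y ≤ R := by
      have := hμa.inn
      rw [← hq1] at this
      exact ae_of_ae_map measurable_fst.aemeasurable this
    have hin2 : ∀ᵐ x ∂q.snd, dist x y ≤ R := by
      rw [Measure.snd, ae_map_iff measurable_snd.aemeasurable
        (isClosed_le (by fun_prop) continuous_const).measurableSet]
      filter_upwards [hin1, hq3] with p h1 h2
      rw [h2.1]
      have := dist_nonneg (x := p.1) (y := y)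
      nlinarith
    have hqa : Adm m q.snd (c * g.toNNReal) y R := ⟨hq2, hin2⟩
    have hqa2 : Adm m q.snd (2 * c) y R := by
      refine hqa.mono le_rfl ?_ le_rfl
      rw [mul_comm]
      refine mul_le_mul_left ?_ _
      rw [Real.toNNReal_le_iff_le_coe]
      have : (N + 2 * κ * a + ε) * t < 1 := by
        convert h2 using 3
        rw [hR2]; ring
      push_cast
      linarith
    have hdq : ∫ p, dist p.1 y ^ 2 ∂q = d := by
      rw [hd, ← hq1, Measure.fst, integral_map measurable_fst.aemeasurable hdc.aestronglyMeasurable]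
    have hq4 : q.real univ = 1 := by
      rw [Measure.real, ← Measure.fst_univ, hq1, measure_univ, ENNReal.toReal_one]
    have hq5 : cst q = t ^ 2 * d := by
      rw [cst, ← hdq, ← integral_const_mul]
      refine integral_congr_ae ?_
      filter_upwards [hq3] with p hp
      rw [hp.2]
      ring
    have hq6 : ∫ x, usq y a x ∂q.fst = 1 / 2 * d := by
      rw [Measure.fst, integral_map measurable_fst.aemeasurable hφc.aestronglyMeasurable, ← hdq,
        ← integral_const_mul]
      refine integral_congr_ae ?_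
      filter_upwards [hin1] with p hp
      have := pow_le_pow_left₀ dist_nonneg hp 2
      rw [usq, min_eq_left (by linarith)]
      ring
    have hq7 : ∫ x, usq y a x ∂q.snd = (1 - t) ^ 2 / 2 * d := by
      rw [Measure.snd, integral_map measurable_snd.aemeasurable hφc.aestronglyMeasurable, ← hdq,
        ← integral_const_mul]
      refine integral_congr_ae ?_
      filter_upwards [hin1, hq3] with p hp hp'
      have h4 : dist p.2 y ≤ R := by
        rw [hp'.1]
        have := dist_nonneg (x := p.1) (y := y)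
        nlinarith
      have := pow_le_pow_left₀ dist_nonneg h4 2
      rw [usq, min_eq_left (by linarith), hp'.1]
      ring
    have h5 := hHV t ht0 ht1.le q d hq1.le hqa2 (by linarith) le_rfl hq5.le
      (by rw [hq6, hq7]; apply le_of_eq; ring) (by rw [hq1]; exact hDd)
    have h6 : ∫ x, v x ∂q.snd ≤ c * g * V := by
      have := integral_mono_measure hqa.le_restrict
        (Measure.ae_smul_measure (ae_restrict_of_ae h0) _) (hvB.smul_measure ENNReal.coe_ne_top)
      rw [integral_smul_measure, ENNReal.coe_toReal, smul_eq_mul, NNReal.coe_mul,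
        Real.coe_toNNReal _ hg0] at this
      exact this
    rw [hq1, hI, hvμ] at h5
    have h7 : c * g * V ≤ c * (1 + (N + 2 * κ * a + ε) * t) * V := by gcongr
    have h8 : t * -(c * J + ε) ≤ t * (c * (N + 2 * κ * a + ε) * V) := by linarith
    exact le_of_mul_le_mul_left h8 ht0
  have h9 : c * -J ≤ c * ((N + 2 * κ * a) * V) := by
    refine le_of_forall_pos_le_add fun η hη => ?_
    have hp : 0 < 1 + c * V := by positivity
    have := key (η / (1 + c * V)) (by positivity)
    have e : η / (1 + c * V) * (1 + c * V) = η := div_mul_cancel₀ _ hp.ne'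
    nlinarith
  exact le_of_mul_le_mul_left h9 hc0

end Crest.Agent.R242
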