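import Crest.Agent.R242.T1

/-!
Row 242: Sobolev-to-Lipschitz property.
-/

set_option autoImplicit false

open MeasureTheory Set Filter Metric Crest.GeometryTopology.SyntheticRicci
open scoped ENNReal NNReal Topology

namespace Crest.Agent.R242

variable {X : Type*} [MetricSpace X] [ProperSpace X] [MeasurableSpace X] [BorelSpace X]
  {m : Measure X} [IsLocallyFiniteMeasure m] {κ N : ℝ} {f : X → ℝ}

omit [ProperSpace X] [IsLocallyFiniteMeasure m] in
theorem s2l_adm {A : Set X} (hA : MeasurableSet A) (h0 : m A ≠ 0) {C : ℝ≥0}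
    (hC : (m A)⁻¹.toNNReal ≤ C) {o : X} {R : ℝ} (hR : ∀ x ∈ A, dist x o ≤ R) :
    Adm m (ProbabilityTheory.cond m A) C o R where
  le := by
    have h1 : (m A)⁻¹ ≤ (C : ℝ≥0∞) := by
      rw [← ENNReal.coe_toNNReal (ENNReal.inv_ne_top.2 h0)]
      exact ENNReal.coe_le_coe.2 hC
    intro s
    simp only [ProbabilityTheory.cond, Measure.smul_apply, smul_eq_mul]
    exact mul_le_mul' h1 (Measure.restrict_le_self s)
  inn := ProbabilityTheory.ae_cond_of_forall_mem hA hR

omit [MetricSpace X] [ProperSpace X] [BorelSpace X] in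
theorem s2l_avg {μ : Measure X} [IsProbabilityMeasure μ] (hf : Integrable f μ) {a ε : ℝ}
    (h : ∀ᵐ x ∂μ, |f x - a| ≤ ε) : |∫ x, f x ∂μ - a| ≤ ε := by
  have h1 := norm_integral_le_of_norm_le_const (μ := μ) (f := fun x => f x - a) (C := ε) h
  rw [integral_sub hf (integrable_const a)] at h1
  simpa using h1

theorem s2l_key (h : CDk m κ N) (hf : IsSobolevLoc m f) {L : ℝ≥0}
    (hL : ∀ᵐ x ∂m, Dw m f x ≤ L) {f' : X → ℝ} (hf' : Measurable f') (he : f =ᵐ[m] f')
    {x z : X} {a b ε : ℝ} (hε : 0 < ε)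
    (hx : m (ball x ε ∩ f' ⁻¹' ball a ε) ≠ 0) (hz : m (ball z ε ∩ f' ⁻¹' ball b ε) ≠ 0) :
    |b - a| ≤ 2 * ε + L * (dist x z + 2 * ε) := by
  set A := ball x ε ∩ f' ⁻¹' ball a ε with hA
  set B := ball z ε ∩ f' ⁻¹' ball b ε with hB
  have mA : MeasurableSet A := measurableSet_ball.inter (hf' measurableSet_ball)
  have mB : MeasurableSet B := measurableSet_ball.inter (hf' measurableSet_ball)
  have fA : m A ≠ ∞ := ((measure_mono inter_subset_left).trans_lt measure_ball_lt_top).ne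
  have fB : m B ≠ ∞ := ((measure_mono inter_subset_left).trans_lt measure_ball_lt_top).ne
  haveI pA := ProbabilityTheory.cond_isProbabilityMeasure_of_finite hx fA
  haveI pB := ProbabilityTheory.cond_isProbabilityMeasure_of_finite hz fB
  set μ := ProbabilityTheory.cond m A with hμ
  set ν := ProbabilityTheory.cond m B with hν
  have hd : 0 ≤ dist x z := dist_nonneg
  have aA : Adm m μ (max (m A)⁻¹.toNNReal (m B)⁻¹.toNNReal) x (dist x z + ε) :=
    s2l_adm mA hx (le_max_left _ _) fun y hy => by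
      have := mem_ball.1 hy.1
      linarith
  have aB : Adm m ν (max (m A)⁻¹.toNNReal (m B)⁻¹.toNNReal) x (dist x z + ε) :=
    s2l_adm mB hz (le_max_right _ _) fun y hy => by
      have h1 := mem_ball.1 hy.1
      have h2 := dist_triangle y z x
      rw [dist_comm z x] at h2
      linarith
  have e1 : (μ.prod ν).fst = μ := Measure.fst_prod
  have e2 : (μ.prod ν).snd = ν := Measure.snd_prod
  have hv := var_le_of_bdd h hf hL (q := μ.prod ν) (e1.symm ▸ aA) (e2.symm ▸ aB)
  rw [e1, e2] at hv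
  have hc : cst (μ.prod ν) ≤ (dist x z + 2 * ε) ^ 2 := by
    have h1 : ∀ᵐ p ∂(μ.prod ν), p.1 ∈ A :=
      Measure.quasiMeasurePreserving_fst.ae (ProbabilityTheory.ae_cond_mem mA)
    have h2 : ∀ᵐ p ∂(μ.prod ν), p.2 ∈ B :=
      Measure.quasiMeasurePreserving_snd.ae (ProbabilityTheory.ae_cond_mem mB)
    have h3 : ∀ᵐ p ∂(μ.prod ν), ‖dist p.1 p.2 ^ 2‖ ≤ (dist x z + 2 * ε) ^ 2 := by
      filter_upwards [h1, h2] with p hp1 hp2
      have h4 := mem_ball.1 hp1.1
      have h5 := mem_ball.1 hp2.1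
      have h6 := dist_triangle4 p.1 x z p.2
      rw [dist_comm z p.2] at h6
      rw [Real.norm_of_nonneg (sq_nonneg _)]
      exact pow_le_pow_left₀ dist_nonneg (by linarith) 2
    have h4 := norm_integral_le_of_norm_le_const h3
    rw [probReal_univ, mul_one] at h4
    exact (le_abs_self _).trans h4
  have hs : √((μ.prod ν).real univ * cst (μ.prod ν)) ≤ dist x z + 2 * ε := by
    rw [probReal_univ, one_mul]
    exact Real.sqrt_le_iff.2 ⟨by linarith, hc⟩
  have hv' := hv.trans (mul_le_mul_of_nonneg_left hs L.coe_nonneg)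
  have iA : |∫ y, f y ∂μ - a| ≤ ε := by
    refine s2l_avg (aA.integrable hf.1) ?_
    filter_upwards [ProbabilityTheory.ae_cond_mem (μ := m) mA, aA.ac.ae_le he] with y hy hy'
    have : f y = f' y := hy'
    rw [this]
    exact (mem_ball_iff_norm.1 hy.2).le
  have iB : |∫ y, f y ∂ν - b| ≤ ε := by
    refine s2l_avg (aB.integrable hf.1) ?_
    filter_upwards [ProbabilityTheory.ae_cond_mem (μ := m) mB, aB.ac.ae_le he] with y hy hy'
    have : f y = f' y := hy'
    rw [this]
    exact (mem_ball_iff_norm.1 hy.2).le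
  rw [abs_le] at iA iB hv' ⊢
  constructor <;> linarith [iA.1, iA.2, iB.1, iB.2, hv'.1, hv'.2]

/-- Sobolev-to-Lipschitz -/
theorem exists_lip_rep [m.IsOpenPosMeasure] (h : CDk m κ N) (hf : IsSobolevLoc m f) {L : ℝ≥0}
    (hL : ∀ᵐ x ∂m, Dw m f x ≤ L) : ∃ g : X → ℝ, LipschitzWith L g ∧ f =ᵐ[m] g := by
  have hm := l2b_aemeasurable hf.1
  set f' := hm.mk f with hf'def
  have hf' : Measurable f' := hm.measurable_mk
  have he : f =ᵐ[m] f' := hm.ae_eq_mk
  have hφ : Measurable fun x => (x, f' x) := measurable_id.prodMk hf'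
  set ν : Measure (X × ℝ) := m.map fun x => (x, f' x) with hν
  have hs : ∀ᵐ x ∂m, (x, f' x) ∈ ν.support :=
    ae_of_ae_map hφ.aemeasurable (Measure.support_mem_ae (μ := ν))
  have hpos : ∀ x, (x, f' x) ∈ ν.support → ∀ ε : ℝ, 0 < ε →
      m (ball x ε ∩ f' ⁻¹' ball (f' x) ε) ≠ 0 := by
    intro x hx ε hε
    have h1 := (Measure.mem_support_iff_forall _).1 hx (ball x ε ×ˢ ball (f' x) ε)
      (prod_mem_nhds (ball_mem_nhds _ hε) (ball_mem_nhds _ hε))
    rw [hν, Measure.map_apply hφ (measurableSet_ball.prod measurableSet_ball)] at h1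
    exact h1.ne'
  have hlip : LipschitzOnWith L f' {x | (x, f' x) ∈ ν.support} := by
    refine LipschitzOnWith.of_dist_le_mul fun z hz x hx => ?_
    rw [Real.dist_eq, dist_comm z x]
    refine le_of_forall_pos_le_add fun η hη => ?_
    have hL0 : (0 : ℝ) ≤ L := L.coe_nonneg
    have hε : 0 < η / (2 + 2 * L) := by positivity
    have h1 := s2l_key h hf hL hf' he hε (hpos x hx _ hε) (hpos z hz _ hε)
    have h2 : 2 * (η / (2 + 2 * L)) + L * (dist x z + 2 * (η / (2 + 2 * L))) = L * dist x z + η := by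
      field_simp
      ring
    rwa [h2] at h1
  obtain ⟨g, hg, hfg⟩ := hlip.extend_real
  refine ⟨g, hg, ?_⟩
  filter_upwards [he, hs] with x hx hx'
  rw [hx]
  exact hfg hx'

end Crest.Agent.R242
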