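import Crest.Agent.R242.Path

/-!
Row 242: basic properties of weak upper gradients.
-/

set_option autoImplicit false

open MeasureTheory Set Filter Metric Crest.GeometryTopology.SyntheticRicci
open scoped ENNReal NNReal Topology

namespace Crest.Agent.R242

variable {X : Type*} [MetricSpace X] [ProperSpace X] [MeasurableSpace X] [BorelSpace X]
  {m : Measure X} [IsLocallyFiniteMeasure m] {f g D D' : X → ℝ}

theorem wug0_ae01 {P : Measure (UCurve X)} (hP : IsTestPlan2 m P) {p : X → Prop}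
    (h : ∀ᵐ x ∂m, p x) : ∀ᵐ γ ∂P, p (γ.toMap 0) ∧ p (γ.toMap 1) := by
  filter_upwards [tp_ae hP 0 h, tp_ae hP 1 h] with γ h0 h1
  rw [ext_zero] at h0
  rw [ext_one] at h1
  exact ⟨h0, h1⟩

theorem wug0_aem_at {β : Type*} [MeasurableSpace β] {P : Measure (UCurve X)}
    (hP : IsTestPlan2 m P) (t : ℝ) {E : X → β} (hE : AEMeasurable E m) :
    AEMeasurable (fun γ : UCurve X => E (γ.ext t)) P := by
  have hm : Measurable fun γ : UCurve X => γ.ext t :=
    measurable_ext.comp (f := fun γ : UCurve X => (γ, t)) (by fun_prop)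
  exact ⟨fun γ => hE.mk E (γ.ext t), hE.measurable_mk.comp hm, tp_ae hP t hE.ae_eq_mk⟩

theorem wug0_aem {P : Measure (UCurve X)} (hP : IsTestPlan2 m P) (hf : AEMeasurable f m) :
    AEMeasurable (fun γ : UCurve X => ENNReal.ofReal |f (γ.toMap 1) - f (γ.toMap 0)|) P := by
  have h0 := wug0_aem_at hP 0 hf
  have h1 := wug0_aem_at hP 1 hf
  simp only [ext_zero, ext_one] at h0 h1
  exact (h1.sub h0).abs.ennreal_ofReal

theorem wug0_mono {P : Measure (UCurve X)} (hP : IsTestPlan2 m P) {E E' : X → ℝ≥0∞}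
    (h : ∀ᵐ x ∂m, E x ≤ E' x) :
    ∫⁻ γ, (∫⁻ t in Icc (0 : ℝ) 1, E (γ.ext t) * upperSpeed γ t) ∂P ≤
      ∫⁻ γ, (∫⁻ t in Icc (0 : ℝ) 1, E' (γ.ext t) * upperSpeed γ t) ∂P := by
  refine lintegral_mono_ae ?_
  filter_upwards [tp_ae_ae hP h] with γ hγ
  refine lintegral_mono_ae ?_
  filter_upwards [hγ] with t ht
  gcongr

omit [ProperSpace X] [MeasurableSpace X] [BorelSpace X] in
theorem wug0_le_add {P : Measure (UCurve X)} (E E' : X → ℝ≥0∞) :
    (∫⁻ γ, (∫⁻ t in Icc (0 : ℝ) 1, E (γ.ext t) * upperSpeed γ t) ∂P) +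
      ∫⁻ γ, (∫⁻ t in Icc (0 : ℝ) 1, E' (γ.ext t) * upperSpeed γ t) ∂P ≤
      ∫⁻ γ, (∫⁻ t in Icc (0 : ℝ) 1, (E (γ.ext t) + E' (γ.ext t)) * upperSpeed γ t) ∂P := by
  refine (le_lintegral_add _ _).trans (lintegral_mono fun γ => ?_)
  refine (le_lintegral_add _ _).trans (le_of_eq ?_)
  simp only [add_mul]

omit [ProperSpace X] [MeasurableSpace X] [BorelSpace X] in
theorem wug0_const_mul {P : Measure (UCurve X)} (E : X → ℝ≥0∞) {c : ℝ≥0∞} (hc : c ≠ ⊤) :
    ∫⁻ γ, (∫⁻ t in Icc (0 : ℝ) 1, (c * E (γ.ext t)) * upperSpeed γ t) ∂P =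
      c * ∫⁻ γ, (∫⁻ t in Icc (0 : ℝ) 1, E (γ.ext t) * upperSpeed γ t) ∂P := by
  rw [← lintegral_const_mul' _ _ hc]
  refine lintegral_congr fun γ => ?_
  rw [← lintegral_const_mul' _ _ hc]
  simp only [mul_assoc]

theorem wug0_add_le {P : Measure (UCurve X)} (hP : IsTestPlan2 m P) {E : X → ℝ≥0∞}
    (hE : AEMeasurable E m) (E' : X → ℝ≥0∞) :
    ∫⁻ γ, (∫⁻ t in Icc (0 : ℝ) 1, (E (γ.ext t) + E' (γ.ext t)) * upperSpeed γ t) ∂P ≤
      (∫⁻ γ, (∫⁻ t in Icc (0 : ℝ) 1, E (γ.ext t) * upperSpeed γ t) ∂P) +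
        ∫⁻ γ, (∫⁻ t in Icc (0 : ℝ) 1, E' (γ.ext t) * upperSpeed γ t) ∂P := by
  have := hP.1
  have h1 : AEMeasurable (fun p : UCurve X × ℝ => E (p.1.ext p.2) * upperSpeed p.1 p.2)
      (P.prod (volume.restrict (Icc (0 : ℝ) 1))) :=
    (hE.comp_quasiMeasurePreserving (tp_qmp hP)).mul measurable_upperSpeed.aemeasurable
  rw [← lintegral_add_left' h1.lintegral_prod_right']
  refine lintegral_mono_ae ?_
  filter_upwards [Measure.ae_ae_of_ae_prod h1.ae_eq_mk] with γ hγ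
  have h2 : AEMeasurable (fun t => E (γ.ext t) * upperSpeed γ t)
      (volume.restrict (Icc (0 : ℝ) 1)) :=
    ⟨fun t => h1.mk _ (γ, t), h1.measurable_mk.comp measurable_prodMk_left, hγ⟩
  rw [← lintegral_add_left' h2]
  simp only [add_mul, le_refl]

theorem wug0_at_le {P : Measure (UCurve X)} (hP : IsTestPlan2 m P) (hb : HasBoundedTracks P) :
    ∃ (K : ℝ≥0) (o : X) (R : ℝ), ∀ (t : ℝ) (E : X → ℝ≥0∞), AEMeasurable E m →
      ∫⁻ γ, E (γ.ext t) ∂P ≤ (K * ∫⁻ x in ball o R, E x ^ 2 ∂m) ^ (1 / 2 : ℝ) := by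
  have := hP.1
  obtain ⟨C, o, R, h⟩ := tp_adm hP hb
  refine ⟨C, o, R + 1, fun t E hE => ?_⟩
  have hm : Measurable fun γ : UCurve X => γ.ext t :=
    measurable_ext.comp (f := fun γ : UCurve X => (γ, t)) (by fun_prop)
  have h1 := ENNReal.lintegral_mul_le_Lp_mul_Lq P Real.HolderConjugate.two_two
    (wug0_aem_at hP t hE) (aemeasurable_const (b := (1 : ℝ≥0∞)))
  simp only [Pi.mul_apply, mul_one, ENNReal.one_rpow, lintegral_const, measure_univ,
    ENNReal.rpow_two, one_pow] at h1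
  refine h1.trans (ENNReal.rpow_le_rpow ?_ (by norm_num))
  have h2 : AEMeasurable (fun x => E x ^ 2) (P.map fun γ => γ.ext t) :=
    (hE.pow_const 2).mono_ac (h t).ac
  calc ∫⁻ γ, E (γ.ext t) ^ 2 ∂P = ∫⁻ x, E x ^ 2 ∂(P.map fun γ => γ.ext t) :=
        (lintegral_map' h2 hm.aemeasurable).symm
    _ ≤ ∫⁻ x, E x ^ 2 ∂((C : ℝ≥0∞) • m.restrict (closedBall o R)) :=
        lintegral_mono' (h t).le_restrict le_rfl
    _ = C * ∫⁻ x in closedBall o R, E x ^ 2 ∂m := by rw [lintegral_smul_measure, smul_eq_mul]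
    _ ≤ C * ∫⁻ x in ball o (R + 1), E x ^ 2 ∂m := by
        gcongr
        exact closedBall_subset_ball (by linarith)

omit [ProperSpace X] [BorelSpace X] [IsLocallyFiniteMeasure m] in
theorem wug0_tendsto {F : ℕ → X → ℝ} (hF : ∀ n, IsL2OnBalls m (F n)) (hf : IsL2OnBalls m f)
    {o : X} {R : ℝ}
    (h : Tendsto (fun n => ∫ x in ball o R, (F n x - f x) ^ 2 ∂m) atTop (𝓝 0)) :
    Tendsto (fun n => ∫⁻ x in ball o R, ENNReal.ofReal |F n x - f x| ^ 2 ∂m) atTop (𝓝 0) := by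
  have h1 := ENNReal.tendsto_ofReal h
  rw [ENNReal.ofReal_zero] at h1
  refine h1.congr fun n => ?_
  have h2 : Integrable (fun x => (F n x - f x) ^ 2) (m.restrict (ball o R)) :=
    ((hF n o R).sub (hf o R)).integrable_sq
  rw [ofReal_integral_eq_lintegral_ofReal h2 (Eventually.of_forall fun x => sq_nonneg _)]
  refine lintegral_congr fun x => ?_
  rw [← ENNReal.ofReal_pow (abs_nonneg _), sq_abs]

theorem wug0_deriv {g : ℝ → ℝ} {r g' c : ℝ} (hg : HasDerivAt g g' r)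
    (h : ∀ᶠ s in 𝓝[≠] r, g s - g r ≤ c * |s - r|) : |g'| ≤ c := by
  rw [abs_le]
  constructor
  · refine ge_of_tendsto (hg.tendsto_slope.mono_left (nhdsLT_le_nhdsNE r)) ?_
    filter_upwards [nhdsLT_le_nhdsNE r h, self_mem_nhdsWithin] with s h1 h2
    have h3 : s - r < 0 := sub_neg.2 h2
    rw [slope_def_field, le_div_iff_of_neg h3]
    rw [abs_of_neg h3] at h1
    linarith
  · refine le_of_tendsto (hg.tendsto_slope.mono_left (nhdsGT_le_nhdsNE r)) ?_
    filter_upwards [nhdsGT_le_nhdsNE r h, self_mem_nhdsWithin] with s h1 h2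
    have h3 : 0 < s - r := sub_pos.2 h2
    rw [slope_def_field, div_le_iff₀ h3]
    rwa [abs_of_pos h3] at h1

omit [ProperSpace X] [MeasurableSpace X] [BorelSpace X] in
theorem wug0_speed {γ : UCurve X} {r : ℝ} (hv : upperSpeed γ r ≠ ⊤) {η : ℝ} (hη : 0 < η) :
    ∀ᶠ s in 𝓝[≠] r, dist (γ.ext s) (γ.ext r) ≤ ((upperSpeed γ r).toReal + η) * |s - r| := by
  have h1 : upperSpeed γ r < ENNReal.ofReal ((upperSpeed γ r).toReal + η) := by
    rw [ENNReal.ofReal_add ENNReal.toReal_nonneg hη.le, ENNReal.ofReal_toReal hv]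
    exact ENNReal.lt_add_right hv (ENNReal.ofReal_pos.2 hη).ne'
  have h2 : ∀ᶠ s in 𝓝[≠] r, ENNReal.ofReal (dist (γ.ext s) (γ.ext r) / |s - r|) <
      ENNReal.ofReal ((upperSpeed γ r).toReal + η) := eventually_lt_of_limsup_lt h1
  filter_upwards [h2, self_mem_nhdsWithin] with s hs hsr
  have h3 : 0 < |s - r| := abs_pos.2 (sub_ne_zero.2 hsr)
  rw [ENNReal.ofReal_lt_ofReal_iff (by positivity), div_lt_iff₀ h3] at hs
  exact hs.le

theorem wug_congr {f' : X → ℝ} (h : IsWUGLoc m f D) (hf : f =ᵐ[m] f') (hD : D =ᵐ[m] D') :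
    IsWUGLoc m f' D' := by
  refine ⟨l2b_congr h.1 hD, ?_, fun P hP hb => ?_⟩
  · filter_upwards [h.2.1, hD] with x h1 h2
    rwa [← h2]
  · refine le_trans (le_of_eq (lintegral_congr_ae ?_)) ((h.2.2 P hP hb).trans
      (wug0_mono (E := fun x => ENNReal.ofReal (D x)) (E' := fun x => ENNReal.ofReal (D' x)) hP ?_))
    · filter_upwards [wug0_ae01 hP hf] with γ hγ
      rw [hγ.1, hγ.2]
    · filter_upwards [hD] with x hx
      rw [hx]

theorem wug_mono (h : IsWUGLoc m f D) (hD : IsL2OnBalls m D') (hle : ∀ᵐ x ∂m, D x ≤ D' x) :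
    IsWUGLoc m f D' := by
  refine ⟨hD, ?_, fun P hP hb => (h.2.2 P hP hb).trans
      (wug0_mono (E := fun x => ENNReal.ofReal (D x)) (E' := fun x => ENNReal.ofReal (D' x)) hP ?_)⟩
  · filter_upwards [h.2.1, hle] with x h1 h2 using h1.trans h2
  · filter_upwards [hle] with x hx using ENNReal.ofReal_le_ofReal hx

theorem wug_const (c : ℝ) : IsWUGLoc m (fun _ => c) fun _ => 0 := by
  refine ⟨fun o R => MemLp.zero, Eventually.of_forall fun _ => le_rfl, fun P _ _ => ?_⟩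
  simp

theorem wug_add (hf : AEMeasurable f m) (h : IsWUGLoc m f D) (h' : IsWUGLoc m g D') :
    IsWUGLoc m (fun x => f x + g x) fun x => D x + D' x := by
  refine ⟨l2b_add h.1 h'.1, ?_, fun P hP hb => ?_⟩
  · filter_upwards [h.2.1, h'.2.1] with x h1 h2 using add_nonneg h1 h2
  calc _ ≤ ∫⁻ γ, (ENNReal.ofReal |f (γ.toMap 1) - f (γ.toMap 0)| +
        ENNReal.ofReal |g (γ.toMap 1) - g (γ.toMap 0)|) ∂P := by
        refine lintegral_mono fun γ => ?_
        rw [← ENNReal.ofReal_add (abs_nonneg _) (abs_nonneg _)]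
        refine ENNReal.ofReal_le_ofReal (le_trans (le_of_eq ?_) (abs_add_le _ _))
        congr 1
        ring
    _ = _ := lintegral_add_left' (wug0_aem hP hf) _
    _ ≤ _ := add_le_add (h.2.2 P hP hb) (h'.2.2 P hP hb)
    _ ≤ _ := wug0_le_add (fun x => ENNReal.ofReal (D x)) (fun x => ENNReal.ofReal (D' x))
    _ ≤ _ := by
        refine wug0_mono (E := fun x => ENNReal.ofReal (D x) + ENNReal.ofReal (D' x))
          (E' := fun x => ENNReal.ofReal (D x + D' x)) hP ?_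
        filter_upwards [h.2.1, h'.2.1] with x h1 h2
        rw [ENNReal.ofReal_add h1 h2]

theorem wug_comp_lip {φ : ℝ → ℝ} {L : ℝ≥0} (hφ : LipschitzWith L φ) (h : IsWUGLoc m f D) :
    IsWUGLoc m (fun x => φ (f x)) fun x => L * D x := by
  refine ⟨l2b_const_mul h.1 _, ?_, fun P hP hb => ?_⟩
  · filter_upwards [h.2.1] with x h1 using mul_nonneg L.2 h1
  calc _ ≤ ∫⁻ γ, (L : ℝ≥0∞) * ENNReal.ofReal |f (γ.toMap 1) - f (γ.toMap 0)| ∂P := by
        refine lintegral_mono fun γ => ?_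
        rw [← ENNReal.ofReal_coe_nnreal, ← ENNReal.ofReal_mul L.coe_nonneg]
        exact ENNReal.ofReal_le_ofReal (hφ.dist_le_mul _ _)
    _ = _ := lintegral_const_mul' _ _ ENNReal.coe_ne_top
    _ ≤ _ := mul_le_mul_right (h.2.2 P hP hb) _
    _ = _ := (wug0_const_mul (fun x => ENNReal.ofReal (D x)) ENNReal.coe_ne_top).symm
    _ = _ := by
        simp only [ENNReal.ofReal_mul L.coe_nonneg, ENNReal.ofReal_coe_nnreal]

theorem wug_mul_bdd {a b : ℝ} (hf : AEMeasurable f m) (ha : ∀ᵐ x ∂m, |f x| ≤ a)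
    (hb : ∀ᵐ x ∂m, |g x| ≤ b) (h : IsWUGLoc m f D) (h' : IsWUGLoc m g D') :
    IsWUGLoc m (fun x => f x * g x) fun x => b * D x + a * D' x := by
  refine ⟨l2b_add (l2b_const_mul h.1 b) (l2b_const_mul h'.1 a), ?_, fun P hP hP' => ?_⟩
  · filter_upwards [h.2.1, h'.2.1, ha, hb] with x h1 h2 h3 h4
    exact add_nonneg (mul_nonneg ((abs_nonneg _).trans h4) h1)
      (mul_nonneg ((abs_nonneg _).trans h3) h2)
  have := hP.1
  have ha0 : 0 ≤ a := by
    obtain ⟨γ, hγ⟩ := (tp_ae hP 0 ha).exists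
    exact (abs_nonneg _).trans hγ
  have hb0 : 0 ≤ b := by
    obtain ⟨γ, hγ⟩ := (tp_ae hP 0 hb).exists
    exact (abs_nonneg _).trans hγ
  calc _ ≤ ∫⁻ γ, (ENNReal.ofReal b * ENNReal.ofReal |f (γ.toMap 1) - f (γ.toMap 0)| +
        ENNReal.ofReal a * ENNReal.ofReal |g (γ.toMap 1) - g (γ.toMap 0)|) ∂P := by
        refine lintegral_mono_ae ?_
        filter_upwards [wug0_ae01 hP ha, wug0_ae01 hP hb] with γ h1 h2
        rw [← ENNReal.ofReal_mul hb0, ← ENNReal.ofReal_mul ha0,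
          ← ENNReal.ofReal_add (by positivity) (by positivity)]
        refine ENNReal.ofReal_le_ofReal ?_
        rw [show f (γ.toMap 1) * g (γ.toMap 1) - f (γ.toMap 0) * g (γ.toMap 0) =
          g (γ.toMap 1) * (f (γ.toMap 1) - f (γ.toMap 0)) +
            f (γ.toMap 0) * (g (γ.toMap 1) - g (γ.toMap 0)) by ring]
        refine (abs_add_le _ _).trans ?_
        rw [abs_mul, abs_mul]
        exact add_le_add (mul_le_mul_of_nonneg_right h2.2 (abs_nonneg _))
          (mul_le_mul_of_nonneg_right h1.1 (abs_nonneg _))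
    _ = ENNReal.ofReal b * (∫⁻ γ, ENNReal.ofReal |f (γ.toMap 1) - f (γ.toMap 0)| ∂P) +
        ENNReal.ofReal a * ∫⁻ γ, ENNReal.ofReal |g (γ.toMap 1) - g (γ.toMap 0)| ∂P := by
        rw [lintegral_add_left' ((wug0_aem hP hf).const_mul _),
          lintegral_const_mul' _ _ ENNReal.ofReal_ne_top,
          lintegral_const_mul' _ _ ENNReal.ofReal_ne_top]
    _ ≤ _ := add_le_add (mul_le_mul_right (h.2.2 P hP hP') _) (mul_le_mul_right (h'.2.2 P hP hP') _)
    _ = _ := by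
        rw [← wug0_const_mul (fun x => ENNReal.ofReal (D x)) ENNReal.ofReal_ne_top,
          ← wug0_const_mul (fun x => ENNReal.ofReal (D' x)) ENNReal.ofReal_ne_top]
    _ ≤ _ := wug0_le_add (fun x => ENNReal.ofReal b * ENNReal.ofReal (D x))
        (fun x => ENNReal.ofReal a * ENNReal.ofReal (D' x))
    _ ≤ _ := by
        refine wug0_mono
          (E := fun x => ENNReal.ofReal b * ENNReal.ofReal (D x) +
            ENNReal.ofReal a * ENNReal.ofReal (D' x))
          (E' := fun x => ENNReal.ofReal (b * D x + a * D' x)) hP ?_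
        filter_upwards [h.2.1, h'.2.1] with x h1 h2
        rw [ENNReal.ofReal_add (mul_nonneg hb0 h1) (mul_nonneg ha0 h2), ENNReal.ofReal_mul hb0,
          ENNReal.ofReal_mul ha0]

/-- closure under convergence in `L²` on balls -/
theorem wug_closure {F G : ℕ → X → ℝ} (hF : ∀ n, IsL2OnBalls m (F n)) (hf : IsL2OnBalls m f)
    (hD : IsL2OnBalls m D) (h0 : ∀ᵐ x ∂m, 0 ≤ D x) (h : ∀ n, IsWUGLoc m (F n) (G n))
    (h1 : ∀ o R, Tendsto (fun n => ∫ x in ball o R, (F n x - f x) ^ 2 ∂m) atTop (𝓝 0))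
    (h2 : ∀ o R, Tendsto (fun n => ∫ x in ball o R, (G n x - D x) ^ 2 ∂m) atTop (𝓝 0)) :
    IsWUGLoc m f D := by
  refine ⟨hD, h0, fun P hP hb => ?_⟩
  obtain ⟨K, o, R, hK⟩ := wug0_at_le hP hb
  obtain ⟨K', o', R', hK'⟩ := tp_lintegral_le hP hb
  have t1 := wug0_tendsto hF hf (h1 o R)
  have t2 := wug0_tendsto (fun n => (h n).1) hD (h2 o' R')
  have t3 : Tendsto (fun n => ((K : ℝ≥0∞) *
      ∫⁻ x in ball o R, ENNReal.ofReal |F n x - f x| ^ 2 ∂m) ^ (1 / 2 : ℝ)) atTop (𝓝 0) := by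
    have := (ENNReal.Tendsto.const_mul (a := (K : ℝ≥0∞)) t1
      (Or.inr ENNReal.coe_ne_top)).ennrpow_const (1 / 2 : ℝ)
    rwa [mul_zero, ENNReal.zero_rpow_of_pos (by norm_num)] at this
  have t4 : Tendsto (fun n => (K' : ℝ≥0∞) *
      (∫⁻ x in ball o' R', ENNReal.ofReal |G n x - D x| ^ 2 ∂m) ^ (1 / 2 : ℝ)) atTop (𝓝 0) := by
    have := ENNReal.Tendsto.const_mul (a := (K' : ℝ≥0∞)) (t2.ennrpow_const (1 / 2 : ℝ))
      (Or.inr ENNReal.coe_ne_top)
    rwa [ENNReal.zero_rpow_of_pos (by norm_num), mul_zero] at this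
  have t5 := ((tendsto_const_nhds (x := ∫⁻ γ, (∫⁻ t in Icc (0 : ℝ) 1,
    ENNReal.ofReal (D (γ.ext t)) * upperSpeed γ t) ∂P)).add t4).add (t3.add t3)
  rw [add_zero, add_zero, add_zero] at t5
  refine ge_of_tendsto' t5 fun n => ?_
  have m1 : AEMeasurable (fun x => ENNReal.ofReal |F n x - f x|) m :=
    ((l2b_aemeasurable (hF n)).sub (l2b_aemeasurable hf)).abs.ennreal_ofReal
  have m2 : AEMeasurable (fun x => ENNReal.ofReal |G n x - D x|) m :=
    ((l2b_aemeasurable (h n).1).sub (l2b_aemeasurable hD)).abs.ennreal_ofReal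
  calc _ ≤ ∫⁻ γ, (ENNReal.ofReal |F n (γ.toMap 1) - F n (γ.toMap 0)| +
        (ENNReal.ofReal |F n (γ.ext 1) - f (γ.ext 1)| +
          ENNReal.ofReal |F n (γ.ext 0) - f (γ.ext 0)|)) ∂P := by
        refine lintegral_mono fun γ => ?_
        rw [ext_zero, ext_one, ← ENNReal.ofReal_add (abs_nonneg _) (abs_nonneg _),
          ← ENNReal.ofReal_add (abs_nonneg _) (by positivity)]
        refine ENNReal.ofReal_le_ofReal ?_
        rw [abs_le]
        constructor <;>
          linarith [le_abs_self (F n (γ.toMap 1) - F n (γ.toMap 0)),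
            neg_abs_le (F n (γ.toMap 1) - F n (γ.toMap 0)),
            le_abs_self (F n (γ.toMap 1) - f (γ.toMap 1)),
            neg_abs_le (F n (γ.toMap 1) - f (γ.toMap 1)),
            le_abs_self (F n (γ.toMap 0) - f (γ.toMap 0)),
            neg_abs_le (F n (γ.toMap 0) - f (γ.toMap 0))]
    _ = (∫⁻ γ, ENNReal.ofReal |F n (γ.toMap 1) - F n (γ.toMap 0)| ∂P) +
        ((∫⁻ γ, ENNReal.ofReal |F n (γ.ext 1) - f (γ.ext 1)| ∂P) +
          ∫⁻ γ, ENNReal.ofReal |F n (γ.ext 0) - f (γ.ext 0)| ∂P) := by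
        rw [lintegral_add_left' (wug0_aem hP (l2b_aemeasurable (hF n))),
          lintegral_add_left' (wug0_aem_at hP 1 m1)]
    _ ≤ _ := by
        refine add_le_add (((h n).2.2 P hP hb).trans ?_) (add_le_add (hK 1 _ m1) (hK 0 _ m1))
        refine le_trans (wug0_mono (E := fun x => ENNReal.ofReal (G n x))
          (E' := fun x => ENNReal.ofReal (D x) + ENNReal.ofReal |G n x - D x|) hP ?_) ?_
        · filter_upwards [h0] with x hx
          rw [← ENNReal.ofReal_add hx (abs_nonneg _)]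
          exact ENNReal.ofReal_le_ofReal (by linarith [le_abs_self (G n x - D x)])
        · exact (wug0_add_le hP (l2b_aemeasurable hD).ennreal_ofReal
            (fun x => ENNReal.ofReal |G n x - D x|)).trans (add_le_add le_rfl (hK' _ m2))

/-- a bound for the ascending slope of a Lipschitz function is an upper gradient -/
theorem wug_of_slope {L : ℝ≥0} (hf : LipschitzWith L f) (hD : IsL2OnBalls m D)
    (h0 : ∀ x, 0 ≤ D x)
    (h : ∀ x, ∀ η : ℝ, 0 < η → ∀ᶠ z in 𝓝 x, f z - f x ≤ (D x + η) * dist z x) :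
    IsWUGLoc m f D := by
  refine wug_of_path hD (Eventually.of_forall h0) fun P hP hb => ?_
  have := hP.1
  have hm : Measurable fun γ : UCurve X => ∫⁻ t in Icc (0 : ℝ) 1, upperSpeed γ t ^ 2 :=
    (measurable_upperSpeed.pow_const 2).lintegral_prod_right'
  filter_upwards [hP.2.2.1, ae_lt_top hm hP.2.2.2.ne] with γ h1 h2
  have hs : Measurable fun t => upperSpeed γ t :=
    measurable_upperSpeed.comp (f := fun t : ℝ => (γ, t)) (by fun_prop)
  have hfin : ∫⁻ t in Icc (0 : ℝ) 1, upperSpeed γ t ≠ ⊤ := by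
    refine ne_top_of_le_ne_top (b := ∫⁻ t in Icc (0 : ℝ) 1, (1 + upperSpeed γ t ^ 2)) ?_
      (lintegral_mono fun t => ?_)
    · rw [lintegral_add_left measurable_const]
      exact ENNReal.add_ne_top.2 ⟨by simp, h2.ne⟩
    · rcases le_total (upperSpeed γ t) 1 with h3 | h3
      · exact h3.trans le_self_add
      · exact (le_self_pow₀ h3 two_ne_zero).trans le_add_self
  have hc : Continuous fun t => γ.ext t :=
    continuous_ext.comp (f := fun t : ℝ => (γ, t)) (by fun_prop)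
  refine oned_deriv (g := fun t => f (γ.ext t)) (a := fun t => (L : ℝ≥0∞) * upperSpeed γ t)
    zero_le_one (hs.const_mul _).aemeasurable ?_ (fun x y _ hxy _ => ?_) ?_
  · rw [lintegral_const_mul' _ _ ENNReal.coe_ne_top]
    exact ENNReal.mul_ne_top ENNReal.coe_ne_top hfin
  · rw [lintegral_const_mul' _ _ ENNReal.coe_ne_top, ← Real.dist_eq, ← edist_dist, edist_comm]
    exact (hf _ _).trans (mul_le_mul_right (edist_le_lintegral_speed h1 hxy) _)
  · filter_upwards [ae_lt_top hs hfin] with r hr g' hg'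
    have key : ∀ η : ℝ, 0 < η →
        |g'| ≤ (D (γ.ext r) + η) * ((upperSpeed γ r).toReal + η) := by
      intro η hη
      refine wug0_deriv hg' ?_
      filter_upwards [wug0_speed hr.ne hη,
        nhdsWithin_le_nhds ((hc.tendsto r).eventually (h (γ.ext r) η hη))] with s h3 h4
      refine le_trans h4 ?_
      rw [mul_assoc]
      exact mul_le_mul_of_nonneg_left h3 (add_nonneg (h0 _) hη.le)
    have t1 : Tendsto (fun η : ℝ => (D (γ.ext r) + η) * ((upperSpeed γ r).toReal + η)) (𝓝[>] 0)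
        (𝓝 ((D (γ.ext r) + 0) * ((upperSpeed γ r).toReal + 0))) :=
      (Continuous.tendsto (by fun_prop) 0).mono_left nhdsWithin_le_nhds
    rw [add_zero, add_zero] at t1
    have h5 := ge_of_tendsto t1 (mem_of_superset self_mem_nhdsWithin key)
    refine (ENNReal.ofReal_le_ofReal h5).trans (le_of_eq ?_)
    rw [ENNReal.ofReal_mul (h0 _), ENNReal.ofReal_toReal hr.ne]

theorem wug_lip {L : ℝ≥0} (hf : LipschitzWith L f) : IsWUGLoc m f fun _ => L := by
  refine wug_of_slope hf (l2b_of_continuous continuous_const) (fun _ => L.2) fun x η hη =>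
    Eventually.of_forall fun z => ?_
  have h1 := hf.dist_le_mul z x
  rw [Real.dist_eq] at h1
  have h2 := le_abs_self (f z - f x)
  nlinarith [dist_nonneg (x := z) (y := x)]

end Crest.Agent.R242
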