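import Crest.Agent.R242.Path
import Crest.Agent.R242.WUG0

/-!
Row 242: a criterion for weak upper gradients in terms of couplings.
-/

set_option autoImplicit false

open MeasureTheory Set Filter Metric Crest.GeometryTopology.SyntheticRicci
open scoped ENNReal NNReal Topology

namespace Crest.Agent.R242

theorem wc_cs {α : Type*} [MeasurableSpace α] (μ : Measure α) {v : α → ℝ≥0∞}
    (hv : AEMeasurable v μ) : (∫⁻ x, v x ∂μ) ^ 2 ≤ μ univ * ∫⁻ x, v x ^ 2 ∂μ := by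
  have h := ENNReal.lintegral_mul_le_Lp_mul_Lq μ Real.HolderConjugate.two_two hv
    (g := fun _ => 1) aemeasurable_const
  simp only [Pi.mul_apply, mul_one, ENNReal.one_rpow, lintegral_const, one_mul,
    ENNReal.rpow_two, one_pow] at h
  calc (∫⁻ x, v x ∂μ) ^ 2 ≤ ((∫⁻ x, v x ^ 2 ∂μ) ^ (1 / 2 : ℝ) * μ univ ^ (1 / 2 : ℝ)) ^ 2 := by
        gcongr
    _ = μ univ * ∫⁻ x, v x ^ 2 ∂μ := by
        rw [mul_pow, ← ENNReal.rpow_natCast, ← ENNReal.rpow_natCast, ← ENNReal.rpow_mul,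
          ← ENNReal.rpow_mul, mul_comm]
        norm_num

theorem wc_amgm {A c h D l : ℝ} (hh : 0 ≤ h) (hD : 0 ≤ D) (hA : 0 ≤ A) (hl : 0 < l)
    (hc : c ≤ h * D) : A * √c ≤ l / 2 * A ^ 2 * h + 1 / (2 * l) * D := by
  have h1 : √c ≤ √h * √D := by
    rw [← Real.sqrt_mul hh]
    exact Real.sqrt_le_sqrt hc
  have h2 : √h ^ 2 = h := Real.sq_sqrt hh
  have h3 : √D ^ 2 = D := Real.sq_sqrt hD
  have h4 : l / 2 * A ^ 2 * h + 1 / (2 * l) * D - A * (√h * √D) =
      (l * A * √h - √D) ^ 2 / (2 * l) := by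
    field_simp
    linear_combination (-(l * A) ^ 2) * h2 - h3
  have h5 : 0 ≤ (l * A * √h - √D) ^ 2 / (2 * l) := by positivity
  have h6 : A * √c ≤ A * (√h * √D) := mul_le_mul_of_nonneg_left h1 hA
  linarith

theorem wc_iInf {lam : ℕ → ℝ} (hlam : ∀ q : ℚ, 0 < q → ∃ i, lam i = q) {x : ℝ} (hx : 0 ≤ x)
    {v : ℝ≥0∞} (hv : v ≠ ⊤) :
    ⨅ i, (ENNReal.ofReal (lam i / 2) * ENNReal.ofReal (x ^ 2) +
      ENNReal.ofReal (1 / (2 * lam i)) * v ^ 2) ≤ ENNReal.ofReal x * v := by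
  obtain ⟨w, hw, rfl⟩ : ∃ w : ℝ, 0 ≤ w ∧ v = ENNReal.ofReal w :=
    ⟨v.toReal, ENNReal.toReal_nonneg, (ENNReal.ofReal_toReal hv).symm⟩
  refine ENNReal.le_of_forall_pos_le_add fun ε hε _ => ?_
  have hε' : (0 : ℝ) < ε := hε
  set κ : ℝ := ε / (x + w + 1) with hκ
  have hκ0 : 0 < κ := by positivity
  have hxκ : 0 < x + κ := by positivity
  obtain ⟨q, hq1, hq2⟩ := exists_rat_btwn (show w / (x + κ) < (w + κ) / (x + κ) by
    gcongr; linarith)
  have hq0 : (0 : ℝ) < q := lt_of_le_of_lt (by positivity) hq1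
  obtain ⟨i, hi⟩ := hlam q (by exact_mod_cast hq0)
  refine (iInf_le _ i).trans ?_
  rw [hi, ← ENNReal.ofReal_pow hw, ← ENNReal.ofReal_mul (by positivity),
    ← ENNReal.ofReal_mul (by positivity), ← ENNReal.ofReal_add (by positivity) (by positivity),
    ← ENNReal.ofReal_mul hx, ← ENNReal.ofReal_coe_nnreal,
    ← ENNReal.ofReal_add (by positivity) (by positivity)]
  apply ENNReal.ofReal_le_ofReal
  rw [div_lt_iff₀ hxκ] at hq1
  rw [lt_div_iff₀ hxκ] at hq2
  have h1 : (q : ℝ) * x ≤ w + κ := by nlinarith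
  have h2 : 1 / (2 * (q : ℝ)) * w ^ 2 ≤ w * (x + κ) / 2 := by
    rw [one_div, inv_mul_eq_div, div_le_div_iff₀ (by positivity) (by positivity)]
    nlinarith
  have h3 : (q : ℝ) / 2 * x ^ 2 ≤ (w + κ) * x / 2 := by nlinarith
  have h4 : κ * (x + w + 1) = ε := by rw [hκ]; field_simp
  nlinarith

variable {X : Type*} [MetricSpace X] [ProperSpace X] [MeasurableSpace X] [BorelSpace X]
  {m : Measure X} [IsLocallyFiniteMeasure m] {Q : Measure (UCurve X)}

theorem wc_meas_ext (t : ℝ) : Measurable fun γ : UCurve X => γ.ext t :=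
  measurable_ext.comp (measurable_id.prodMk measurable_const)

/-- the energy density of a plan -/
noncomputable def wcE (Q : Measure (UCurve X)) (r : ℝ) : ℝ≥0∞ := ∫⁻ γ, upperSpeed γ r ^ 2 ∂Q

omit [MeasurableSpace X] [BorelSpace X] in
theorem wcE_meas [SFinite Q] : Measurable (wcE Q) :=
  (measurable_upperSpeed.pow_const 2).lintegral_prod_left'

omit [MeasurableSpace X] [BorelSpace X] in
theorem wcE_swap [SFinite Q] (I : Set ℝ) :
    ∫⁻ γ, (∫⁻ r in I, upperSpeed γ r ^ 2) ∂Q = ∫⁻ r in I, wcE Q r :=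
  lintegral_lintegral_swap (measurable_upperSpeed.pow_const 2).aemeasurable

omit [BorelSpace X] [IsLocallyFiniteMeasure m] in
theorem wcE_fin (hQ : IsTestPlan2 m Q) {s t : ℝ} (hs : 0 ≤ s) (ht : t ≤ 1) :
    ∫⁻ r in Icc s t, wcE Q r ≠ ⊤ := by
  have := hQ.1
  have h := hQ.2.2.2
  rw [wcE_swap] at h
  exact (lt_of_le_of_lt (lintegral_mono_set (Icc_subset_Icc hs ht)) h).ne

omit [BorelSpace X] [IsLocallyFiniteMeasure m] in
theorem wcE_integrable (hQ : IsTestPlan2 m Q) :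
    IntegrableOn (fun r => (wcE Q r).toReal) (Icc 0 1) := by
  have := hQ.1
  exact integrable_toReal_of_lintegral_ne_top wcE_meas.aemeasurable (wcE_fin hQ le_rfl le_rfl)

omit [BorelSpace X] [IsLocallyFiniteMeasure m] in
theorem wcE_integral (hQ : IsTestPlan2 m Q) {s t : ℝ} (hs : 0 ≤ s) (hst : s ≤ t) (ht : t ≤ 1) :
    ∫ r in s..t, (wcE Q r).toReal = (∫⁻ r in Icc s t, wcE Q r).toReal := by
  have := hQ.1
  rw [intervalIntegral.integral_of_le hst, ← integral_Icc_eq_integral_Ioc,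
    integral_toReal wcE_meas.aemeasurable
      (ae_lt_top wcE_meas (wcE_fin hQ hs ht))]

omit [IsLocallyFiniteMeasure m] in
theorem wc_cst_le (hQ : IsTestPlan2 m Q) {s t : ℝ} (hs : 0 ≤ s) (hst : s ≤ t) (ht : t ≤ 1) :
    cst (Q.map fun γ => (γ.ext s, γ.ext t)) ≤ (t - s) * ∫ r in s..t, (wcE Q r).toReal := by
  have := hQ.1
  have hm : Measurable fun γ : UCurve X => (γ.ext s, γ.ext t) :=
    (wc_meas_ext s).prodMk (wc_meas_ext t)
  have hc : Continuous fun p : X × X => dist p.1 p.2 ^ 2 := by fun_prop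
  rw [cst, integral_map hm.aemeasurable hc.aestronglyMeasurable,
    integral_eq_lintegral_of_nonneg_ae (ae_of_all _ fun _ => sq_nonneg _)
      (hc.measurable.comp hm).aestronglyMeasurable, wcE_integral hQ hs hst ht,
    ← ENNReal.toReal_ofReal (sub_nonneg.2 hst), ← ENNReal.toReal_mul]
  refine ENNReal.toReal_mono (ENNReal.mul_ne_top ENNReal.ofReal_ne_top (wcE_fin hQ hs ht)) ?_
  rw [← wcE_swap, ← lintegral_const_mul' _ _ ENNReal.ofReal_ne_top]
  refine lintegral_mono_ae ?_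
  filter_upwards [hQ.2.2.1] with γ hγ
  have h1 := edist_le_lintegral_speed hγ hst
  have h2 := wc_cs (volume.restrict (Icc s t)) (v := fun r => upperSpeed γ r)
    (measurable_upperSpeed.comp (measurable_const.prodMk measurable_id)).aemeasurable
  rw [Measure.restrict_apply_univ, Real.volume_Icc] at h2
  rw [ENNReal.ofReal_pow dist_nonneg, ← edist_dist]
  exact le_trans (by gcongr) h2

omit [ProperSpace X] [IsLocallyFiniteMeasure m] in
theorem wc_fst [ProperSpace X] (s t : ℝ) :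
    (Q.map fun γ => (γ.ext s, γ.ext t)).fst = Q.map fun γ => γ.ext s :=
  Measure.fst_map_prodMk (wc_meas_ext t)

omit [ProperSpace X] [IsLocallyFiniteMeasure m] in
theorem wc_snd [ProperSpace X] (s t : ℝ) :
    (Q.map fun γ => (γ.ext s, γ.ext t)).snd = Q.map fun γ => γ.ext t :=
  Measure.snd_map_prodMk (wc_meas_ext s)

/-- continuity of the marginal integrals -/
theorem wc_continuousOn (hQ : IsTestPlan2 m Q) {C : ℝ≥0} {o : X} {R : ℝ}
    (hadm : ∀ t : ℝ, Adm m (Q.map fun γ => γ.ext t) C o R) {g : X → ℝ}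
    (hg : IntegrableOn g (closedBall o R) m) :
    ContinuousOn (fun t : ℝ => ∫ x, g x ∂(Q.map fun γ => γ.ext t)) (Icc 0 1) := by
  set E : ℝ := ∫ r in (0 : ℝ)..1, (wcE Q r).toReal with hE
  have hE0 : 0 ≤ E := intervalIntegral.integral_nonneg zero_le_one fun _ _ => ENNReal.toReal_nonneg
  have hcst : ∀ s t : ℝ, 0 ≤ s → s ≤ t → t ≤ 1 →
      cst (Q.map fun γ => (γ.ext s, γ.ext t)) ≤ (t - s) * E := by
    intro s t hs hst ht
    refine (wc_cst_le hQ hs hst ht).trans (mul_le_mul_of_nonneg_left ?_ (sub_nonneg.2 hst))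
    rw [hE, wcE_integral hQ hs hst ht, wcE_integral hQ le_rfl zero_le_one le_rfl]
    exact ENNReal.toReal_mono (wcE_fin hQ le_rfl le_rfl)
      (lintegral_mono_set (Icc_subset_Icc hs ht))
  rw [Metric.continuousOn_iff]
  intro s hs ε hε
  obtain ⟨δ, hδ, h⟩ := integral_sub_le_of_cst C o R hg (half_pos hε)
  have key : ∀ s t : ℝ, 0 ≤ s → s ≤ t → t ≤ 1 → t - s < δ / (E + 1) →
      |∫ x, g x ∂(Q.map fun γ => γ.ext t) - ∫ x, g x ∂(Q.map fun γ => γ.ext s)| ≤ ε / 2 := by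
    intro s t hs hst ht hd
    have := h (Q.map fun γ => (γ.ext s, γ.ext t)) (by rw [wc_fst]; exact hadm s)
      (by rw [wc_snd]; exact hadm t) ((hcst s t hs hst ht).trans (by
        rw [lt_div_iff₀ (by positivity)] at hd
        nlinarith))
    rwa [wc_fst, wc_snd] at this
  refine ⟨δ / (E + 1), by positivity, fun t ht hd => ?_⟩
  rw [Real.dist_eq] at hd ⊢
  rcases le_total s t with hst | hst
  · exact lt_of_le_of_lt (key s t hs.1 hst ht.2 (lt_of_le_of_lt (le_abs_self _) hd))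
      (half_lt_self hε)
  · rw [abs_sub_comm] at hd ⊢
    exact lt_of_le_of_lt (key t s ht.1 hst hs.2 (lt_of_le_of_lt (le_abs_self _) hd))
      (half_lt_self hε)

theorem wc_integrableOn {g : X → ℝ} (hg : IsL2OnBalls m g) (o : X) (R : ℝ) :
    IntegrableOn g (closedBall o R) m ∧ IntegrableOn (fun x => g x ^ 2) (closedBall o R) m := by
  have h1 : MemLp g 2 (m.restrict (closedBall o R)) :=
    (hg o (R + 1)).mono_measure
      (Measure.restrict_mono (closedBall_subset_ball (lt_add_one R)) le_rfl)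
  have : IsFiniteMeasure (m.restrict (closedBall o R)) :=
    isFiniteMeasure_restrict.2 measure_closedBall_lt_top.ne
  exact ⟨h1.integrable one_le_two, h1.integrable_sq⟩

/-- the averaged inequality, in real form -/
theorem wc_avg_real {u G : X → ℝ} (hu : IsL2OnBalls m u) (hG : IsL2OnBalls m G)
    (h : SlopeLe m u G) (hQ : IsTestPlan2 m Q) {C : ℝ≥0} {o : X} {R : ℝ}
    (hadm : ∀ t : ℝ, Adm m (Q.map fun γ => γ.ext t) C o R) {l : ℝ} (hl : 0 < l)
    {s t : ℝ} (hs : 0 ≤ s) (hst : s ≤ t) (ht : t ≤ 1) :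
    ∫ x, u x ∂(Q.map fun γ => γ.ext t) - ∫ x, u x ∂(Q.map fun γ => γ.ext s) ≤
      l / 2 * (∫ r in s..t, ∫ x, G x ^ 2 ∂(Q.map fun γ => γ.ext r)) +
        1 / (2 * l) * ∫ r in s..t, (wcE Q r).toReal := by
  have := hQ.1
  set a : ℝ → ℝ := fun t => ∫ x, u x ∂(Q.map fun γ => γ.ext t) with ha
  set b : ℝ → ℝ := fun t => ∫ x, G x ^ 2 ∂(Q.map fun γ => γ.ext t) with hb
  set e : ℝ → ℝ := fun r => (wcE Q r).toReal with he
  have hsub : Icc s t ⊆ Icc 0 1 := Icc_subset_Icc hs ht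
  have hac : ContinuousOn a (Icc 0 1) := wc_continuousOn hQ hadm (wc_integrableOn hu o R).1
  have hbc : ContinuousOn b (Icc 0 1) := wc_continuousOn hQ hadm (wc_integrableOn hG o R).2
  have hbi : ∀ x y, x ∈ Icc s t → y ∈ Icc s t → IntervalIntegrable b volume x y := fun x y hx hy =>
    (hbc.mono ((uIcc_subset_Icc hx hy).trans hsub)).intervalIntegrable
  have hei : ∀ x y, x ∈ Icc s t → y ∈ Icc s t → IntervalIntegrable e volume x y := fun x y hx hy =>
    ((wcE_integrable hQ).mono_set ((uIcc_subset_Icc hx hy).trans hsub)).intervalIntegrable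
  have hsI : s ∈ Icc s t := left_mem_Icc.2 hst
  have htI : t ∈ Icc s t := right_mem_Icc.2 hst
  have hB : ContinuousOn (fun x => ∫ r in s..x, b r) (Icc s t) := by
    have := intervalIntegral.continuousOn_primitive_interval' (hbi s t hsI htI) left_mem_uIcc
    rwa [uIcc_of_le hst] at this
  have hE : ContinuousOn (fun x => ∫ r in s..x, e r) (Icc s t) := by
    have := intervalIntegral.continuousOn_primitive_interval' (hei s t hsI htI) left_mem_uIcc
    rwa [uIcc_of_le hst] at this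
  have key := dini_le (A := a)
    (Ψ := fun x => l / 2 * (∫ r in s..x, b r) + 1 / (2 * l) * ∫ r in s..x, e r) hst
    (hac.mono hsub) ((continuousOn_const.mul hB).add (continuousOn_const.mul hE)) ?_
  · simpa using key
  intro z hz η hη
  have hzI : z ∈ Icc s t := Ioo_subset_Icc_self hz
  have hz01 : z ∈ Ioo (0 : ℝ) 1 := ⟨lt_of_le_of_lt hs hz.1, lt_of_lt_of_le hz.2 ht⟩
  have hb0 : 0 ≤ b z := integral_nonneg fun _ => sq_nonneg _
  -- choice of the tolerance in `SlopeLe`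
  obtain ⟨η', hη', hη'2⟩ : ∃ η' : ℝ, 0 < η' ∧ l / 2 * (√(b z) + η') ^ 2 ≤ l / 2 * b z + η / 2 := by
    have hc : Continuous fun y : ℝ => l / 2 * (√(b z) + y) ^ 2 := by fun_prop
    have h1 : ∀ᶠ y in 𝓝 (0 : ℝ), l / 2 * (√(b z) + y) ^ 2 < l / 2 * b z + η / 2 :=
      hc.continuousAt.eventually_lt continuousAt_const (by
        simp only [add_zero, Real.sq_sqrt hb0]
        linarith)
    obtain ⟨y, hy, hy'⟩ := ((h1.filter_mono nhdsWithin_le_nhds).and
      (self_mem_nhdsWithin (s := Ioi (0 : ℝ)))).exists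
    exact ⟨y, hy', hy.le⟩
  have hprob : IsProbabilityMeasure (Q.map fun γ => γ.ext z) :=
    Measure.isProbabilityMeasure_map (wc_meas_ext z).aemeasurable
  obtain ⟨δ, hδ, hsl⟩ := h _ C o R hprob (hadm z) η' hη'
  have hder : HasDerivAt (fun x => ∫ r in s..x, b r) (b z) z :=
    intervalIntegral.integral_hasDerivAt_right (hbi s z hsI hzI)
      ((hbc.mono Ioo_subset_Icc_self).stronglyMeasurableAtFilter isOpen_Ioo z hz01)
      (hbc.continuousAt (Icc_mem_nhds hz01.1 hz01.2))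
  have h1 := (hasDerivAt_iff_isLittleO.1 hder).def (show 0 < η / l by positivity)
  have hEz : ContinuousAt (fun x => (x - z) * ((∫ r in s..x, e r) - ∫ r in s..z, e r)) z :=
    (continuousAt_id.sub continuousAt_const).mul
      ((hE.continuousAt (Icc_mem_nhds hz.1 hz.2)).sub continuousAt_const)
  have h2 : ∀ᶠ x in 𝓝 z, (x - z) * ((∫ r in s..x, e r) - ∫ r in s..z, e r) < δ :=
    hEz.eventually_lt continuousAt_const (by simpa using hδ)
  filter_upwards [h1.filter_mono nhdsWithin_le_nhds, h2.filter_mono nhdsWithin_le_nhds,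
    Ioo_mem_nhdsGT hz.2] with x hx1 hx2 hx
  have hxI : x ∈ Icc s t := ⟨hz.1.le.trans hx.1.le, hx.2.le⟩
  have hsub' : (∫ r in s..x, e r) - ∫ r in s..z, e r = ∫ r in z..x, e r :=
    intervalIntegral.integral_interval_sub_left (hei s x hsI hxI) (hei s z hsI hzI)
  have hc := wc_cst_le hQ hz01.1.le hx.1.le (hx.2.le.trans ht)
  rw [hsub'] at hx2
  have h3 := hsl (Q.map fun γ => (γ.ext z, γ.ext x)) (wc_fst z x) (by rw [wc_snd]; exact hadm x)
    (hc.trans hx2.le)
  rw [wc_snd] at h3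
  have hD : 0 ≤ ∫ r in z..x, e r :=
    intervalIntegral.integral_nonneg hx.1.le fun _ _ => ENNReal.toReal_nonneg
  have h4 := wc_amgm (A := √(b z) + η') (sub_nonneg.2 hx.1.le) hD (by positivity) hl hc
  have hxz : 0 < x - z := sub_pos.2 hx.1
  rw [Real.norm_eq_abs, Real.norm_eq_abs, abs_of_pos hxz, smul_eq_mul] at hx1
  have h5 := (abs_le.1 hx1).1
  have h6 : l / 2 * (η / l * (x - z)) = η / 2 * (x - z) := by field_simp
  have h7 : l / 2 * (√(b z) + η') ^ 2 * (x - z) ≤ (l / 2 * b z + η / 2) * (x - z) :=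
    mul_le_mul_of_nonneg_right hη'2 hxz.le
  have h8 : l / 2 * (-(η / l * (x - z))) ≤
      l / 2 * ((∫ r in s..x, b r) - (∫ r in s..z, b r) - (x - z) * b z) :=
    mul_le_mul_of_nonneg_left h5 (by positivity)
  have h9 : 1 / (2 * l) * (∫ r in s..x, e r) - 1 / (2 * l) * (∫ r in s..z, e r) =
      1 / (2 * l) * ∫ r in z..x, e r := by rw [← hsub']; ring
  change a x - a z ≤ _ at h3
  nlinarith

/-- the integrand of the pathwise bound -/
noncomputable def wcH (G : X → ℝ) (l : ℝ) (γ : UCurve X) (r : ℝ) : ℝ≥0∞ :=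
  ENNReal.ofReal (l / 2) * ENNReal.ofReal (G (γ.ext r) ^ 2) +
    ENNReal.ofReal (1 / (2 * l)) * upperSpeed γ r ^ 2

theorem wcH_meas {G : X → ℝ} (hG : Measurable G) (l : ℝ) :
    Measurable fun p : UCurve X × ℝ => wcH G l p.1 p.2 :=
  (measurable_const.mul ((hG.comp measurable_ext).pow_const 2).ennreal_ofReal).add
    (measurable_const.mul (measurable_upperSpeed.pow_const 2))

theorem wcH_meas_right {G : X → ℝ} (hG : Measurable G) (l : ℝ) (γ : UCurve X) :
    Measurable fun r => wcH G l γ r :=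
  (wcH_meas hG l).of_uncurry_left (f := wcH G l)

theorem wcH_meas_int {G : X → ℝ} (hG : Measurable G) (l : ℝ) (I : Set ℝ) :
    Measurable fun γ : UCurve X => ∫⁻ r in I, wcH G l γ r :=
  (wcH_meas hG l).lintegral_prod_right'

theorem wcH_lintegral {G : X → ℝ} (hG : IsL2OnBalls m G) (hGm : Measurable G)
    (hQ : IsTestPlan2 m Q) {C : ℝ≥0} {o : X} {R : ℝ}
    (hadm : ∀ t : ℝ, Adm m (Q.map fun γ => γ.ext t) C o R) {l : ℝ} (hl : 0 < l)
    {s t : ℝ} (hs : 0 ≤ s) (hst : s ≤ t) (ht : t ≤ 1) :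
    ∫⁻ γ, (∫⁻ r in Icc s t, wcH G l γ r) ∂Q =
      ENNReal.ofReal (l / 2 * (∫ r in s..t, ∫ x, G x ^ 2 ∂(Q.map fun γ => γ.ext r)) +
        1 / (2 * l) * ∫ r in s..t, (wcE Q r).toReal) := by
  have := hQ.1
  set b : ℝ → ℝ := fun t => ∫ x, G x ^ 2 ∂(Q.map fun γ => γ.ext t) with hb
  have hbc : ContinuousOn b (Icc 0 1) := wc_continuousOn hQ hadm (wc_integrableOn hG o R).2
  have hb0 : ∀ r, 0 ≤ b r := fun r => integral_nonneg fun _ => sq_nonneg _
  have hbi : IntegrableOn b (Icc s t) := (hbc.mono (Icc_subset_Icc hs ht)).integrableOn_Icc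
  have hbr : ∀ r, ENNReal.ofReal (b r) = ∫⁻ γ, ENNReal.ofReal (G (γ.ext r) ^ 2) ∂Q := by
    intro r
    rw [hb]
    simp only
    rw [ofReal_integral_eq_lintegral_ofReal ((hadm r).memLp hG).integrable_sq
      (ae_of_all _ fun _ => sq_nonneg _), lintegral_map (hGm.pow_const 2).ennreal_ofReal
      (wc_meas_ext r)]
  rw [lintegral_lintegral_swap (wcH_meas hGm l).aemeasurable]
  have h1 : ∀ r, ∫⁻ γ, wcH G l γ r ∂Q =
      ENNReal.ofReal (l / 2) * ENNReal.ofReal (b r) + ENNReal.ofReal (1 / (2 * l)) * wcE Q r := by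
    intro r
    unfold wcH
    have hm2 : Measurable fun γ : UCurve X =>
        ENNReal.ofReal (l / 2) * ENNReal.ofReal (G (γ.ext r) ^ 2) :=
      ((hGm.comp (wc_meas_ext r)).pow_const 2).ennreal_ofReal.const_mul _
    rw [lintegral_add_left hm2,
      lintegral_const_mul' _ _ ENNReal.ofReal_ne_top,
      lintegral_const_mul' _ _ ENNReal.ofReal_ne_top, hbr, wcE]
  simp only [h1]
  have hI1 : 0 ≤ ∫ r in s..t, b r := intervalIntegral.integral_nonneg hst fun r _ => hb0 r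
  have hI2 : 0 ≤ ∫ r in s..t, (wcE Q r).toReal :=
    intervalIntegral.integral_nonneg hst fun _ _ => ENNReal.toReal_nonneg
  have hm3 : Measurable fun r => ENNReal.ofReal (1 / (2 * l)) * wcE Q r := wcE_meas.const_mul _
  rw [lintegral_add_right _ hm3,
    lintegral_const_mul' _ _ ENNReal.ofReal_ne_top,
    lintegral_const_mul' _ _ ENNReal.ofReal_ne_top,
    ENNReal.ofReal_add (by positivity) (by positivity), ENNReal.ofReal_mul (by positivity),
    ENNReal.ofReal_mul (by positivity), wcE_integral hQ hs hst ht,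
    ENNReal.ofReal_toReal (wcE_fin hQ hs ht), intervalIntegral.integral_of_le hst,
    ← integral_Icc_eq_integral_Ioc,
    ofReal_integral_eq_lintegral_ofReal hbi (ae_of_all _ hb0)]

omit [IsLocallyFiniteMeasure m] in
theorem wc_integral_map {u : X → ℝ} {μ : Measure (UCurve X)} {t : ℝ}
    (hu : Integrable u (μ.map fun γ => γ.ext t)) :
    Integrable (fun γ => u (γ.ext t)) μ ∧
      ∫ x, u x ∂(μ.map fun γ => γ.ext t) = ∫ γ, u (γ.ext t) ∂μ :=
  ⟨hu.comp_measurable (wc_meas_ext t),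
    integral_map (wc_meas_ext t).aemeasurable hu.aestronglyMeasurable⟩

/-- the averaged inequality -/
theorem wc_avg {u G : X → ℝ} (hu : IsL2OnBalls m u) (hG : IsL2OnBalls m G) (hGm : Measurable G)
    (h : SlopeLe m u G) (hQ : IsTestPlan2 m Q) (hb : HasBoundedTracks Q) {l : ℝ} (hl : 0 < l)
    {s t : ℝ} (hs : 0 ≤ s) (hst : s ≤ t) (ht : t ≤ 1) :
    Integrable (fun γ => u (γ.ext t) - u (γ.ext s)) Q ∧
      ∫⁻ γ, (∫⁻ r in Icc s t, wcH G l γ r) ∂Q ≠ ⊤ ∧
      ENNReal.ofReal (∫ γ, (u (γ.ext t) - u (γ.ext s)) ∂Q) ≤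
        ∫⁻ γ, (∫⁻ r in Icc s t, wcH G l γ r) ∂Q := by
  obtain ⟨C, o, R, hadm⟩ := tp_adm hQ hb
  obtain ⟨i1, e1⟩ := wc_integral_map ((hadm t).integrable hu)
  obtain ⟨i2, e2⟩ := wc_integral_map ((hadm s).integrable hu)
  rw [wcH_lintegral hG hGm hQ hadm hl hs hst ht]
  refine ⟨i1.sub i2, ENNReal.ofReal_ne_top, ENNReal.ofReal_le_ofReal ?_⟩
  rw [integral_sub i1 i2, ← e1, ← e2]
  exact wc_avg_real hu hG h hQ hadm hl hs hst ht

omit [ProperSpace X] [MeasurableSpace X] [BorelSpace X] in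
theorem wc_restr_id : restr (X := X) 0 1 = id := by
  funext γ
  obtain ⟨γ⟩ := γ
  simp only [restr, id]
  congr 1
  ext r
  simp only [ContinuousMap.coe_mk, zero_add, sub_zero, mul_one]
  exact ext_coe _ r

/-- the pathwise inequality between two fixed times -/
theorem wc_path {u G : X → ℝ} (hu : IsL2OnBalls m u) (hG : IsL2OnBalls m G) (hGm : Measurable G)
    (h : SlopeLe m u G) (hQ : IsTestPlan2 m Q) (hb : HasBoundedTracks Q) {l : ℝ} (hl : 0 < l)
    {s t : ℝ} (hs : 0 ≤ s) (hst : s ≤ t) (ht : t ≤ 1) :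
    ∀ᵐ γ ∂Q, ENNReal.ofReal (u (γ.ext t) - u (γ.ext s)) ≤ ∫⁻ r in Icc s t, wcH G l γ r := by
  have := hQ.1
  obtain ⟨hi, hfin, -⟩ := wc_avg hu hG hGm h hQ hb hl hs hst ht
  have hF : Measurable fun γ : UCurve X => ∫⁻ r in Icc s t, wcH G l γ r :=
    wcH_meas_int hGm l _
  have hlt := ae_lt_top hF hfin
  have key : ∀ᵐ γ ∂Q, u (γ.ext t) - u (γ.ext s) ≤ (∫⁻ r in Icc s t, wcH G l γ r).toReal := by
    refine ae_le_of_forall_setIntegral_le hi
      (integrable_toReal_of_lintegral_ne_top hF.aemeasurable hfin) fun A hA _ => ?_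
    by_cases hA0 : Q A = 0
    · rw [Measure.restrict_eq_zero.2 hA0]
      simp
    obtain ⟨h1, h2⟩ := tp_restr hQ hb hA hA0 le_rfl zero_lt_one le_rfl
    rw [wc_restr_id, Measure.map_id] at h1 h2
    obtain ⟨-, -, h3⟩ := wc_avg hu hG hGm h h1 h2 hl hs hst ht
    rw [integral_smul_measure, lintegral_smul_measure, smul_eq_mul, smul_eq_mul,
      ENNReal.ofReal_mul ENNReal.toReal_nonneg,
      ENNReal.ofReal_toReal (ENNReal.inv_ne_top.2 hA0),
      ENNReal.mul_le_mul_iff_right (ENNReal.inv_ne_zero.2 (measure_ne_top _ _))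
        (ENNReal.inv_ne_top.2 hA0)] at h3
    rw [integral_toReal hF.aemeasurable (ae_restrict_of_ae hlt)]
    exact (ENNReal.ofReal_le_iff_le_toReal
      (ne_top_of_le_ne_top hfin (setLIntegral_le_lintegral _ _))).1 h3
  filter_upwards [key, hlt] with γ h1 h2
  exact (ENNReal.ofReal_le_iff_le_toReal h2.ne).2 h1

theorem wc_main {u G : X → ℝ} (hu : IsL2OnBalls m u) (hG : IsL2OnBalls m G) (hGm : Measurable G)
    (h0 : ∀ᵐ x ∂m, 0 ≤ G x) (h : SlopeLe m u G) (h' : SlopeLe m (fun x => -u x) G) :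
    IsWUGLoc m u G := by
  refine wug_of_path hG h0 fun P hP hb => ?_
  have := hP.1
  have hu' : IsL2OnBalls m fun x => -u x := fun o R => (hu o R).neg
  have : Nonempty {q : ℚ // 0 < q} := ⟨⟨1, one_pos⟩⟩
  obtain ⟨f, hf⟩ := exists_surjective_nat {q : ℚ // 0 < q}
  obtain ⟨lam, hl0, hl1⟩ : ∃ lam : ℕ → ℝ, (∀ i, 0 < lam i) ∧ ∀ q : ℚ, 0 < q → ∃ i, lam i = q := by
    refine ⟨fun i => ((f i).1 : ℝ), fun i => Rat.cast_pos.2 (f i).2, fun q hq => ?_⟩
    obtain ⟨i, hi⟩ := hf ⟨q, hq⟩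
    exact ⟨i, by simp only [hi]⟩
  have h1 : ∀ᵐ γ ∂P, ∀ (i : ℕ) (s t : ℚ), 0 ≤ s → s ≤ t → t ≤ 1 →
      ENNReal.ofReal |u (γ.ext t) - u (γ.ext s)| ≤ ∫⁻ r in Icc (s : ℝ) t, wcH G (lam i) γ r := by
    simp only [ae_all_iff]
    intro i s t hs hst ht
    have hs' : (0 : ℝ) ≤ s := by exact_mod_cast hs
    have hst' : (s : ℝ) ≤ t := by exact_mod_cast hst
    have ht' : (t : ℝ) ≤ 1 := by exact_mod_cast ht
    filter_upwards [wc_path hu hG hGm h hP hb (hl0 i) hs' hst' ht',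
      wc_path hu' hG hGm h' hP hb (hl0 i) hs' hst' ht'] with γ a1 a2
    rcases abs_cases (u (γ.ext t) - u (γ.ext s)) with hh | hh
    · rw [hh.1]
      exact a1
    · have e : -(u (γ.ext t) - u (γ.ext s)) = -u (γ.ext t) - -u (γ.ext s) := by ring
      rw [hh.1, e]
      exact a2
  have h2 : ∀ᵐ γ ∂P, ∀ i : ℕ, ∫⁻ r in Icc (0 : ℝ) 1, wcH G (lam i) γ r < ⊤ := by
    rw [ae_all_iff]
    intro i
    exact ae_lt_top (wcH_meas_int hGm (lam i) _)
      (wc_avg hu hG hGm h hP hb (hl0 i) le_rfl zero_le_one le_rfl).2.1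
  have hm3 : Measurable fun γ : UCurve X => ∫⁻ r in Icc (0 : ℝ) 1, upperSpeed γ r ^ 2 :=
    (measurable_upperSpeed.pow_const 2).lintegral_prod_right'
  have h3 : ∀ᵐ γ ∂P, ∫⁻ r in Icc (0 : ℝ) 1, upperSpeed γ r ^ 2 < ⊤ :=
    ae_lt_top hm3 hP.2.2.2.ne
  filter_upwards [h1, h2, h3, tp_ae_ae hP h0] with γ a1 a2 a3 a4
  refine (oned_iInf (g := fun r => u (γ.ext r)) (G := fun i r => wcH G (lam i) γ r)
    (fun i => (wcH_meas_right hGm (lam i) γ).aemeasurable) (fun i => (a2 i).ne) a1).trans ?_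
  refine lintegral_mono_ae ?_
  have hv : Measurable fun r : ℝ => upperSpeed γ r ^ 2 :=
    (measurable_upperSpeed.of_uncurry_left (f := upperSpeed)).pow_const 2
  filter_upwards [a4, ae_lt_top hv a3.ne] with r b1 b2
  exact wc_iInf hl1 b1 (ENNReal.pow_lt_top_iff.1 b2 |>.resolve_right (by norm_num)).ne

theorem wug_of_slopeLe {u G : X → ℝ} (hu : IsL2OnBalls m u) (hG : IsL2OnBalls m G)
    (h0 : ∀ᵐ x ∂m, 0 ≤ G x) (h : SlopeLe m u G) (h' : SlopeLe m (fun x => -u x) G) :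
    IsWUGLoc m u G := by
  have hm := l2b_aemeasurable hG
  have he : G =ᵐ[m] hm.mk G := hm.ae_eq_mk
  have hs : ∀ v : X → ℝ, SlopeLe m v G → SlopeLe m v (hm.mk G) := by
    intro v hv μ C o R hμ hadm η hη
    have : ∫ x, hm.mk G x ^ 2 ∂μ = ∫ x, G x ^ 2 ∂μ := by
      refine integral_congr_ae ?_
      filter_upwards [hadm.ac.ae_le he] with x hx
      rw [hx]
    rw [this]
    exact hv μ C o R hμ hadm η hη
  refine wug_congr (wc_main hu (l2b_congr hG he) hm.measurable_mk ?_ (hs _ h) (hs _ h'))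
    (ae_eq_refl _) he.symm
  filter_upwards [h0, he] with x h1 h2
  rwa [← h2]

end Crest.Agent.R242
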