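import Crest.Agent.R242.Contr
import Crest.Agent.R242.WC
import Crest.Agent.R242.S2L
import Crest.Agent.R242.LapC

/-!
Row 242: the gradient estimate for the resolvent.
-/

set_option autoImplicit false

open MeasureTheory Set Filter Metric Crest.GeometryTopology.SyntheticRicci
open scoped ENNReal NNReal Topology

namespace Crest.Agent.R242

variable {X : Type*} [MetricSpace X] [ProperSpace X] [MeasurableSpace X] [BorelSpace X]
  {m : Measure X} [IsLocallyFiniteMeasure m] {κ N : ℝ}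

omit [MetricSpace X] [ProperSpace X] [BorelSpace X] [IsLocallyFiniteMeasure m] in
theorem grad_close {ν : Measure X} {ρ : X → ℝ} {β : ℝ} (hc : Close m ν ρ β) {g : X → ℝ}
    (hg : AEStronglyMeasurable g m) {B : ℝ} (hB : 0 < B) (hb : ∀ᵐ x ∂m, |g x| ≤ B) :
    |∫ x, g x ∂ν - ∫ x, g x * ρ x ∂m| ≤ B * β := by
  have h1 := hc (fun x => B⁻¹ * g x) (hg.const_mul _) (by
    filter_upwards [hb] with x hx
    rw [abs_mul, abs_of_pos (inv_pos.2 hB), inv_mul_le_iff₀ hB]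
    simpa using hx)
  have e : ∀ x, B⁻¹ * g x * ρ x = B⁻¹ * (g x * ρ x) := fun x => by ring
  simp only [e, integral_const_mul] at h1
  rw [← mul_sub, abs_mul, abs_of_pos (inv_pos.2 hB), inv_mul_le_iff₀ hB] at h1
  exact h1

theorem grad_int_cst {q : Measure (X × X)} [IsFiniteMeasure q] {o : X} {R : ℝ}
    (h0 : ∀ᵐ x ∂q.fst, dist x o ≤ R) (h1 : ∀ᵐ x ∂q.snd, dist x o ≤ R) :
    Integrable (fun p : X × X => dist p.1 p.2 ^ 2) q := by
  have hd := ae_dist_le h0 h1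
  refine Integrable.of_bound (C := (2 * R) ^ 2) ?_ ?_
  · exact (by fun_prop : Continuous fun p : X × X => dist p.1 p.2 ^ 2).aestronglyMeasurable
  · filter_upwards [hd] with p hp
    rw [Real.norm_eq_abs, abs_of_nonneg (sq_nonneg _)]
    exact pow_le_pow_left₀ dist_nonneg hp 2

/-- the variation estimate, with a constant that does not depend on the size of the support -/
theorem grad_split (h : CDk m κ N) {f : X → ℝ} (hf : IsSobolevLoc m f) {L : ℝ} (hL0 : 0 ≤ L)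
    (hL : ∀ᵐ x ∂m, Dw m f x ≤ L) (C : ℝ≥0) (o : X) (R₀ : ℝ) {η : ℝ} (hη : 0 < η) :
    ∃ δ : ℝ, 0 < δ ∧ ∀ (q : Measure (X × X)) (R' : ℝ), Adm m q.fst C o R' → Adm m q.snd C o R' →
      cst q ≤ δ → ∫ x, f x ∂q.snd - ∫ x, f x ∂q.fst ≤
        (√(∫ x, Dw m f x ^ 2 ∂q.fst) + η +
          L * √(q.fst.real {x | R₀ < dist x o} + cst q)) * √(cst q) := by
  obtain ⟨δ, hδ, hv⟩ := var_le h hf C o (R₀ + 1) hη
  refine ⟨δ, hδ, fun q R' a₀ a₁ hq => ?_⟩
  have := a₀.isFiniteMeasure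
  have : IsFiniteMeasure q := ⟨by rw [← Measure.fst_univ]; exact measure_lt_top _ _⟩
  set a : Set (X × X) := {p | dist p.1 o ≤ R₀ ∧ dist p.1 p.2 ≤ 1} with ha
  have hma : MeasurableSet a := by
    apply IsClosed.measurableSet
    have k1 : IsClosed {p : X × X | dist p.1 o ≤ R₀} := isClosed_le (by fun_prop) continuous_const
    have k2 : IsClosed {p : X × X | dist p.1 p.2 ≤ 1} := isClosed_le (by fun_prop) continuous_const
    exact k1.inter k2
  have hint := grad_int_cst a₀.inn a₁.inn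
  have hcs : ∀ s : Set (X × X), cst (q.restrict s) ≤ cst q := fun s =>
    setIntegral_le_integral hint (Eventually.of_forall fun _ => sq_nonneg _)
  have le₀ : ∀ s : Set (X × X), (q.restrict s).fst ≤ q.fst := fun s =>
    Measure.fst_mono Measure.restrict_le_self
  have le₁ : ∀ s : Set (X × X), (q.restrict s).snd ≤ q.snd := fun s =>
    Measure.snd_mono Measure.restrict_le_self
  have b₀ : ∀ s : Set (X × X), Adm m (q.restrict s).fst C o R' := fun s =>
    a₀.mono (le₀ s) le_rfl le_rfl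
  have b₁ : ∀ s : Set (X × X), Adm m (q.restrict s).snd C o R' := fun s =>
    a₁.mono (le₁ s) le_rfl le_rfl
  have hcl : ∀ r : ℝ, MeasurableSet {x : X | dist x o ≤ r} := fun r =>
    (isClosed_le (by fun_prop) continuous_const).measurableSet
  have c₀ : Adm m (q.restrict a).fst C o (R₀ + 1) := by
    refine ⟨(b₀ a).le, ?_⟩
    rw [Measure.fst, ae_map_iff measurable_fst.aemeasurable (hcl _)]
    filter_upwards [ae_restrict_mem hma] with p hp
    linarith [hp.1]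
  have c₁ : Adm m (q.restrict a).snd C o (R₀ + 1) := by
    refine ⟨(b₁ a).le, ?_⟩
    rw [Measure.snd, ae_map_iff measurable_snd.aemeasurable (hcl _)]
    filter_upwards [ae_restrict_mem hma] with p hp
    have := dist_triangle_left p.2 o p.1
    linarith [hp.1, hp.2]
  have ea := hv (q.restrict a) c₀ c₁ ((hcs a).trans hq)
  have eb := var_le_of_bdd h hf hL (b₀ aᶜ) (b₁ aᶜ)
  have s₀ : ∫ x, f x ∂q.fst =
      ∫ x, f x ∂(q.restrict a).fst + ∫ x, f x ∂(q.restrict aᶜ).fst := by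
    rw [← integral_add_measure ((b₀ a).integrable hf.1) ((b₀ aᶜ).integrable hf.1),
      ← Measure.fst_add, Measure.restrict_add_restrict_compl hma]
  have s₁ : ∫ x, f x ∂q.snd =
      ∫ x, f x ∂(q.restrict a).snd + ∫ x, f x ∂(q.restrict aᶜ).snd := by
    rw [← integral_add_measure ((b₁ a).integrable hf.1) ((b₁ aᶜ).integrable hf.1),
      ← Measure.snd_add, Measure.restrict_add_restrict_compl hma]
  have hD : ∫ x, Dw m f x ^ 2 ∂(q.restrict a).fst ≤ ∫ x, Dw m f x ^ 2 ∂q.fst :=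
    integral_mono_measure (le₀ a) (Eventually.of_forall fun _ => sq_nonneg _)
      (a₀.memLp (Dw_l2 hf)).integrable_sq
  have hb : (q.restrict aᶜ).real univ ≤ q.fst.real {x | R₀ < dist x o} + cst q := by
    have hmo : MeasurableSet {x : X | R₀ < dist x o} :=
      (isOpen_lt continuous_const (by fun_prop)).measurableSet
    have h1 : q.fst.real {x | R₀ < dist x o} = q.real (Prod.fst ⁻¹' {x | R₀ < dist x o}) := by
      rw [measureReal_def, Measure.fst_apply hmo, measureReal_def]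
    have h2 := mul_meas_ge_le_integral_of_nonneg
      (Eventually.of_forall fun p : X × X => sq_nonneg (dist p.1 p.2)) hint 1
    rw [one_mul] at h2
    have h3 : aᶜ ⊆ Prod.fst ⁻¹' {x | R₀ < dist x o} ∪ {p : X × X | 1 ≤ dist p.1 p.2 ^ 2} := by
      intro p hp
      by_cases h4 : R₀ < dist p.1 o
      · exact Or.inl h4
      · right
        have h5 : ¬ dist p.1 p.2 ≤ 1 := fun h5 => hp ⟨not_lt.1 h4, h5⟩
        exact one_le_pow₀ (not_le.1 h5).le
    rw [measureReal_restrict_apply_univ, h1]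
    exact (measureReal_mono h3).trans ((measureReal_union_le _ _).trans (add_le_add le_rfl h2))
  have hc0 := cst_nonneg q
  have k1 : (√(∫ x, Dw m f x ^ 2 ∂(q.restrict a).fst) + η) * √(cst (q.restrict a)) ≤
      (√(∫ x, Dw m f x ^ 2 ∂q.fst) + η) * √(cst q) := by
    gcongr
    exact hcs a
  have k2 : L * √((q.restrict aᶜ).real univ * cst (q.restrict aᶜ)) ≤
      L * √(q.fst.real {x | R₀ < dist x o} + cst q) * √(cst q) := by
    rw [Real.sqrt_mul measureReal_nonneg, mul_assoc]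
    gcongr
    exact hcs _
  have k3 := (le_abs_self _).trans ea
  have k4 := (le_abs_self _).trans eb
  rw [s₀, s₁]
  nlinarith

omit [ProperSpace X] [IsLocallyFiniteMeasure m] in
theorem grad_tail {s : X → ℝ} (hs : Integrable s m) (o : X) {η : ℝ} (hη : 0 < η) :
    ∃ R₀ : ℝ, ∫ x in {x | R₀ < dist x o}, s x ∂m ≤ η := by
  have hmo : ∀ n : ℕ, MeasurableSet {x : X | (n : ℝ) < dist x o} := fun n =>
    (isOpen_lt continuous_const (by fun_prop)).measurableSet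
  have hanti : Antitone fun n : ℕ => {x : X | (n : ℝ) < dist x o} := fun i j hij x hx =>
    show (i : ℝ) < dist x o from lt_of_le_of_lt (Nat.cast_le.2 hij) hx
  have ht := tendsto_setIntegral_of_antitone (μ := m) (f := s) hmo hanti ⟨0, hs.integrableOn⟩
  have he : ⋂ n : ℕ, {x : X | (n : ℝ) < dist x o} = ∅ := by
    refine eq_empty_of_forall_notMem fun x hx => ?_
    obtain ⟨n, hn⟩ := exists_nat_ge (dist x o)
    exact absurd (mem_iInter.1 hx n) (not_lt.2 hn)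
  rw [he, Measure.restrict_empty, integral_zero_measure] at ht
  obtain ⟨n, hn⟩ := (ht.eventually (eventually_le_nhds hη)).exists
  exact ⟨n, hn⟩

theorem grad_memLp_sq {f : X → ℝ} (hf : IsSobolev m f) {L : ℝ}
    (hL : ∀ᵐ x ∂m, Dw m f x ≤ L) : MemLp (fun y => Dw m f y ^ 2) 2 m := by
  refine (hf.2.2.const_mul L).of_le (hf.2.2.1.pow 2) ?_
  filter_upwards [hL, Dw_nonneg hf.2.1] with x h1 h2
  rw [Real.norm_eq_abs, Real.norm_eq_abs, abs_of_nonneg (sq_nonneg _),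
    abs_of_nonneg (mul_nonneg (h2.trans h1) h2), sq]
  exact mul_le_mul_of_nonneg_right h1 h2

omit [ProperSpace X] [BorelSpace X] [IsLocallyFiniteMeasure m] in
theorem grad_adm_shift {μ : Measure X} {C : ℝ≥0} {o : X} {R : ℝ} (h : Adm m μ C o R) (o' : X) :
    Adm m μ C o' (R + dist o o') := by
  refine ⟨h.le, ?_⟩
  filter_upwards [h.inn] with x hx
  linarith [dist_triangle x o o']

theorem grad_slope (h : CDk m κ N) (H : IsInfHilbertian m) {o₀ : X} {τ c : ℝ} (hτ : 0 < τ)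
    (hc0 : 0 ≤ c) (hc2 : c ≤ 2)
    (hJ : ∀ (q : Measure (X × X)) (ρ₀ ρ₁ : X → ℝ) (C : ℝ≥0)
      (R : ℝ), IsProbabilityMeasure q → Measurable ρ₀ → Measurable ρ₁ →
      (∀ x, 0 ≤ ρ₀ x ∧ ρ₀ x ≤ C ∧ (R < dist x o₀ → ρ₀ x = 0)) →
      (∀ x, 0 ≤ ρ₁ x ∧ ρ₁ x ≤ C ∧ (R < dist x o₀ → ρ₁ x = 0)) →
      q.fst = m.withDensity (fun x => ENNReal.ofReal (ρ₀ x)) →
      q.snd = m.withDensity (fun x => ENNReal.ofReal (ρ₁ x)) → ∀ β : ℝ, 0 < β →
      ∃ (q' : Measure (X × X)) (R' : ℝ), IsProbabilityMeasure q' ∧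
        Adm m q'.fst (2 * C + 1) o₀ R' ∧ Adm m q'.snd (2 * C + 1) o₀ R' ∧
        Close m q'.fst (Jr m τ ρ₀) β ∧ Close m q'.snd (Jr m τ ρ₁) β ∧
        cst q' ≤ c * cst q + β)
    {f : X → ℝ} (hf : BL f) (hs : IsSobolev m f) :
    SlopeLe m (Jr m τ f) fun x => √(c * Jr m τ (fun y => Dw m f y ^ 2) x) := by
  intro μ C o R hμ hadm η hη
  obtain ⟨L, hL⟩ := hf.Dw_le (m := m)
  obtain ⟨B₀, hB₀⟩ := hf.bdd
  have hB : 0 < |B₀| + 1 := by positivity
  set B := |B₀| + 1 with hBdef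
  have hfB : ∀ᵐ x ∂m, |f x| ≤ B := Eventually.of_forall fun x => by
    linarith [hB₀ x, le_abs_self B₀]
  have hD2 := grad_memLp_sq hs hL
  have hadm' := grad_adm_shift hadm o₀
  obtain ⟨ρ₀, m₀, b₀, z₀, l₀, i₀, e₀, t₀⟩ := hadm'.exists_density
  have hs₀ := (integral_Res_le H Wt.one hτ l₀ i₀ (Eventually.of_forall fun x => (b₀ x).1)).1
  have hW0 := Res_nonneg H Wt.one hτ hD2 (Eventually.of_forall fun x => sq_nonneg _)
  have hL0 : (0 : ℝ) ≤ L := L.2
  set e : ℝ := η / (4 * (L + 1)) with he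
  have he0 : 0 < e := by positivity
  obtain ⟨R₀, hR₀⟩ := grad_tail hs₀ o₀ (η := e ^ 2 / 2) (by positivity)
  obtain ⟨δ₁, hδ₁, hsp⟩ := grad_split h hs.2.1 hL0 hL (2 * C + 1) o₀ R₀ (η := η / 4)
    (by positivity)
  set A : ℝ := ∫ x, Dw m f x ^ 2 * Jr m τ ρ₀ x ∂m with hA
  have hG : ∫ x, √(c * Jr m τ (fun y => Dw m f y ^ 2) x) ^ 2 ∂μ = c * A := by
    have h1 := Res_symm H Wt.one hτ hD2 l₀
    simp only [mul_one] at h1
    rw [hA, ← h1, ← t₀, ← integral_const_mul]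
    refine integral_congr_ae ?_
    filter_upwards [hadm.ac.ae_le hW0] with x hx
    exact Real.sq_sqrt (mul_nonneg hc0 hx)
  refine ⟨min (δ₁ / 4) (e ^ 2 / 4), by positivity, fun q hq0 hq1 hqδ => ?_⟩
  rw [hG]
  obtain ⟨ρ₁, m₁, b₁, z₁, l₁, i₁, e₁, t₁⟩ := (grad_adm_shift hq1 o₀).exists_density
  have hqP : IsProbabilityMeasure q := ⟨by rw [← Measure.fst_univ, hq0]; exact measure_univ⟩
  have u₀ : ∫ x, Jr m τ f x ∂μ = ∫ x, f x * Jr m τ ρ₀ x ∂m := by
    have h1 := Res_symm H Wt.one hτ hs.1 l₀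
    simp only [mul_one] at h1
    rw [t₀, h1]
  have u₁ : ∫ x, Jr m τ f x ∂q.snd = ∫ x, f x * Jr m τ ρ₁ x ∂m := by
    have h1 := Res_symm H Wt.one hτ hs.1 l₁
    simp only [mul_one] at h1
    rw [t₁, h1]
  rw [u₀, u₁]
  have hk0 := cst_nonneg q
  set k := cst q with hk
  have hk1 : k ≤ δ₁ / 4 := hqδ.trans (min_le_left _ _)
  have hk2 : k ≤ e ^ 2 / 4 := hqδ.trans (min_le_right _ _)
  have hck : c * k ≤ 2 * k := mul_le_mul_of_nonneg_right hc2 hk0
  set Δ := ∫ x, f x * Jr m τ ρ₁ x ∂m - ∫ x, f x * Jr m τ ρ₀ x ∂m with hΔ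
  set φ : ℝ → ℝ := fun β => (√(A + (L ^ 2 + 1) * β) + η / 4 + L * √(e ^ 2 + 2 * β)) *
    √(c * k + β) + 2 * B * β with hφ
  have key : ∀ β : ℝ, 0 < β → β ≤ δ₁ / 2 → Δ ≤ φ β := by
    intro β hβ hβ'
    obtain ⟨q', R', hq', a₀, a₁, c₀, c₁, hcst⟩ := hJ q ρ₀ ρ₁ C (R + dist o o₀) hqP m₀ m₁
      (fun x => ⟨(b₀ x).1, (b₀ x).2, z₀ x⟩) (fun x => ⟨(b₁ x).1, (b₁ x).2, z₁ x⟩)
      (hq0.trans e₀) e₁ β hβ
    rw [← hk] at hcst
    have h1 := hsp q' R' a₀ a₁ (by linarith)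
    have h2 := abs_le.1 (grad_close c₀ hs.1.1 hB hfB)
    have h3 := abs_le.1 (grad_close c₁ hs.1.1 hB hfB)
    have h4 := abs_le.1 (grad_close c₀ hD2.1 (B := L ^ 2 + 1) (by positivity) (by
      filter_upwards [hL, Dw_nonneg hs.2.1] with x k1 k2
      rw [abs_of_nonneg (sq_nonneg _)]
      linarith [pow_le_pow_left₀ k2 k1 2]))
    have hmo : MeasurableSet {x : X | R₀ < dist x o₀} :=
      (isOpen_lt continuous_const (by fun_prop)).measurableSet
    have h5 := abs_le.1 (c₀ (indicator {x : X | R₀ < dist x o₀} 1)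
      ((measurable_one.indicator hmo).aestronglyMeasurable) (Eventually.of_forall fun x => by
        by_cases hx : x ∈ {x : X | R₀ < dist x o₀} <;> simp [hx]))
    have h6 : ∫ x, indicator {x : X | R₀ < dist x o₀} (1 : X → ℝ) x * Jr m τ ρ₀ x ∂m =
        ∫ x in {x : X | R₀ < dist x o₀}, Jr m τ ρ₀ x ∂m := by
      rw [← integral_indicator hmo]
      refine integral_congr_ae (Eventually.of_forall fun x => ?_)
      by_cases hx : x ∈ {x : X | R₀ < dist x o₀} <;> simp [hx]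
    rw [integral_indicator_one hmo, h6] at h5
    have h7 : (√(∫ x, Dw m f x ^ 2 ∂q'.fst) + η / 4 +
          L * √(q'.fst.real {x | R₀ < dist x o₀} + cst q')) * √(cst q') ≤
        (√(A + (L ^ 2 + 1) * β) + η / 4 + L * √(e ^ 2 + 2 * β)) * √(c * k + β) := by
      have k1 : ∫ x, Dw m f x ^ 2 ∂q'.fst ≤ A + (L ^ 2 + 1) * β := by linarith [h4.2]
      have k2 : q'.fst.real {x | R₀ < dist x o₀} + cst q' ≤ e ^ 2 + 2 * β := by
        have k3 : ∫ x in {x : X | R₀ < dist x o₀}, Jr m τ ρ₀ x ∂m ≤ e ^ 2 / 2 := hR₀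
        linarith [h5.2]
      exact mul_le_mul (add_le_add (add_le_add (Real.sqrt_le_sqrt k1) le_rfl)
        (mul_le_mul_of_nonneg_left (Real.sqrt_le_sqrt k2) hL0)) (Real.sqrt_le_sqrt hcst)
        (Real.sqrt_nonneg _) (by positivity)
    simp only [hφ]
    linarith [h2.2, h3.1]
  have hcont : Continuous φ := by
    simp only [hφ]
    fun_prop
  have hlim : Tendsto φ (𝓝[>] 0) (𝓝 (φ 0)) := hcont.continuousAt.tendsto.mono_left nhdsWithin_le_nhds
  have hle : Δ ≤ φ 0 := by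
    refine ge_of_tendsto hlim ?_
    filter_upwards [Ioc_mem_nhdsGT (show (0 : ℝ) < δ₁ / 2 by positivity)] with β hβ
    exact key β hβ.1 hβ.2
  refine hle.trans ?_
  simp only [hφ, mul_zero, add_zero]
  rw [Real.sqrt_sq he0.le, Real.sqrt_mul hc0, Real.sqrt_mul hc0]
  have hsc : √c ≤ 2 := Real.sqrt_le_iff.2 ⟨by norm_num, by linarith⟩
  have hLe : L * e ≤ η / 4 := by
    rw [he, mul_div_assoc', div_le_div_iff₀ (by positivity) (by norm_num)]
    nlinarith
  have h8 : (η / 4 + L * e) * √c ≤ η := by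
    calc (η / 4 + L * e) * √c ≤ (η / 4 + η / 4) * 2 := by gcongr
      _ = η := by ring
  have h9 : 0 ≤ √k := Real.sqrt_nonneg _
  nlinarith [mul_le_mul_of_nonneg_right h8 h9]

omit [ProperSpace X] [BorelSpace X] [IsLocallyFiniteMeasure m] in
theorem grad_slope_congr {u u' G G' : X → ℝ} (h : SlopeLe m u G) (hu : u =ᵐ[m] u')
    (hG : G =ᵐ[m] G') : SlopeLe m u' G' := by
  have hac : ∀ {ν : Measure X} {C : ℝ≥0} {o : X} {R : ℝ}, Adm m ν C o R → ν ≪ m := fun hν =>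
    (Measure.absolutelyContinuous_of_le hν.le).trans Measure.smul_absolutelyContinuous
  intro μ C o R hμ hadm η hη
  obtain ⟨δ, hδ, h1⟩ := h μ C o R hμ hadm η hη
  refine ⟨δ, hδ, fun q hq0 hq1 hq => ?_⟩
  have e1 : ∫ x, u' x ∂q.snd = ∫ x, u x ∂q.snd :=
    integral_congr_ae ((hac hq1).ae_le hu.symm)
  have e2 : ∫ x, u' x ∂μ = ∫ x, u x ∂μ := integral_congr_ae ((hac hadm).ae_le hu.symm)
  have e3 : ∫ x, G' x ^ 2 ∂μ = ∫ x, G x ^ 2 ∂μ := by
    refine integral_congr_ae ?_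
    filter_upwards [(hac hadm).ae_le hG] with x hx
    rw [show G x = G' x from hx]
  rw [e1, e2, e3]
  exact h1 q hq0 hq1 hq

theorem grad_est [Nonempty X] (h : CDk m κ N) (H : IsInfHilbertian m) : ∃ τ₀ : ℝ, 0 < τ₀ ∧
    8 * κ * τ₀ ≤ 1 / 2 ∧ ∀ τ, 0 < τ → τ ≤ τ₀ → ∀ f : X → ℝ, BL f → IsSobolev m f →
      ∀ᵐ x ∂m, Dw m (Jr m τ f) x ^ 2 ≤ (1 - 8 * κ * τ)⁻¹ * Jr m τ (fun y => Dw m f y ^ 2) x := by
  obtain ⟨τ₀, h0, h1, hJ⟩ := Jr_contr h H (Classical.arbitrary X)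
  refine ⟨τ₀, h0, h1, fun τ hτ hτ' f hf hs => ?_⟩
  have hκ := h.κ_nonneg
  have h2 : 8 * κ * τ ≤ 8 * κ * τ₀ := mul_le_mul_of_nonneg_left hτ' (by positivity)
  have h3 : (1 / 2 : ℝ) ≤ 1 - 8 * κ * τ := by linarith
  have hc0 : 0 ≤ (1 - 8 * κ * τ)⁻¹ := inv_nonneg.2 (by linarith)
  have hc2 : (1 - 8 * κ * τ)⁻¹ ≤ 2 := by
    rw [inv_le_comm₀ (by linarith) (by norm_num)]
    linarith
  set c := (1 - 8 * κ * τ)⁻¹ with hc
  obtain ⟨L, hL⟩ := hf.Dw_le (m := m)
  have hD2 := grad_memLp_sq hs hL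
  have hW0 := Res_nonneg H Wt.one hτ hD2 (Eventually.of_forall fun x => sq_nonneg _)
  have hW1 := Res_le_const H Wt.one hτ hD2 (a := (L : ℝ) ^ 2) (sq_nonneg _) (by
    filter_upwards [hL, Dw_nonneg hs.2.1] with x k1 k2
    exact pow_le_pow_left₀ k2 k1 2)
  have hWm : AEMeasurable (Jr m τ fun y => Dw m f y ^ 2) m :=
    (sob_Res H Wt.one hτ hD2).1.1.aemeasurable
  have hGl : IsL2OnBalls m fun x => √(c * Jr m τ (fun y => Dw m f y ^ 2) x) := by
    refine l2b_of_bdd (B := √(c * (L : ℝ) ^ 2)) (hWm.const_mul c).sqrt ?_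
    filter_upwards [hW1] with x hx
    rw [abs_of_nonneg (Real.sqrt_nonneg _)]
    exact Real.sqrt_le_sqrt (mul_le_mul_of_nonneg_left hx hc0)
  have hu := sob_Res H Wt.one hτ hs.1
  have s1 := grad_slope h H hτ hc0 hc2 (hJ τ hτ hτ') hf hs
  have s2 := grad_slope h H hτ hc0 hc2 (hJ τ hτ hτ') (hf.const_mul (-1)) (sob_const_mul hs (-1))
  have s3 : SlopeLe m (fun x => -Jr m τ f x)
      fun x => √(c * Jr m τ (fun y => Dw m f y ^ 2) x) := by
    refine grad_slope_congr s2 ?_ ?_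
    · filter_upwards [Res_const_mul H Wt.one hτ hs.1 (-1)] with x hx
      exact hx.trans (neg_one_mul _)
    · have e : (fun y => Dw m f y ^ 2) =ᵐ[m] fun y => Dw m (fun x => -1 * f x) y ^ 2 := by
        filter_upwards [Dw_const_mul hs.2.1 (-1)] with x hx
        rw [hx]
        simp
      filter_upwards [Res_congr H Wt.one hτ hD2 e] with x hx
      exact congrArg (fun z => √(c * z)) hx.symm
  have hw := wug_of_slopeLe hu.2.1.1 hGl (Eventually.of_forall fun x => Real.sqrt_nonneg _) s1 s3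
  filter_upwards [Dw_le hu.2.1 hw, Dw_nonneg hu.2.1, hW0] with x k1 k2 k3
  calc Dw m (Jr m τ f) x ^ 2 ≤ √(c * Jr m τ (fun y => Dw m f y ^ 2) x) ^ 2 :=
        pow_le_pow_left₀ k2 k1 2
    _ = _ := Real.sq_sqrt (mul_nonneg hc0 k3)

theorem exists_RS [Nonempty X] [m.IsOpenPosMeasure] (h : CDk m κ N) (H : IsInfHilbertian m) :
    ∃ k τ₀ : ℝ, RS m k τ₀ := by
  obtain ⟨τ₀, h0, h1, h2⟩ := grad_est h H
  have hκ := h.κ_nonneg
  have hN := h.one_lt
  exact ⟨8 * κ, τ₀, H, by positivity, h0, h1, h2, fun f L hf hL => exists_lip_rep h hf hL,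
    fun a ha => ⟨N + 2 * κ * a, by positivity, fun y v hv h0 => lap_comparison h H ha y hv h0⟩⟩

end Crest.Agent.R242
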