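import Crest.Agent.R242.Defs

/-!
Row 242: lower bounds for the distortion coefficients.
-/

set_option autoImplicit false

open MeasureTheory Set Filter Metric Crest.GeometryTopology.SyntheticRicci
open scoped ENNReal NNReal Topology

namespace Crest.Agent.R242

theorem tau_psi {x : ℝ} (hx : 0 ≤ x) : x * Real.cosh x - Real.sinh x ≤ x ^ 2 * Real.sinh x := by
  have hd : ∀ y : ℝ, HasDerivAt (fun y => y ^ 2 * Real.sinh y - y * Real.cosh y + Real.sinh y)
      (y * Real.sinh y + y ^ 2 * Real.cosh y) y := by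
    intro y
    have := ((((hasDerivAt_id y).fun_pow 2).fun_mul (Real.hasDerivAt_sinh y)).fun_sub
      ((hasDerivAt_id y).fun_mul (Real.hasDerivAt_cosh y))).fun_add (Real.hasDerivAt_sinh y)
    exact this.congr_deriv (by simp; ring)
  have hm : MonotoneOn (fun y => y ^ 2 * Real.sinh y - y * Real.cosh y + Real.sinh y) (Ici 0) := by
    refine monotoneOn_of_deriv_nonneg (convex_Ici 0) (by fun_prop)
      (fun y _ => (hd y).differentiableAt.differentiableWithinAt) fun y hy => ?_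
    rw [interior_Ici] at hy
    rw [(hd y).deriv]
    have h1 : 0 ≤ Real.sinh y := Real.sinh_nonneg_iff.2 hy.le
    have h2 := Real.cosh_pos y
    have h3 : 0 < y := hy
    positivity
  have := hm (mem_Ici.2 le_rfl) (mem_Ici.2 hx) hx
  simp at this
  linarith

theorem tau_sinh_sq {t a : ℝ} (h0 : 0 ≤ t) (h1 : t ≤ 1) (ha : 0 < a) :
    t * Real.exp (-((1 - t) * a ^ 2)) ≤ Real.sinh (t * a) / Real.sinh a := by
  have hs : 0 < Real.sinh a := Real.sinh_pos_iff.2 ha
  rcases h0.eq_or_lt with rfl | h0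
  · simp
  have hd : ∀ y : ℝ, 0 < y → HasDerivAt (fun y => Real.sinh y * Real.exp (-(y ^ 2 / 2)) / y)
      (Real.exp (-(y ^ 2 / 2)) * (y * Real.cosh y - Real.sinh y - y ^ 2 * Real.sinh y) / y ^ 2)
      y := by
    intro y hy
    have := ((Real.hasDerivAt_sinh y).fun_mul
      ((((hasDerivAt_id y).fun_pow 2).div_const 2).fun_neg.exp)).fun_div (hasDerivAt_id y) hy.ne'
    exact this.congr_deriv (by simp; ring)
  have hm : AntitoneOn (fun y => Real.sinh y * Real.exp (-(y ^ 2 / 2)) / y) (Ioi 0) := by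
    refine antitoneOn_of_deriv_nonpos (convex_Ioi 0)
      (fun y hy => (hd y hy).continuousAt.continuousWithinAt) ?_ ?_
    · rw [interior_Ioi]
      exact fun y hy => (hd y hy).differentiableAt.differentiableWithinAt
    · rw [interior_Ioi]
      intro y hy
      rw [(hd y hy).deriv]
      refine div_nonpos_of_nonpos_of_nonneg
        (mul_nonpos_of_nonneg_of_nonpos (Real.exp_pos _).le ?_) (sq_nonneg _)
      linarith [tau_psi (le_of_lt hy)]
  have hta : 0 < t * a := mul_pos h0 ha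
  have h2 := hm (mem_Ioi.2 hta) (mem_Ioi.2 ha) (mul_le_of_le_one_left ha.le h1)
  simp only at h2
  rw [div_le_div_iff₀ ha hta] at h2
  rw [le_div_iff₀ hs]
  have h3 : Real.exp (-((1 - t) * a ^ 2)) * Real.exp (-((t * a) ^ 2 / 2)) ≤
      Real.exp (-(a ^ 2 / 2)) := by
    rw [← Real.exp_add, Real.exp_le_exp]
    nlinarith [mul_nonneg (sq_nonneg a) (sq_nonneg (1 - t))]
  have h4 := Real.exp_pos (-((t * a) ^ 2 / 2))
  have h5 : t * Real.exp (-((1 - t) * a ^ 2)) * Real.sinh a * (Real.exp (-((t * a) ^ 2 / 2)) * a) ≤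
      Real.sinh (t * a) * (Real.exp (-((t * a) ^ 2 / 2)) * a) := by
    have := mul_le_mul_of_nonneg_left h3 (mul_pos hs hta).le
    nlinarith
  exact le_of_mul_le_mul_right h5 (mul_pos h4 ha)

theorem tau_sinh_lin {t a : ℝ} (h0 : 0 ≤ t) (ha : 0 < a) :
    t * Real.exp (-a) ≤ Real.sinh (t * a) / Real.sinh a := by
  have hs : 0 < Real.sinh a := Real.sinh_pos_iff.2 ha
  rw [le_div_iff₀ hs]
  have h1 : t * a ≤ Real.sinh (t * a) := Real.self_le_sinh_iff.2 (by positivity)
  have h2 : Real.exp (-a) * Real.sinh a ≤ a := by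
    rw [Real.sinh_eq, ← mul_div_assoc, mul_sub, ← Real.exp_add, ← Real.exp_add, neg_add_cancel,
      Real.exp_zero]
    linarith [Real.add_one_le_exp (-a + -a)]
  nlinarith

theorem tau_of_sigma {K N t θ c : ℝ} (hN : 1 < N) (ht : t ∈ Icc (0 : ℝ) 1) (hθ : 0 ≤ θ)
    (hc : 0 ≤ c) (h : 0 < t → 0 < θ * √(|K| / (N - 1)) → t * Real.exp (-c) ≤
      Real.sinh (t * (θ * √(|K| / (N - 1)))) / Real.sinh (θ * √(|K| / (N - 1)))) :
    ENNReal.ofReal (t * Real.exp (-(c * ((N - 1) / N)))) ≤ distortTau K N t θ := by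
  have hn : 0 < N - 1 := by linarith
  have hN0 : 0 < N := by linarith
  have he : t * Real.exp (-c) ≤ t :=
    mul_le_of_le_one_right ht.1 (Real.exp_le_one_iff.2 (by linarith))
  have hσ : ENNReal.ofReal (t * Real.exp (-c)) ≤ distortSigma K (N - 1) t θ := by
    unfold distortSigma
    split_ifs with h1 h2 h3 h4 h5 h6
    · rw [le_antisymm h1 ht.1]; simp
    · rw [← ENNReal.ofReal_one]; exact ENNReal.ofReal_le_ofReal (he.trans ht.2)
    · exact ENNReal.ofReal_le_ofReal he
    · refine ENNReal.ofReal_le_ofReal (he.trans ?_)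
      have hθ' : 0 < θ := lt_of_le_of_ne hθ (Ne.symm h3)
      have ha : 0 < θ * √(K / (N - 1)) := by positivity
      have ha' : θ * √(K / (N - 1)) < Real.pi := by
        refine lt_of_pow_lt_pow_left₀ 2 Real.pi_pos.le ?_
        rw [mul_pow, Real.sq_sqrt (by positivity), ← mul_div_assoc, div_lt_iff₀ hn]
        linarith
      rw [le_div_iff₀ (Real.sin_pos_of_pos_of_lt_pi ha ha'), mul_assoc]
      have := strictConcaveOn_sin_Icc.concaveOn.2 (x := θ * √(K / (N - 1))) (y := 0)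
        ⟨ha.le, ha'.le⟩ ⟨le_rfl, Real.pi_pos.le⟩ ht.1 (sub_nonneg.2 ht.2) (by ring)
      simpa using this
    · exact le_top
    · exact ENNReal.ofReal_le_ofReal he
    · have hK : K < 0 := lt_of_le_of_ne (not_lt.1 h4) h6
      have hθ' : 0 < θ := lt_of_le_of_ne hθ (Ne.symm h3)
      rw [abs_of_neg hK] at h
      rw [mul_assoc]
      refine ENNReal.ofReal_le_ofReal (h (not_le.1 h1) ?_)
      have : 0 < -K := by linarith
      positivity
  unfold distortTau
  refine le_trans (le_of_eq ?_) (mul_le_mul_right (ENNReal.rpow_le_rpow hσ (by positivity)) _)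
  have h0 := ht.1
  rw [ENNReal.ofReal_rpow_of_nonneg ht.1 (by positivity),
    ENNReal.ofReal_rpow_of_nonneg (by positivity) (by positivity),
    ← ENNReal.ofReal_mul (by positivity), Real.mul_rpow ht.1 (by positivity), ← mul_assoc,
    ← Real.rpow_add' ht.1 (by
      rw [← add_div]; simp [hN0.ne']), ← Real.exp_mul]
  congr 2
  · rw [← add_div]; simp [hN0.ne']
  · ring_nf

theorem tau_ge_sq {K N t θ : ℝ} (hN : 1 < N) (ht : t ∈ Icc (0 : ℝ) 1) (hθ : 0 ≤ θ) :
    ENNReal.ofReal (t * Real.exp (-(|K| * (1 - t) * θ ^ 2 / N))) ≤ distortTau K N t θ := by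
  have hn : 0 < N - 1 := by linarith
  have hc : 0 ≤ (1 - t) * (θ * √(|K| / (N - 1))) ^ 2 := mul_nonneg (by linarith [ht.2]) (sq_nonneg _)
  refine le_trans (le_of_eq ?_) (tau_of_sigma hN ht hθ hc fun h0 ha => tau_sinh_sq h0.le ht.2 ha)
  congr 3
  rw [mul_pow, Real.sq_sqrt (by positivity)]
  field_simp

theorem tau_ge_lin {K N t θ : ℝ} (hN : 1 < N) (ht : t ∈ Icc (0 : ℝ) 1) (hθ : 0 ≤ θ) :
    ENNReal.ofReal (t * Real.exp (-(√|K| * θ))) ≤ distortTau K N t θ := by
  have hn : 0 < N - 1 := by linarith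
  have hc : 0 ≤ θ * √(|K| / (N - 1)) := by positivity
  refine le_trans (ENNReal.ofReal_le_ofReal ?_)
    (tau_of_sigma hN ht hθ hc fun h0 ha => tau_sinh_lin h0.le ha)
  refine mul_le_mul_of_nonneg_left (Real.exp_le_exp.2 (neg_le_neg ?_)) ht.1
  rw [Real.sqrt_div (abs_nonneg K)]
  have h1 : 0 < √(N - 1) := Real.sqrt_pos.2 hn
  have h2 : √(N - 1) ^ 2 = N - 1 := Real.sq_sqrt hn.le
  have h3 : √(N - 1) ≤ N := by nlinarith
  have h4 : θ * (√|K| / √(N - 1)) * ((N - 1) / N) = √|K| * θ * (√(N - 1) / N) := by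
    nth_rewrite 2 [← h2]
    field_simp
  rw [h4]
  exact mul_le_of_le_one_right (by positivity) ((div_le_one (by linarith)).2 h3)

end Crest.Agent.R242
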