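import Crest.Agent.R242.Curve
import Crest.Agent.R242.Tau

/-!
Row 242: first consequences of the curvature-dimension condition.
-/

set_option autoImplicit false

open MeasureTheory Set Filter Metric Crest.GeometryTopology.SyntheticRicci
open scoped ENNReal NNReal Topology

namespace Crest.Agent.R242

variable {X : Type*} [MetricSpace X] [CompleteSpace X] [SecondCountableTopology X]
  [MeasurableSpace X] [BorelSpace X] {m : Measure X} [m.IsOpenPosMeasure] {K N : ℝ}

section Aux
omit [CompleteSpace X] [m.IsOpenPosMeasure]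

omit [SecondCountableTopology X] [BorelSpace X] in
theorem proper_locFin (hfin : IsFiniteOnBalls m) : IsLocallyFiniteMeasure m :=
  ⟨fun x => ⟨ball x 1, ball_mem_nhds x one_pos, hfin x 1⟩⟩

omit [SecondCountableTopology X] [BorelSpace X] in
theorem proper_moment {μ : Measure X} [IsProbabilityMeasure μ] {o : X} {R : ℝ}
    (h : ∀ᵐ x ∂μ, dist x o ≤ R) : HasFiniteSecondMoment μ := by
  refine ⟨o, lt_of_le_of_lt (lintegral_mono_ae (g := fun _ => ENNReal.ofReal R ^ 2) ?_) ?_⟩
  · filter_upwards [h] with x hx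
    rw [edist_dist]
    gcongr
  · rw [lintegral_const, measure_univ, mul_one]
    exact ENNReal.pow_lt_top ENNReal.ofReal_lt_top

omit [SecondCountableTopology X] [BorelSpace X] [MetricSpace X] in
theorem proper_rnDeriv_cond [SigmaFinite m] {B : Set X} (hB : MeasurableSet B) :
    ∀ᵐ x ∂(ProbabilityTheory.cond m B), (ProbabilityTheory.cond m B).rnDeriv m x = (m B)⁻¹ := by
  have e : ProbabilityTheory.cond m B = m.withDensity (B.indicator fun _ => (m B)⁻¹) := by
    rw [withDensity_indicator hB, withDensity_const]; rfl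
  have h1 : ∀ᵐ x ∂m, (ProbabilityTheory.cond m B).rnDeriv m x =
      B.indicator (fun _ => (m B)⁻¹) x := by
    rw [e]
    exact Measure.rnDeriv_withDensity m (measurable_const.indicator hB)
  filter_upwards [ProbabilityTheory.cond_absolutelyContinuous.ae_le h1,
    ProbabilityTheory.ae_cond_mem (μ := m) hB] with x hx hxB
  rw [hx, indicator_of_mem hxB]

omit [SecondCountableTopology X] [BorelSpace X] [MetricSpace X] in
theorem proper_renyi_le {ν : Measure X} [IsProbabilityMeasure ν] {A : Set X}
    (hA : MeasurableSet A) (h : ∀ᵐ x ∂ν, x ∈ A) (hN : 1 < N) :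
    renyiPower m ν N ≤ m A ^ (1 / N) := by
  have hN0 : 0 < N := by linarith
  have hq : 0 < 1 / N := by positivity
  have hp : 0 < 1 - 1 / N := by
    rw [sub_pos, div_lt_one hN0]; exact hN
  have h0 : ∀ᵐ x ∂m, x ∈ Aᶜ → ν.rnDeriv m x = 0 := by
    rw [← setLIntegral_eq_zero_iff hA.compl (Measure.measurable_rnDeriv ν m)]
    refine le_antisymm ((Measure.setLIntegral_rnDeriv_le _).trans (le_of_eq ?_)) zero_le
    exact h
  have h1 := ENNReal.lintegral_mul_norm_pow_le (μ := m)
    (Measure.measurable_rnDeriv ν m).aemeasurable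
    (g := A.indicator 1) (measurable_one.indicator hA).aemeasurable hp.le hq.le (by ring)
  rw [lintegral_indicator_one hA] at h1
  refine le_trans (lintegral_mono_ae ?_) (h1.trans ?_)
  · filter_upwards [h0] with x hx
    by_cases hxA : x ∈ A
    · simp [hxA]
    · rw [hx hxA, ENNReal.zero_rpow_of_pos hp]
      exact zero_le
  · refine (mul_le_mul_left (ENNReal.rpow_le_one ?_ hp.le) _).trans_eq (one_mul _)
    exact Measure.lintegral_rnDeriv_le.trans_eq measure_univ

end Aux

/-- a weak form of the Bishop-Gromov inequality -/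
theorem ball_le_of_cd (hfin : IsFiniteOnBalls m) (hN : 1 < N) (h : IsCD m K N) (o : X)
    {r R : ℝ} (hr : 0 < r) (hR : r ≤ R) :
    m (ball o R) ≤ ENNReal.ofReal ((R / r * Real.exp (√|K| * (2 * R))) ^ N) * m (ball o (3 * r)) := by
  have := proper_locFin hfin
  have hR0 : 0 < R := hr.trans_le hR
  have hN0 : 0 < N := by linarith
  have := ProbabilityTheory.cond_isProbabilityMeasure_of_finite
    (measure_ball_pos m o hr).ne' (hfin o r).ne
  have := ProbabilityTheory.cond_isProbabilityMeasure_of_finite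
    (measure_ball_pos m o hR0).ne' (hfin o R).ne
  have m0 := ProbabilityTheory.ae_cond_mem (μ := m) (s := ball o r) measurableSet_ball
  have m1 := ProbabilityTheory.ae_cond_mem (μ := m) (s := ball o R) measurableSet_ball
  obtain ⟨P, hP, hgeo, ⟨⟨e0, e1⟩, -⟩, hcd⟩ := h (ProbabilityTheory.cond m (ball o r))
    (ProbabilityTheory.cond m (ball o R)) inferInstance inferInstance
    (proper_moment (m0.mono fun x hx => (mem_ball.1 hx).le))
    (proper_moment (m1.mono fun x hx => (mem_ball.1 hx).le))
    ProbabilityTheory.cond_absolutelyContinuous ProbabilityTheory.cond_absolutelyContinuous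
  rw [endpointLaw, Measure.map_map measurable_fst ((measurable_ev 0).prodMk (measurable_ev 1))]
    at e0
  rw [endpointLaw, Measure.map_map measurable_snd ((measurable_ev 0).prodMk (measurable_ev 1))]
    at e1
  have a0 : ∀ᵐ γ ∂P, γ.toMap 0 ∈ ball o r :=
    ae_of_ae_map (f := fun γ : UCurve X => γ.toMap 0) (measurable_ev 0).aemeasurable
      (by rw [← e0] at m0; exact m0)
  have a1 : ∀ᵐ γ ∂P, γ.toMap 1 ∈ ball o R :=
    ae_of_ae_map (f := fun γ : UCurve X => γ.toMap 1) (measurable_ev 1).aemeasurable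
      (by rw [← e1] at m1; exact m1)
  have a2 : ∀ᵐ γ ∂P, (ProbabilityTheory.cond m (ball o R)).rnDeriv m (γ.toMap 1) =
      (m (ball o R))⁻¹ := by
    refine ae_of_ae_map (f := fun γ : UCurve X => γ.toMap 1) (p := fun x =>
      (ProbabilityTheory.cond m (ball o R)).rnDeriv m x = (m (ball o R))⁻¹)
      (measurable_ev 1).aemeasurable ?_
    rw [show P.map (fun γ : UCurve X => γ.toMap 1) = _ from e1]
    exact proper_rnDeriv_cond measurableSet_ball
  have ht : r / R ∈ Icc (0 : ℝ) 1 := ⟨by positivity, (div_le_one hR0).2 hR⟩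
  have a3 : ∀ᵐ γ ∂P, dist (γ.toMap 0) (γ.toMap 1) ≤ 2 * R := by
    filter_upwards [a0, a1] with γ h0 h1
    have := dist_triangle_right (γ.toMap 0) (γ.toMap 1) o
    rw [mem_ball] at h0 h1
    linarith
  have : IsProbabilityMeasure (timeMarginal P ⟨r / R, ht⟩) :=
    Measure.isProbabilityMeasure_map (measurable_ev _).aemeasurable
  have a4 : ∀ᵐ x ∂(timeMarginal P ⟨r / R, ht⟩), x ∈ ball o (3 * r) := by
    refine (ae_map_iff (measurable_ev _).aemeasurable measurableSet_ball).2 ?_
    filter_upwards [a0, a3, hgeo] with γ h0 h3 hg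
    have h4 := hg ⟨r / R, ht⟩ 0
    have h5 : |r / R - ((0 : unitInterval) : ℝ)| * dist (γ.toMap 0) (γ.toMap 1) ≤ 2 * r := by
      rw [Set.Icc.coe_zero, sub_zero, abs_of_nonneg ht.1]
      calc _ ≤ r / R * (2 * R) := mul_le_mul_of_nonneg_left h3 ht.1
        _ = _ := by field_simp
    have := dist_triangle (γ.toMap ⟨r / R, ht⟩) (γ.toMap 0) o
    rw [mem_ball] at h0
    rw [h4] at this
    change dist _ _ < _
    linarith
  have h1 := (hcd N le_rfl ⟨r / R, ht⟩).trans (proper_renyi_le measurableSet_ball a4 hN)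
  have h2 : ENNReal.ofReal (r / R * Real.exp (-(√|K| * (2 * R)))) * m (ball o R) ^ (1 / N) ≤
      m (ball o (3 * r)) ^ (1 / N) := by
    refine le_trans ?_ h1
    rw [← mul_one (_ * _), ← measure_univ (μ := P), ← lintegral_const]
    refine lintegral_mono_ae ?_
    filter_upwards [a2, a3] with γ h2 h3
    refine le_trans (mul_le_mul' (le_trans (ENNReal.ofReal_le_ofReal ?_)
      (tau_ge_lin hN ht dist_nonneg)) (le_of_eq ?_)) le_add_self
    · gcongr
    · rw [h2, ENNReal.inv_rpow, neg_div, ENNReal.rpow_neg, inv_inv]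
  have h3 := ENNReal.rpow_le_rpow h2 hN0.le
  rw [ENNReal.mul_rpow_of_nonneg _ _ hN0.le, ← ENNReal.rpow_mul, ← ENNReal.rpow_mul,
    one_div_mul_cancel hN0.ne', ENNReal.rpow_one, ENNReal.rpow_one,
    ENNReal.ofReal_rpow_of_nonneg (by positivity) hN0.le] at h3
  refine le_trans (le_of_eq ?_) (mul_le_mul_right h3 _)
  rw [← mul_assoc, ← ENNReal.ofReal_mul (by positivity), ← Real.mul_rpow (by positivity)
    (by positivity), mul_mul_mul_comm, ← Real.exp_add, add_neg_cancel, Real.exp_zero,
    show R / r * (r / R) = 1 by field_simp, one_mul, Real.one_rpow, ENNReal.ofReal_one, one_mul]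

theorem proper_of_cd (hfin : IsFiniteOnBalls m) (hN : 1 < N) (h : IsCD m K N) : ProperSpace X := by
  refine ⟨fun o R => TotallyBounded.isCompact_of_isClosed ?_ isClosed_closedBall⟩
  rw [Metric.totallyBounded_iff]
  intro ε hε
  by_contra hc
  obtain ⟨f, hf, hsep⟩ := exists_seq_of_forall_finset_exists (fun x => x ∈ closedBall o R)
    (fun x y => ε ≤ dist y x) fun s _ => by
      by_contra hs
      push Not at hs
      refine hc ⟨s, s.finite_toSet, fun y hy => ?_⟩
      obtain ⟨x, hx, hxy⟩ := hs y hy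
      exact mem_biUnion hx hxy
  have hd : Pairwise (Function.onFun Disjoint fun n => ball (f n) (3 * (ε / 6))) := by
    refine pairwise_disjoint_on _ |>.2 fun i j hij => ball_disjoint_ball ?_
    have := hsep i j hij
    rw [dist_comm] at this
    linarith
  have hR : 0 ≤ R := dist_nonneg.trans (mem_closedBall.1 (hf 0))
  have h1 : ∑' n, m (ball (f n) (3 * (ε / 6))) < ∞ := by
    rw [← measure_iUnion hd fun _ => measurableSet_ball]
    refine lt_of_le_of_lt (measure_mono (iUnion_subset fun n => ball_subset_ball' ?_))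
      (hfin o (R + ε))
    have := mem_closedBall.1 (hf n)
    linarith
  have h2 : ∀ n, m (ball o ε) ≤ ENNReal.ofReal (((R + ε) / (ε / 6) *
      Real.exp (√|K| * (2 * (R + ε)))) ^ N) * m (ball (f n) (3 * (ε / 6))) := fun n => by
    refine (measure_mono (ball_subset_ball' ?_)).trans
      (ball_le_of_cd hfin hN h (f n) (by positivity) (by linarith))
    have := mem_closedBall.1 (hf n)
    rw [dist_comm] at this
    linarith
  have h3 := ENNReal.tsum_le_tsum h2
  rw [ENNReal.tsum_const_eq_top_of_ne_zero (measure_ball_pos m o hε).ne', ENNReal.tsum_mul_left]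
    at h3
  exact (ENNReal.mul_lt_top ENNReal.ofReal_lt_top h1).not_ge h3

theorem locFin_of_balls (hfin : IsFiniteOnBalls m) : IsLocallyFiniteMeasure m :=
  proper_locFin hfin

theorem cdk_of_cd (hfin : IsFiniteOnBalls m) (hN : 1 < N) (h : IsCD m K N) : CDk m |K| N := by
  refine ⟨abs_nonneg K, hN, ?_, fun o => ?_⟩
  · rintro μ₀ μ₁ h0 h1 ⟨o0, R0, b0⟩ ⟨o1, R1, b1⟩ c0 c1
    obtain ⟨P, hP, hgeo, hopt, hcd⟩ := h μ₀ μ₁ h0 h1 (proper_moment b0) (proper_moment b1) c0 c1
    refine ⟨P, hP, hgeo, hopt, fun N' hN' t => le_trans (lintegral_mono fun γ => ?_) (hcd N' hN' t)⟩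
    have e1 := tau_ge_sq (K := K) (hN.trans_le hN') (t := 1 - (t : ℝ))
      ⟨sub_nonneg.2 t.2.2, sub_le_self _ t.2.1⟩ (dist_nonneg (x := γ.toMap 0) (y := γ.toMap 1))
    rw [sub_sub_cancel] at e1
    exact add_le_add (mul_le_mul_left e1 _)
      (mul_le_mul_left (tau_ge_sq (hN.trans_le hN') t.2 dist_nonneg) _)
  · have hN0 : 0 < N := by linarith
    set a : ℝ := (1 + √|K| * 2) * N with ha
    have ha0 : 0 < a := by positivity
    refine ⟨a + 1, by positivity, (by fun_prop : Continuous _).aestronglyMeasurable, ?_⟩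
    rw [hasFiniteIntegral_iff_ofReal (ae_of_all _ fun x => (Real.exp_pos _).le)]
    have h1 : ∀ x, ENNReal.ofReal (Real.exp (-((a + 1) * dist x o))) ≤
        ∑' n : ℕ, (ball o (n + 1)).indicator
          (fun _ => ENNReal.ofReal (Real.exp (-((a + 1) * n)))) x := fun x => by
      refine le_trans ?_ (ENNReal.le_tsum ⌊dist x o⌋₊)
      rw [indicator_of_mem (mem_ball.2 (Nat.lt_floor_add_one _))]
      have := Nat.floor_le (dist_nonneg (x := x) (y := o))
      gcongr
    have h2 : ∀ n : ℕ, ENNReal.ofReal (Real.exp (-((a + 1) * n))) * m (ball o (n + 1)) ≤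
        ENNReal.ofReal (Real.exp a) * m (ball o (3 * 1)) * ENNReal.ofReal (Real.exp (-1)) ^ n := by
      intro n
      have hn : (0 : ℝ) ≤ n := n.cast_nonneg
      refine (mul_le_mul_right (ball_le_of_cd hfin hN h o one_pos (by linarith)) _).trans ?_
      rw [← mul_assoc, ← ENNReal.ofReal_mul (by positivity),
        ← ENNReal.ofReal_pow (by positivity), mul_right_comm _ (m _),
        ← ENNReal.ofReal_mul (by positivity)]
      refine mul_le_mul_left (ENNReal.ofReal_le_ofReal ?_) _
      have h3 : ((n : ℝ) + 1) / 1 * Real.exp (√|K| * (2 * (n + 1))) ≤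
          Real.exp ((1 + √|K| * 2) * (n + 1)) := by
        rw [div_one, add_mul 1, one_mul, Real.exp_add, mul_assoc]
        have := Real.add_one_le_exp ((n : ℝ) + 1)
        gcongr
        linarith
      refine (mul_le_mul_of_nonneg_left (Real.rpow_le_rpow (by positivity) h3 hN0.le)
        (by positivity)).trans_eq ?_
      rw [← Real.exp_mul, ← Real.exp_add, ← Real.exp_nat_mul, ← Real.exp_add]
      congr 1
      rw [ha]
      ring
    refine lt_of_le_of_lt (lintegral_mono h1) ?_
    rw [lintegral_tsum fun n => (measurable_const.indicator measurableSet_ball).aemeasurable]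
    simp only [lintegral_indicator_const measurableSet_ball]
    refine lt_of_le_of_lt (ENNReal.tsum_le_tsum h2) ?_
    rw [ENNReal.tsum_mul_left]
    refine ENNReal.mul_lt_top (ENNReal.mul_lt_top ENNReal.ofReal_lt_top (hfin _ _)) ?_
    rw [tsum_geometric_lt_top, ENNReal.ofReal_lt_one]
    exact Real.exp_lt_one_iff.2 (by norm_num)

end Crest.Agent.R242
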