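import Crest.Agent.R242.Three
import Crest.Agent.R242.Grad
import Crest.Agent.R242.Proper

/-!
Row 242: the conclusion.
-/

set_option autoImplicit false

open MeasureTheory Set Filter Metric Crest.GeometryTopology.SyntheticRicci
open scoped ENNReal NNReal Topology

namespace Crest.Agent.R242

theorem final (X : Type*) [MetricSpace X] [CompleteSpace X] [TopologicalSpace.SeparableSpace X]
    [MeasurableSpace X] [BorelSpace X] (m : Measure X) [m.IsOpenPosMeasure]
    (hfin : IsFiniteOnBalls m) (K N : ℝ) (hN : 1 < N) (hRCD : IsRCD m K N)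
    (F G : X → ℝ) (hFb : ∃ B : ℝ, ∀ x, |F x| ≤ B) (hFl : ∃ L : NNReal, LipschitzWith L F)
    (hGb : ∃ B : ℝ, ∀ x, |G x| ≤ B) (hGc : Continuous G)
    (hH : HasWeakHessLe m F G) (γ : UCurve X) (hγ : IsCSGeodesic γ) :
    SecondDerivAlongLe F G γ := by
  have : SecondCountableTopology X := UniformSpace.secondCountable_of_separable X
  have : ProperSpace X := proper_of_cd hfin hN hRCD.1
  have : IsLocallyFiniteMeasure m := locFin_of_balls hfin
  have : Nonempty X := ⟨γ.toMap 0⟩
  have hc := cdk_of_cd hfin hN hRCD.1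
  obtain ⟨k, τ₀, hRS⟩ := exists_RS hc hRCD.2
  have hF : BL F := ⟨hFl, hFb⟩
  obtain ⟨B, hB⟩ := hGb
  have cγ : Continuous fun t : ℝ => γ.ext t :=
    continuous_ext.comp (f := fun t : ℝ => (γ, t)) (by fun_prop)
  intro φ hφ hcs hs h0
  set l := dist (γ.toMap 0) (γ.toMap 1) with hl
  have l0 : 0 ≤ l := dist_nonneg
  rw [← integral_const_mul]
  simp only [← mul_assoc]
  refine second_diff_le (g := fun t => F (γ.ext t)) (H := fun t => l ^ 2 * G (γ.ext t))
    (hF.continuous.comp cγ) (continuous_const.mul (hGc.comp cγ)) (fun η hη => ?_) hφ hcs hs h0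
  have hε : 0 < η / (l ^ 2 + 1) := by positivity
  obtain ⟨δ, hδ, hU⟩ := Metric.uniformContinuousOn_iff.1
    ((isCompact_closedBall (γ.toMap 0) (l + 1)).uniformContinuousOn_of_continuous hGc.continuousOn)
    _ hε
  have hδ' : 0 < min δ 1 := lt_min hδ one_pos
  refine ⟨min δ 1 / (3 * l + 1), by positivity, fun s h h1 h2 h3 h4 => ?_⟩
  have ms : s ∈ Icc (0 : ℝ) 1 := ⟨by linarith, by linarith⟩
  have mp : s + h ∈ Icc (0 : ℝ) 1 := ⟨by linarith, h4⟩
  have mn : s - h ∈ Icc (0 : ℝ) 1 := ⟨h3, by linarith⟩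
  have d1 : dist (γ.ext (s + h)) (γ.ext s) = h * l := by
    rw [geo_dist_ext hγ mp ms, add_sub_cancel_left, abs_of_pos h1]
  have d2 : dist (γ.ext (s - h)) (γ.ext s) = h * l := by
    rw [geo_dist_ext hγ mn ms, sub_sub_cancel_left, abs_neg, abs_of_pos h1]
  have d3 : dist (γ.ext (s + h)) (γ.ext (s - h)) = 2 * (h * l) := by
    rw [geo_dist_ext hγ mp mn, show s + h - (s - h) = 2 * h by ring, abs_of_pos (by positivity),
      mul_assoc]
  have d4 : dist (γ.ext s) (γ.toMap 0) ≤ l := by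
    rw [← ext_zero, geo_dist_ext hγ ms (left_mem_Icc.2 zero_le_one), sub_zero, abs_of_nonneg ms.1]
    exact mul_le_of_le_one_left l0 ms.2
  have d5 : 3 * (h * l) < min δ 1 := by
    rw [lt_div_iff₀ (by positivity)] at h2
    nlinarith
  have key := three_point hc hRS hF hGc.measurable hB hH d1 d2 d3
    (G₀ := G (γ.ext s) + η / (l ^ 2 + 1)) fun x hx => by
      have a1 : dist x (γ.ext s) < δ := (hx.trans_lt d5).trans_le (min_le_left _ _)
      have a2 : dist x (γ.ext s) < 1 := (hx.trans_lt d5).trans_le (min_le_right _ _)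
      have a3 := hU x (mem_closedBall.2 (by linarith [dist_triangle x (γ.ext s) (γ.toMap 0)]))
        (γ.ext s) (mem_closedBall.2 (by linarith)) a1
      rw [Real.dist_eq] at a3
      linarith [(abs_lt.1 a3).2]
  refine key.trans ?_
  have a4 : η / (l ^ 2 + 1) * l ^ 2 ≤ η := by
    rw [div_mul_eq_mul_div, div_le_iff₀ (by positivity)]
    nlinarith
  have a5 := mul_le_mul_of_nonneg_left a4 (sq_nonneg h)
  nlinarith

end Crest.Agent.R242
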