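import Crest.Agent.R242.T1
import Crest.Agent.R242.CalcG

/-!
Row 242: horizontal and vertical derivatives.
-/

set_option autoImplicit false

open MeasureTheory Set Filter Metric Crest.GeometryTopology.SyntheticRicci
open scoped ENNReal NNReal Topology

namespace Crest.Agent.R242

/-- removing a small mass changes the integral of an integrable function little -/
theorem hv_small {Ω : Type*} [MeasurableSpace Ω] {μ : Measure Ω} [IsProbabilityMeasure μ]
    {G : Ω → ℝ} (hG : Integrable G μ) {ε : ℝ} (hε : 0 < ε) :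
    ∃ β : ℝ, 0 < β ∧ ∀ ν : Measure Ω, ν ≤ μ → 1 - β ≤ ν.real univ →
      ∫ x, G x ∂ν ≤ ∫ x, G x ∂μ + ε := by
  have hi : ∀ K : ℝ, Integrable (fun x => max (|G x| - K) 0) μ := fun K =>
    (hG.abs.sub (integrable_const K)).pos_part
  have hlim : Tendsto (fun n : ℕ => ∫ x, max (|G x| - n) 0 ∂μ) atTop (𝓝 (∫ _x, (0 : ℝ) ∂μ)) := by
    refine tendsto_integral_of_dominated_convergence (fun x => |G x|)
      (fun n => (hi n).aestronglyMeasurable) hG.abs (fun n => Eventually.of_forall fun x => ?_)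
      (Eventually.of_forall fun x => ?_)
    · rw [Real.norm_eq_abs, abs_of_nonneg (le_max_right _ _)]
      exact max_le (by linarith [(n.cast_nonneg : (0 : ℝ) ≤ n)]) (abs_nonneg _)
    · refine tendsto_const_nhds.congr' ?_
      obtain ⟨n₀, hn₀⟩ := exists_nat_ge |G x|
      filter_upwards [eventually_ge_atTop n₀] with n hn
      have : (n₀ : ℝ) ≤ n := by exact_mod_cast hn
      rw [max_eq_right (by linarith)]
  rw [integral_zero] at hlim
  obtain ⟨n, hn⟩ := (hlim.eventually (gt_mem_nhds (half_pos hε))).exists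
  have hn0 : (0 : ℝ) ≤ n := n.cast_nonneg
  refine ⟨ε / 2 / (n + 1), by positivity, fun ν hν hm => ?_⟩
  have : IsFiniteMeasure ν := isFiniteMeasure_of_le μ hν
  set ρ := μ - ν with hρ
  have hρμ : ρ ≤ μ := Measure.sub_le
  have : IsFiniteMeasure ρ := isFiniteMeasure_of_le μ hρμ
  have e : ρ + ν = μ := Measure.sub_add_cancel_of_le hν
  have h1 : ∫ x, G x ∂μ = ∫ x, G x ∂ρ + ∫ x, G x ∂ν := by
    rw [← integral_add_measure (hG.mono_measure hρμ) (hG.mono_measure hν), e]
  have h2 : ρ.real univ + ν.real univ = 1 := by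
    rw [← measureReal_add_apply, e, probReal_univ]
  have h3 : ∫ x, -G x ∂ρ ≤ ∫ x, ((n : ℝ) + max (|G x| - n) 0) ∂ρ := by
    refine integral_mono (hG.mono_measure hρμ).neg
      ((integrable_const _).add ((hi n).mono_measure hρμ)) fun x => ?_
    have := le_max_left (|G x| - n) 0
    have := neg_abs_le (G x)
    simp only
    linarith
  rw [integral_neg, integral_add (integrable_const _) ((hi n).mono_measure hρμ), integral_const,
    smul_eq_mul] at h3
  have h4 : ∫ x, max (|G x| - n) 0 ∂ρ ≤ ∫ x, max (|G x| - n) 0 ∂μ :=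
    integral_mono_measure hρμ (Eventually.of_forall fun x => le_max_right _ _) (hi n)
  have h5 : ρ.real univ * n ≤ ε / 2 := by
    calc ρ.real univ * n ≤ ε / 2 / (n + 1) * (n + 1) :=
          mul_le_mul (by linarith) (by linarith) hn0 (by positivity)
      _ = ε / 2 := by field_simp
  linarith

variable {X : Type*} [MetricSpace X] [ProperSpace X] [MeasurableSpace X] [BorelSpace X]
  {m : Measure X} [IsLocallyFiniteMeasure m] {κ N : ℝ}

theorem horiz_vert (h : CDk m κ N) (H : IsInfHilbertian m) {φ f : X → ℝ} (hφ : IsSobolevLoc m φ)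
    (hf : IsSobolevLoc m f) {μ : Measure X} [IsProbabilityMeasure μ] {C : ℝ≥0} {o : X} {R : ℝ}
    (hμ : Adm m μ C o R) (M : ℝ) {η : ℝ} (hη : 0 < η) :
    ∃ t₀ β : ℝ, 0 < t₀ ∧ 0 < β ∧ ∀ t : ℝ, 0 < t → t ≤ t₀ → ∀ (q : Measure (X × X)) (d : ℝ),
      q.fst ≤ μ → Adm m q.snd C o R → 1 - β ≤ q.real univ → d ≤ M → cst q ≤ t ^ 2 * d →
      ∫ x, φ x ∂q.snd - ∫ x, φ x ∂q.fst ≤ -((t - t ^ 2 / 2) * d) →
      ∫ x, Dw m φ x ^ 2 ∂q.fst ≤ d →
      -(t * (∫ x, Gm m φ f x ∂μ + η)) ≤ ∫ x, f x ∂q.snd - ∫ x, f x ∂q.fst := by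
  set E := ∫ x, Dw m f x ^ 2 ∂μ with hE
  have hE0 : 0 ≤ E := integral_nonneg fun _ => sq_nonneg _
  set lam := η / (2 * (E + 1)) with hlam
  have hl0 : 0 < lam := by positivity
  have hlE : lam * E ≤ η / 2 := by
    calc lam * E ≤ lam * (E + 1) := by nlinarith
      _ = η / 2 := by rw [hlam]; field_simp
  set M' := max M 1 with hM'
  have hM1 : 1 ≤ M' := le_max_right _ _
  have hlf := sl_const_mul hf lam
  have hw := sl_add hφ hlf
  set η' := lam * η / (4 * M') with hη'
  have hη'0 : 0 < η' := by positivity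
  obtain ⟨δ, hδ, hvar⟩ := var_le h hw C o R hη'0
  obtain ⟨β, hβ, hsmall⟩ := hv_small (integrable_Gm_adm H hφ hf hμ) (show 0 < η / 4 by positivity)
  refine ⟨min (min 1 (δ / M')) (lam * η / (2 * M')), β, by positivity, hβ, ?_⟩
  intro t ht ht₀ q d hq₀ hq₁ hmass hd hcst hφd hDφ
  have ht1 : t ≤ 1 := ht₀.trans ((min_le_left _ _).trans (min_le_left _ _))
  have ht2 : t * M' ≤ δ := by
    rw [← le_div_iff₀ (by positivity)]
    exact ht₀.trans ((min_le_left _ _).trans (min_le_right _ _))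
  have ht3 : t * (2 * M') ≤ lam * η := by
    rw [← le_div_iff₀ (by positivity)]
    exact ht₀.trans (min_le_right _ _)
  have hd0 : 0 ≤ d := le_trans (integral_nonneg fun _ => sq_nonneg _) hDφ
  have hdM : d ≤ M' := hd.trans (le_max_left _ _)
  have a₀ : Adm m q.fst C o R := hμ.mono hq₀ le_rfl le_rfl
  have hv := hvar q a₀ hq₁ (by
    refine hcst.trans (le_trans ?_ ht2)
    have : t * d ≤ M' := by nlinarith
    nlinarith)
  have hsum : ∀ ν : Measure X, Adm m ν C o R →
      ∫ x, (φ x + lam * f x) ∂ν = ∫ x, φ x ∂ν + lam * ∫ x, f x ∂ν := by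
    intro ν hν
    rw [integral_add (hν.integrable (sl_l2 hφ)) ((hν.integrable (sl_l2 hf)).const_mul _),
      integral_const_mul]
  have i1 : Integrable (fun x => Dw m φ x ^ 2) q.fst := (a₀.memLp (Dw_l2 hφ)).integrable_sq
  have i2 : Integrable (fun x => Dw m f x ^ 2) μ := (hμ.memLp (Dw_l2 hf)).integrable_sq
  have i3 : Integrable (Gm m φ f) q.fst := integrable_Gm_adm H hφ hf a₀
  have hA : ∫ x, Dw m (fun y => φ y + lam * f y) x ^ 2 ∂q.fst =
      ∫ x, Dw m φ x ^ 2 ∂q.fst + 2 * lam * ∫ x, Gm m φ f x ∂q.fst +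
        lam ^ 2 * ∫ x, Dw m f x ^ 2 ∂q.fst := by
    rw [← integral_const_mul, ← integral_const_mul, ← integral_add i1 (i3.const_mul _),
      ← integral_add (by exact i1.add (i3.const_mul _)) ((i2.mono_measure hq₀).const_mul _)]
    refine integral_congr_ae (a₀.ac.ae_le ?_)
    filter_upwards [Dw_add_sq H hφ hlf, Gm_const_mul_right H hf hφ lam, Dw_const_mul hf lam]
      with x h1 h2 h3
    rw [h1, h2, h3, mul_pow, sq_abs]
    ring
  have hE' : ∫ x, Dw m f x ^ 2 ∂q.fst ≤ E :=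
    integral_mono_measure hq₀ (Eventually.of_forall fun _ => sq_nonneg _) i2
  have hg := hsmall q.fst hq₀ (by
    rw [Measure.real, Measure.fst_univ]; exact hmass)
  set A := ∫ x, Dw m (fun y => φ y + lam * f y) x ^ 2 ∂q.fst with hAdef
  have hA0 : 0 ≤ A := integral_nonneg fun _ => sq_nonneg _
  have hs1 : √(cst q) ≤ t * √d := by
    rw [← Real.sqrt_sq ht.le, ← Real.sqrt_mul (sq_nonneg _)]
    exact Real.sqrt_le_sqrt hcst
  have hs2 : √A * √d ≤ (A + d) / 2 := by
    nlinarith [sq_nonneg (√A - √d), Real.sq_sqrt hA0, Real.sq_sqrt hd0]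
  have hs3 : η' * √d ≤ lam * η / 4 := by
    have : √d ≤ M' := by
      rw [Real.sqrt_le_left (by linarith)]
      nlinarith
    calc η' * √d ≤ η' * M' := by gcongr
      _ = lam * η / 4 := by rw [hη']; field_simp
  have hv2 : (√A + η') * √(cst q) ≤ t * ((A + d) / 2 + lam * η / 4) := by
    calc (√A + η') * √(cst q) ≤ (√A + η') * (t * √d) := by gcongr
      _ = t * (√A * √d + η' * √d) := by ring
      _ ≤ _ := by gcongr
  have hv3 := (neg_le_of_abs_le hv)
  rw [hsum _ a₀, hsum _ hq₁] at hv3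
  set g₀ := ∫ x, Gm m φ f x ∂q.fst
  set g := ∫ x, Gm m φ f x ∂μ
  have hA2 : A ≤ d + 2 * lam * (g + η / 4) + lam * (η / 2) := by
    have h1 : lam ^ 2 * ∫ x, Dw m f x ^ 2 ∂q.fst ≤ lam * (η / 2) := by
      calc _ ≤ lam ^ 2 * E := by gcongr
        _ = lam * (lam * E) := by ring
        _ ≤ _ := by gcongr
    have h2 : 2 * lam * g₀ ≤ 2 * lam * (g + η / 4) := by gcongr
    linarith
  have h5 : t * A ≤ t * (d + 2 * lam * (g + η / 4) + lam * (η / 2)) := by gcongr
  have h6 : t * (t * d) ≤ t * (lam * η / 2) := by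
    gcongr
    nlinarith
  refine le_of_mul_le_mul_left ?_ hl0
  nlinarith

end Crest.Agent.R242
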