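import Crest.Agent.R242.KL0

/-!
Row 242: the symmetrised derivative of the entropy.
-/

set_option autoImplicit false

open MeasureTheory Set Filter Metric Crest.GeometryTopology.SyntheticRicci
open scoped ENNReal NNReal Topology

namespace Crest.Agent.R242

variable {X : Type*} [MetricSpace X] [ProperSpace X] [MeasurableSpace X] [BorelSpace X]
  {m : Measure X} [IsLocallyFiniteMeasure m] {κ N : ℝ}

theorem kl_radius (m : Measure X) [IsLocallyFiniteMeasure m] (o : X) {R : ℝ} (hR : 0 ≤ R) :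
    ∃ r K₀ t₁ : ℝ, R ≤ r ∧ r ≤ R + 2 ∧ 0 ≤ K₀ ∧ 0 < t₁ ∧ ∀ t, 0 < t → t ≤ t₁ →
      m.real (closedBall o (r + 2 * r * t)) - m.real (closedBall o r) ≤ K₀ * t := by
  have hmono : Monotone fun r : ℝ => m.real (closedBall o r) := fun a b hab =>
    measureReal_mono (closedBall_subset_closedBall hab) (isCompact_closedBall o b).measure_lt_top.ne
  obtain ⟨r, hr, hd⟩ := Measure.exists_mem_of_measure_ne_zero_of_ae
    (μ := (volume : Measure ℝ)) (s := Ioo (R + 1) (R + 2)) (by simp)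
    (ae_restrict_of_ae hmono.ae_differentiableAt)
  have hr0 : 0 < r := by linarith [hr.1]
  obtain ⟨K, hK0, hK⟩ := hd.isBigO_sub.exists_pos
  obtain ⟨ε, hε, hK'⟩ := Metric.eventually_nhds_iff.1 hK.bound
  refine ⟨r, K * (2 * r), ε / (4 * r), by linarith [hr.1], hr.2.le, by positivity, by positivity,
    fun t ht ht' => ?_⟩
  have h1 : 2 * r * t < ε := by
    rw [le_div_iff₀ (by positivity)] at ht'
    nlinarith [mul_pos hr0 ht]
  have h2 : 0 < 2 * r * t := by positivity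
  have h3 := hK' (y := r + 2 * r * t) (by
    rw [Real.dist_eq, add_sub_cancel_left, abs_of_pos h2]; exact h1)
  rw [Real.norm_eq_abs, Real.norm_eq_abs, add_sub_cancel_left, abs_of_pos h2] at h3
  have h4 := (le_abs_self _).trans h3
  linarith

theorem kl_side (H : IsInfHilbertian m) {ρ : X → ℝ} (s : IsSobolevLoc m ρ) {C : ℝ≥0} {o : X}
    {R : ℝ} (b : ∀ᵐ x ∂m, 0 ≤ ρ x ∧ ρ x ≤ C ∧ (R < dist x o → ρ x = 0)) (i : ∫ x, ρ x ∂m = 1)
    {r δ V c : ℝ} (hr : R ≤ r) (hr' : r ≤ R + 2) (hδ : 0 < δ) (hδ' : δ ≤ 1)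
    (hV : V = m.real (closedBall o r)) (hc : c = 1 / (1 + δ * V)) {a : X → ℝ}
    (ha : a = fun x => c * (ρ x + δ)) {μ : Measure X}
    (hμ : μ = (m.restrict (closedBall o r)).withDensity fun x => ENNReal.ofReal (a x)) :
    IsSobolevLoc m a ∧ (∀ᵐ x ∂m, c * δ ≤ a x ∧ a x ≤ C + 1) ∧ IsProbabilityMeasure μ ∧
      Adm m μ (C + 1) o (R + 2) ∧
      (∀ (g : X → ℝ) (M : ℝ), AEStronglyMeasurable g m → (∀ᵐ x ∂m, |g x| ≤ M) →
        |∫ x, g x ∂μ - ∫ x, g x * ρ x ∂m| ≤ M * (2 * δ * V)) ∧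
      (∀ r', r ≤ r' → ∫ x in closedBall o r' \ closedBall o r, a x ∂m =
        c * δ * (m.real (closedBall o r') - V)) ∧
      ∀ φ : X → ℝ, IsSobolevLoc m φ →
        ∫ x in closedBall o r, Gm m φ a x ∂m = c * ∫ x, Gm m φ ρ x ∂m := by
  have hV0 : 0 ≤ V := hV ▸ measureReal_nonneg
  have hδV : 0 ≤ δ * V := mul_nonneg hδ.le hV0
  have hc0 : 0 < c := by rw [hc]; positivity
  have hc1 : c * (1 + δ * V) = 1 := by rw [hc]; field_simp
  have hc2 : c ≤ 1 := by nlinarith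
  have hB : MeasurableSet (closedBall o r) := measurableSet_closedBall
  have hBf : ∀ r', m (closedBall o r') ≠ ⊤ := fun r' => (isCompact_closedBall o r').measure_lt_top.ne
  have sa : IsSobolevLoc m a := ha ▸ sl_const_mul (sl_add s (sl_const δ)) c
  have ba : ∀ᵐ x ∂m, c * δ ≤ a x ∧ a x ≤ C + 1 := by
    filter_upwards [b] with x hx
    rw [ha]
    dsimp only
    constructor
    · nlinarith [hx.1]
    · have : c * (ρ x + δ) ≤ 1 * (ρ x + δ) :=
        mul_le_mul_of_nonneg_right hc2 (by linarith [hx.1])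
      linarith [hx.2.1]
  have hout : ∀ᵐ x ∂m, x ∉ closedBall o r → ρ x = 0 := by
    filter_upwards [b] with x hx hx'
    exact hx.2.2 (hr.trans_lt (not_le.1 hx'))
  have iρ : Integrable ρ m := integrable_of_l2b s.1 (b.mono fun x hx => hx.2.2)
  have i1 : Integrable ((closedBall o r).indicator fun _ => (1 : ℝ)) m :=
    (integrableOn_const (hBf r)).integrable_indicator hB
  have e1 : ∫ x, (closedBall o r).indicator (fun _ => (1 : ℝ)) x ∂m = V := by
    rw [integral_indicator hB, hV]; simp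
  obtain ⟨a', ha'⟩ : ∃ a' : X → ℝ, a' = (closedBall o r).indicator a := ⟨_, rfl⟩
  have ea' : ∀ᵐ x ∂m, a' x = c * ρ x + c * δ * (closedBall o r).indicator (fun _ => (1 : ℝ)) x := by
    filter_upwards [hout] with x hx
    rw [ha']
    by_cases h : x ∈ closedBall o r
    · rw [indicator_of_mem h, indicator_of_mem h, ha]; ring
    · rw [indicator_of_notMem h, indicator_of_notMem h, hx h]; ring
  have hμ' : μ = m.withDensity fun x => ENNReal.ofReal (a' x) := by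
    rw [hμ, ← withDensity_indicator hB]
    congr 1
    funext x
    rw [ha']
    by_cases h : x ∈ closedBall o r
    · rw [indicator_of_mem h, indicator_of_mem h]
    · rw [indicator_of_notMem h, indicator_of_notMem h, ENNReal.ofReal_zero]
  have ia' : Integrable a' m :=
    ((iρ.const_mul c).add (i1.const_mul (c * δ))).congr (ea'.mono fun x hx => hx.symm)
  obtain ⟨hadm, hint⟩ := adm_withDensity (m := m) (ρ := a') (C := C + 1) (o := o) (R := R + 2)
    ia'.aemeasurable (by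
      filter_upwards [ba] with x hx
      rw [ha']
      by_cases h : x ∈ closedBall o r
      · rw [indicator_of_mem h]
        exact ⟨le_trans (by positivity) hx.1, by push_cast; exact hx.2⟩
      · rw [indicator_of_notMem h]
        exact ⟨le_rfl, NNReal.coe_nonneg _⟩) (Eventually.of_forall fun x hx => by
      rw [ha']
      exact indicator_of_notMem (fun h => by linarith [mem_closedBall.1 h]) _)
  rw [← hμ'] at hadm hint
  have := hadm.isFiniteMeasure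
  refine ⟨sa, ba, ?_, hadm, fun g M hg hM => ?_, fun r' hrr => ?_, fun φ hφ => ?_⟩
  · rw [isProbabilityMeasure_iff_real]
    have h1 := hint fun _ => 1
    simp only [integral_const, smul_eq_mul, mul_one, one_mul] at h1
    rw [h1, integral_congr_ae ea', integral_add (iρ.const_mul c) (i1.const_mul (c * δ)),
      integral_const_mul, integral_const_mul, i, e1]
    linarith
  · have hM' : ∀ᵐ x ∂m, ‖g x‖ ≤ M := hM
    have j1 : Integrable (fun x => g x * a' x) m := ia'.bdd_mul hg hM'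
    have j2 : Integrable (fun x => g x * ρ x) m := iρ.bdd_mul hg hM'
    have hM0 : 0 ≤ M := by
      by_contra hcon
      have : ∀ᵐ x ∂m, ρ x = 0 := hM.mono fun x hx => absurd ((abs_nonneg _).trans hx) hcon
      rw [integral_congr_ae this] at i
      simp at i
    rw [hint, ← integral_sub j1 j2]
    have j3 : Integrable (fun x => M * ((1 - c) * ρ x +
        c * δ * (closedBall o r).indicator (fun _ => (1 : ℝ)) x)) m :=
      ((iρ.const_mul (1 - c)).add (i1.const_mul (c * δ))).const_mul M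
    rw [← Real.norm_eq_abs]
    refine le_trans (norm_integral_le_of_norm_le j3 ?_) ?_
    · filter_upwards [hM, ea', b] with x h1 h2 h3
      rw [← mul_sub, Real.norm_eq_abs, abs_mul, h2]
      refine mul_le_mul h1 ?_ (abs_nonneg _) hM0
      have k1 : 0 ≤ (1 - c) * ρ x := mul_nonneg (by linarith) h3.1
      have k2 : 0 ≤ c * δ * (closedBall o r).indicator (fun _ => (1 : ℝ)) x :=
        mul_nonneg (by positivity) (indicator_nonneg (fun _ _ => zero_le_one) x)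
      rw [abs_le]
      constructor <;> linarith
    · rw [integral_const_mul, integral_add (iρ.const_mul (1 - c)) (i1.const_mul (c * δ)),
        integral_const_mul, integral_const_mul, i, e1]
      refine mul_le_mul_of_nonneg_left ?_ hM0
      have : c * (δ * V) ≤ 1 * (δ * V) := mul_le_mul_of_nonneg_right hc2 hδV
      linarith
  · have hS : MeasurableSet (closedBall o r' \ closedBall o r) := measurableSet_closedBall.diff hB
    rw [setIntegral_congr_ae hS (g := fun _ => c * δ) (by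
      filter_upwards [hout] with x hx hx'
      rw [ha]
      dsimp only
      rw [hx hx'.2, zero_add]), setIntegral_const,
      measureReal_sdiff (closedBall_subset_closedBall hrr) hB (hBf r'), hV, smul_eq_mul, mul_comm]
  · have g1 : ∀ᵐ x ∂m, Gm m φ a x = c * Gm m φ ρ x := by
      filter_upwards [Gm_const_mul_right H (sl_add s (sl_const δ)) hφ c,
        Gm_add_right H s (sl_const δ) hφ, Gm_loc_const_right H (sl_const δ) hφ δ] with x h1 h2 h3
      rw [ha, h1, h2, h3 rfl, add_zero]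
    rw [setIntegral_congr_ae hB (g1.mono fun x hx _ => hx), integral_const_mul,
      setIntegral_eq_integral_of_ae_compl_eq_zero]
    filter_upwards [hout, Gm_loc_const_right H s hφ 0] with x h1 h2 h3
    exact h2 (h1 h3)

theorem kl_sum (h : CDk m κ N) (H : IsInfHilbertian m) {ρ₀ ρ₁ : X → ℝ} (s₀ : IsSobolevLoc m ρ₀)
    (s₁ : IsSobolevLoc m ρ₁) {C : ℝ≥0} {o : X} {R : ℝ} (hR : 0 ≤ R)
    (b₀ : ∀ᵐ x ∂m, 0 ≤ ρ₀ x ∧ ρ₀ x ≤ C ∧ (R < dist x o → ρ₀ x = 0))
    (b₁ : ∀ᵐ x ∂m, 0 ≤ ρ₁ x ∧ ρ₁ x ≤ C ∧ (R < dist x o → ρ₁ x = 0))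
    (i₀ : ∫ x, ρ₀ x ∂m = 1) (i₁ : ∫ x, ρ₁ x ∂m = 1) {β : ℝ} (hβ : 0 < β) :
    ∃ (q : Measure (X × X)) (φ ψ : X → ℝ), IsProbabilityMeasure q ∧
      Adm m q.fst (C + 1) o (R + 2) ∧ Adm m q.snd (C + 1) o (R + 2) ∧
      Close m q.fst ρ₀ β ∧ Close m q.snd ρ₁ β ∧
      LipschitzWith (2 * (R + 2)).toNNReal φ ∧ LipschitzWith (2 * (R + 2)).toNNReal ψ ∧
      (∀ x, |φ x| ≤ 4 * (R + 2) ^ 2 ∧ |ψ x| ≤ 4 * (R + 2) ^ 2) ∧
      (∀ x y, φ x + ψ y ≤ dist x y ^ 2 / 2) ∧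
      cst q / 2 ≤ ∫ x, φ x * ρ₀ x ∂m + ∫ x, ψ x * ρ₁ x ∂m + β ∧
      -∫ x, Gm m φ ρ₀ x ∂m - ∫ x, Gm m ψ ρ₁ x ∂m ≤ 4 * κ * cst q + β := by
  obtain ⟨r, K₀, t₁, hr, hr', hK₀, ht₁, hK⟩ := kl_radius m o hR
  obtain ⟨V, hV⟩ : ∃ V, V = m.real (closedBall o r) := ⟨_, rfl⟩
  have hV0 : 0 ≤ V := hV ▸ measureReal_nonneg
  have hκ := h.κ_nonneg
  obtain ⟨M, hM⟩ : ∃ M : ℝ, M = 4 * (R + 2) ^ 2 := ⟨_, rfl⟩
  have hM1 : 1 ≤ M := by rw [hM]; nlinarith
  obtain ⟨A, hA⟩ : ∃ A : ℝ, A = 4 * M * V + 4 * κ * M * V + 2 * K₀ := ⟨_, rfl⟩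
  have p1 : 0 ≤ M * V := by positivity
  have p2 : 0 ≤ κ * M * V := by positivity
  have hA0 : 0 ≤ A := by rw [hA]; linarith
  obtain ⟨δ, hδe⟩ : ∃ δ : ℝ, δ = β / (β + A) := ⟨_, rfl⟩
  have hδ : 0 < δ := by rw [hδe]; positivity
  have hδ' : δ ≤ 1 := by rw [hδe, div_le_one (by positivity)]; linarith
  have hδA : δ * A ≤ β := by
    rw [hδe, div_mul_eq_mul_div, div_le_iff₀ (by positivity)]
    nlinarith
  obtain ⟨c, hc⟩ : ∃ c : ℝ, c = 1 / (1 + δ * V) := ⟨_, rfl⟩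
  have hc0 : 0 < c := by rw [hc]; positivity
  have hc1 : c * (1 + δ * V) = 1 := by rw [hc]; field_simp
  obtain ⟨a₀, ha₀⟩ : ∃ a : X → ℝ, a = fun x => c * (ρ₀ x + δ) := ⟨_, rfl⟩
  obtain ⟨a₁, ha₁⟩ : ∃ a : X → ℝ, a = fun x => c * (ρ₁ x + δ) := ⟨_, rfl⟩
  obtain ⟨μ₀, hμ₀⟩ : ∃ μ : Measure X,
    μ = (m.restrict (closedBall o r)).withDensity fun x => ENNReal.ofReal (a₀ x) := ⟨_, rfl⟩
  obtain ⟨μ₁, hμ₁⟩ : ∃ μ : Measure X,
    μ = (m.restrict (closedBall o r)).withDensity fun x => ENNReal.ofReal (a₁ x) := ⟨_, rfl⟩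
  obtain ⟨sa₀, ba₀, pr₀, ad₀, cl₀, an₀, gm₀⟩ := kl_side H s₀ b₀ i₀ hr hr' hδ hδ' hV hc ha₀ hμ₀
  obtain ⟨sa₁, ba₁, pr₁, ad₁, cl₁, an₁, gm₁⟩ := kl_side H s₁ b₁ i₁ hr hr' hδ hδ' hV hc ha₁ hμ₁
  obtain ⟨η, -, e₀, e₁, hq, -⟩ := exists_tri_spread h (μ₀ := μ₀) (μ₁ := μ₁) (by simp) ad₀.ac ad₁.ac
    ad₀.inn ad₁.inn (t := 0) ⟨le_rfl, zero_le_one⟩
  obtain ⟨q, hqe⟩ : ∃ q, q = ends η := ⟨_, rfl⟩
  rw [← hqe] at e₀ e₁ hq
  have prob : ∀ (q' : Measure (X × X)) (μ : Measure X), IsProbabilityMeasure μ → q'.fst = μ →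
      IsProbabilityMeasure q' := fun q' μ hμ e => ⟨by rw [← Measure.fst_univ, e, measure_univ]⟩
  have pq := prob q μ₀ pr₀ e₀
  obtain ⟨φ, ψ, lφ, lψ, bd, hle, hcont⟩ := exists_potentials hq (e₀ ▸ ad₀.inn) (e₁ ▸ ad₁.inn)
  have hopt : ∀ q' : Measure (X × X), q'.fst = μ₀ → q'.snd = μ₁ → Opt q' →
      (∀ᵐ p ∂q', φ p.1 + ψ p.2 = dist p.1 p.2 ^ 2 / 2) ∧ cst q' ≤ cst q := by
    intro q' f₀ f₁ hq'
    have := prob q' μ₀ pr₀ f₀
    exact ⟨hcont q' (f₀.trans e₀.symm) (f₁.trans e₁.symm) hq',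
      hq'.cst_le (f₀ ▸ ad₀.inn) (f₁ ▸ ad₁.inn) (e₀.trans f₀.symm) (e₁.trans f₁.symm)⟩
  have hopt' : ∀ q' : Measure (X × X), q'.fst = μ₁ → q'.snd = μ₀ → Opt q' →
      (∀ᵐ p ∂q', ψ p.1 + φ p.2 = dist p.1 p.2 ^ 2 / 2) ∧ cst q' ≤ cst q := by
    intro q' f₀ f₁ hq'
    obtain ⟨k1, k2⟩ := hopt (q'.map Prod.swap) (by rw [Measure.fst_map_swap, f₁])
      (by rw [Measure.snd_map_swap, f₀]) hq'.swap
    rw [cst_swap] at k2
    refine ⟨(ae_of_ae_map measurable_swap.aemeasurable k1).mono fun p hp => ?_, k2⟩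
    rw [add_comm, dist_comm]
    exact hp
  have hr0 : 0 ≤ r := hR.trans hr
  have hann : ∀ {a : X → ℝ}, (∀ r', r ≤ r' → ∫ x in closedBall o r' \ closedBall o r, a x ∂m =
      c * δ * (m.real (closedBall o r') - V)) → ∀ t, 0 < t → t ≤ t₁ →
      ∫ x in closedBall o (r + 2 * r * t) \ closedBall o r, a x ∂m ≤ c * δ * K₀ * t := by
    intro a an t ht ht'
    rw [an _ (le_add_of_nonneg_right (by positivity)), hV, mul_assoc (c * δ)]
    exact mul_le_mul_of_nonneg_left (hK t ht ht') (by positivity)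
  have k₀ := kl_one h H sa₀ (l2b_aemeasurable sa₁.1) (by positivity) ba₀ ba₁ hr0 hμ₀ hμ₁ ht₁
    (hann an₀) lφ lψ.continuous hle hopt
  have k₁ := kl_one h H sa₁ (l2b_aemeasurable sa₀.1) (by positivity) ba₁ ba₀ hr0 hμ₁ hμ₀ ht₁
    (hann an₁) lψ lφ.continuous (fun x y => by rw [add_comm, dist_comm]; exact hle y x) hopt'
  rw [gm₀ φ (sl_lip lφ)] at k₀
  rw [gm₁ ψ (sl_lip lψ)] at k₁
  have q1 : 0 ≤ δ * (M * V) := by positivity
  have q2 : 0 ≤ δ * (κ * M * V) := by positivity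
  have q3 : 0 ≤ δ * K₀ := by positivity
  have q4 : δ * V ≤ δ * (M * V) :=
    mul_le_mul_of_nonneg_left (le_mul_of_one_le_left hV0 hM1) hδ.le
  rw [hA] at hδA
  refine ⟨q, φ, ψ, pq, e₀ ▸ ad₀, e₁ ▸ ad₁, fun g hg hb => ?_, fun g hg hb => ?_, lφ, lψ, bd, hle,
    ?_, ?_⟩
  · rw [e₀]
    refine (cl₀ g 1 hg hb).trans ?_
    linarith
  · rw [e₁]
    refine (cl₁ g 1 hg hb).trans ?_
    linarith
  · have c₀ := abs_le.1 (cl₀ φ M lφ.continuous.aestronglyMeasurable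
      (Eventually.of_forall fun x => hM ▸ (bd x).1))
    have c₁ := abs_le.1 (cl₁ ψ M lψ.continuous.aestronglyMeasurable
      (Eventually.of_forall fun x => hM ▸ (bd x).2))
    have j₀ : Integrable (fun p : X × X => φ p.1) q :=
      Integrable.of_bound (lφ.continuous.comp continuous_fst).aestronglyMeasurable _
        (Eventually.of_forall fun p => (bd p.1).1)
    have j₁ : Integrable (fun p : X × X => ψ p.2) q :=
      Integrable.of_bound (lψ.continuous.comp continuous_snd).aestronglyMeasurable _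
        (Eventually.of_forall fun p => (bd p.2).2)
    have e : cst q / 2 = ∫ x, φ x ∂μ₀ + ∫ x, ψ x ∂μ₁ := by
      rw [← e₀, ← e₁, Measure.fst, Measure.snd,
        integral_map measurable_fst.aemeasurable lφ.continuous.aestronglyMeasurable,
        integral_map measurable_snd.aemeasurable lψ.continuous.aestronglyMeasurable,
        ← integral_add j₀ j₁, integral_congr_ae (hopt q e₀ e₁ hq).1, integral_div, cst]
    rw [e]
    linarith [c₀.2, c₁.2]
  · have w0 := cst_nonneg q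
    have w1 : cst q ≤ M := by
      have hd := ae_dist_le (q := q) (e₀ ▸ ad₀.inn) (e₁ ▸ ad₁.inn)
      have : ‖∫ p, dist p.1 p.2 ^ 2 ∂q‖ ≤ M * q.real univ :=
        norm_integral_le_of_norm_le_const (hd.mono fun p hp => by
          rw [Real.norm_eq_abs, abs_of_nonneg (sq_nonneg _), hM]
          have := pow_le_pow_left₀ dist_nonneg hp 2
          linarith)
      rw [probReal_univ, mul_one] at this
      exact (le_abs_self _).trans this
    have w2 : c * (-∫ x, Gm m φ ρ₀ x ∂m - ∫ x, Gm m ψ ρ₁ x ∂m) ≤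
        4 * κ * cst q + 2 * (c * δ * K₀) := by linarith
    have w3 := mul_le_mul_of_nonneg_right w2 (show 0 ≤ 1 + δ * V by positivity)
    have w4 : δ * V * κ * cst q ≤ δ * V * κ * M := mul_le_mul_of_nonneg_left w1 (by positivity)
    have w5 : c * (-∫ x, Gm m φ ρ₀ x ∂m - ∫ x, Gm m ψ ρ₁ x ∂m) * (1 + δ * V) =
        -∫ x, Gm m φ ρ₀ x ∂m - ∫ x, Gm m ψ ρ₁ x ∂m := by
      rw [mul_right_comm, hc1, one_mul]
    have w6 : (4 * κ * cst q + 2 * (c * δ * K₀)) * (1 + δ * V) =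
        4 * κ * cst q + 4 * (δ * V * κ * cst q) + 2 * (δ * K₀) := by
      linear_combination (2 * δ * K₀) * hc1
    rw [w5, w6] at w3
    linarith

end Crest.Agent.R242
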