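import Crest.Agent.R242.Pot0
import Crest.Agent.R242.CalcD

/-!
Row 242: the gradient of a Kantorovich potential.
-/

set_option autoImplicit false

open MeasureTheory Set Filter Metric Crest.GeometryTopology.SyntheticRicci
open scoped ENNReal NNReal Topology

namespace Crest.Agent.R242

variable {X : Type*} [MetricSpace X] [ProperSpace X] [MeasurableSpace X] [BorelSpace X]
  {m : Measure X} [IsLocallyFiniteMeasure m]

omit [MeasurableSpace X] [BorelSpace X] in
theorem pot_isClosed {φ ψ : X → ℝ} (hφ : Continuous φ) (hψ : Continuous ψ) (c : ℝ) :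
    IsClosed {x | ∃ y, φ x + ψ y = dist x y ^ 2 / 2 ∧ dist x y ≤ c} := by
  refine isSeqClosed_iff_isClosed.mp fun x a hx hxa => ?_
  choose y hy1 hy2 using hx
  obtain ⟨R, hR⟩ := (Metric.isBounded_range_of_tendsto x hxa).subset_closedBall a
  have hb : ∀ n, y n ∈ closedBall a (c + R) := fun n => by
    have h1 : dist (x n) a ≤ R := hR ⟨n, rfl⟩
    have h2 := dist_triangle_left (y n) a (x n)
    have h3 := hy2 n
    rw [mem_closedBall]
    linarith
  obtain ⟨b, -, s, hs, hb'⟩ := (isCompact_closedBall a (c + R)).tendsto_subseq hb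
  have hx' : Tendsto (x ∘ s) atTop (𝓝 a) := hxa.comp hs.tendsto_atTop
  refine ⟨b, ?_, le_of_tendsto' (hx'.dist hb') fun n => hy2 (s n)⟩
  exact tendsto_nhds_unique
    (((hφ.tendsto a).comp hx').add ((hψ.tendsto b).comp hb'))
    ((((hx'.dist hb').pow 2).div_const 2).congr fun n => (hy1 (s n)).symm)

/-- the gradient of a potential is at most the length of the transport -/
theorem Dw_pot_le {φ ψ : X → ℝ} {L : ℝ≥0} (hφ : LipschitzWith L φ) (hψ : Continuous ψ)
    (h : ∀ x y, φ x + ψ y ≤ dist x y ^ 2 / 2) :
    ∀ᵐ x ∂m, ∀ y, φ x + ψ y = dist x y ^ 2 / 2 → Dw m φ x ≤ dist x y := by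
  classical
  have key : ∀ c : ℚ, ∀ᵐ x ∂m, 0 ≤ (c : ℝ) →
      (∃ y, φ x + ψ y = dist x y ^ 2 / 2 ∧ dist x y ≤ c) → Dw m φ x ≤ c := by
    intro c
    rcases lt_or_ge (c : ℝ) 0 with hc | hc
    · exact Eventually.of_forall fun x h => absurd h (not_le.mpr hc)
    set A : Set X := {x | ∃ y, φ x + ψ y = dist x y ^ 2 / 2 ∧ dist x y ≤ c} with hA
    have hAm : MeasurableSet A := (pot_isClosed hφ.continuous hψ c).measurableSet
    set G : X → ℝ := fun x => if x ∈ A then (c : ℝ) else L with hG
    have hG0 : ∀ x, 0 ≤ G x := fun x => by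
      simp only [hG]; split_ifs
      exacts [hc, L.2]
    have hGm : Measurable G := Measurable.ite hAm measurable_const measurable_const
    have hGb : ∀ x, |G x| ≤ max (c : ℝ) L := fun x => by
      rw [abs_of_nonneg (hG0 x)]
      simp only [hG]; split_ifs
      exacts [le_max_left _ _, le_max_right _ _]
    have hw : IsWUGLoc m φ G := by
      refine wug_of_slope hφ (l2b_of_bdd hGm.aemeasurable (Eventually.of_forall hGb)) hG0
        fun x η hη => ?_
      by_cases hx : x ∈ A
      · obtain ⟨y, hy1, hy2⟩ := id hx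
        filter_upwards [closedBall_mem_nhds x hη] with z hz
        have h1 := h z y
        have h2 := dist_triangle z x y
        have h3 : dist z x ≤ η := hz
        have h4 := dist_nonneg (x := z) (y := x)
        have h5 := dist_nonneg (x := x) (y := y)
        have h6 := pow_le_pow_left₀ dist_nonneg h2 2
        simp only [hG, if_pos hx]
        nlinarith [mul_le_mul_of_nonneg_left hy2 h4, mul_le_mul_of_nonneg_left h3 h4]
      · refine Eventually.of_forall fun z => ?_
        have h1 := hφ.dist_le_mul z x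
        have h2 := le_abs_self (φ z - φ x)
        have h4 := dist_nonneg (x := z) (y := x)
        rw [Real.dist_eq] at h1
        simp only [hG, if_neg hx]
        nlinarith
    filter_upwards [Dw_le (sl_lip hφ) hw] with x hx _ hxA
    have hxA' : x ∈ A := hxA
    simpa only [hG, if_pos hxA'] using hx
  filter_upwards [ae_all_iff.mpr key] with x hx y hy
  exact le_of_forall_lt_rat_imp_le fun c hc => hx c (dist_nonneg.trans hc.le) ⟨y, hy, hc.le⟩

end Crest.Agent.R242
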