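import Crest.Agent.R242.Tri0

/-!
Row 242: convexity of the entropy.
-/

set_option autoImplicit false

open MeasureTheory Set Filter Metric Crest.GeometryTopology.SyntheticRicci
open scoped ENNReal NNReal Topology

namespace Crest.Agent.R242

theorem tri_ofReal_integral_le {Ω : Type*} [MeasurableSpace Ω] {μ : Measure Ω} {f : Ω → ℝ}
    (hf : Integrable f μ) : ENNReal.ofReal (∫ x, f x ∂μ) ≤ ∫⁻ x, ENNReal.ofReal (f x) ∂μ := by
  apply ENNReal.ofReal_le_of_le_toReal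
  rw [integral_eq_lintegral_pos_part_sub_lintegral_neg_part hf]
  exact sub_le_self _ ENNReal.toReal_nonneg

theorem tri_c1 {n y B : ℝ} (hn : 1 ≤ n) (hB : B ≤ n) (hy : |y| ≤ B) :
    Real.exp (-(y / n)) ≤ 1 - y / n + B ^ 2 / n ^ 2 ∧ Real.exp (-(y / n)) ≤ 1 + 2 * B / n := by
  have hn0 : 0 < n := by linarith
  have h1 : |(-(y / n))| ≤ B / n := by
    rw [abs_neg, abs_div, abs_of_pos hn0]
    gcongr
  have h2 : B / n ≤ 1 := (div_le_one hn0).2 hB
  constructor
  · have h3 := (abs_le.1 (Real.abs_exp_sub_one_sub_id_le (h1.trans h2))).2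
    have h4 : (-(y / n)) ^ 2 ≤ B ^ 2 / n ^ 2 := by
      rw [← div_pow, ← sq_abs (-(y / n))]
      exact pow_le_pow_left₀ (abs_nonneg _) h1 2
    linarith
  · have h3 := (abs_le.1 (Real.abs_exp_sub_one_le (h1.trans h2))).2
    have h4 : 2 * B / n = 2 * (B / n) := by ring
    linarith

/-- Young's inequality in the form needed -/
theorem tri_young {n y B z : ℝ} (hn : 1 ≤ n) (hB : B ≤ n) (hy : |y| ≤ B) (hz : 0 ≤ z) :
    z ^ (1 - 1 / n) ≤ z * ((1 - 1 / n) * (1 - y / n + B ^ 2 / n ^ 2)) +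
      1 / n * (1 + 2 * B / n) * Real.exp y := by
  have hn0 : 0 < n := by linarith
  have hw2 : 0 ≤ 1 / n := by positivity
  have hw1 : 0 ≤ 1 - 1 / n := by
    rw [sub_nonneg, div_le_one hn0]; exact hn
  obtain ⟨c1, c2⟩ := tri_c1 hn hB hy
  have h := Real.geom_mean_le_arith_mean2_weighted (p₁ := z * Real.exp (-(y / n)))
    (p₂ := Real.exp (y * (1 - 1 / n))) hw1 hw2 (by positivity) (by positivity) (by ring)
  have e : (z * Real.exp (-(y / n))) ^ (1 - 1 / n) * Real.exp (y * (1 - 1 / n)) ^ (1 / n) =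
      z ^ (1 - 1 / n) := by
    rw [Real.mul_rpow hz (Real.exp_pos _).le, ← Real.exp_mul, ← Real.exp_mul, mul_assoc,
      ← Real.exp_add]
    have : -(y / n) * (1 - 1 / n) + y * (1 - 1 / n) * (1 / n) = 0 := by ring
    rw [this, Real.exp_zero, mul_one]
  rw [e] at h
  have e2 : Real.exp (y * (1 - 1 / n)) = Real.exp (-(y / n)) * Real.exp y := by
    rw [← Real.exp_add]; congr 1; ring
  rw [e2] at h
  refine h.trans (add_le_add ?_ ?_)
  · rw [mul_left_comm]
    gcongr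
  · rw [mul_assoc]
    gcongr

/-- upper bound for the Rényi functional -/
theorem tri_renyi_le {X : Type*} [MeasurableSpace X] (m ν : Measure X) [IsProbabilityMeasure ν]
    {g : X → ℝ} {B n : ℝ} {Z : Set X} (hg : Measurable g) (hB : ∀ x, |g x| ≤ B) (hB0 : 0 ≤ B)
    (hZ : MeasurableSet Z) (hm : m Z ≠ ⊤) (hν : ∀ᵐ x ∂ν, x ∈ Z) (hn1 : 1 < n) (hBn : B ≤ n) :
    ∫⁻ x, ν.rnDeriv m x ^ (1 - 1 / n) ∂m ≤ ENNReal.ofReal
      ((1 - 1 / n) * (1 - (∫ x, g x ∂ν) / n + B ^ 2 / n ^ 2) +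
        1 / n * (1 + 2 * B / n) * ∫ x in Z, Real.exp (g x) ∂m) := by
  have hn : 1 ≤ n := hn1.le
  have hn0 : 0 < n := by linarith
  have hw1 : 0 ≤ 1 - 1 / n := by
    rw [sub_nonneg, div_le_one hn0]; exact hn
  set c₁ : X → ℝ := fun x => (1 - 1 / n) * (1 - g x / n + B ^ 2 / n ^ 2) with hc₁
  set c₂ : X → ℝ := fun x => 1 / n * (1 + 2 * B / n) * Real.exp (g x) with hc₂
  have c₁0 : ∀ x, 0 ≤ c₁ x := fun x =>
    mul_nonneg hw1 ((Real.exp_pos _).le.trans (tri_c1 hn hBn (hB x)).1)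
  have c₂0 : ∀ x, 0 ≤ c₂ x := fun x => by simp only [hc₂]; positivity
  have c₁m : Measurable c₁ := by simp only [hc₁]; fun_prop
  have c₂m : Measurable c₂ := by simp only [hc₂]; fun_prop
  have hgi : Integrable g ν :=
    Integrable.of_bound hg.aestronglyMeasurable B (Eventually.of_forall hB)
  have c₁i : Integrable c₁ ν :=
    (((integrable_const _).sub (hgi.div_const n)).add (integrable_const _)).const_mul _
  haveI : IsFiniteMeasure (m.restrict Z) := isFiniteMeasure_restrict.2 hm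
  have hei : Integrable (fun x => Real.exp (g x)) (m.restrict Z) :=
    Integrable.of_bound (by fun_prop : Measurable fun x => Real.exp (g x)).aestronglyMeasurable
      (Real.exp B) (Eventually.of_forall fun x => by
        rw [Real.norm_eq_abs, abs_of_pos (Real.exp_pos _)]
        exact Real.exp_le_exp.2 ((le_abs_self _).trans (hB x)))
  have c₂i : Integrable c₂ (m.restrict Z) := hei.const_mul _
  have hoff : ∀ᵐ x ∂m, x ∈ Zᶜ → ν.rnDeriv m x = 0 := by
    rw [← setLIntegral_eq_zero_iff hZ.compl (Measure.measurable_rnDeriv ν m)]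
    have h0 : ν Zᶜ = 0 := hν
    exact le_antisymm ((Measure.setLIntegral_rnDeriv_le _).trans h0.le) zero_le
  have hw1' : 0 < 1 - 1 / n := by
    rw [sub_pos, div_lt_one hn0]; exact hn1
  have hpt : ∀ᵐ x ∂m, ν.rnDeriv m x ^ (1 - 1 / n) ≤
      ν.rnDeriv m x * ENNReal.ofReal (c₁ x) + Z.indicator (fun x => ENNReal.ofReal (c₂ x)) x := by
    filter_upwards [hoff, Measure.rnDeriv_lt_top ν m] with x h1 h2
    by_cases hx : x ∈ Z
    · rw [indicator_of_mem hx, ← ENNReal.ofReal_toReal h2.ne,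
        ENNReal.ofReal_rpow_of_nonneg ENNReal.toReal_nonneg hw1,
        ← ENNReal.ofReal_mul ENNReal.toReal_nonneg,
        ← ENNReal.ofReal_add (mul_nonneg ENNReal.toReal_nonneg (c₁0 x)) (c₂0 x)]
      exact ENNReal.ofReal_le_ofReal (tri_young hn hBn (hB x) ENNReal.toReal_nonneg)
    · rw [h1 hx, ENNReal.zero_rpow_of_pos hw1']
      exact zero_le
  refine (lintegral_mono_ae hpt).trans ?_
  have hmeas : Measurable fun x => ν.rnDeriv m x * ENNReal.ofReal (c₁ x) :=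
    (Measure.measurable_rnDeriv ν m).mul c₁m.ennreal_ofReal
  rw [lintegral_add_left hmeas,
    lintegral_indicator hZ, ← ofReal_integral_eq_lintegral_ofReal c₂i (Eventually.of_forall c₂0)]
  have h1 : ∫⁻ x, ν.rnDeriv m x * ENNReal.ofReal (c₁ x) ∂m ≤ ENNReal.ofReal (∫ x, c₁ x ∂ν) := by
    rw [ofReal_integral_eq_lintegral_ofReal c₁i (Eventually.of_forall c₁0)]
    have := lintegral_withDensity_eq_lintegral_mul m (Measure.measurable_rnDeriv ν m)
      c₁m.ennreal_ofReal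
    simp only [Pi.mul_apply] at this
    rw [← this]
    exact lintegral_mono' (Measure.withDensity_rnDeriv_le ν m) le_rfl
  have e1 : ∫ x, c₁ x ∂ν = (1 - 1 / n) * (1 - (∫ x, g x ∂ν) / n + B ^ 2 / n ^ 2) := by
    simp only [hc₁]
    have hi : Integrable (fun x => 1 - g x / n) ν := (integrable_const _).sub (hgi.div_const n)
    rw [integral_const_mul, integral_add hi (integrable_const _), integral_sub (integrable_const _) (hgi.div_const n), integral_div]
    simp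
  have e2 : ∫ x in Z, c₂ x ∂m = 1 / n * (1 + 2 * B / n) * ∫ x in Z, Real.exp (g x) ∂m := by
    simp only [hc₂]
    rw [integral_const_mul]
  rw [← e1, ← e2, ENNReal.ofReal_add (integral_nonneg c₁0) (integral_nonneg c₂0)]
  exact add_le_add h1 le_rfl

theorem tri_rpow_ge {ρ : ℝ≥0∞} {f n : ℝ} (hn : 0 < n) (h : ρ ≤ ENNReal.ofReal (Real.exp f)) :
    ENNReal.ofReal (Real.exp (-(f / n))) ≤ ρ ^ (-1 / n) := by
  have e : Real.exp (-(f / n)) = Real.exp f ^ (-1 / n) := by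
    rw [← Real.exp_mul]; congr 1; ring
  rw [e, ← ENNReal.ofReal_rpow_of_pos (Real.exp_pos f), neg_div, ENNReal.rpow_neg, ENNReal.rpow_neg]
  exact ENNReal.inv_le_inv.2 (ENNReal.rpow_le_rpow h (by positivity))

theorem tri_lower {ρ₀ ρ₁ : ℝ≥0∞} {f₀ f₁ a b t n : ℝ} (hn : 0 < n) (ht : t ∈ Icc (0 : ℝ) 1)
    (h₀ : ρ₀ ≤ ENNReal.ofReal (Real.exp f₀)) (h₁ : ρ₁ ≤ ENNReal.ofReal (Real.exp f₁)) :
    ENNReal.ofReal (1 - ((1 - t) * (a + f₀) + t * (b + f₁)) / n) ≤
      ENNReal.ofReal ((1 - t) * Real.exp (-(a / n))) * ρ₀ ^ (-1 / n) +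
        ENNReal.ofReal (t * Real.exp (-(b / n))) * ρ₁ ^ (-1 / n) := by
  have t0 := ht.1
  have t1 : 0 ≤ 1 - t := sub_nonneg.2 ht.2
  refine le_trans ?_ (add_le_add (mul_le_mul_right (tri_rpow_ge hn h₀) _)
    (mul_le_mul_right (tri_rpow_ge hn h₁) _))
  rw [← ENNReal.ofReal_mul (by positivity), ← ENNReal.ofReal_mul (by positivity),
    ← ENNReal.ofReal_add (by positivity) (by positivity)]
  apply ENNReal.ofReal_le_ofReal
  rw [mul_assoc, mul_assoc, ← Real.exp_add, ← Real.exp_add]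
  have e0 := Real.add_one_le_exp (-(a / n) + -(f₀ / n))
  have e1 := Real.add_one_le_exp (-(b / n) + -(f₁ / n))
  have e : 1 - ((1 - t) * (a + f₀) + t * (b + f₁)) / n =
      (1 - t) * (-(a / n) + -(f₀ / n) + 1) + t * (-(b / n) + -(f₁ / n) + 1) := by ring
  rw [e]
  gcongr

theorem tri_limit {E G I B N : ℝ} (hI : 0 ≤ I) (hB : 0 ≤ B)
    (h : ∀ n : ℝ, N ≤ n → 1 < n → B ≤ n →
      1 - E / n ≤ (1 - 1 / n) * (1 - G / n + B ^ 2 / n ^ 2) + 1 / n * (1 + 2 * B / n) * I) :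
    G + 1 - I ≤ E := by
  have key : ∀ᶠ n : ℝ in atTop, G + 1 - I ≤ E + (G + B ^ 2 + 2 * B * I) / n := by
    filter_upwards [eventually_ge_atTop N, eventually_gt_atTop 1, eventually_ge_atTop B] with n h1 h2 h3
    have hn0 : 0 < n := by linarith
    have h4 := mul_le_mul_of_nonneg_left (h n h1 h2 h3) hn0.le
    have e1 : n * (1 - E / n) = n - E := by field_simp
    have e2 : n * ((1 - 1 / n) * (1 - G / n + B ^ 2 / n ^ 2) + 1 / n * (1 + 2 * B / n) * I) =
        n - 1 - G + I + (G + B ^ 2 + 2 * B * I) / n - B ^ 2 / n ^ 2 := by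
      field_simp
      ring
    have : 0 ≤ B ^ 2 / n ^ 2 := by positivity
    rw [e1, e2] at h4
    linarith
  have lim : Tendsto (fun n : ℝ => E + (G + B ^ 2 + 2 * B * I) / n) atTop (𝓝 (E + 0)) :=
    tendsto_const_nhds.add (tendsto_const_nhds.div_atTop tendsto_id)
  rw [add_zero] at lim
  exact ge_of_tendsto lim key

variable {X : Type*} [MetricSpace X] [ProperSpace X] [MeasurableSpace X] [BorelSpace X]
  {m : Measure X} [IsLocallyFiniteMeasure m] {κ N : ℝ}

/-- convexity of the entropy, in dual form -/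
theorem exists_tri_entropy (h : CDk m κ N) {μ₀ μ₁ : Measure X} [IsProbabilityMeasure μ₀]
    [IsProbabilityMeasure μ₁] (h₀ : μ₀ ≪ m) (h₁ : μ₁ ≪ m) {o : X} {R : ℝ}
    (b₀ : ∀ᵐ x ∂μ₀, dist x o ≤ R) (b₁ : ∀ᵐ x ∂μ₁, dist x o ≤ R) {f₀ f₁ : X → ℝ} {B : ℝ}
    (m₀ : AEMeasurable f₀ μ₀) (m₁ : AEMeasurable f₁ μ₁)
    (hf₀ : ∀ᵐ x ∂μ₀, |f₀ x| ≤ B ∧ μ₀.rnDeriv m x ≤ ENNReal.ofReal (Real.exp (f₀ x)))
    (hf₁ : ∀ᵐ x ∂μ₁, |f₁ x| ≤ B ∧ μ₁.rnDeriv m x ≤ ENNReal.ofReal (Real.exp (f₁ x)))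
    {t : ℝ} (ht : t ∈ Icc (0 : ℝ) 1) :
    ∃ η : Measure (X × X × X), IsTri t η ∧ (ends η).fst = μ₀ ∧ (ends η).snd = μ₁ ∧ Opt (ends η) ∧
      ∀ (g : X → ℝ) (B' : ℝ) (Z : Set X), Measurable g → (∀ x, |g x| ≤ B') → MeasurableSet Z →
        m Z ≠ ⊤ → (∀ᵐ x ∂(mid η), x ∈ Z) →
        ∫ x, (g x + 1) ∂(mid η) - ∫ x in Z, Real.exp (g x) ∂m ≤
          (1 - t) * ∫ x, f₀ x ∂μ₀ + t * ∫ x, f₁ x ∂μ₁ + 2 * κ * t * (1 - t) * cst (ends η) := by
  obtain ⟨P, hP, hgeo, ⟨⟨hc0, hc1⟩, hopt⟩, hcd⟩ :=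
    h.ex μ₀ μ₁ inferInstance inferInstance ⟨o, R, b₀⟩ ⟨o, R, b₁⟩ h₀ h₁
  set τ : unitInterval := ⟨t, ht⟩ with hτ
  have e0 : Measurable fun γ : UCurve X => γ.toMap 0 := measurable_ev 0
  have e1 : Measurable fun γ : UCurve X => γ.toMap 1 := measurable_ev 1
  have eτ : Measurable fun γ : UCurve X => γ.toMap τ := measurable_ev τ
  have hΦ : Measurable fun γ : UCurve X => (γ.toMap 0, γ.toMap τ, γ.toMap 1) :=
    e0.prodMk (eτ.prodMk e1)
  set η : Measure (X × X × X) := P.map fun γ : UCurve X => (γ.toMap 0, γ.toMap τ, γ.toMap 1) with hη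
  have hends : ends η = endpointLaw P := by
    rw [ends, hη, Measure.map_map (by fun_prop) hΦ]
    rfl
  have hmid : mid η = timeMarginal P τ := by
    rw [mid, hη, Measure.map_map (by fun_prop) hΦ]
    rfl
  have hμ0 : P.map (fun γ : UCurve X => γ.toMap 0) = μ₀ := by
    rw [← hc0, endpointLaw, Measure.map_map measurable_fst (e0.prodMk e1)]
    rfl
  have hμ1 : P.map (fun γ : UCurve X => γ.toMap 1) = μ₁ := by
    rw [← hc1, endpointLaw, Measure.map_map measurable_snd (e0.prodMk e1)]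
    rfl
  refine ⟨η, ?_, by rw [hends]; exact hc0, by rw [hends]; exact hc1, ?_, ?_⟩
  · rw [IsTri, hη, ae_map_iff hΦ.aemeasurable]
    · filter_upwards [hgeo] with γ hγ
      have a1 := hγ 0 τ
      have a2 := hγ τ 1
      have b1 : |((0 : unitInterval) : ℝ) - (τ : ℝ)| = t := by
        simp [hτ, abs_of_nonneg ht.1]
      have b2 : |(τ : ℝ) - ((1 : unitInterval) : ℝ)| = 1 - t := by
        rw [abs_sub_comm]
        simp [hτ, abs_of_nonneg (sub_nonneg.2 ht.2)]
      rw [b1] at a1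
      rw [b2] at a2
      exact ⟨a1, a2⟩
    · exact (IsClosed.inter (isClosed_eq (by fun_prop) (by fun_prop))
        (isClosed_eq (by fun_prop) (by fun_prop))).measurableSet
  · rw [hends]
    intro q' h1 h2
    exact hopt q' ⟨h1.trans hc0, h2.trans hc1⟩
  intro g B' Z hg hB hZ hmZ hin
  have hB0 : 0 ≤ B' := (abs_nonneg _).trans (hB o)
  haveI hν : IsProbabilityMeasure (mid η) := by
    rw [hmid]
    exact Measure.isProbabilityMeasure_map eτ.aemeasurable
  have hgi : Integrable g (mid η) :=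
    Integrable.of_bound hg.aestronglyMeasurable B' (Eventually.of_forall hB)
  have i0 : Integrable f₀ μ₀ :=
    Integrable.of_bound m₀.aestronglyMeasurable B (hf₀.mono fun x hx => hx.1)
  have i1 : Integrable f₁ μ₁ :=
    Integrable.of_bound m₁.aestronglyMeasurable B (hf₁.mono fun x hx => hx.1)
  have j0 : Integrable (fun γ : UCurve X => f₀ (γ.toMap 0)) P :=
    (integrable_map_measure (by rw [hμ0]; exact i0.aestronglyMeasurable) e0.aemeasurable).1
      (by rw [hμ0]; exact i0)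
  have j1 : Integrable (fun γ : UCurve X => f₁ (γ.toMap 1)) P :=
    (integrable_map_measure (by rw [hμ1]; exact i1.aestronglyMeasurable) e1.aemeasurable).1
      (by rw [hμ1]; exact i1)
  have k0 : ∫ γ : UCurve X, f₀ (γ.toMap 0) ∂P = ∫ x, f₀ x ∂μ₀ := by
    rw [← integral_map e0.aemeasurable (by rw [hμ0]; exact i0.aestronglyMeasurable), hμ0]
  have k1 : ∫ γ : UCurve X, f₁ (γ.toMap 1) ∂P = ∫ x, f₁ x ∂μ₁ := by
    rw [← integral_map e1.aemeasurable (by rw [hμ1]; exact i1.aestronglyMeasurable), hμ1]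
  have ae0 : ∀ {p : X → Prop}, (∀ᵐ x ∂μ₀, p x) → ∀ᵐ γ ∂P, p (γ.toMap 0) := fun hp =>
    ae_of_ae_map e0.aemeasurable (by rw [hμ0]; exact hp)
  have ae1 : ∀ {p : X → Prop}, (∀ᵐ x ∂μ₁, p x) → ∀ᵐ γ ∂P, p (γ.toMap 1) := fun hp =>
    ae_of_ae_map e1.aemeasurable (by rw [hμ1]; exact hp)
  have dm : Measurable fun γ : UCurve X => dist (γ.toMap 0) (γ.toMap 1) ^ 2 :=
    (e0.dist e1).pow_const 2
  have di : Integrable (fun γ : UCurve X => dist (γ.toMap 0) (γ.toMap 1) ^ 2) P := by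
    refine Integrable.of_bound dm.aestronglyMeasurable ((R + R) ^ 2) ?_
    filter_upwards [ae0 b₀, ae1 b₁] with γ h1 h2
    rw [Real.norm_eq_abs, abs_of_nonneg (sq_nonneg _)]
    exact pow_le_pow_left₀ dist_nonneg ((dist_triangle_right _ _ o).trans (add_le_add h1 h2)) 2
  have kd : cst (ends η) = ∫ γ : UCurve X, dist (γ.toMap 0) (γ.toMap 1) ^ 2 ∂P := by
    rw [hends, cst, endpointLaw, integral_map (e0.prodMk e1).aemeasurable
      (by fun_prop : Continuous fun p : X × X => dist p.1 p.2 ^ 2).aestronglyMeasurable]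
  rw [integral_add hgi (integrable_const _)]
  simp only [integral_const, probReal_univ, smul_eq_mul, mul_one]
  refine tri_limit (N := N) (integral_nonneg fun x => (Real.exp_pos _).le) hB0 fun n hN hn hBn => ?_
  have hn0 : 0 < n := by linarith
  have up := tri_renyi_le m (mid η) hg hB hB0 hZ hmZ hin hn hBn
  have cd := hcd n hN τ
  rw [← hmid] at cd
  have ia : Integrable (fun γ : UCurve X => (1 - t) * (κ * t * dist (γ.toMap 0) (γ.toMap 1) ^ 2 +
      f₀ (γ.toMap 0))) P := ((di.const_mul _).add j0).const_mul _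
  have ib : Integrable (fun γ : UCurve X => t * (κ * (1 - t) * dist (γ.toMap 0) (γ.toMap 1) ^ 2 +
      f₁ (γ.toMap 1))) P := ((di.const_mul _).add j1).const_mul _
  have iab : Integrable (fun γ : UCurve X => ((1 - t) * (κ * t * dist (γ.toMap 0) (γ.toMap 1) ^ 2 +
      f₀ (γ.toMap 0)) + t * (κ * (1 - t) * dist (γ.toMap 0) (γ.toMap 1) ^ 2 +
      f₁ (γ.toMap 1))) / n) P := (ia.add ib).div_const n
  have lo := tri_ofReal_integral_le ((integrable_const (1 : ℝ)).sub iab)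
  have ev : ∫ γ : UCurve X, (1 - ((1 - t) * (κ * t * dist (γ.toMap 0) (γ.toMap 1) ^ 2 +
      f₀ (γ.toMap 0)) + t * (κ * (1 - t) * dist (γ.toMap 0) (γ.toMap 1) ^ 2 +
      f₁ (γ.toMap 1))) / n) ∂P = 1 - ((1 - t) * ∫ x, f₀ x ∂μ₀ + t * ∫ x, f₁ x ∂μ₁ +
        2 * κ * t * (1 - t) * cst (ends η)) / n := by
    rw [integral_sub (integrable_const _) iab, integral_div, integral_add ia ib,
      integral_const_mul, integral_const_mul, integral_add (di.const_mul _) j0,
      integral_add (di.const_mul _) j1, integral_const_mul, integral_const_mul, k0, k1, kd]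
    simp only [integral_const, probReal_univ, smul_eq_mul, mul_one]
    ring
  have mid' : ∫⁻ γ : UCurve X, ENNReal.ofReal (1 - ((1 - t) *
      (κ * t * dist (γ.toMap 0) (γ.toMap 1) ^ 2 +
      f₀ (γ.toMap 0)) + t * (κ * (1 - t) * dist (γ.toMap 0) (γ.toMap 1) ^ 2 +
      f₁ (γ.toMap 1))) / n) ∂P ≤ renyiPower m (mid η) n := by
    refine le_trans (lintegral_mono_ae ?_) cd
    filter_upwards [ae0 hf₀, ae1 hf₁] with γ h1 h2
    exact tri_lower hn0 ht h1.2 h2.2
  have fin := (lo.trans mid').trans up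
  have hpos : 0 ≤ (1 - 1 / n) * (1 - (∫ x, g x ∂(mid η)) / n + B' ^ 2 / n ^ 2) +
      1 / n * (1 + 2 * B' / n) * ∫ x in Z, Real.exp (g x) ∂m := by
    have hG : |∫ x, g x ∂(mid η)| ≤ B' := by
      have := norm_integral_le_of_norm_le_const (μ := mid η) (f := g) (C := B') (Eventually.of_forall hB)
      simpa using this
    have h1 := (Real.exp_pos _).le.trans (tri_c1 hn.le hBn hG).1
    have h2 : 0 ≤ 1 - 1 / n := by
      rw [sub_nonneg, div_le_one hn0]; exact hn.le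
    have h3 : 0 ≤ ∫ x in Z, Real.exp (g x) ∂m := integral_nonneg fun x => (Real.exp_pos _).le
    positivity
  rw [ENNReal.ofReal_le_ofReal_iff hpos] at fin
  rw [← ev]
  exact fin

end Crest.Agent.R242
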