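import Crest.Agent.R242.HV
import Crest.Agent.R242.Pot
import Crest.Agent.R242.Tri

/-!
Row 242: the derivative of the entropy along a transport.
-/

set_option autoImplicit false

open MeasureTheory Set Filter Metric Crest.GeometryTopology.SyntheticRicci
open scoped ENNReal NNReal Topology

namespace Crest.Agent.R242

variable {X : Type*} [MetricSpace X] [ProperSpace X] [MeasurableSpace X] [BorelSpace X]
  {m : Measure X} [IsLocallyFiniteMeasure m] {κ N : ℝ}

theorem kl0_log_lip {lo hi : ℝ} (hlo : 0 < lo) :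
    LipschitzWith (lo⁻¹).toNNReal fun s : ℝ => Real.log (max lo (min hi s)) := by
  have key : ∀ a b : ℝ, lo ≤ a → lo ≤ b → Real.log a - Real.log b ≤ lo⁻¹ * |a - b| := by
    intro a b ha hb
    have ha0 : 0 < a := hlo.trans_le ha
    have hb0 : 0 < b := hlo.trans_le hb
    rw [← Real.log_div ha0.ne' hb0.ne']
    refine (Real.log_le_sub_one_of_pos (div_pos ha0 hb0)).trans ?_
    have e : a / b - 1 = b⁻¹ * (a - b) := by field_simp
    rw [e]
    calc b⁻¹ * (a - b) ≤ b⁻¹ * |a - b| := by gcongr; exact le_abs_self _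
      _ ≤ lo⁻¹ * |a - b| := by gcongr
  refine LipschitzWith.of_dist_le_mul fun s t => ?_
  rw [Real.coe_toNNReal _ (by positivity), Real.dist_eq, Real.dist_eq]
  have h1 : |max lo (min hi s) - max lo (min hi t)| ≤ |s - t| := by
    rw [max_comm lo, max_comm lo]
    refine (abs_max_sub_max_le_abs _ _ _).trans ?_
    have := abs_min_sub_min_le_max hi s hi t
    simpa using this
  have h2 := key _ _ (le_max_left lo (min hi s)) (le_max_left lo (min hi t))
  have h3 := key _ _ (le_max_left lo (min hi t)) (le_max_left lo (min hi s))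
  rw [abs_sub_comm] at h3
  have h4 : lo⁻¹ * |max lo (min hi s) - max lo (min hi t)| ≤ lo⁻¹ * |s - t| := by gcongr
  rw [abs_le]
  constructor <;> linarith

theorem kl0_adm {a : X → ℝ} (ha : AEMeasurable a m) {lo hi : ℝ} (hlo : 0 < lo)
    (b : ∀ᵐ x ∂m, lo ≤ a x ∧ a x ≤ hi) {o : X} {r : ℝ} {μ : Measure X}
    (e : μ = (m.restrict (closedBall o r)).withDensity fun x => ENNReal.ofReal (a x)) :
    Adm m μ hi.toNNReal o r ∧ (∀ g : X → ℝ, ∫ x, g x ∂μ = ∫ x in closedBall o r, g x * a x ∂m) ∧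
      ∀ᵐ x ∂μ, μ.rnDeriv m x ≤ ENNReal.ofReal (a x) := by
  have hB : MeasurableSet (closedBall o r) := measurableSet_closedBall
  have e' : μ = m.withDensity fun x => ENNReal.ofReal ((closedBall o r).indicator a x) := by
    rw [e, ← withDensity_indicator hB]
    congr 1
    funext x
    by_cases hx : x ∈ closedBall o r <;> simp [hx]
  have h := adm_withDensity (m := m) (ρ := (closedBall o r).indicator a) (C := hi.toNNReal) (o := o)
    (R := r) (ha.indicator hB) (by
      filter_upwards [b] with x hx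
      have h1 := Real.le_coe_toNNReal hi
      by_cases hx' : x ∈ closedBall o r
      · rw [indicator_of_mem hx']; constructor <;> linarith [hx.1, hx.2]
      · rw [indicator_of_notMem hx']; exact ⟨le_rfl, NNReal.coe_nonneg _⟩)
    (Eventually.of_forall fun x hx => indicator_of_notMem (by simpa using hx) _)
  rw [← e'] at h
  refine ⟨h.1, fun g => ?_, ?_⟩
  · rw [h.2 g, ← integral_indicator hB]
    congr 1
    funext x
    by_cases hx : x ∈ closedBall o r <;> simp [hx]
  · have h1 := Measure.rnDeriv_withDensity₀ m (ha.indicator hB).ennreal_ofReal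
    rw [← e'] at h1
    filter_upwards [h.1.ac.ae_le h1] with x hx
    rw [hx]
    by_cases hx' : x ∈ closedBall o r <;> simp [hx']

omit [ProperSpace X] [BorelSpace X] [IsLocallyFiniteMeasure m] [MetricSpace X] in
open Classical in
theorem kl0_ent {ν : Measure X} [IsProbabilityMeasure ν] {Z A : Set X} (hA : MeasurableSet A)
    (hmZ : m Z ≠ ⊤) {f : X → ℝ} (hf : Measurable f) {B : ℝ} (hB : ∀ x, |f x| ≤ B) {c : ℝ}
    (hA1 : (ENNReal.ofReal (Real.exp c) • m.restrict Z) A ≤ ν A) :
    ∫ x in Aᶜ, f x ∂ν + ν.real A * (c - 1) + 1 - ∫ x in Z, Real.exp (f x) ∂m ≤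
      ∫ x, (A.piecewise (fun _ => c) f x + 1) ∂ν -
        ∫ x in Z, Real.exp (A.piecewise (fun _ => c) f x) ∂m := by
  have : IsFiniteMeasure (m.restrict Z) := isFiniteMeasure_restrict.2 hmZ
  have hfi : Integrable f ν := Integrable.of_bound hf.aestronglyMeasurable B (.of_forall hB)
  have hg : Integrable (A.piecewise (fun _ => c) f) ν :=
    Integrable.piecewise hA (integrable_const c).integrableOn hfi.integrableOn
  have h1 : ∫ x, (A.piecewise (fun _ => c) f x + 1) ∂ν = ν.real A * c + ∫ x in Aᶜ, f x ∂ν + 1 := by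
    rw [integral_add hg (integrable_const 1),
      integral_piecewise hA (integrable_const c).integrableOn hfi.integrableOn]
    simp
  have hei : Integrable (fun x => Real.exp (f x)) (m.restrict Z) :=
    Integrable.of_bound hf.exp.aestronglyMeasurable (Real.exp B) (.of_forall fun x => by
      rw [Real.norm_eq_abs, abs_of_pos (Real.exp_pos _)]
      exact Real.exp_le_exp.2 (le_of_abs_le (hB x)))
  have hind : Integrable (A.indicator fun _ => Real.exp c) (m.restrict Z) :=
    (integrable_const _).indicator hA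
  have h2 : ∫ x in Z, Real.exp (A.piecewise (fun _ => c) f x) ∂m ≤
      (m.restrict Z).real A * Real.exp c + ∫ x in Z, Real.exp (f x) ∂m := by
    have e : (m.restrict Z).real A * Real.exp c =
        ∫ x in Z, A.indicator (fun _ => Real.exp c) x ∂m := by
      rw [integral_indicator_const _ hA, smul_eq_mul]
    rw [e, ← integral_add hind hei]
    refine integral_mono_of_nonneg (.of_forall fun x => (Real.exp_pos _).le) (hind.add hei)
      (.of_forall fun x => ?_)
    by_cases hx : x ∈ A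
    · simp [hx, (Real.exp_pos _).le]
    · simp [hx]
  have h3 : (m.restrict Z).real A * Real.exp c ≤ ν.real A := by
    have := ENNReal.toReal_mono (measure_ne_top ν A) hA1
    rw [Measure.smul_apply, smul_eq_mul, ENNReal.toReal_mul,
      ENNReal.toReal_ofReal (Real.exp_pos _).le, mul_comm] at this
    exact this
  rw [h1]
  linarith

/-- the good part of a plan on triples -/
theorem kl0_good {η : Measure (X × X × X)} [IsProbabilityMeasure η] {t : ℝ}
    (htri : IsTri t η) {μ₀ : Measure X} (h₀ : η.map Prod.fst = μ₀) (hac : μ₀ ≪ m) {r : ℝ}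
    (hd : ∀ᵐ p ∂η, dist p.1 p.2.2 ≤ 2 * r) {φ ψ : X → ℝ} {L : ℝ≥0} (hφ : LipschitzWith L φ)
    (hψ : Continuous ψ) (hle : ∀ x y, φ x + ψ y ≤ dist x y ^ 2 / 2)
    (hc : ∀ᵐ p ∂η, φ p.1 + ψ p.2.2 = dist p.1 p.2.2 ^ 2 / 2) (iφ₀ : Integrable φ μ₀)
    (iφ₁ : Integrable φ (mid η)) {A : Set X} (hA : MeasurableSet A) {f : X → ℝ}
    (hf : Measurable f) {B c : ℝ} (hB : ∀ x, |f x| ≤ B) (hfc : ∀ x, f x ≤ c) :
    ∃ (q : Measure (X × X)) (d : ℝ), q.fst ≤ μ₀ ∧ q.snd = (mid η).restrict Aᶜ ∧
      d ≤ 4 * r ^ 2 ∧ cst q ≤ t ^ 2 * d ∧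
      ∫ x, φ x ∂q.snd - ∫ x, φ x ∂q.fst ≤ -((t - t ^ 2 / 2) * d) ∧
      ∫ x, Dw m φ x ^ 2 ∂q.fst ≤ d ∧ ∫ x, f x ∂μ₀ ≤ ∫ x, f x ∂q.fst + (mid η).real A * c := by
  have hπ : Measurable fun p : X × X × X => p.2.1 := by fun_prop
  set G : Set (X × X × X) := (fun p : X × X × X => p.2.1) ⁻¹' Aᶜ with hG
  have hGm : MeasurableSet G := hπ hA.compl
  set ξ := η.restrict G with hξ
  have hξle : ξ ≤ η := Measure.restrict_le_self
  have hq1 : (ξ.map fun p => (p.1, p.2.1)).fst = ξ.map Prod.fst := Measure.fst_map_prodMk hπ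
  have hq2 : (ξ.map fun p => (p.1, p.2.1)).snd = ξ.map fun p => p.2.1 :=
    Measure.snd_map_prodMk measurable_fst
  have hle1 : ξ.map Prod.fst ≤ μ₀ := h₀ ▸ Measure.map_mono hξle measurable_fst
  have hle2 : ξ.map (fun p => p.2.1) ≤ mid η := Measure.map_mono hξle hπ
  have hdm : Measurable fun p : X × X × X => dist p.1 p.2.2 ^ 2 := by fun_prop
  have hdb : ∀ᵐ p ∂ξ, dist p.1 p.2.2 ^ 2 ≤ 4 * r ^ 2 := by
    filter_upwards [ae_mono hξle hd] with p hp
    have := dist_nonneg (x := p.1) (y := p.2.2)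
    nlinarith
  have hdi : Integrable (fun p : X × X × X => dist p.1 p.2.2 ^ 2) ξ :=
    Integrable.of_bound hdm.aestronglyMeasurable (4 * r ^ 2) (by
      filter_upwards [hdb] with p hp
      rwa [Real.norm_eq_abs, abs_of_nonneg (sq_nonneg _)])
  refine ⟨ξ.map fun p => (p.1, p.2.1), ∫ p, dist p.1 p.2.2 ^ 2 ∂ξ, hq1 ▸ hle1, ?_, ?_, ?_, ?_, ?_,
    ?_⟩
  · rw [hq2, mid, Measure.restrict_map hπ hA.compl]
  · refine (integral_mono_ae hdi (integrable_const _) hdb).trans ?_
    rw [integral_const, smul_eq_mul]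
    have h1 : ξ.real univ ≤ 1 := by
      rw [hξ, measureReal_restrict_apply_univ]; exact measureReal_le_one
    exact mul_le_of_le_one_left (by positivity) h1
  · unfold cst
    rw [integral_map (by fun_prop) (Measurable.aestronglyMeasurable (by fun_prop)),
      ← integral_const_mul]
    refine le_of_eq (integral_congr_ae ?_)
    filter_upwards [ae_mono hξle htri] with p hp
    simp only [hp.1, mul_pow]
  · have i1 : Integrable (fun p : X × X × X => φ p.1) ξ :=
      (integrable_map_measure hφ.continuous.aestronglyMeasurable measurable_fst.aemeasurable).1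
        (iφ₀.mono_measure hle1)
    have i2 : Integrable (fun p : X × X × X => φ p.2.1) ξ :=
      (integrable_map_measure hφ.continuous.aestronglyMeasurable hπ.aemeasurable).1
        (iφ₁.mono_measure hle2)
    rw [hq1, hq2, integral_map hπ.aemeasurable hφ.continuous.aestronglyMeasurable,
      integral_map measurable_fst.aemeasurable hφ.continuous.aestronglyMeasurable,
      ← integral_sub i2 i1, ← integral_const_mul, ← integral_neg]
    refine integral_mono_ae (i2.sub i1) (hdi.const_mul _).neg ?_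
    filter_upwards [ae_mono hξle htri, ae_mono hξle hc] with p hp hp'
    have h1 := hle p.2.1 p.2.2
    rw [hp.2] at h1
    nlinarith
  · have hs := sl_lip (m := m) hφ
    have hac' : ξ.map Prod.fst ≪ m := (Measure.absolutelyContinuous_of_le hle1).trans hac
    rw [hq1, integral_map measurable_fst.aemeasurable
      (((Dw_aemeasurable hs).mono_ac hac').pow_const 2).aestronglyMeasurable]
    refine integral_mono_of_nonneg (.of_forall fun p => sq_nonneg _) hdi ?_
    have h1 := ae_of_ae_map measurable_fst.aemeasurable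
      (hac'.ae_le ((Dw_pot_le (m := m) hφ hψ hle).and (Dw_nonneg hs)))
    filter_upwards [h1, ae_mono hξle hc] with p hp hp'
    exact pow_le_pow_left₀ hp.2 (hp.1 _ hp') 2
  · have i1 : Integrable (fun p : X × X × X => f p.1) η :=
      Integrable.of_bound (hf.comp measurable_fst).aestronglyMeasurable B (.of_forall fun p => hB _)
    rw [hq1, integral_map measurable_fst.aemeasurable hf.aestronglyMeasurable, ← h₀,
      integral_map measurable_fst.aemeasurable hf.aestronglyMeasurable, ← integral_add_compl hGm i1]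
    have h1 : (mid η).real A = η.real Gᶜ := by
      rw [mid, map_measureReal_apply hπ hA, hG, ← preimage_compl, compl_compl]
    have h2 : ∫ p in Gᶜ, f p.1 ∂η ≤ ∫ _ in Gᶜ, c ∂η :=
      integral_mono i1.integrableOn (integrable_const c) fun p => hfc _
    rw [setIntegral_const, smul_eq_mul] at h2
    rw [h1]
    linarith

theorem kl_one (h : CDk m κ N) (H : IsInfHilbertian m) {a₀ a₁ : X → ℝ} (s₀ : IsSobolevLoc m a₀)
    (m₁ : AEMeasurable a₁ m) {lo hi : ℝ} (hlo : 0 < lo) (b₀ : ∀ᵐ x ∂m, lo ≤ a₀ x ∧ a₀ x ≤ hi)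
    (b₁ : ∀ᵐ x ∂m, lo ≤ a₁ x ∧ a₁ x ≤ hi) {o : X} {r : ℝ} (hr : 0 ≤ r) {μ₀ μ₁ : Measure X}
    [IsProbabilityMeasure μ₀] [IsProbabilityMeasure μ₁]
    (e₀ : μ₀ = (m.restrict (closedBall o r)).withDensity fun x => ENNReal.ofReal (a₀ x))
    (e₁ : μ₁ = (m.restrict (closedBall o r)).withDensity fun x => ENNReal.ofReal (a₁ x))
    {K t₁ : ℝ} (ht₁ : 0 < t₁) (hK : ∀ t, 0 < t → t ≤ t₁ →
      ∫ x in closedBall o (r + 2 * r * t) \ closedBall o r, a₀ x ∂m ≤ K * t)
    {φ ψ : X → ℝ} {L : ℝ≥0} (hφ : LipschitzWith L φ) (hψ : Continuous ψ)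
    (hle : ∀ x y, φ x + ψ y ≤ dist x y ^ 2 / 2) {W : ℝ}
    (hopt : ∀ q : Measure (X × X), q.fst = μ₀ → q.snd = μ₁ → Opt q →
      (∀ᵐ p ∂q, φ p.1 + ψ p.2 = dist p.1 p.2 ^ 2 / 2) ∧ cst q ≤ W) :
    -∫ x in closedBall o r, Gm m φ a₀ x ∂m ≤
      ∫ x, Real.log (a₁ x) ∂μ₁ - ∫ x, Real.log (a₀ x) ∂μ₀ + 2 * κ * W + K := by
  obtain ⟨A₀, I₀, R₀⟩ := kl0_adm (l2b_aemeasurable s₀.1) hlo b₀ e₀
  obtain ⟨A₁, -, R₁⟩ := kl0_adm m₁ hlo b₁ e₁
  have hlh : lo ≤ hi := by
    have b₀' : ∀ᵐ x ∂μ₀, lo ≤ a₀ x ∧ a₀ x ≤ hi := A₀.ac.ae_le b₀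
    obtain ⟨x, hx⟩ := b₀'.exists
    exact hx.1.trans hx.2
  have hhi : 0 < hi := hlo.trans_le hlh
  -- the logarithm of the first density
  have m₀ := l2b_aemeasurable s₀.1
  set f : X → ℝ := fun x => Real.log (max lo (min hi (m₀.mk a₀ x))) with hf
  have fm : Measurable f := (measurable_const.max (measurable_const.min m₀.measurable_mk)).log
  have fs : IsSobolevLoc m f := sl_comp_lip (sl_congr s₀ m₀.ae_eq_mk) (kl0_log_lip hlo)
  have flog : ∀ᵐ x ∂m, f x = Real.log (a₀ x) := by
    filter_upwards [b₀, m₀.ae_eq_mk] with x hx hx'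
    simp only [hf]
    rw [← hx', min_eq_right hx.2, max_eq_right hx.1]
  have fexp : ∀ᵐ x ∂m, Real.exp (f x) = a₀ x := by
    filter_upwards [b₀, flog] with x hx hx'
    rw [hx', Real.exp_log (hlo.trans_le hx.1)]
  have logb : ∀ s : ℝ, lo ≤ s → s ≤ hi → |Real.log s| ≤ |Real.log lo| + |Real.log hi| := by
    intro s h1 h2
    have h3 := Real.log_le_log hlo h1
    have h4 := Real.log_le_log (hlo.trans_le h1) h2
    rw [abs_le]
    constructor
    · linarith [neg_abs_le (Real.log lo), abs_nonneg (Real.log hi)]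
    · linarith [le_abs_self (Real.log hi), abs_nonneg (Real.log lo)]
  have fB : ∀ x, |f x| ≤ |Real.log lo| + |Real.log hi| := fun x =>
    logb _ (le_max_left _ _) (max_le hlh (min_le_left _ _))
  have fhi : ∀ x, f x ≤ Real.log hi := fun x =>
    Real.log_le_log (hlo.trans_le (le_max_left _ _)) (max_le hlh (min_le_left _ _))
  have sφ := sl_lip (m := m) hφ
  have hG : ∫ x, Gm m φ f x ∂μ₀ = ∫ x in closedBall o r, Gm m φ a₀ x ∂m := by
    have se : IsSobolevLoc m fun x => Real.exp (f x) := sl_congr s₀ (EventuallyEq.symm fexp)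
    rw [I₀]
    refine integral_congr_ae (ae_restrict_of_ae ?_)
    filter_upwards [Gm_comp_right H fs Real.contDiff_exp se sφ,
      Gm_congr sφ se (EventuallyEq.refl _ φ) fexp, fexp] with x h1 h2 h3
    rw [← h2, h1, Real.deriv_exp, h3, mul_comm]
  have hE : ∫ x, f x ∂μ₀ = ∫ x, Real.log (a₀ x) ∂μ₀ := integral_congr_ae (A₀.ac.ae_le flog)
  rw [← hG, ← hE]
  set S := ∫ x, Real.log (a₁ x) ∂μ₁ - ∫ x, f x ∂μ₀ + 2 * κ * W + K with hS
  set c := 2 + Real.log hi with hc
  set C : ℝ≥0 := (Real.exp c).toNNReal with hC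
  have hCle : hi.toNNReal ≤ C := by
    refine Real.toNNReal_le_toNNReal ?_
    conv_lhs => rw [← Real.exp_log hhi]
    exact Real.exp_le_exp.2 (by linarith)
  have A₀' : Adm m μ₀ C o (3 * r) := A₀.mono le_rfl hCle (by linarith)
  -- one time step
  have step : ∀ t : ℝ, 0 < t → t ≤ 1 → t ≤ t₁ → ∃ (q : Measure (X × X)) (d b : ℝ),
      q.fst ≤ μ₀ ∧ Adm m q.snd C o (3 * r) ∧ q.real univ = 1 - b ∧ 0 ≤ b ∧ d ≤ 4 * r ^ 2 ∧
      cst q ≤ t ^ 2 * d ∧ ∫ x, φ x ∂q.snd - ∫ x, φ x ∂q.fst ≤ -((t - t ^ 2 / 2) * d) ∧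
      ∫ x, Dw m φ x ^ 2 ∂q.fst ≤ d ∧ ∫ x, f x ∂q.snd - ∫ x, f x ∂q.fst + b ≤ t * S := by
    intro t ht ht1 htt
    obtain ⟨η, htri, h0, h1, hO, hent⟩ := exists_tri_entropy h A₀.ac A₁.ac A₀.inn A₁.inn
      (f₀ := f) (f₁ := fun x => Real.log (a₁ x)) (B := |Real.log lo| + |Real.log hi|)
      fm.aemeasurable (m₁.mono_ac A₁.ac).log
      (by
        filter_upwards [R₀, A₀.ac.ae_le fexp] with x hx hx'
        exact ⟨fB x, by rw [hx']; exact hx⟩)
      (by
        filter_upwards [R₁, A₁.ac.ae_le b₁] with x hx hx'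
        exact ⟨logb _ hx'.1 hx'.2, by rw [Real.exp_log (hlo.trans_le hx'.1)]; exact hx⟩)
      (t := t) ⟨ht.le, ht1⟩
    have hπ : Measurable fun p : X × X × X => p.2.1 := by fun_prop
    have hε : Measurable fun p : X × X × X => (p.1, p.2.2) := by fun_prop
    have h0' : η.map Prod.fst = μ₀ := by
      rw [← h0, ends]; exact (Measure.fst_map_prodMk (by fun_prop)).symm
    have : IsProbabilityMeasure η := ⟨by
      have := congrArg (fun μ : Measure X => μ univ) h0'
      simpa [Measure.map_apply measurable_fst MeasurableSet.univ] using this⟩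
    have : IsProbabilityMeasure (mid η) := Measure.isProbabilityMeasure_map hπ.aemeasurable
    obtain ⟨hcon, hW⟩ := hopt _ h0 h1 hO
    have hd : ∀ᵐ p ∂η, dist p.1 p.2.2 ≤ 2 * r :=
      ae_of_ae_map hε.aemeasurable (ae_dist_le (q := ends η) (h0 ▸ A₀.inn) (h1 ▸ A₁.inn))
    have hx0 : ∀ᵐ p ∂η, dist p.1 o ≤ r :=
      ae_of_ae_map measurable_fst.aemeasurable (h0' ▸ A₀.inn)
    set Z := closedBall o (r + 2 * r * t) with hZ
    have hZm : MeasurableSet Z := measurableSet_closedBall
    have hmZ : m Z ≠ ⊤ := (isCompact_closedBall _ _).measure_lt_top.ne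
    have hνZ : ∀ᵐ x ∂(mid η), x ∈ Z := by
      refine (ae_map_iff hπ.aemeasurable hZm).2 ?_
      filter_upwards [htri, hd, hx0] with p h1 h2 h3
      have h4 := dist_triangle_left p.2.1 o p.1
      rw [h1.1] at h4
      show dist p.2.1 o ≤ r + 2 * r * t
      nlinarith
    have hνr : ∀ᵐ x ∂(mid η), dist x o ≤ 3 * r := by
      filter_upwards [hνZ] with x hx
      rw [hZ, mem_closedBall] at hx
      nlinarith
    have : IsFiniteMeasure (m.restrict Z) := isFiniteMeasure_restrict.2 hmZ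
    have : IsFiniteMeasure (ENNReal.ofReal (Real.exp c) • m.restrict Z) :=
      Measure.smul_finite _ ENNReal.ofReal_ne_top
    obtain ⟨A, hA, hA1, hA2⟩ :=
      hahn_decomposition (mid η) (ENNReal.ofReal (Real.exp c) • m.restrict Z)
    have iφ₁ : Integrable φ (mid η) := by
      have := (hφ.continuous.continuousOn (s := Z)).integrableOn_compact (μ := mid η)
        (isCompact_closedBall _ _)
      rwa [IntegrableOn, Measure.restrict_eq_self_of_ae_mem hνZ] at this
    obtain ⟨q, d, q1, q2, q3, q4, q5, q6, q7⟩ := kl0_good (m := m) htri h0' A₀.ac hd hφ hψ hle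
      (ae_of_ae_map hε.aemeasurable hcon) (A₀.integrable sφ.1) iφ₁ hA fm fB fhi
    refine ⟨q, d, (mid η).real A, q1, ⟨?_, ?_⟩, ?_, measureReal_nonneg, q3, q4, q5, q6, ?_⟩
    · rw [q2]
      refine Measure.le_iff.2 fun s hs => ?_
      rw [Measure.restrict_apply hs]
      refine (hA2 _ (hs.inter hA.compl) inter_subset_right).trans ?_
      rw [Measure.smul_apply, Measure.smul_apply]
      exact mul_le_mul_right
        ((Measure.restrict_le_self _).trans (measure_mono inter_subset_left)) _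
    · rw [q2]
      exact ae_restrict_of_ae hνr
    · rw [measureReal_def, ← Measure.snd_univ, q2, Measure.restrict_apply_univ, ← measureReal_def,
        probReal_compl_eq_one_sub hA]
    · classical
      have e1 := kl0_ent (m := m) (Z := Z) hA hmZ fm fB (hA1 A hA subset_rfl)
      have e2 := hent (A.piecewise (fun _ => c) f) (|c| + (|Real.log lo| + |Real.log hi|)) Z
        (Measurable.piecewise hA measurable_const fm) (fun x => by
          by_cases hx : x ∈ A
          · rw [piecewise_eq_of_mem _ _ _ hx]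
            linarith [abs_nonneg (Real.log lo), abs_nonneg (Real.log hi)]
          · rw [piecewise_eq_of_notMem _ _ _ hx]
            linarith [fB x, abs_nonneg c]) hZm hmZ hνZ
      have e3 : ∫ x in Z, Real.exp (f x) ∂m ≤ 1 + K * t := by
        have i1 : IntegrableOn a₀ Z m :=
          Integrable.of_bound m₀.aestronglyMeasurable.restrict hi (ae_restrict_of_ae (by
            filter_upwards [b₀] with x hx
            rw [Real.norm_eq_abs, abs_of_pos (hlo.trans_le hx.1)]
            exact hx.2))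
        have hsub : closedBall o r ⊆ Z := closedBall_subset_closedBall (by nlinarith)
        have i2 := integral_inter_add_sdiff (t := closedBall o r) measurableSet_closedBall i1
        rw [inter_eq_right.2 hsub] at i2
        have i3 := I₀ fun _ => 1
        simp only [integral_const, probReal_univ, smul_eq_mul, mul_one, one_mul] at i3
        rw [integral_congr_ae (ae_restrict_of_ae fexp), ← i2, ← i3]
        linarith [hK t ht htt]
      have e4 : 2 * κ * t * (1 - t) * cst (ends η) ≤ t * (2 * κ * W) := by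
        have k0 := h.κ_nonneg
        have c0 := cst_nonneg (ends η)
        calc 2 * κ * t * (1 - t) * cst (ends η) ≤ 2 * κ * t * 1 * W := by
              gcongr
              linarith
          _ = t * (2 * κ * W) := by ring
      rw [q2]
      have e5 := e1.trans e2
      rw [hc] at e5
      rw [hS]
      nlinarith
  refine le_of_forall_pos_le_add fun η hη => ?_
  obtain ⟨t₀, β, ht₀, hβ, hv⟩ := horiz_vert h H sφ fs A₀' (4 * r ^ 2) hη
  have fi : IntegrableOn f (closedBall o (3 * r)) m :=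
    Measure.integrableOn_of_bounded (isCompact_closedBall _ _).measure_lt_top.ne
      fm.aestronglyMeasurable (.of_forall fB)
  obtain ⟨δ, hδ, hδ'⟩ := integral_sub_le_of_cst C o (3 * r) fi (half_pos hβ)
  have ev : ∀ᶠ t : ℝ in 𝓝[>] 0, 0 < t ∧ t ≤ 1 ∧ t ≤ t₁ ∧ t ≤ t₀ ∧ t ^ 2 * (4 * r ^ 2) ≤ δ ∧
      t * S ≤ β / 2 := by
    refine Eventually.and self_mem_nhdsWithin (nhdsWithin_le_nhds ?_)
    refine Eventually.and (Iic_mem_nhds one_pos) (Eventually.and (Iic_mem_nhds ht₁)
      (Eventually.and (Iic_mem_nhds ht₀) (Eventually.and ?_ ?_)))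
    · have : Tendsto (fun t : ℝ => t ^ 2 * (4 * r ^ 2)) (𝓝 0) (𝓝 (0 ^ 2 * (4 * r ^ 2))) :=
        Continuous.tendsto (by fun_prop) 0
      exact this.eventually (Iic_mem_nhds (by simpa using hδ))
    · have : Tendsto (fun t : ℝ => t * S) (𝓝 0) (𝓝 (0 * S)) := Continuous.tendsto (by fun_prop) 0
      exact this.eventually (Iic_mem_nhds (by simpa using hβ))
  obtain ⟨t, ht, ht1, htt, htt₀, htδ, htS⟩ := ev.exists
  obtain ⟨q, d, b, q1, q2, q3, q4, q5, q6, q7, q8, q9⟩ := step t ht ht1 htt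
  have c1 : cst q ≤ δ := q6.trans ((mul_le_mul_of_nonneg_left q5 (sq_nonneg t)).trans htδ)
  have c2 := hδ' q (A₀'.mono q1 le_rfl le_rfl) q2 c1
  have c3 := hv t ht htt₀ q d q1 q2 (by rw [q3]; linarith [neg_le_of_abs_le c2]) q5 q6 q7 q8
  have c4 : t * (-(∫ x, Gm m φ f x ∂μ₀)) ≤ t * (S + η) := by linarith
  exact le_of_mul_le_mul_left c4 ht

end Crest.Agent.R242
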