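import Crest.Agent.R242.Mid0

/-!
Row 242: contraction to a point with bounded density.
-/

set_option autoImplicit false

open MeasureTheory Set Filter Metric Crest.GeometryTopology.SyntheticRicci
open scoped ENNReal NNReal Topology

namespace Crest.Agent.R242

variable {X : Type*} [MetricSpace X] [ProperSpace X] [MeasurableSpace X] [BorelSpace X]
  {m : Measure X} [IsLocallyFiniteMeasure m] {κ N : ℝ}

/-- triples starting near `y` -/
def midS (y : X) (R s r : ℝ) : Set (X × X × X) :=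
  {p | (dist p.1 p.2.1 = s * dist p.1 p.2.2 ∧ dist p.2.1 p.2.2 = (1 - s) * dist p.1 p.2.2) ∧
    dist p.1 y ≤ r ∧ dist p.2.2 y ≤ R}

/-- the density bound -/
noncomputable def midM (C : ℝ≥0) (κ N R s r : ℝ) : ℝ≥0 :=
  C * ((s ^ N)⁻¹ * Real.exp (κ * (1 - s) * (R + r) ^ 2)).toNNReal

omit [ProperSpace X] [MeasurableSpace X] [BorelSpace X] in
theorem midS_bd {y : X} {R s r : ℝ} (hs' : s ≤ 1) {p : X × X × X} (hp : p ∈ midS y R s r) :
    dist p.2.1 y ≤ R + 2 * r := by
  obtain ⟨⟨h1, -⟩, h3, h4⟩ := hp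
  have h5 := dist_triangle_right p.1 p.2.2 y
  have h6 := dist_triangle p.2.1 p.1 y
  have h7 := mul_le_of_le_one_left (dist_nonneg (x := p.1) (y := p.2.2)) hs'
  rw [dist_comm p.2.1 p.1] at h6
  linarith

omit [ProperSpace X] [MeasurableSpace X] [BorelSpace X] in
theorem midS_closed (y : X) (R s r : ℝ) : IsClosed (midS y R s r) := by
  refine IsClosed.and (IsClosed.and ?_ ?_) (IsClosed.and ?_ ?_)
  · exact isClosed_eq (by fun_prop) (by fun_prop)
  · exact isClosed_eq (by fun_prop) (by fun_prop)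
  · exact isClosed_le (by fun_prop) (by fun_prop)
  · exact isClosed_le (by fun_prop) (by fun_prop)

omit [MeasurableSpace X] [BorelSpace X] in
theorem midS_compact (y : X) (R : ℝ) {s : ℝ} (hs' : s ≤ 1) (r : ℝ) : IsCompact (midS y R s r) :=
  ((isCompact_closedBall y r).prod ((isCompact_closedBall y (R + 2 * r)).prod
    (isCompact_closedBall y R))).of_isClosed_subset (midS_closed y R s r)
    fun _ hp => ⟨hp.2.1, midS_bd hs' hp, hp.2.2⟩

theorem mid_spread [m.IsOpenPosMeasure] (h : CDk m κ N) {ν : Measure X} [IsFiniteMeasure ν]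
    {C : ℝ≥0} {y : X} {R : ℝ} (hR : 0 ≤ R) (hν : Adm m ν C y R) {s : ℝ} (hs : 0 < s) (hs' : s ≤ 1)
    {r : ℝ} (hr : 0 < r) :
    ∃ η : Measure (X × X × X), (∀ᵐ p ∂η, p ∈ midS y R s r) ∧ η.map (fun p => p.2.2) = ν ∧
      ν univ ≤ midM C κ N R s r * m {x | 0 < (η.map fun p => p.2.1).rnDeriv m x} := by
  have hB0 : m (closedBall y r) ≠ 0 := (measure_closedBall_pos m y hr).ne'
  have hB1 : m (closedBall y r) ≠ ⊤ := (isCompact_closedBall y r).measure_lt_top.ne
  let μ₀ : Measure X := (ν univ / m (closedBall y r)) • m.restrict (closedBall y r)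
  have hm : μ₀ univ = ν univ := by
    simp only [μ₀, Measure.smul_apply, Measure.restrict_apply_univ, smul_eq_mul]
    exact ENNReal.div_mul_cancel hB0 hB1
  have : IsFiniteMeasure μ₀ := ⟨hm ▸ measure_lt_top ν univ⟩
  have hb0 : ∀ᵐ x ∂μ₀, dist x y ≤ r :=
    Measure.ae_smul_measure (ae_restrict_mem measurableSet_closedBall) _
  obtain ⟨η, h1, h2, h3, -, h5⟩ := exists_tri_spread h hm
    (Measure.absolutelyContinuous_restrict.smul_left _) hν.ac (o := y) (R := R + r)
    (hb0.mono fun x hx => by linarith) (hν.inn.mono fun x hx => by linarith) ⟨hs.le, hs'⟩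
  have e2 : η.map (fun p => p.1) = μ₀ := by
    rw [← h2, ends, Measure.fst_map_prodMk (by fun_prop)]
  have e3 : η.map (fun p => p.2.2) = ν := by
    rw [← h3, ends, Measure.snd_map_prodMk (by fun_prop)]
  have a2 : ∀ᵐ p ∂η, dist p.1 y ≤ r := ae_of_ae_map (by fun_prop) (e2 ▸ hb0)
  have a3 : ∀ᵐ p ∂η, dist p.2.2 y ≤ R := ae_of_ae_map (by fun_prop) (e3 ▸ hν.inn)
  refine ⟨η, ?_, e3, ?_⟩
  · filter_upwards [h1, a2, a3] with p p1 p2 p3 using ⟨p1, p2, p3⟩
  · have hd : ∀ᵐ p ∂(ends η), dist p.1 p.2 ≤ R + r := by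
      rw [ends, ae_map_iff (by fun_prop)
        (isClosed_le (by fun_prop) (by fun_prop)).measurableSet]
      filter_upwards [a2, a3] with p p2 p3
      linarith [dist_triangle_right p.1 p.2.2 y]
    have := (h5 C (R + r) (by linarith) hd hν.le).1 hs
    rwa [midM, ENNReal.coe_mul]

theorem mid_step [m.IsOpenPosMeasure] (h : CDk m κ N) {μ : Measure X} [IsProbabilityMeasure μ]
    {C : ℝ≥0} {y : X} {R : ℝ} (hR : 0 ≤ R) (hμ : Adm m μ C y R) {s : ℝ} (hs : 0 < s) (hs' : s ≤ 1)
    {r : ℝ} (hr : 0 < r) :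
    ∃ η : ProbabilityMeasure (X × X × X), (∀ᵐ p ∂(η : Measure (X × X × X)), p ∈ midS y R s r) ∧
      (η : Measure (X × X × X)).map (fun p => p.2.2) = μ ∧
      (η : Measure (X × X × X)).map (fun p => p.2.1) ≤ (midM C κ N R s r : ℝ≥0∞) • m := by
  have m2 : Measurable fun p : X × X × X => p.2.2 := by fun_prop
  have m1 : Measurable fun p : X × X × X => p.2.1 := by fun_prop
  have hu : ∀ η : Measure (X × X × X), η univ = η.map (fun p => p.2.2) univ := fun η => by
    rw [Measure.map_apply m2 MeasurableSet.univ, preimage_univ]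
  let 𝒞 : Set (Measure (X × X × X)) :=
    {η | (∀ᵐ p ∂η, p ∈ midS y R s r) ∧ η.map (fun p => p.2.2) = μ}
  have hp : ∀ η ∈ 𝒞, IsProbabilityMeasure η := fun η hη => ⟨by rw [hu, hη.2, measure_univ]⟩
  obtain ⟨η, hη, hle⟩ := rajala (m := m) (e := fun p : X × X × X => p.2.1) (by fun_prop) (𝒞 := 𝒞)
    (by
      obtain ⟨η, h1, h2, -⟩ := mid_spread h hR hμ hs hs' hr
      exact ⟨η, h1, h2⟩) hp
    ((isCompact_ae_mem (midS_compact y R hs' r)).inter_right
      (isClosed_map_eq (e := fun p : X × X × X => p.2.2) (by fun_prop) μ))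
    (o := y) (R := R + 2 * r) (fun η hη => hη.1.mono fun p hp => midS_bd hs' hp)
    (midM C κ N R s r) (by
      intro η hη A hA _
      have := hp η hη
      set B : Set (X × X × X) := (fun p => p.2.1) ⁻¹' A with hB
      have hBm : MeasurableSet B := m1 hA
      have hν : (η.restrict B).map (fun p => p.2.2) ≤ μ := by
        rw [← hη.2]; exact Measure.map_mono Measure.restrict_le_self m2
      obtain ⟨η', h1, h2, h3⟩ := mid_spread h hR (hμ.mono hν le_rfl le_rfl) hs hs' hr
      rw [← hu, Measure.restrict_apply_univ] at h3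
      refine ⟨η', by rw [hu, h2, ← hu, Measure.restrict_apply_univ], fun l hl => ⟨?_, ?_⟩, h3⟩
      · rw [ae_add_measure_iff, ae_add_measure_iff]
        exact ⟨⟨ae_restrict_of_ae hη.1, Measure.ae_smul_measure (ae_restrict_of_ae hη.1) _⟩,
          Measure.ae_smul_measure h1 _⟩
      · rw [Measure.map_add _ _ m2, Measure.map_add _ _ m2, Measure.map_smul, Measure.map_smul, h2,
          add_assoc, ← add_smul, tsub_add_cancel_of_le hl, one_smul, ← Measure.map_add _ _ m2,
          add_comm, Measure.restrict_add_restrict_compl hBm, hη.2])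
  exact ⟨⟨η, hp η hη⟩, hη.1, hη.2, hle⟩

/-- contraction to a point with bounded density -/
theorem exists_contr [m.IsOpenPosMeasure] (h : CDk m κ N) {μ : Measure X} [IsProbabilityMeasure μ]
    {C : ℝ≥0} {y : X} {R : ℝ} (hμ : Adm m μ C y R) {s : ℝ} (hs : 0 < s) (hs' : s ≤ 1) :
    ∃ q : Measure (X × X), q.fst = μ ∧
      q.snd ≤ ((C * ((s ^ N)⁻¹ * Real.exp (κ * (1 - s) * R ^ 2)).toNNReal : ℝ≥0) : ℝ≥0∞) • m ∧
      ∀ᵐ p ∂q, dist p.2 y = s * dist p.1 y ∧ dist p.1 p.2 = (1 - s) * dist p.1 y := by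
  have hR : 0 ≤ R := by
    obtain ⟨x, hx⟩ := hμ.inn.exists
    exact dist_nonneg.trans hx
  have hC : C ≠ 0 := by
    rintro rfl
    have := hμ.le univ
    simp at this
  let r : ℕ → ℝ := fun n => 1 / ((n : ℝ) + 1)
  have hr : ∀ n, 0 < r n := fun n => Nat.one_div_pos_of_nat
  have hr' : ∀ n, r (n + 1) ≤ r n := fun n => Nat.one_div_le_one_div n.le_succ
  have hr0 : Tendsto r atTop (𝓝 0) := tendsto_one_div_add_atTop_nhds_zero_nat
  have hM : ∀ n, midM C κ N R s (r (n + 1)) ≤ midM C κ N R s (r n) := fun n => by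
    have h1 := hr (n + 1)
    have h2 := hr' n
    have h3 := h.κ_nonneg
    have h4 : 0 ≤ 1 - s := sub_nonneg.2 hs'
    unfold midM
    gcongr
  let K : ℕ → Set (ProbabilityMeasure (X × X × X)) := fun n =>
    {η | (∀ᵐ p ∂(η : Measure (X × X × X)), p ∈ midS y R s (r n)) ∧
      (η : Measure (X × X × X)).map (fun p => p.2.2) = μ ∧
      (η : Measure (X × X × X)).map (fun p => p.2.1) ≤ (midM C κ N R s (r n) : ℝ≥0∞) • m}
  have hcl : ∀ n, IsClosed {η : ProbabilityMeasure (X × X × X) |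
      (η : Measure (X × X × X)).map (fun p => p.2.2) = μ ∧
      (η : Measure (X × X × X)).map (fun p => p.2.1) ≤ (midM C κ N R s (r n) : ℝ≥0∞) • m} :=
    fun n => (isClosed_map_eq (by fun_prop) μ).inter (isClosed_map_le (by fun_prop) _)
  obtain ⟨η, hη⟩ := IsCompact.nonempty_iInter_of_sequence_nonempty_isCompact_isClosed K
    (fun n η hη => ⟨hη.1.mono fun p hp => ⟨hp.1, hp.2.1.trans (hr' n), hp.2.2⟩, hη.2.1,
      hη.2.2.trans fun A => by
        simp only [Measure.smul_apply, smul_eq_mul]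
        gcongr
        exact hM n⟩)
    (fun n => mid_step h hR hμ hs hs' (hr n))
    ((isCompact_ae_mem (midS_compact y R hs' _)).inter_right (hcl 0))
    (fun n => (isClosed_ae_mem (midS_closed y R s _)).inter (hcl n))
  rw [mem_iInter] at hη
  refine ⟨(η : Measure (X × X × X)).map fun p => (p.2.2, p.2.1), ?_, ?_, ?_⟩
  · rw [Measure.fst_map_prodMk (by fun_prop)]
    exact (hη 0).2.1
  · rw [Measure.snd_map_prodMk (by fun_prop)]
    intro A
    have e : (C * ((s ^ N)⁻¹ * Real.exp (κ * (1 - s) * R ^ 2)).toNNReal : ℝ≥0) =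
        midM C κ N R s 0 := by rw [midM, add_zero]
    have h0 : (midM C κ N R s 0 : ℝ≥0∞) ≠ 0 := by
      rw [midM, ENNReal.coe_ne_zero]
      exact mul_ne_zero hC (Real.toNNReal_pos.2 (by positivity)).ne'
    have hc : Continuous fun t => (midM C κ N R s t : ℝ≥0∞) := by
      unfold midM
      refine ENNReal.continuous_coe.comp (continuous_const.mul
        (continuous_real_toNNReal.comp (by fun_prop)))
    rw [e, Measure.smul_apply, smul_eq_mul]
    exact ge_of_tendsto' (ENNReal.Tendsto.mul_const ((hc.tendsto 0).comp hr0) (Or.inl h0))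
      fun n => (hη n).2.2 A
  · refine (ae_map_iff (by fun_prop) (IsClosed.measurableSet (IsClosed.and
      (isClosed_eq (by fun_prop) (by fun_prop)) (isClosed_eq (by fun_prop) (by fun_prop))))).2 ?_
    filter_upwards [ae_all_iff.2 fun n => (hη n).1] with p hp
    have hy : p.1 = y := dist_le_zero.1 (ge_of_tendsto' hr0 fun n => (hp n).2.1)
    obtain ⟨h1, h2⟩ := (hp 0).1
    rw [hy] at h1 h2
    exact ⟨by rw [dist_comm, h1, dist_comm], by rw [dist_comm, h2, dist_comm]⟩

end Crest.Agent.R242
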