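import Crest.Agent.R242.Raj0

/-!
Row 242: the excess mass argument.
-/

set_option autoImplicit false

open MeasureTheory Set Filter Metric Crest.GeometryTopology.SyntheticRicci
open scoped ENNReal NNReal Topology

namespace Crest.Agent.R242

section RajAbstract

variable {Y : Type*} [MeasurableSpace Y] {m ν : Measure Y} {M : ℝ≥0}

/-- `P` is the strict positive set of `ν - M m`. -/
structure RajHahn (m ν : Measure Y) (M : ℝ≥0) (P : Set Y) : Prop where
  meas : MeasurableSet P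
  off : ∀ E, MeasurableSet E → E ⊆ Pᶜ → ν E ≤ M * m E
  on : ∀ E, MeasurableSet E → E ⊆ P → M * m E ≤ ν E
  approx : ∀ c : ℝ≥0∞, (∀ δ : ℝ≥0, 0 < δ → ∀ A, MeasurableSet A →
    (∀ E, MeasurableSet E → E ⊆ A → ((M + δ : ℝ≥0) : ℝ≥0∞) * m E ≤ ν E) → ν A ≤ c) → ν P ≤ c

theorem raj_exists_hahn (m ν : Measure Y) [SigmaFinite m] [IsFiniteMeasure ν] (M : ℝ≥0) :
    ∃ P, RajHahn m ν M P := by
  obtain ⟨s, hs, hs0, hs1⟩ := Measure.mutuallySingular_singularPart ν m
  have hρ : Measurable (ν.rnDeriv m) := Measure.measurable_rnDeriv ν m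
  have hlow : ∀ (c : ℝ≥0∞) (E : Set Y), MeasurableSet E → E ⊆ {x | c < ν.rnDeriv m x} ∪ sᶜ →
      c * m E ≤ ν E := by
    intro c E hE hsub
    refine le_trans ?_ (Measure.setLIntegral_rnDeriv_le (ν := m) E)
    rw [← setLIntegral_const]
    refine lintegral_mono_ae ((ae_restrict_iff' hE).2 ?_)
    have : ∀ᵐ x ∂m, x ∉ sᶜ := measure_eq_zero_iff_ae_notMem.1 hs1
    filter_upwards [this] with x hx hxE
    rcases hsub hxE with h | h
    · exact le_of_lt h
    · exact absurd h hx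
  have hmeas : ∀ c : ℝ≥0∞, MeasurableSet ({x | c < ν.rnDeriv m x} ∪ sᶜ) := fun c =>
    (measurableSet_lt measurable_const hρ).union hs.compl
  refine ⟨{x | (M : ℝ≥0∞) < ν.rnDeriv m x} ∪ sᶜ, hmeas _, fun E hE hsub => ?_, hlow _, ?_⟩
  · rw [compl_union, compl_compl] at hsub
    have h1 : ν E = ν.singularPart m E + m.withDensity (ν.rnDeriv m) E := by
      conv_lhs => rw [Measure.haveLebesgueDecomposition_add ν m]
      rfl
    rw [h1, measure_mono_null (fun x hx => (hsub hx).2) hs0, zero_add, withDensity_apply _ hE,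
      ← setLIntegral_const]
    exact setLIntegral_mono' hE fun x hx => not_lt.1 (hsub hx).1
  · intro c hc
    set δ : ℕ → ℝ≥0 := fun n => 1 / ((n : ℝ≥0) + 1) with hδ
    have hanti : Antitone δ := fun a b hab => by
      simp only [hδ]
      gcongr
    have hU : {x | (M : ℝ≥0∞) < ν.rnDeriv m x} ∪ sᶜ =
        ⋃ n : ℕ, ({x | ((M + δ n : ℝ≥0) : ℝ≥0∞) < ν.rnDeriv m x} ∪ sᶜ) := by
      rw [← iUnion_union]
      congr 1
      ext x
      simp only [mem_ofPred_eq, mem_iUnion]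
      constructor
      · intro hx
        obtain ⟨r, hr, hr'⟩ := ENNReal.lt_iff_exists_add_pos_lt.1 hx
        obtain ⟨n, hn⟩ := exists_nat_one_div_lt (K := ℝ≥0) hr
        refine ⟨n, lt_of_le_of_lt ?_ hr'⟩
        push_cast
        gcongr
      · rintro ⟨n, hn⟩
        exact lt_of_le_of_lt (by exact_mod_cast le_self_add) hn
    rw [hU, Monotone.measure_iUnion]
    · refine iSup_le fun n => hc (δ n) (by positivity) _ (hmeas _) (hlow _)
    · intro a b hab
      refine union_subset_union_left _ fun x hx => ?_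
      refine lt_of_le_of_lt ?_ (mem_ofPred_eq ▸ hx : _ < ν.rnDeriv m x)
      exact_mod_cast add_le_add_right (hanti hab) M

/-- the Hahn set realises the excess -/
theorem RajHahn.le_of_le [IsFiniteMeasure ν] {P : Set Y} (h : RajHahn m ν M P) {B : Set Y}
    (hB : MeasurableSet B) : ν B - M * m B + M * m P ≤ ν P := by
  have h1 : M * m P ≤ ν P := h.on P h.meas subset_rfl
  have hfin : M * m P ≠ ∞ := ne_top_of_le_ne_top (measure_ne_top ν P) h1
  have h2 : ν B + M * m P ≤ ν P + M * m B := by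
    have e1 := h.off (B \ P) (hB.diff h.meas) fun x hx => hx.2
    have e2 := h.on (P \ B) (h.meas.diff hB) sdiff_subset
    rw [← measure_inter_add_sdiff B h.meas (μ := ν), ← measure_inter_add_sdiff P hB (μ := m),
      ← measure_inter_add_sdiff P hB (μ := ν), ← measure_inter_add_sdiff B h.meas (μ := m),
      inter_comm P B, mul_add, mul_add]
    calc ν (B ∩ P) + ν (B \ P) + (M * m (B ∩ P) + M * m (P \ B))
        ≤ ν (B ∩ P) + M * m (B \ P) + (M * m (B ∩ P) + ν (P \ B)) := by gcongr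
      _ = _ := by ring
  refine add_le_of_le_tsub_right_of_le h1 ?_
  rw [tsub_le_iff_right]
  rw [← tsub_add_cancel_of_le h1, add_right_comm] at h2
  exact (ENNReal.add_le_add_iff_right hfin).1 h2

/-- the key inequality for the mixture -/
theorem raj_mix [IsFiniteMeasure ν] {F : ℝ≥0∞} (hF : ∀ B, MeasurableSet B → ν B ≤ F + M * m B)
    {A : Set Y} (hA : MeasurableSet A) {k l c : ℝ≥0∞} (hkl : l + k = 1) (hk : k * c = M)
    (hc : ∀ E, MeasurableSet E → E ⊆ A → c * m E ≤ ν E) {B : Set Y} (hB : MeasurableSet B) :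
    ν (B \ A) + k * ν (B ∩ A) + l * ν A ≤ F + M * m B := by
  have hk1 : k ≤ 1 := hkl ▸ le_add_self
  have hfin : k * ν (A \ B) ≠ ∞ :=
    ENNReal.mul_ne_top (ne_top_of_le_ne_top ENNReal.one_ne_top hk1) (measure_ne_top _ _)
  have h1 := hF (B ∪ A) (hB.union hA)
  have h2 : ν (B ∪ A) = ν (B \ A) + ν A := by
    rw [← measure_union disjoint_sdiff_left hA, sdiff_union_self]
  have h3 : m (B ∪ A) ≤ m B + m (A \ B) := by
    rw [← union_sdiff_self]
    exact measure_union_le _ _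
  have h4 : M * m (A \ B) ≤ k * ν (A \ B) := by
    rw [← hk, mul_assoc]
    gcongr
    exact hc _ (hA.diff hB) sdiff_subset
  have h5 : ν A = l * ν A + (k * ν (B ∩ A) + k * ν (A \ B)) := by
    rw [← mul_add, inter_comm, measure_inter_add_sdiff A hB, ← add_mul, hkl, one_mul]
  refine (ENNReal.add_le_add_iff_right hfin).1 ?_
  calc ν (B \ A) + k * ν (B ∩ A) + l * ν A + k * ν (A \ B)
      = ν (B \ A) + (l * ν A + (k * ν (B ∩ A) + k * ν (A \ B))) := by ring
    _ = ν (B ∪ A) := by rw [← h5, h2]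
    _ ≤ F + M * (m B + m (A \ B)) := h1.trans (by gcongr)
    _ ≤ F + M * m B + k * ν (A \ B) := by
      rw [mul_add, ← add_assoc]
      gcongr

theorem raj_supp_le {ν' : Measure Y} {P : Set Y} (hP : MeasurableSet P) (h : ν' Pᶜ = 0) :
    m {x | 0 < ν'.rnDeriv m x} ≤ m P := by
  have h1 : ∫⁻ x in Pᶜ, ν'.rnDeriv m x ∂m = 0 :=
    le_antisymm (h ▸ Measure.setLIntegral_rnDeriv_le Pᶜ) zero_le
  rw [lintegral_eq_zero_iff (Measure.measurable_rnDeriv _ _), Filter.EventuallyEq,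
    ae_restrict_iff' hP.compl] at h1
  refine measure_mono_ae ?_
  filter_upwards [h1] with x hx hx'
  by_contra hxP
  exact (ne_of_gt hx') (hx hxP)

end RajAbstract

variable {X : Type*} [MetricSpace X] [ProperSpace X] [MeasurableSpace X] [BorelSpace X]
  {m : Measure X} [IsLocallyFiniteMeasure m]

/-- the excess mass -/
noncomputable def rajExc (m ν : Measure X) (M : ℝ≥0) : ℝ≥0∞ :=
  ⨆ (U : Set X) (_ : IsOpen U), ν U - M * m U

theorem raj_le_exc (ν : Measure X) (M : ℝ≥0) (B : Set X) : ν B ≤ rajExc m ν M + M * m B := by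
  refine ENNReal.le_of_forall_pos_le_add fun ε hε _ => ?_
  obtain ⟨U, hBU, hU, hmU⟩ := B.exists_isOpen_le_add m (ε := ((ε / (M + 1) : ℝ≥0) : ℝ≥0∞))
    (by exact_mod_cast (by positivity : (0 : ℝ≥0) < ε / (M + 1)).ne')
  have h1 : ν U - M * m U ≤ rajExc m ν M := le_iSup₂ (f := fun (U : Set X) (_ : IsOpen U) =>
    ν U - M * m U) U hU
  have h2 : (M : ℝ≥0∞) * ((ε / (M + 1) : ℝ≥0) : ℝ≥0∞) ≤ ε := by
    have : M * (ε / (M + 1)) ≤ ε := by
      rw [mul_div_assoc', div_le_iff₀ (by positivity), mul_comm]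
      gcongr
      exact le_self_add
    exact_mod_cast this
  calc ν B ≤ ν U := measure_mono hBU
    _ ≤ rajExc m ν M + M * m U := tsub_le_iff_right.1 h1
    _ ≤ rajExc m ν M + M * (m B + ((ε / (M + 1) : ℝ≥0) : ℝ≥0∞)) := by gcongr
    _ ≤ rajExc m ν M + M * m B + ε := by
      rw [mul_add, ← add_assoc]
      gcongr

omit [ProperSpace X] [IsLocallyFiniteMeasure m] in
theorem raj_exc_le {ν : Measure X} {M : ℝ≥0} {F : ℝ≥0∞}
    (h : ∀ B, MeasurableSet B → ν B ≤ F + M * m B) : rajExc m ν M ≤ F :=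
  iSup₂_le fun U hU => tsub_le_iff_right.2 (h U hU.measurableSet)

omit [ProperSpace X] [IsLocallyFiniteMeasure m] in
theorem RajHahn.exc_add_le {ν : Measure X} [IsFiniteMeasure ν] {M : ℝ≥0} {P : Set X}
    (h : RajHahn m ν M P) : rajExc m ν M + M * m P ≤ ν P := by
  refine add_le_of_le_tsub_right_of_le (h.on P h.meas subset_rfl) (iSup₂_le fun U hU => ?_)
  exact ENNReal.le_sub_of_add_le_right
    (ne_top_of_le_ne_top (measure_ne_top ν P) (h.on P h.meas subset_rfl))
    (h.le_of_le hU.measurableSet)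

omit [ProperSpace X] [IsLocallyFiniteMeasure m] in
theorem raj_lsc {Ω : Type*} [MetricSpace Ω] [MeasurableSpace Ω] [BorelSpace Ω] {e : Ω → X}
    (he : Continuous e) (M : ℝ≥0) :
    LowerSemicontinuous fun η : ProbabilityMeasure Ω => rajExc m ((η : Measure Ω).map e) M := by
  refine lowerSemicontinuous_biSup fun U hU => ?_
  have h1 : LowerSemicontinuous fun η : ProbabilityMeasure Ω => (η : Measure Ω) (e ⁻¹' U) :=
    lowerSemicontinuous_iff_le_liminf.2 fun η =>
      ProbabilityMeasure.le_liminf_measure_open_of_tendsto tendsto_id (hU.preimage he)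
  have h2 := (ENNReal.continuous_sub_right (M * m U)).comp_lowerSemicontinuous h1
    fun a b hab => tsub_le_tsub_right hab _
  convert h2 using 2 with η
  rw [Measure.map_apply he.measurable hU.measurableSet]
  rfl

theorem rajala {Ω : Type*} [MetricSpace Ω] [MeasurableSpace Ω] [BorelSpace Ω] {e : Ω → X}
    (he : Continuous e) {𝒞 : Set (Measure Ω)} (hne : 𝒞.Nonempty)
    (hp : ∀ η ∈ 𝒞, IsProbabilityMeasure η)
    (hc : IsCompact {η : ProbabilityMeasure Ω | (η : Measure Ω) ∈ 𝒞}) {o : X} {R : ℝ}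
    (hb : ∀ η ∈ 𝒞, ∀ᵐ ω ∂η, dist (e ω) o ≤ R) (M : ℝ≥0)
    (hrep : ∀ η ∈ 𝒞, ∀ A : Set X, MeasurableSet A → η (e ⁻¹' A) ≠ 0 → ∃ η' : Measure Ω,
      η' univ = η (e ⁻¹' A) ∧
      (∀ l : ℝ≥0∞, l ≤ 1 → η.restrict (e ⁻¹' A)ᶜ + (1 - l) • η.restrict (e ⁻¹' A) + l • η' ∈ 𝒞) ∧
      η (e ⁻¹' A) ≤ M * m {x | 0 < (η'.map e).rnDeriv m x}) :
    ∃ η ∈ 𝒞, η.map e ≤ (M : ℝ≥0∞) • m := by
  have hem : Measurable e := he.measurable
  obtain ⟨η₁, hη₁⟩ := hne
  obtain ⟨η₀, hη₀, hmin⟩ := ((raj_lsc (m := m) he M).lowerSemicontinuousOn _).exists_isMinOn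
    ⟨⟨η₁, hp η₁ hη₁⟩, hη₁⟩ hc
  set F : ℝ≥0∞ := rajExc m ((η₀ : Measure Ω).map e) M with hF
  have hFmin : ∀ η ∈ 𝒞, F ≤ rajExc m (η.map e) M := fun η hη =>
    isMinOn_iff.1 hmin ⟨η, hp η hη⟩ hη
  set T : Set (Set X) :=
    {P | ∃ η ∈ 𝒞, rajExc m (η.map e) M ≤ F ∧ RajHahn m (η.map e) M P} with hT
  set σ : ℝ≥0∞ := ⨆ P ∈ T, M * m P with hσ
  have hσ1 : σ ≤ 1 := by
    refine iSup₂_le ?_
    rintro P ⟨η, hη, -, hP⟩
    have := hp η hη
    have : IsProbabilityMeasure (η.map e) := Measure.isProbabilityMeasure_map hem.aemeasurable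
    exact (hP.on P hP.meas subset_rfl).trans prob_le_one
  have key : ∀ P ∈ T, F + M * m P ≤ σ := by
    rintro P ⟨η, hη, hηF, hP⟩
    have := hp η hη
    have : IsProbabilityMeasure (η.map e) := Measure.isProbabilityMeasure_map hem.aemeasurable
    refine le_trans (le_trans (by gcongr; exact hFmin η hη) hP.exc_add_le) (hP.approx σ ?_)
    intro δ hδ A hA hlow
    by_cases hA0 : η (e ⁻¹' A) = 0
    · rw [Measure.map_apply hem hA, hA0]; exact zero_le
    obtain ⟨η', hm', hmix, hle⟩ := hrep η hη A hA hA0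
    set l : ℝ≥0 := δ / (M + δ) with hl
    set k : ℝ≥0 := M / (M + δ) with hk
    have hpos : 0 < M + δ := by positivity
    have hlk : l + k = 1 := by
      rw [hl, hk, ← add_div, add_comm, div_self hpos.ne']
    have hlk' : (l : ℝ≥0∞) + k = 1 := by exact_mod_cast hlk
    have hkc : (k : ℝ≥0∞) * ((M + δ : ℝ≥0) : ℝ≥0∞) = M := by
      have : k * (M + δ) = M := div_mul_cancel₀ _ hpos.ne'
      exact_mod_cast this
    have hl0 : (l : ℝ≥0∞) ≠ 0 := by
      exact_mod_cast (by positivity : 0 < δ / (M + δ)).ne'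
    have h1l : (1 : ℝ≥0∞) - l = k :=
      ENNReal.sub_eq_of_eq_add_rev ENNReal.coe_ne_top hlk'.symm
    have hζ := hmix l (hlk' ▸ le_self_add)
    rw [h1l] at hζ
    set ζ := η.restrict (e ⁻¹' A)ᶜ + (k : ℝ≥0∞) • η.restrict (e ⁻¹' A) + (l : ℝ≥0∞) • η' with hζd
    have hζa : ∀ B, MeasurableSet B → ζ.map e B + l * η'.map e Bᶜ ≤ F + M * m B := by
      intro B hB
      have h1 := raj_mix (m := m) (ν := η.map e) (M := M) (F := F)
        (fun B _ => (raj_le_exc _ M B).trans (by gcongr)) hA hlk' hkc hlow hB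
      have h2 : η.map e A = η'.map e B + η'.map e Bᶜ := by
        rw [measure_add_measure_compl hB, Measure.map_apply hem MeasurableSet.univ, preimage_univ,
          hm', Measure.map_apply hem hA]
      rw [h2, mul_add, ← add_assoc] at h1
      convert h1 using 2
      rw [Measure.map_apply hem hB, Measure.map_apply hem hB, Measure.map_apply hem (hB.diff hA),
        Measure.map_apply hem (hB.inter hA), hζd, Measure.add_apply, Measure.add_apply,
        Measure.smul_apply, Measure.smul_apply, Measure.restrict_apply (hem hB),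
        Measure.restrict_apply (hem hB)]
      rfl
    have := hp ζ hζ
    have : IsProbabilityMeasure (ζ.map e) := Measure.isProbabilityMeasure_map hem.aemeasurable
    obtain ⟨Q, hQ⟩ := raj_exists_hahn m (ζ.map e) M
    have hQT : Q ∈ T := ⟨ζ, hζ, raj_exc_le fun B hB => le_self_add.trans (hζa B hB), hQ⟩
    have hQ0 : η'.map e Qᶜ = 0 := by
      have h1 : ζ.map e Q + l * η'.map e Qᶜ ≤ ζ.map e Q + 0 := by
        rw [add_zero]
        exact (hζa Q hQ.meas).trans (le_trans (by gcongr; exact hFmin ζ hζ) hQ.exc_add_le)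
      have h2 := (ENNReal.add_le_add_iff_left (measure_ne_top _ _)).1 h1
      exact (mul_eq_zero.1 (le_antisymm h2 zero_le)).resolve_left hl0
    calc η.map e A = η (e ⁻¹' A) := Measure.map_apply hem hA
      _ ≤ M * m {x | 0 < (η'.map e).rnDeriv m x} := hle
      _ ≤ M * m Q := mul_le_mul_right (raj_supp_le hQ.meas hQ0) _
      _ ≤ σ := le_iSup₂ (f := fun P (_ : P ∈ T) => M * m P) Q hQT
  have hF0 : F = 0 := by
    obtain ⟨P₀, hP₀⟩ := raj_exists_hahn m ((η₀ : Measure Ω).map e) M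
    have hne : ∃ P, P ∈ T := ⟨P₀, η₀, hη₀, le_rfl, hP₀⟩
    have h1 : F + σ ≤ 0 + σ := by
      rw [zero_add, hσ, ENNReal.add_biSup' hne]
      exact iSup₂_le key
    exact le_antisymm ((ENNReal.add_le_add_iff_right
      (ne_top_of_le_ne_top ENNReal.one_ne_top hσ1)).1 h1) zero_le
  refine ⟨η₀, hη₀, Measure.le_iff'.2 fun B => ?_⟩
  have := raj_le_exc (m := m) ((η₀ : Measure Ω).map e) M B
  rwa [← hF, hF0, zero_add] at this

end Crest.Agent.R242
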