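import Crest.Agent.R242.Tri0
import Crest.Agent.R242.Raj

/-!
Row 242: midpoints with bounded density.
-/

set_option autoImplicit false
set_option linter.unusedSectionVars false

open MeasureTheory Set Filter Metric Crest.GeometryTopology.SyntheticRicci
open scoped ENNReal NNReal Topology

namespace Crest.Agent.R242

variable {X : Type*} [MetricSpace X] [ProperSpace X] [MeasurableSpace X] [BorelSpace X]
  {m : Measure X} [IsLocallyFiniteMeasure m] {κ N : ℝ}

theorem mid0_fst (η : Measure (X × X × X)) : (ends η).fst = η.map fun p => p.1 := by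
  rw [ends, Measure.fst, Measure.map_map measurable_fst (by fun_prop)]
  rfl

theorem mid0_snd (η : Measure (X × X × X)) : (ends η).snd = η.map fun p => p.2.2 := by
  rw [ends, Measure.snd, Measure.map_map measurable_snd (by fun_prop)]
  rfl

theorem mid0_cost (η : Measure (X × X × X)) :
    quadCost (ends η) = ∫⁻ p, ((nndist p.1 p.2.2 ^ 2 : ℝ≥0) : ℝ≥0∞) ∂η := by
  rw [quadCost, ends, lintegral_map (by fun_prop) (by fun_prop)]
  simp only [edist_nndist, ENNReal.coe_pow]

theorem mid0_univ (η : Measure (X × X × X)) : η univ = (ends η).fst univ := by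
  rw [mid0_fst, Measure.map_apply measurable_fst MeasurableSet.univ, preimage_univ]

theorem mid0_univ' (η : Measure (X × X × X)) : η univ = (ends η).snd univ := by
  rw [mid0_snd, Measure.map_apply (by fun_prop) MeasurableSet.univ, preimage_univ]

theorem mid0_mix {Y Z : Type*} [MeasurableSpace Y] [MeasurableSpace Z] {f : Y → Z}
    (hf : Measurable f) {a b b' : Measure Y} (h : b'.map f = b.map f) {l : ℝ≥0∞} (hl : l ≤ 1) :
    (a + (1 - l) • b + l • b').map f = (a + b).map f := by
  rw [Measure.map_add _ _ hf, Measure.map_add _ _ hf, Measure.map_add _ _ hf, Measure.map_smul,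
    Measure.map_smul, h, add_assoc, ← add_smul, tsub_add_cancel_of_le hl, one_smul]

/-- midpoints with bounded density -/
theorem exists_mid (h : CDk m κ N) {μ₀ μ₁ : Measure X} [IsProbabilityMeasure μ₀]
    [IsProbabilityMeasure μ₁] {C : ℝ≥0} {o : X} {R : ℝ} (h₀ : Adm m μ₀ C o R) (h₁ : Adm m μ₁ C o R)
    {d : ℝ} (hd : 0 ≤ d)
    (hP : ∀ q : Measure (X × X), q.fst = μ₀ → q.snd = μ₁ → Opt q → ∀ᵐ p ∂q, dist p.1 p.2 ≤ d) :
    ∃ η : Measure (X × X × X), IsTri (1 / 2) η ∧ (ends η).fst = μ₀ ∧ (ends η).snd = μ₁ ∧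
      Opt (ends η) ∧ mid η ≤ ((C * (Real.exp (κ * d ^ 2 / 2)).toNNReal : ℝ≥0) : ℝ≥0∞) • m := by
  have hhalf : (1 / 2 : ℝ) ∈ Icc (0 : ℝ) 1 := ⟨by norm_num, by norm_num⟩
  obtain ⟨η₀, t₀, f₀, s₀, o₀, -⟩ := exists_tri_spread h (μ₀ := μ₀) (μ₁ := μ₁) (by simp) h₀.ac h₁.ac
    h₀.inn h₁.inn hhalf
  let 𝒞 : Set (Measure (X × X × X)) := {η | IsTri (1 / 2) η ∧ (ends η).fst = μ₀ ∧
    (ends η).snd = μ₁ ∧ quadCost (ends η) ≤ quadCost (ends η₀)}
  have hopt : ∀ η ∈ 𝒞, Opt (ends η) := fun η hη q' e0 e1 =>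
    hη.2.2.2.trans (o₀ q' (by rw [e0, hη.2.1, f₀]) (by rw [e1, hη.2.2.1, s₀]))
  have hball : ∀ η ∈ 𝒞, ∀ᵐ p ∂η,
      p ∈ closedBall o R ×ˢ closedBall o (2 * R) ×ˢ closedBall o R := by
    intro η hη
    have b0 : ∀ᵐ p ∂η, dist p.1 o ≤ R :=
      ae_of_ae_map (f := fun p : X × X × X => p.1) (p := fun x => dist x o ≤ R) (by fun_prop)
        (by rw [← mid0_fst, hη.2.1]; exact h₀.inn)
    have b1 : ∀ᵐ p ∂η, dist p.2.2 o ≤ R :=
      ae_of_ae_map (f := fun p : X × X × X => p.2.2) (p := fun x => dist x o ≤ R) (by fun_prop)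
        (by rw [← mid0_snd, hη.2.2.1]; exact h₁.inn)
    filter_upwards [b0, b1, hη.1] with p c0 c1 c2
    refine ⟨c0, ?_, c1⟩
    have c3 := dist_triangle_right p.1 p.2.2 o
    have c4 := dist_triangle p.2.1 p.2.2 o
    rw [mem_closedBall]
    linarith [c2.2]
  have hclosed : IsClosed {η : ProbabilityMeasure (X × X × X) | (η : Measure (X × X × X)) ∈ 𝒞} := by
    have c1 : IsClosed {p : X × X × X | dist p.1 p.2.1 = 1 / 2 * dist p.1 p.2.2 ∧
        dist p.2.1 p.2.2 = (1 - 1 / 2) * dist p.1 p.2.2} :=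
      (isClosed_eq (by fun_prop) (by fun_prop)).inter (isClosed_eq (by fun_prop) (by fun_prop))
    simp only [𝒞, mem_ofPred_eq, mid0_fst, mid0_snd]
    refine (isClosed_ae_mem c1).and ((isClosed_map_eq continuous_fst μ₀).and
      ((isClosed_map_eq (e := fun p : X × X × X => p.2.2) (by fun_prop) μ₁).and ?_))
    generalize quadCost (ends η₀) = c
    simp only [mid0_cost]
    exact isClosed_lintegral_le (f := fun p : X × X × X => nndist p.1 p.2.2 ^ 2) (by fun_prop) c
  obtain ⟨η, hη, hle⟩ := rajala (m := m) (e := fun p : X × X × X => p.2.1) (by fun_prop) (𝒞 := 𝒞)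
    ⟨η₀, t₀, f₀, s₀, le_rfl⟩ (fun η hη => ⟨by rw [mid0_univ, hη.2.1, measure_univ]⟩)
    ((isCompact_ae_mem ((isCompact_closedBall o R).prod ((isCompact_closedBall o (2 * R)).prod
      (isCompact_closedBall o R)))).of_isClosed_subset hclosed fun η hη => hball η hη)
    (o := o) (R := 2 * R) (fun η hη => (hball η hη).mono fun p hp => hp.2.1)
    (C * (Real.exp (κ * d ^ 2 / 2)).toNNReal) (fun η hη A hA _ => by
      have hB : MeasurableSet ((fun p : X × X × X => p.2.1) ⁻¹' A) := hA.preimage (by fun_prop)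
      generalize (fun p : X × X × X => p.2.1) ⁻¹' A = B at hB
      have hsum : η.restrict Bᶜ + η.restrict B = η := Measure.restrict_compl_add_restrict hB
      have l0 : (ends (η.restrict B)).fst ≤ μ₀ := by
        rw [← hη.2.1, mid0_fst, mid0_fst]
        exact Measure.map_mono Measure.restrict_le_self measurable_fst
      have l1 : (ends (η.restrict B)).snd ≤ μ₁ := by
        rw [← hη.2.2.1, mid0_snd, mid0_snd]
        exact Measure.map_mono Measure.restrict_le_self (by fun_prop)
      have a0 := h₀.mono l0 le_rfl le_rfl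
      have a1 := h₁.mono l1 le_rfl le_rfl
      have i0 := a0.isFiniteMeasure
      have i1 := a1.isFiniteMeasure
      obtain ⟨η', t', f', s', o', hs⟩ := exists_tri_spread h
        ((mid0_univ _).symm.trans (mid0_univ' _)) a0.ac a1.ac a0.inn a1.inn hhalf
      have hmix : ∀ l : ℝ≥0∞, l ≤ 1 → η.restrict Bᶜ + (1 - l) • η.restrict B + l • η' ∈ 𝒞 := by
        intro l hl
        refine ⟨?_, ?_, ?_, ?_⟩
        · refine ae_add_measure_iff.2 ⟨ae_add_measure_iff.2 ⟨ae_restrict_of_ae hη.1, ?_⟩, ?_⟩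
          · exact Measure.ae_smul_measure (ae_restrict_of_ae hη.1) _
          · exact Measure.ae_smul_measure t' _
        · rw [mid0_fst, mid0_mix measurable_fst (by rw [← mid0_fst, ← mid0_fst, f']) hl, hsum,
            ← mid0_fst, hη.2.1]
        · rw [mid0_snd, mid0_mix (by fun_prop) (by rw [← mid0_snd, ← mid0_snd, s']) hl, hsum,
            ← mid0_snd, hη.2.2.1]
        · refine le_trans ?_ hη.2.2.2
          have c1 := o' _ f'.symm s'.symm
          conv_rhs => rw [← hsum]
          simp only [mid0_cost, lintegral_add_measure, lintegral_smul_measure, smul_eq_mul] at c1 ⊢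
          rw [add_assoc]
          refine add_le_add le_rfl ((add_le_add le_rfl (mul_le_mul' le_rfl c1)).trans_eq ?_)
          rw [← add_mul, tsub_add_cancel_of_le hl, one_mul]
      refine ⟨η', ?_, hmix, ?_⟩
      · rw [mid0_univ, f', ← mid0_univ, Measure.restrict_apply_univ]
      · have c1 := hmix 1 le_rfl
        have c2 := hP _ c1.2.1 c1.2.2.1 (hopt _ c1)
        have c3 : ∀ᵐ p ∂(ends η'), dist p.1 p.2 ≤ d := by
          refine ae_mono (Measure.map_mono ?_ (by fun_prop)) c2
          rw [one_smul]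
          exact Measure.le_add_left le_rfl
        have c4 := (hs C d hd c3 a1.le).2 rfl a0.le
        rw [← mid0_univ', Measure.restrict_apply_univ] at c4
        rw [ENNReal.coe_mul]
        exact c4)
  exact ⟨η, hη.1, hη.2.1, hη.2.2.1, hopt η hη, hle⟩

end Crest.Agent.R242
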