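import Crest.Agent.R242.CalcW

/-!
Row 242: the pointwise parallelogram identity.
-/

set_option autoImplicit false

open MeasureTheory Set Filter Metric Crest.GeometryTopology.SyntheticRicci
open scoped ENNReal NNReal Topology

namespace Crest.Agent.R242

variable {X : Type*} [MetricSpace X] [ProperSpace X] [MeasurableSpace X] [BorelSpace X]
  {m : Measure X} [IsLocallyFiniteMeasure m] {f g h : X → ℝ}

theorem Gm_aemeasurable (hf : IsSobolevLoc m f) (hg : IsSobolevLoc m g) :
    AEMeasurable (Gm m f g) m :=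
  (((Dw_aemeasurable (sl_add hf hg)).pow_const 2).sub
    ((Dw_aemeasurable (sl_sub hf hg)).pow_const 2)).div_const 4

theorem Gm_self (hf : IsSobolevLoc m f) : ∀ᵐ x ∂m, Gm m f f x = Dw m f x ^ 2 := by
  have e1 : (fun y => f y + f y) = fun y => 2 * f y := by ext y; ring
  have e2 : (fun y => f y - f y) = fun _ => (0 : ℝ) := by ext y; ring
  filter_upwards [Dw_const_mul hf 2, Dw_const (m := m) 0] with x h1 h2
  change (Dw m (fun y => f y + f y) x ^ 2 - Dw m (fun y => f y - f y) x ^ 2) / 4 = _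
  rw [e1, e2, h1, h2, abs_two]
  ring

theorem Gm_comm (hf : IsSobolevLoc m f) (hg : IsSobolevLoc m g) :
    ∀ᵐ x ∂m, Gm m f g x = Gm m g f x := by
  have e1 : (fun y => f y + g y) = fun y => g y + f y := by ext y; ring
  filter_upwards [Dw_sub_comm hf hg] with x h1
  change (Dw m (fun y => f y + g y) x ^ 2 - Dw m (fun y => f y - g y) x ^ 2) / 4 =
    (Dw m (fun y => g y + f y) x ^ 2 - Dw m (fun y => g y - f y) x ^ 2) / 4
  rw [e1, h1]

theorem Gm_loc {f' g' : X → ℝ} (hf : IsSobolevLoc m f) (hg : IsSobolevLoc m g)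
    (hf' : IsSobolevLoc m f') (hg' : IsSobolevLoc m g') :
    ∀ᵐ x ∂m, f x = f' x → g x = g' x → Gm m f g x = Gm m f' g' x := by
  filter_upwards [Dw_loc (sl_add hf hg) (sl_add hf' hg'), Dw_loc (sl_sub hf hg) (sl_sub hf' hg')]
    with x h1 h2 e1 e2
  change (Dw m (fun y => f y + g y) x ^ 2 - Dw m (fun y => f y - g y) x ^ 2) / 4 =
    (Dw m (fun y => f' y + g' y) x ^ 2 - Dw m (fun y => f' y - g' y) x ^ 2) / 4
  rw [h1 (by rw [e1, e2]), h2 (by rw [e1, e2])]

theorem Gm_congr {f' g' : X → ℝ} (hf : IsSobolevLoc m f) (hg : IsSobolevLoc m g)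
    (e : f =ᵐ[m] f') (e' : g =ᵐ[m] g') : Gm m f g =ᵐ[m] Gm m f' g' := by
  filter_upwards [Gm_loc hf hg (sl_congr hf e) (sl_congr hg e'), e, e'] with x h1 h2 h3
  exact h1 h2 h3

/-- the defect in the parallelogram identity -/
noncomputable def parQ (m : Measure X) (f g : X → ℝ) (x : X) : ℝ :=
  Dw m (fun y => f y + g y) x ^ 2 + Dw m (fun y => f y - g y) x ^ 2 -
    2 * Dw m f x ^ 2 - 2 * Dw m g x ^ 2

theorem par_sl_add_const (hf : IsSobolevLoc m f) (a : ℝ) : IsSobolevLoc m fun x => f x + a :=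
  sl_add hf (sl_const a)

theorem parQ_add_const (hf : IsSobolevLoc m f) (hg : IsSobolevLoc m g) (a b : ℝ) :
    ∀ᵐ x ∂m, parQ m (fun y => f y + a) (fun y => g y + b) x = parQ m f g x := by
  have e1 : (fun y => f y + a + (g y + b)) = fun y => (f y + g y) + (a + b) := by ext y; ring
  have e2 : (fun y => f y + a - (g y + b)) = fun y => (f y - g y) + (a - b) := by ext y; ring
  filter_upwards [Dw_add_const (sl_add hf hg) (a + b), Dw_add_const (sl_sub hf hg) (a - b),
    Dw_add_const hf a, Dw_add_const hg b] with x h1 h2 h3 h4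
  unfold parQ
  rw [e1, e2, h1, h2, h3, h4]

theorem parQ_neg_left (hf : IsSobolevLoc m f) (hg : IsSobolevLoc m g) :
    ∀ᵐ x ∂m, parQ m (fun y => -f y) g x = parQ m f g x := by
  have e1 : (fun y => -f y + g y) = fun y => -(f y - g y) := by ext y; ring
  have e2 : (fun y => -f y - g y) = fun y => -(f y + g y) := by ext y; ring
  filter_upwards [Dw_neg (sl_add hf hg), Dw_neg (sl_sub hf hg), Dw_neg hf] with x h1 h2 h3
  unfold parQ
  rw [e1, e2, h1, h2, h3]
  ring

theorem parQ_neg_right (hg : IsSobolevLoc m g) :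
    ∀ᵐ x ∂m, parQ m f (fun y => -g y) x = parQ m f g x := by
  have e1 : (fun y => f y + -g y) = fun y => f y - g y := by ext y; ring
  have e2 : (fun y => f y - -g y) = fun y => f y + g y := by ext y; ring
  filter_upwards [Dw_neg hg] with x h3
  unfold parQ
  rw [e1, e2, h3]
  ring

theorem parQ_loc {f' g' : X → ℝ} (hf : IsSobolevLoc m f) (hg : IsSobolevLoc m g)
    (hf' : IsSobolevLoc m f') (hg' : IsSobolevLoc m g') :
    ∀ᵐ x ∂m, f x = f' x → g x = g' x → parQ m f g x = parQ m f' g' x := by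
  filter_upwards [Dw_loc (sl_add hf hg) (sl_add hf' hg'), Dw_loc (sl_sub hf hg) (sl_sub hf' hg'),
    Dw_loc hf hf', Dw_loc hg hg'] with x h1 h2 h3 h4 e1 e2
  unfold parQ
  rw [h1 (by rw [e1, e2]), h2 (by rw [e1, e2]), h3 e1, h4 e2]

/-- the triangular wave -/
noncomputable def parS (ε t : ℝ) : ℝ := ε * |t / ε - round (t / ε)|

theorem parS_abs_le {ε : ℝ} (hε : 0 < ε) (t : ℝ) : |parS ε t| ≤ ε / 2 := by
  unfold parS
  rw [abs_mul, abs_abs, abs_of_pos hε]
  have := abs_sub_round (t / ε)
  nlinarith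

theorem parS_lip {ε : ℝ} (hε : 0 < ε) : LipschitzWith 1 (parS ε) := by
  refine LipschitzWith.of_le_add fun s t => ?_
  unfold parS
  have h1 := round_le (s / ε) (round (t / ε))
  have h2 : |s / ε - round (t / ε)| ≤ |t / ε - round (t / ε)| + |s / ε - t / ε| := by
    have : s / ε - round (t / ε) = (t / ε - round (t / ε)) + (s / ε - t / ε) := by ring
    rw [this]; exact abs_add_le _ _
  have h3 : ε * |s / ε - t / ε| = dist s t := by
    rw [← sub_div, abs_div, abs_of_pos hε, Real.dist_eq]; field_simp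
  rw [← h3, ← mul_add]
  exact mul_le_mul_of_nonneg_left (h1.trans h2) hε.le

theorem parS_cases {ε : ℝ} (hε : 0 < ε) (t : ℝ) :
    ∃ k : ℤ, parS ε t = t + ε * k ∨ parS ε t = -t + ε * k := by
  unfold parS
  rcases abs_cases (t / ε - round (t / ε)) with h | h
  · refine ⟨-round (t / ε), Or.inl ?_⟩
    rw [h.1]; push_cast; field_simp; ring
  · refine ⟨round (t / ε), Or.inr ?_⟩
    rw [h.1]; field_simp; ring

theorem parQ_wave_left (hf : IsSobolevLoc m f) (hg : IsSobolevLoc m g) {ε : ℝ} (hε : 0 < ε) :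
    ∀ᵐ x ∂m, parQ m (fun y => parS ε (f y)) g x = parQ m f g x := by
  have hS := sl_comp_lip hf (parS_lip hε)
  have A : ∀ k : ℤ, ∀ᵐ x ∂m, parS ε (f x) = f x + ε * k →
      parQ m (fun y => parS ε (f y)) g x = parQ m f g x := by
    intro k
    filter_upwards [parQ_loc hS hg (par_sl_add_const hf (ε * k)) (par_sl_add_const hg 0),
      parQ_add_const hf hg (ε * k) 0] with x h1 h2 e
    rw [h1 e (add_zero _).symm, h2]
  have B : ∀ k : ℤ, ∀ᵐ x ∂m, parS ε (f x) = -f x + ε * k →
      parQ m (fun y => parS ε (f y)) g x = parQ m f g x := by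
    intro k
    filter_upwards [parQ_loc hS hg (par_sl_add_const (sl_neg hf) (ε * k)) (par_sl_add_const hg 0),
      parQ_add_const (sl_neg hf) hg (ε * k) 0, parQ_neg_left hf hg] with x h1 h2 h3 e
    rw [h1 e (add_zero _).symm, h2, h3]
  filter_upwards [ae_all_iff.2 A, ae_all_iff.2 B] with x hA hB
  obtain ⟨k, hk | hk⟩ := parS_cases hε (f x)
  exacts [hA k hk, hB k hk]

theorem parQ_wave_right (hf : IsSobolevLoc m f) (hg : IsSobolevLoc m g) {ε : ℝ} (hε : 0 < ε) :
    ∀ᵐ x ∂m, parQ m f (fun y => parS ε (g y)) x = parQ m f g x := by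
  have hS := sl_comp_lip hg (parS_lip hε)
  have A : ∀ k : ℤ, ∀ᵐ x ∂m, parS ε (g x) = g x + ε * k →
      parQ m f (fun y => parS ε (g y)) x = parQ m f g x := by
    intro k
    filter_upwards [parQ_loc hf hS (par_sl_add_const hf 0) (par_sl_add_const hg (ε * k)),
      parQ_add_const hf hg 0 (ε * k)] with x h1 h2 e
    rw [h1 (add_zero _).symm e, h2]
  have B : ∀ k : ℤ, ∀ᵐ x ∂m, parS ε (g x) = -g x + ε * k →
      parQ m f (fun y => parS ε (g y)) x = parQ m f g x := by
    intro k
    filter_upwards [parQ_loc hf hS (par_sl_add_const hf 0) (par_sl_add_const (sl_neg hg) (ε * k)),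
      parQ_add_const hf (sl_neg hg) 0 (ε * k), parQ_neg_right (f := f) hg] with x h1 h2 h3 e
    rw [h1 (add_zero _).symm e, h2, h3]
  filter_upwards [ae_all_iff.2 A, ae_all_iff.2 B] with x hA hB
  obtain ⟨k, hk | hk⟩ := parS_cases hε (g x)
  exacts [hA k hk, hB k hk]

/-- two-sided Leibniz estimate -/
theorem par_leibniz {w χ : X → ℝ} (hw : IsSobolevLoc m w) (hχ : BL χ) :
    ∀ᵐ x ∂m, |Dw m (fun y => w y * χ y) x - |χ x| * Dw m w x| ≤ |w x| * Dw m χ x := by
  have hs := sl_mul_BL hw hχ
  have A : ∀ c : ℚ, ∀ᵐ x ∂m, |Dw m (fun y => w y * χ y) x - |(c : ℝ)| * Dw m w x| ≤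
      |χ x - c| * Dw m w x + |w x| * Dw m χ x := by
    intro c
    have hc : BL fun y => χ y + -(c : ℝ) := hχ.add (BL.const _)
    have e : (fun y => w y * χ y - c * w y) = fun y => w y * (χ y + -(c : ℝ)) := by ext y; ring
    filter_upwards [abs_Dw_sub_le hs (sl_const_mul hw c), Dw_const_mul hw c,
      Dw_mul_le hw hc.sl (sl_mul_BL hw hc), Dw_add_const (hχ.sl (m := m)) (-(c : ℝ))]
      with x h1 h2 h3 h4
    rw [h2, e] at h1
    rw [h4, ← sub_eq_add_neg] at h3
    exact h1.trans h3
  filter_upwards [ae_all_iff.2 A] with x hx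
  have key : ∀ c : ℝ, |Dw m (fun y => w y * χ y) x - |c| * Dw m w x| ≤
      |χ x - c| * Dw m w x + |w x| * Dw m χ x := fun c =>
    Rat.denseRange_cast.induction_on c (isClosed_le (by fun_prop) (by fun_prop)) hx
  simpa using key (χ x)

theorem par_sq {a b δ E : ℝ} (hb : 0 ≤ b) (h : |a - b| ≤ δ) (hE : b ≤ E) :
    |a ^ 2 - b ^ 2| ≤ δ * (2 * E + δ) := by
  have h0 : 0 ≤ δ := (abs_nonneg _).trans h
  have e : a ^ 2 - b ^ 2 = (a - b) * ((a - b) + 2 * b) := by ring
  rw [e, abs_mul]
  refine mul_le_mul h ?_ (abs_nonneg _) h0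
  refine (abs_add_le _ _).trans ?_
  rw [abs_of_nonneg (by positivity : 0 ≤ 2 * b)]
  linarith

theorem par_leibniz_sq {w χ E : X → ℝ} (hw : IsSobolevLoc m w) (hχ : BL χ) {ε : ℝ}
    (hε1 : ε ≤ 1) (hb : ∀ x, |w x| ≤ ε) (hE : ∀ᵐ x ∂m, Dw m w x ≤ E x) :
    ∀ᵐ x ∂m, |Dw m (fun y => w y * χ y) x ^ 2 - χ x ^ 2 * Dw m w x ^ 2| ≤
      ε * (Dw m χ x * (2 * (|χ x| * E x) + Dw m χ x)) := by
  filter_upwards [par_leibniz hw hχ, hE, Dw_nonneg hw, Dw_nonneg (hχ.sl (m := m))]
    with x h1 h2 h3 h4
  have h5 : |Dw m (fun y => w y * χ y) x - |χ x| * Dw m w x| ≤ ε * Dw m χ x :=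
    h1.trans (mul_le_mul_of_nonneg_right (hb x) h4)
  have h6 := par_sq (E := |χ x| * E x) (by positivity) h5
    (mul_le_mul_of_nonneg_left h2 (abs_nonneg _))
  rw [mul_pow, sq_abs] at h6
  refine h6.trans ?_
  have hε0 : 0 ≤ ε := (abs_nonneg _).trans (hb x)
  rw [mul_assoc]
  gcongr
  exact mul_le_of_le_one_left h4 hε1

theorem parQ_integrable (hf : IsSobolev m f) (hg : IsSobolev m g) : Integrable (parQ m f g) m :=
  (((sob_add hf hg).2.2.integrable_sq.add (sob_sub hf hg).2.2.integrable_sq).sub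
    (hf.2.2.integrable_sq.const_mul 2)).sub (hg.2.2.integrable_sq.const_mul 2)

theorem parQ_integral (H : IsInfHilbertian m) (hf : IsSobolev m f) (hg : IsSobolev m g) :
    ∫ x, parQ m f g x ∂m = 0 := by
  have i1 := (sob_add hf hg).2.2.integrable_sq
  have i2 := (sob_sub hf hg).2.2.integrable_sq
  have i3 := hf.2.2.integrable_sq
  have i4 := hg.2.2.integrable_sq
  have h := H f g hf hg
  have n : ∀ u : X → ℝ, 0 ≤ ∫ x, u x ^ 2 ∂m := fun u => integral_nonneg fun _ => sq_nonneg _
  rw [← ofReal_integral_eq_lintegral_ofReal i1 (Eventually.of_forall fun _ => sq_nonneg _),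
    ← ofReal_integral_eq_lintegral_ofReal i2 (Eventually.of_forall fun _ => sq_nonneg _),
    ← ofReal_integral_eq_lintegral_ofReal i3 (Eventually.of_forall fun _ => sq_nonneg _),
    ← ofReal_integral_eq_lintegral_ofReal i4 (Eventually.of_forall fun _ => sq_nonneg _),
    ← ENNReal.ofReal_add (n _) (n _), ← ENNReal.ofReal_ofNat 2,
    ← ENNReal.ofReal_mul zero_le_two, ← ENNReal.ofReal_mul zero_le_two,
    ← ENNReal.ofReal_add (mul_nonneg zero_le_two (n _)) (mul_nonneg zero_le_two (n _)),
    ENNReal.ofReal_eq_ofReal_iff (add_nonneg (n _) (n _))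
      (add_nonneg (mul_nonneg zero_le_two (n _)) (mul_nonneg zero_le_two (n _)))] at h
  unfold parQ
  rw [integral_sub, integral_sub, integral_add i1 i2, integral_const_mul, integral_const_mul]
  · linarith
  · exact i1.add i2
  · exact i3.const_mul 2
  · exact (i1.add i2).sub (i3.const_mul 2)
  · exact i4.const_mul 2

theorem parQ_locallyIntegrable (hf : IsSobolevLoc m f) (hg : IsSobolevLoc m g) :
    LocallyIntegrable (parQ m f g) m := by
  intro x
  refine ⟨ball x 1, ball_mem_nhds x one_pos, ?_⟩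
  exact (((Dw_l2 (sl_add hf hg) x 1).integrable_sq.add
    (Dw_l2 (sl_sub hf hg) x 1).integrable_sq).sub
    ((Dw_l2 hf x 1).integrable_sq.const_mul 2)).sub ((Dw_l2 hg x 1).integrable_sq.const_mul 2)

theorem parQ_test (H : IsInfHilbertian m) (hf : IsSobolevLoc m f) (hg : IsSobolevLoc m g)
    {χ : X → ℝ} {L : ℝ≥0} (hL : LipschitzWith L χ) {o : X} {R : ℝ}
    (hR : ∀ x, R < dist x o → χ x = 0) : ∫ x, χ x ^ 2 * parQ m f g x ∂m = 0 := by
  have hc : HasCompactSupport χ := hasCompactSupport_of_ball hR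
  have hχ : BL χ := BL.of_compactSupport hL hc
  have hχs : IsSobolev m χ := sob_of_compactSupport hL hc
  obtain ⟨B, hB⟩ := hχ.bdd
  set E : X → ℝ := fun x => Dw m f x + Dw m g x with hE
  have hE2 : IsL2OnBalls m E := l2b_add (Dw_l2 hf) (Dw_l2 hg)
  have hχE : MemLp (fun x => |χ x| * E x) 2 m := by
    refine memLp_of_l2b (o := o) (R := R) (l2b_of_le (l2b_const_mul hE2 B) ?_ ?_) ?_
    · exact (hL.continuous.abs.measurable.aemeasurable).mul (l2b_aemeasurable hE2)
    · filter_upwards [Dw_nonneg hf, Dw_nonneg hg] with x h1 h2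
      have h3 : 0 ≤ E x := add_nonneg h1 h2
      rw [abs_mul, abs_abs, abs_of_nonneg h3]
      exact mul_le_mul_of_nonneg_right (hB x) h3
    · exact Eventually.of_forall fun x hx => by rw [hR x hx, abs_zero, zero_mul]
  set G : X → ℝ := fun x => Dw m χ x * (2 * (|χ x| * E x) + Dw m χ x) with hG
  have hGi : Integrable G m := hχs.2.2.integrable_mul ((hχE.const_mul 2).add hχs.2.2)
  have hQi : Integrable (fun x => χ x ^ 2 * parQ m f g x) m := by
    have := (parQ_locallyIntegrable hf hg).integrable_smul_left_of_hasCompactSupport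
      (g := fun x => χ x ^ 2) (hL.continuous.pow 2)
      (hc.comp_left (g := fun t : ℝ => t ^ 2) (by simp))
    simpa only [smul_eq_mul] using this
  have key : ∀ ε : ℝ, 0 < ε → ε ≤ 1 →
      |∫ x, χ x ^ 2 * parQ m f g x ∂m| ≤ ε * (6 * ∫ x, G x ∂m) := by
    intro ε hε hε1
    set a : X → ℝ := fun y => parS ε (f y) with ha
    set b : X → ℝ := fun y => parS ε (g y) with hb
    have sa : IsSobolevLoc m a := sl_comp_lip hf (parS_lip hε)
    have sb : IsSobolevLoc m b := sl_comp_lip hg (parS_lip hε)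
    have su : IsSobolev m fun y => a y * χ y := sob_of_support (sl_mul_BL sa hχ) (o := o) (R := R)
      (Eventually.of_forall fun x hx => by rw [hR x hx, mul_zero])
    have sv : IsSobolev m fun y => b y * χ y := sob_of_support (sl_mul_BL sb hχ) (o := o) (R := R)
      (Eventually.of_forall fun x hx => by rw [hR x hx, mul_zero])
    have ba : ∀ x, |a x| ≤ ε / 2 := fun x => parS_abs_le hε _
    have bb : ∀ x, |b x| ≤ ε / 2 := fun x => parS_abs_le hε _
    have da : ∀ᵐ x ∂m, Dw m a x ≤ Dw m f x := by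
      filter_upwards [Dw_comp_lip_le hf (parS_lip hε)] with x hx
      simpa using hx
    have db : ∀ᵐ x ∂m, Dw m b x ≤ Dw m g x := by
      filter_upwards [Dw_comp_lip_le hg (parS_lip hε)] with x hx
      simpa using hx
    have k1 := par_leibniz_sq (E := E) (sl_add sa sb) hχ hε1
      (fun x => (abs_add_le _ _).trans (by linarith [ba x, bb x])) (by
        filter_upwards [Dw_add_le sa sb, da, db] with x h1 h2 h3
        exact h1.trans (add_le_add h2 h3))
    have k2 := par_leibniz_sq (E := E) (sl_sub sa sb) hχ hε1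
      (fun x => (abs_sub _ _).trans (by linarith [ba x, bb x])) (by
        filter_upwards [Dw_sub_le sa sb, da, db] with x h1 h2 h3
        exact h1.trans (add_le_add h2 h3))
    have k3 := par_leibniz_sq (E := E) sa hχ hε1
      (fun x => (ba x).trans (by linarith)) (by
        filter_upwards [da, Dw_nonneg hg] with x h1 h2
        exact h1.trans (le_add_of_nonneg_right h2))
    have k4 := par_leibniz_sq (E := E) sb hχ hε1
      (fun x => (bb x).trans (by linarith)) (by
        filter_upwards [db, Dw_nonneg hf] with x h1 h2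
        exact h1.trans (le_add_of_nonneg_left h2))
    have e1 : (fun y => a y * χ y + b y * χ y) = fun y => (a y + b y) * χ y := by ext y; ring
    have e2 : (fun y => a y * χ y - b y * χ y) = fun y => (a y - b y) * χ y := by ext y; ring
    have pt : ∀ᵐ x ∂m, ‖χ x ^ 2 * parQ m f g x -
        parQ m (fun y => a y * χ y) (fun y => b y * χ y) x‖ ≤ ε * (6 * G x) := by
      filter_upwards [k1, k2, k3, k4, parQ_wave_left hf sb hε, parQ_wave_right hf hg hε]
        with x h1 h2 h3 h4 h5 h6
      rw [← h6, ← h5, Real.norm_eq_abs]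
      change |χ x ^ 2 * parQ m a b x - _| ≤ _
      unfold parQ
      rw [e1, e2]
      rw [abs_le] at h1 h2 h3 h4 ⊢
      simp only [hG]
      constructor <;> linarith [h1.1, h1.2, h2.1, h2.2, h3.1, h3.2, h4.1, h4.2]
    have := norm_integral_le_of_norm_le ((hGi.const_mul 6).const_mul ε) pt
    rw [integral_sub hQi (parQ_integrable su sv), parQ_integral H su sv, sub_zero,
      integral_const_mul, integral_const_mul, Real.norm_eq_abs] at this
    exact this
  have lim : Tendsto (fun ε : ℝ => ε * (6 * ∫ x, G x ∂m)) (𝓝[>] 0) (𝓝 (0 * (6 * ∫ x, G x ∂m))) :=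
    ((continuous_id.mul continuous_const).tendsto 0).mono_left nhdsWithin_le_nhds
  rw [zero_mul] at lim
  refine abs_nonpos_iff.1 (ge_of_tendsto lim ?_)
  filter_upwards [Ioc_mem_nhdsGT one_pos] with ε hε
  exact key ε hε.1 hε.2

/-- the pointwise parallelogram identity -/
theorem Dw_par (H : IsInfHilbertian m) (hf : IsSobolevLoc m f) (hg : IsSobolevLoc m g) :
    ∀ᵐ x ∂m, Dw m (fun y => f y + g y) x ^ 2 + Dw m (fun y => f y - g y) x ^ 2 =
      2 * Dw m f x ^ 2 + 2 * Dw m g x ^ 2 := by
  have hQ := parQ_locallyIntegrable hf hg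
  have main : parQ m f g =ᵐ[m] 0 := by
    refine ae_eq_zero_of_forall_setIntegral_isCompact_eq_zero' hQ fun K hK => ?_
    rcases K.eq_empty_or_nonempty with rfl | ⟨o, ho⟩
    · simp
    obtain ⟨R, hR⟩ := hK.isBounded.subset_closedBall o
    let χ : ℕ → X → ℝ := fun j x => max 0 (1 - ((j : ℝ) + 1) * infDist x K)
    have hlip : ∀ j : ℕ, LipschitzWith (((j : ℝ≥0) + 1)) (χ j) := by
      intro j
      refine LipschitzWith.const_max (LipschitzWith.of_dist_le_mul fun x y => ?_) 0
      have h1 := (lipschitz_infDist_pt K).dist_le_mul x y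
      rw [Real.dist_eq] at h1 ⊢
      have e : 1 - ((j : ℝ) + 1) * infDist x K - (1 - ((j : ℝ) + 1) * infDist y K) =
          -(((j : ℝ) + 1) * (infDist x K - infDist y K)) := by ring
      rw [e, abs_neg, abs_mul, abs_of_pos (by positivity : (0 : ℝ) < j + 1)]
      push_cast at h1 ⊢
      gcongr
      linarith
    have hzero : ∀ (j : ℕ) (x : X), R + 1 < dist x o → χ j x = 0 := by
      intro j x hx
      have h1 : 1 ≤ infDist x K := by
        refine (le_infDist ⟨o, ho⟩).2 fun y hy => ?_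
        have h2 : dist y o ≤ R := hR hy
        linarith [dist_triangle x y o]
      refine max_eq_left ?_
      have : (0 : ℝ) ≤ j := Nat.cast_nonneg j
      nlinarith
    have hbd : ∀ (j : ℕ) (x : X), χ j x ^ 2 ≤ 1 := by
      intro j x
      have h0 : 0 ≤ χ j x := le_max_left _ _
      have h1 : χ j x ≤ 1 := max_le zero_le_one (sub_le_self _ (mul_nonneg (by positivity)
        infDist_nonneg))
      exact pow_le_one₀ h0 h1
    have hint : IntegrableOn (parQ m f g) (closedBall o (R + 1)) m :=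
      hQ.integrableOn_isCompact (isCompact_closedBall o (R + 1))
    have lim : Tendsto (fun j => ∫ x, χ j x ^ 2 * parQ m f g x ∂m) atTop
        (𝓝 (∫ x, K.indicator (parQ m f g) x ∂m)) := by
      refine tendsto_integral_of_dominated_convergence
        ((closedBall o (R + 1)).indicator fun x => ‖parQ m f g x‖) (fun j => ?_) ?_
        (fun j => Eventually.of_forall fun x => ?_) (Eventually.of_forall fun x => ?_)
      · exact ((hlip j).continuous.pow 2).aestronglyMeasurable.mul hQ.aestronglyMeasurable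
      · exact (integrable_indicator_iff measurableSet_closedBall).2 hint.norm
      · by_cases hx : x ∈ closedBall o (R + 1)
        · rw [indicator_of_mem hx, norm_mul, Real.norm_of_nonneg (sq_nonneg _)]
          exact mul_le_of_le_one_left (norm_nonneg _) (hbd j x)
        · rw [indicator_of_notMem hx, hzero j x (not_le.1 hx)]
          simp
      · by_cases hx : x ∈ K
        · rw [indicator_of_mem hx]
          simp [χ, infDist_zero_of_mem hx]
        · rw [indicator_of_notMem hx]
          have hpos : 0 < infDist x K := (hK.isClosed.notMem_iff_infDist_pos ⟨o, ho⟩).1 hx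
          obtain ⟨N, hN⟩ := exists_nat_ge (1 / infDist x K)
          refine tendsto_const_nhds.congr' ?_
          filter_upwards [eventually_ge_atTop N] with j hj
          have h1 : (N : ℝ) ≤ j := by exact_mod_cast hj
          rw [div_le_iff₀ hpos] at hN
          have h2 : χ j x = 0 := max_eq_left (by nlinarith)
          rw [h2]; simp
    simp only [fun j => parQ_test H hf hg (hlip j) (hzero j)] at lim
    rw [← integral_indicator hK.measurableSet]
    exact tendsto_nhds_unique lim tendsto_const_nhds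
  filter_upwards [main] with x hx
  unfold parQ at hx
  simp only [Pi.zero_apply] at hx
  linarith

end Crest.Agent.R242
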