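import Crest.Agent.R242.Util0

/-!
Row 242: Lipschitz approximation, cut-off functions, `BL`.
-/

set_option autoImplicit false
set_option linter.unusedSectionVars false

open MeasureTheory Set Filter Metric Crest.GeometryTopology.SyntheticRicci
open scoped ENNReal NNReal Topology

namespace Crest.Agent.R242

variable {X : Type*} [MetricSpace X] [ProperSpace X] [MeasurableSpace X] [BorelSpace X]
  {m : Measure X} [IsLocallyFiniteMeasure m]

/-- the standard cut-off function -/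
noncomputable def cut (o : X) (R : ℝ) (x : X) : ℝ := max 0 (min 1 (R + 1 - dist x o))

theorem cut_lip (o : X) (R : ℝ) : LipschitzWith 1 (cut o R) := by
  have h : LipschitzWith 1 (fun x : X => R + 1 - dist x o) := by
    refine LipschitzWith.of_le_add fun x y => ?_
    have := dist_triangle y x o
    rw [dist_comm y x] at this
    linarith
  exact (h.const_min 1).const_max 0

theorem cut_mem (o : X) (R : ℝ) (x : X) : 0 ≤ cut o R x ∧ cut o R x ≤ 1 := by
  refine ⟨le_max_left _ _, max_le zero_le_one (min_le_left _ _)⟩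

theorem cut_eq_one {o : X} {R : ℝ} {x : X} (h : dist x o ≤ R) : cut o R x = 1 := by
  unfold cut
  rw [min_eq_left (by linarith), max_eq_right zero_le_one]

theorem cut_eq_zero {o : X} {R : ℝ} {x : X} (h : R + 1 ≤ dist x o) : cut o R x = 0 := by
  unfold cut
  exact max_eq_left ((min_le_right _ _).trans (by linarith))

theorem BL.cut (o : X) (R : ℝ) : BL (cut o R) := by
  refine ⟨⟨1, cut_lip o R⟩, ⟨1, fun x => ?_⟩⟩
  have := cut_mem o R x
  rw [abs_of_nonneg this.1]; exact this.2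

theorem BL.continuous {f : X → ℝ} (hf : BL f) : Continuous f := by
  obtain ⟨L, hL⟩ := hf.lip
  exact hL.continuous

theorem BL.const (c : ℝ) : BL fun _ : X => c := by
  exact ⟨⟨0, LipschitzWith.const c⟩, ⟨|c|, fun _ => le_rfl⟩⟩

theorem BL.add {f g : X → ℝ} (hf : BL f) (hg : BL g) : BL fun x => f x + g x := by
  obtain ⟨⟨L, hL⟩, ⟨B, hB⟩⟩ := hf
  obtain ⟨⟨L', hL'⟩, ⟨B', hB'⟩⟩ := hg
  exact ⟨⟨L + L', hL.add hL'⟩, ⟨B + B', fun x => (abs_add_le _ _).trans (add_le_add (hB x) (hB' x))⟩⟩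

theorem BL.sub {f g : X → ℝ} (hf : BL f) (hg : BL g) : BL fun x => f x - g x := by
  obtain ⟨⟨L, hL⟩, ⟨B, hB⟩⟩ := hf
  obtain ⟨⟨L', hL'⟩, ⟨B', hB'⟩⟩ := hg
  exact ⟨⟨L + L', hL.sub hL'⟩, ⟨B + B', fun x => (abs_sub _ _).trans (add_le_add (hB x) (hB' x))⟩⟩

theorem BL.mul {f g : X → ℝ} (hf : BL f) (hg : BL g) : BL fun x => f x * g x := by
  obtain ⟨⟨L, hL⟩, ⟨B, hB⟩⟩ := hf
  obtain ⟨⟨L', hL'⟩, ⟨B', hB'⟩⟩ := hg
  refine ⟨⟨B.toNNReal * L' + B'.toNNReal * L, ?_⟩,
    ⟨max B 0 * max B' 0, fun x => ?_⟩⟩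
  · refine LipschitzWith.of_dist_le_mul fun x y => ?_
    have h1 := hL.dist_le_mul x y
    have h2 := hL'.dist_le_mul x y
    rw [Real.dist_eq] at h1 h2 ⊢
    have e : f x * g x - f y * g y = f x * (g x - g y) + g y * (f x - f y) := by ring
    rw [e]
    have a1 : |f x| ≤ max B 0 := (hB x).trans (le_max_left _ _)
    have a2 : |g y| ≤ max B' 0 := (hB' y).trans (le_max_left _ _)
    calc |f x * (g x - g y) + g y * (f x - f y)|
        ≤ |f x| * |g x - g y| + |g y| * |f x - f y| := by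
          rw [← abs_mul, ← abs_mul]; exact abs_add_le _ _
      _ ≤ max B 0 * (L' * dist x y) + max B' 0 * (L * dist x y) := by gcongr
      _ = _ := by simp only [NNReal.coe_add, NNReal.coe_mul, Real.coe_toNNReal']; ring
  · rw [abs_mul]
    have a1 : |f x| ≤ max B 0 := (hB x).trans (le_max_left _ _)
    have a2 : |g x| ≤ max B' 0 := (hB' x).trans (le_max_left _ _)
    gcongr

theorem BL.const_mul {f : X → ℝ} (hf : BL f) (c : ℝ) : BL fun x => c * f x := by
  exact (BL.const c).mul hf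

theorem BL.comp_lip {f : X → ℝ} (hf : BL f) {φ : ℝ → ℝ} {L : ℝ≥0} (hφ : LipschitzWith L φ) :
    BL fun x => φ (f x) := by
  obtain ⟨⟨K, hK⟩, ⟨B, hB⟩⟩ := hf
  refine ⟨⟨L * K, hφ.comp hK⟩, ⟨|φ 0| + L * B, fun x => ?_⟩⟩
  have h1 := hφ.dist_le_mul (f x) 0
  rw [Real.dist_eq, Real.dist_eq, sub_zero] at h1
  have h2 : (L : ℝ) * |f x| ≤ L * B := mul_le_mul_of_nonneg_left (hB x) L.2
  have h3 : |φ (f x)| ≤ |φ 0| + |φ (f x) - φ 0| := by
    have := abs_add_le (φ 0) (φ (f x) - φ 0)
    rwa [add_sub_cancel] at this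
  linarith

theorem BL.comp_contDiff {f : X → ℝ} (hf : BL f) {φ : ℝ → ℝ} (hφ : ContDiff ℝ 1 φ) :
    BL fun x => φ (f x) := by
  obtain ⟨⟨K, hK⟩, ⟨B, hB⟩⟩ := hf
  obtain ⟨L, hL⟩ := (hφ.contDiffOn (s := Icc (-B) B)).exists_lipschitzOnWith one_ne_zero
    (convex_Icc _ _) isCompact_Icc
  obtain ⟨C, hC⟩ := (isCompact_Icc (a := -B) (b := B)).exists_bound_of_continuousOn
    hφ.continuous.continuousOn
  have hm : ∀ x, f x ∈ Icc (-B) B := fun x => abs_le.1 (hB x)
  refine ⟨⟨L * K, ?_⟩, ⟨C, fun x => by simpa using hC _ (hm x)⟩⟩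
  refine LipschitzWith.of_dist_le_mul fun x y => ?_
  calc dist (φ (f x)) (φ (f y)) ≤ L * dist (f x) (f y) := hL.dist_le_mul _ (hm x) _ (hm y)
    _ ≤ L * (K * dist x y) := mul_le_mul_of_nonneg_left (hK.dist_le_mul x y) L.2
    _ = _ := by push_cast; ring

theorem BL.of_compactSupport {f : X → ℝ} {L : ℝ≥0} (hf : LipschitzWith L f)
    (hc : HasCompactSupport f) : BL f := by
  obtain ⟨C, hC⟩ := hf.continuous.bounded_above_of_compact_support hc
  exact ⟨⟨L, hf⟩, ⟨C, fun x => by simpa using hC x⟩⟩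

theorem BL.usq (y : X) {a : ℝ} (ha : 0 ≤ a) : BL (usq y a) := by
  have h0 : BL fun x : X => min (√(2 * a)) (dist x y) := by
    refine ⟨⟨1, (LipschitzWith.dist_left y).const_min _⟩, ⟨√(2 * a), fun x => ?_⟩⟩
    rw [abs_of_nonneg (le_min (Real.sqrt_nonneg _) dist_nonneg)]
    exact min_le_left _ _
  have h1 := (h0.mul h0).const_mul (1 / 2)
  have e : Crest.Agent.R242.usq y a =
      fun x => 1 / 2 * (min (√(2 * a)) (dist x y) * min (√(2 * a)) (dist x y)) := by
    funext x
    unfold Crest.Agent.R242.usq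
    have hs : √(2 * a) * √(2 * a) = 2 * a := Real.mul_self_sqrt (by linarith)
    have hs0 := Real.sqrt_nonneg (2 * a)
    have hd : 0 ≤ dist x y := dist_nonneg
    rcases le_total (√(2 * a)) (dist x y) with h | h
    · rw [min_eq_left h, min_eq_right (by nlinarith), hs]; ring
    · rw [min_eq_right h, min_eq_left (by nlinarith)]; ring
  rw [e]; exact h1

theorem hasCompactSupport_of_ball {f : X → ℝ} {o : X} {R : ℝ} (h : ∀ x, R < dist x o → f x = 0) :
    HasCompactSupport f := by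
  refine HasCompactSupport.intro (isCompact_closedBall o R) fun x hx => h x ?_
  simpa [mem_closedBall] using hx

theorem exists_ball_of_hasCompactSupport {f : X → ℝ} (h : HasCompactSupport f) (o : X) :
    ∃ R : ℝ, 0 ≤ R ∧ ∀ x, R < dist x o → f x = 0 := by
  obtain ⟨R, hR⟩ := h.isCompact.isBounded.subset_closedBall o
  refine ⟨max R 0, le_max_right _ _, fun x hx => ?_⟩
  by_contra hne
  have : x ∈ closedBall o R := hR (subset_tsupport f hne)
  rw [mem_closedBall] at this
  linarith [le_max_left R 0]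

theorem Wt.one : Wt fun _ : X => (1 : ℝ) := by
  exact ⟨measurable_const, ⟨1, one_pos, fun _ => by simp⟩⟩

theorem Wt.wt {F : X → ℝ} (hF : BL F) (ε : ℝ) : Wt (wt F ε) := by
  have hc := hF.continuous
  obtain ⟨B, hB⟩ := hF.bdd
  refine ⟨?_, ⟨Real.exp (-(B / |ε|)), Real.exp_pos _, fun x => ?_⟩⟩
  · exact Real.measurable_exp.comp (hc.measurable.div_const ε)
  · have h : |F x / ε| ≤ B / |ε| := by
      rw [abs_div]; exact div_le_div_of_nonneg_right (hB x) (abs_nonneg _)
    have h' := abs_le.1 h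
    unfold Crest.Agent.R242.wt
    rw [← Real.exp_neg, neg_neg]
    exact ⟨Real.exp_le_exp.2 h'.1, Real.exp_le_exp.2 h'.2⟩

theorem BL.wt {F : X → ℝ} (hF : BL F) (ε : ℝ) : BL (wt F ε) := by
  have h : ContDiff ℝ 1 fun t : ℝ => Real.exp (t / ε) :=
    Real.contDiff_exp.comp (contDiff_id.div_const ε)
  exact hF.comp_contDiff h

omit [ProperSpace X] [MeasurableSpace X] [BorelSpace X] in
/-- uniform approximation of continuous compactly supported functions by Lipschitz functions -/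
theorem util_unif {g : X → ℝ} (hc : Continuous g) (hs : HasCompactSupport g) {ε : ℝ}
    (hε : 0 < ε) : ∃ h : X → ℝ, (∃ L : ℝ≥0, LipschitzWith L h) ∧ ∀ x, |h x - g x| ≤ ε := by
  obtain ⟨B, hB⟩ := hc.bounded_above_of_compact_support hs
  have hB' : ∀ x, |g x| ≤ B := fun x => by simpa using hB x
  obtain ⟨δ, hδ, hu⟩ := Metric.uniformContinuous_iff.1 (hs.uniformContinuous_of_continuous hc) ε hε
  rcases isEmpty_or_nonempty X with hX | hX
  · exact ⟨g, ⟨0, fun x => hX.elim x⟩, fun x => hX.elim x⟩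
  have hB0 : 0 ≤ B := (abs_nonneg _).trans (hB' (Classical.arbitrary X))
  set L : ℝ := 2 * B / δ with hL
  have hL0 : 0 ≤ L := by positivity
  have hbdd : ∀ x, BddBelow (range fun y => g y + L * dist x y) := fun x =>
    ⟨-B, by
      rintro _ ⟨y, rfl⟩
      have := (abs_le.1 (hB' y)).1
      have : 0 ≤ L * dist x y := by positivity
      dsimp only; linarith⟩
  refine ⟨fun x => ⨅ y, (g y + L * dist x y), ⟨⟨L, hL0⟩, ?_⟩, fun x => ?_⟩
  · refine LipschitzWith.of_le_add_mul _ fun x z => ?_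
    rw [← sub_le_iff_le_add]
    refine le_ciInf fun y => ?_
    have h1 := ciInf_le (hbdd x) y
    have h2 : L * dist x y ≤ L * (dist x z + dist z y) :=
      mul_le_mul_of_nonneg_left (dist_triangle _ _ _) hL0
    change _ - L * dist x z ≤ _
    linarith
  · rw [abs_le]
    constructor
    · rw [le_sub_iff_add_le]
      refine le_ciInf fun y => ?_
      rcases lt_or_ge (dist x y) δ with h | h
      · have h1 := hu h
        rw [Real.dist_eq] at h1
        have h2 := (abs_lt.1 h1).2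
        have : 0 ≤ L * dist x y := by positivity
        linarith
      · have h1 : L * δ ≤ L * dist x y := mul_le_mul_of_nonneg_left h hL0
        have h2 : L * δ = 2 * B := by rw [hL]; field_simp
        have h3 := (abs_le.1 (hB' y)).1
        have h4 := (abs_le.1 (hB' x)).2
        linarith
    · have h1 := ciInf_le (hbdd x) x
      simp only [dist_self, mul_zero, add_zero] at h1
      linarith

/-- as `util_unif`, with control of the support -/
theorem util_unif' {g : X → ℝ} (hc : Continuous g) (hs : HasCompactSupport g) :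
    ∃ K : Set X, IsCompact K ∧ ∀ ε : ℝ, 0 < ε → ∃ h : X → ℝ, (∃ L : ℝ≥0, LipschitzWith L h) ∧
      HasCompactSupport h ∧ (∀ x, |h x - g x| ≤ ε) ∧ ∀ x, x ∉ K → h x - g x = 0 := by
  rcases isEmpty_or_nonempty X with hX | ⟨⟨o⟩⟩
  · exact ⟨∅, isCompact_empty, fun ε _ => ⟨g, ⟨0, fun x => hX.elim x⟩, hs, fun x => hX.elim x,
      fun x => hX.elim x⟩⟩
  obtain ⟨R, hR0, hR⟩ := exists_ball_of_hasCompactSupport hs o
  obtain ⟨B, hB⟩ := hc.bounded_above_of_compact_support hs
  have hB' : ∀ x, |g x| ≤ B := fun x => by simpa using hB x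
  refine ⟨closedBall o (R + 1), isCompact_closedBall _ _, fun ε hε => ?_⟩
  obtain ⟨h, hl, hh⟩ := util_unif hc hs hε
  have hbl : BL h := ⟨hl, ⟨B + ε, fun x => by
    have := abs_add_le (g x) (h x - g x)
    rw [add_sub_cancel] at this
    linarith [hB' x, hh x]⟩⟩
  refine ⟨fun x => h x * cut o R x, (hbl.mul (BL.cut o R)).lip, ?_, fun x => ?_, fun x hx => ?_⟩
  · exact hasCompactSupport_of_ball (o := o) (R := R + 1) fun x hx => by
      rw [cut_eq_zero hx.le, mul_zero]
  · rcases le_or_gt (dist x o) R with h1 | h1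
    · simpa [cut_eq_one h1] using hh x
    · have h2 := hh x
      rw [hR x h1, sub_zero] at h2 ⊢
      rw [abs_mul, abs_of_nonneg (cut_mem o R x).1]
      calc |h x| * cut o R x ≤ |h x| * 1 :=
            mul_le_mul_of_nonneg_left (cut_mem o R x).2 (abs_nonneg _)
        _ ≤ ε := by rwa [mul_one]
  · rw [mem_closedBall, not_le] at hx
    show h x * cut o R x - g x = 0
    rw [cut_eq_zero hx.le, hR x (by linarith)]; ring

theorem util_l2 {f : X → ℝ} (hf : MemLp f 2 m) {η : ℝ} (hη : 0 < η) :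
    ∃ g : X → ℝ, (∃ L : ℝ≥0, LipschitzWith L g) ∧ HasCompactSupport g ∧
      ∫ x, (f x - g x) ^ 2 ∂m ≤ η := by
  have e2 : ENNReal.ofReal 2 = 2 := by simp
  have hf' : MemLp f (ENNReal.ofReal 2) m := by rwa [e2]
  obtain ⟨g0, hs, hI, hc, hg0⟩ :=
    hf'.exists_hasCompactSupport_integral_rpow_sub_le two_pos (ε := η / 4) (by positivity)
  rw [e2] at hg0
  have hI' : ∫ x, (f x - g0 x) ^ 2 ∂m ≤ η / 4 := by
    refine le_trans (le_of_eq ?_) hI
    refine integral_congr_ae (Eventually.of_forall fun x => ?_)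
    simp only [Real.norm_eq_abs, Real.rpow_two, sq_abs]
  obtain ⟨K, hK, hap⟩ := util_unif' hc hs
  set M : ℝ := m.real K with hM
  have hM0 : 0 ≤ M := measureReal_nonneg
  set ε : ℝ := min 1 (η / (4 * (M + 1))) with hε
  have hε0 : 0 < ε := lt_min one_pos (by positivity)
  obtain ⟨g, ⟨L, hL⟩, hgs, hg1, hg2⟩ := hap ε hε0
  refine ⟨g, ⟨L, hL⟩, hgs, ?_⟩
  have hgm : MemLp g 2 m := hL.continuous.memLp_of_hasCompactSupport hgs
  have i1 : Integrable (fun x => (f x - g0 x) ^ 2) m := (hf.sub hg0).integrable_sq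
  have i2 : Integrable (K.indicator fun _ => ε ^ 2) m :=
    (integrable_indicator_iff hK.measurableSet).2
      (integrableOn_const hK.measure_lt_top.ne)
  have hle : ∀ x, (f x - g x) ^ 2 ≤ 2 * (f x - g0 x) ^ 2 + 2 * K.indicator (fun _ => ε ^ 2) x := by
    intro x
    have h1 : (g x - g0 x) ^ 2 ≤ K.indicator (fun _ => ε ^ 2) x := by
      by_cases hx : x ∈ K
      · rw [indicator_of_mem hx]
        exact sq_le_sq' (abs_le.1 (hg1 x)).1 (abs_le.1 (hg1 x)).2
      · rw [indicator_of_notMem hx, hg2 x hx]; simp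
    nlinarith [sq_nonneg (f x - g0 x + (g x - g0 x))]
  have h1 : ∫ x, (f x - g x) ^ 2 ∂m ≤
      ∫ x, (2 * (f x - g0 x) ^ 2 + 2 * K.indicator (fun _ => ε ^ 2) x) ∂m :=
    integral_mono (hf.sub hgm).integrable_sq ((i1.const_mul 2).add (i2.const_mul 2)) hle
  rw [integral_add (i1.const_mul 2) (i2.const_mul 2), integral_const_mul, integral_const_mul,
    integral_indicator_const _ hK.measurableSet, smul_eq_mul, ← hM] at h1
  have h2 : ε ^ 2 ≤ η / (4 * (M + 1)) := by
    calc ε ^ 2 = ε * ε := sq ε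
      _ ≤ 1 * (η / (4 * (M + 1))) :=
        mul_le_mul (min_le_left _ _) (min_le_right _ _) hε0.le zero_le_one
      _ = _ := one_mul _
  have h3 : M * ε ^ 2 ≤ η / 4 := by
    calc M * ε ^ 2 ≤ (M + 1) * (η / (4 * (M + 1))) := by gcongr; linarith
      _ = η / 4 := by field_simp
  linarith

theorem util_l2' {f : X → ℝ} (hf : MemLp f 2 m) {φ : ℝ → ℝ} (hφ : LipschitzWith 1 φ)
    (h0 : φ 0 = 0) (hφf : ∀ᵐ x ∂m, φ (f x) = f x) {η : ℝ} (hη : 0 < η) :
    ∃ g : X → ℝ, (∃ L : ℝ≥0, LipschitzWith L fun x => φ (g x)) ∧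
      HasCompactSupport (fun x => φ (g x)) ∧ ∫ x, (f x - φ (g x)) ^ 2 ∂m ≤ η := by
  obtain ⟨g, ⟨L, hL⟩, hs, hI⟩ := util_l2 hf hη
  have hl : LipschitzWith (1 * L) fun x => φ (g x) := hφ.comp hL
  have hs' : HasCompactSupport fun x => φ (g x) := hs.comp_left h0
  refine ⟨g, ⟨_, hl⟩, hs', le_trans ?_ hI⟩
  have hgm : MemLp g 2 m := hL.continuous.memLp_of_hasCompactSupport hs
  have hgm' : MemLp (fun x => φ (g x)) 2 m := hl.continuous.memLp_of_hasCompactSupport hs'
  refine integral_mono_ae (hf.sub hgm').integrable_sq (hf.sub hgm).integrable_sq ?_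
  filter_upwards [hφf] with x hx
  have h1 := hφ.dist_le_mul (f x) (g x)
  rw [hx, NNReal.coe_one, one_mul, Real.dist_eq, Real.dist_eq] at h1
  exact sq_le_sq.2 h1

/-- Lipschitz functions with bounded support are dense in `L²`, with control of the range. -/
theorem exists_lip_approx {f : X → ℝ} (hf : MemLp f 2 m) {a b : ℝ} (ha : a ≤ 0) (hb : 0 ≤ b)
    (hab : ∀ᵐ x ∂m, a ≤ f x ∧ f x ≤ b) {η : ℝ} (hη : 0 < η) :
    ∃ g : X → ℝ, (∃ L : ℝ≥0, LipschitzWith L g) ∧ HasCompactSupport g ∧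
      (∀ x, a ≤ g x ∧ g x ≤ b) ∧ ∫ x, (f x - g x) ^ 2 ∂m ≤ η := by
  have hφ : LipschitzWith 1 fun t : ℝ => max a (min b t) :=
    (LipschitzWith.id.const_min b).const_max a
  obtain ⟨g, h1, h2, h3⟩ := util_l2' hf hφ (by rw [min_eq_right hb, max_eq_right ha])
    (by filter_upwards [hab] with x hx; rw [min_eq_right hx.2, max_eq_right hx.1]) hη
  exact ⟨_, h1, h2, fun x => ⟨le_max_left _ _, max_le (ha.trans hb) (min_le_left _ _)⟩, h3⟩

theorem exists_lip_approx' {f : X → ℝ} (hf : MemLp f 2 m) {η : ℝ} (hη : 0 < η) :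
    ∃ g : X → ℝ, (∃ L : ℝ≥0, LipschitzWith L g) ∧ HasCompactSupport g ∧
      ((∀ᵐ x ∂m, 0 ≤ f x) → ∀ x, 0 ≤ g x) ∧ ∫ x, (f x - g x) ^ 2 ∂m ≤ η := by
  by_cases h : ∀ᵐ x ∂m, 0 ≤ f x
  · have hφ : LipschitzWith 1 fun t : ℝ => max 0 t := LipschitzWith.id.const_max 0
    obtain ⟨g, h1, h2, h3⟩ := util_l2' hf hφ (max_self 0)
      (by filter_upwards [h] with x hx; rw [max_eq_right hx]) hη
    exact ⟨_, h1, h2, fun _ x => le_max_left _ _, h3⟩
  · obtain ⟨g, h1, h2, h3⟩ := util_l2 hf hη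
    exact ⟨g, h1, h2, fun h' => absurd h' h, h3⟩

theorem util_l1 {ν : Measure X} [IsFiniteMeasure ν] {g : X → ℝ} (hg : Integrable g ν) {η : ℝ}
    (hη : 0 < η) : ∃ h : X → ℝ, BL h ∧ ∫ x, |g x - h x| ∂ν ≤ η := by
  obtain ⟨g0, hs, hI, hc, hg0⟩ :=
    hg.exists_hasCompactSupport_integral_sub_le (ε := η / 2) (by positivity)
  obtain ⟨K, hK, hap⟩ := util_unif' hc hs
  set M : ℝ := ν.real univ with hM
  have hM0 : 0 ≤ M := measureReal_nonneg
  obtain ⟨h, ⟨L, hL⟩, hhs, h1, -⟩ := hap (η / (2 * (M + 1))) (by positivity)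
  refine ⟨h, BL.of_compactSupport hL hhs, ?_⟩
  have hhi : Integrable h ν := hL.continuous.integrable_of_hasCompactSupport hhs
  have hle : ∀ x, |g x - h x| ≤ ‖g x - g0 x‖ + η / (2 * (M + 1)) := by
    intro x
    have a1 := abs_sub_le (g x) (g0 x) (h x)
    have a2 := h1 x
    rw [abs_sub_comm] at a2
    rw [Real.norm_eq_abs]; linarith
  have h2 : ∫ x, |g x - h x| ∂ν ≤ ∫ x, (‖g x - g0 x‖ + η / (2 * (M + 1))) ∂ν :=
    integral_mono (hg.sub hhi).abs ((hg.sub hg0).norm.add (integrable_const _)) hle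
  have i1 : Integrable (fun x => ‖g x - g0 x‖) ν := (hg.sub hg0).norm
  rw [integral_add i1 (integrable_const _), integral_const, smul_eq_mul, ← hM] at h2
  have h3 : M * (η / (2 * (M + 1))) ≤ η / 2 := by
    calc M * (η / (2 * (M + 1))) ≤ (M + 1) * (η / (2 * (M + 1))) := by gcongr; linarith
      _ = η / 2 := by field_simp
  linarith

/-- Integrals of a locally integrable function change little along cheap couplings. -/
theorem integral_sub_le_of_cst {g : X → ℝ} (C : ℝ≥0) (o : X) (R : ℝ)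
    (hg : IntegrableOn g (closedBall o R) m) {η : ℝ} (hη : 0 < η) :
    ∃ δ : ℝ, 0 < δ ∧ ∀ q : Measure (X × X), Adm m q.fst C o R → Adm m q.snd C o R → cst q ≤ δ →
      |∫ x, g x ∂q.snd - ∫ x, g x ∂q.fst| ≤ η := by
  set ν : Measure X := m.restrict (closedBall o R) with hν
  have : IsFiniteMeasure ν := by
    refine ⟨?_⟩
    rw [hν, Measure.restrict_apply_univ]
    exact (isCompact_closedBall o R).measure_lt_top
  have hC : (0 : ℝ) ≤ C := C.2
  obtain ⟨h, hbl, hI⟩ := util_l1 (ν := ν) hg (η := η / (4 * (C + 1))) (by positivity)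
  obtain ⟨L, hL⟩ := hbl.lip
  obtain ⟨B, hB⟩ := hbl.bdd
  have hL0 : (0 : ℝ) ≤ L := L.2
  set M : ℝ := C * ν.real univ with hM
  have hM0 : 0 ≤ M := mul_nonneg hC measureReal_nonneg
  set t : ℝ := η / (4 * (L * M + 1)) with ht
  have ht0 : 0 < t := by positivity
  -- the error on admissible measures
  have key : ∀ μ : Measure X, Adm m μ C o R →
      Integrable g μ ∧ Integrable h μ ∧ |∫ x, g x ∂μ - ∫ x, h x ∂μ| ≤ η / 4 ∧ μ.real univ ≤ M := by
    intro μ hμ
    have := hμ.isFiniteMeasure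
    have hle : μ ≤ (C : ℝ≥0∞) • ν := hμ.le_restrict
    have hgi : Integrable g ((C : ℝ≥0∞) • ν) := Integrable.smul_measure hg ENNReal.coe_ne_top
    have hhν : Integrable h ν :=
      Integrable.of_bound hbl.continuous.aestronglyMeasurable B
        (Eventually.of_forall fun x => by simpa using hB x)
    have hhi : Integrable h ((C : ℝ≥0∞) • ν) := hhν.smul_measure ENNReal.coe_ne_top
    refine ⟨hgi.mono_measure hle, hhi.mono_measure hle, ?_, ?_⟩
    · rw [← integral_sub (hgi.mono_measure hle) (hhi.mono_measure hle)]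
      calc |∫ x, (g x - h x) ∂μ| ≤ ∫ x, |g x - h x| ∂μ := abs_integral_le_integral_abs
        _ ≤ ∫ x, |g x - h x| ∂((C : ℝ≥0∞) • ν) :=
          integral_mono_measure hle (Eventually.of_forall fun x => abs_nonneg _) (hgi.sub hhi).abs
        _ = C * ∫ x, |g x - h x| ∂ν := by rw [integral_smul_measure]; simp
        _ ≤ (C + 1) * (η / (4 * (C + 1))) := by
          refine mul_le_mul (by linarith) hI (integral_nonneg fun x => abs_nonneg _) (by linarith)
        _ = η / 4 := by field_simp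
    · have h1 : μ univ ≤ (C : ℝ≥0∞) * ν univ := by simpa using hle univ
      rw [hM, measureReal_def, measureReal_def, ← ENNReal.coe_toReal, ← ENNReal.toReal_mul]
      exact ENNReal.toReal_mono (ENNReal.mul_ne_top ENNReal.coe_ne_top (measure_ne_top _ _)) h1
  refine ⟨t * (η / (4 * (L + 1))), by positivity, fun q h0 h1 hq => ?_⟩
  obtain ⟨-, i0, e0, m0⟩ := key _ h0
  obtain ⟨-, i1, e1, -⟩ := key _ h1
  have := h0.isFiniteMeasure
  have : IsFiniteMeasure q := by
    refine ⟨?_⟩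
    rw [← Measure.fst_univ]; exact measure_lt_top _ _
  have hqu : q.real univ ≤ M := by
    rw [measureReal_def, ← Measure.fst_univ]; exact m0
  have hcm := hbl.continuous.measurable
  have a0 : ∫ x, h x ∂q.fst = ∫ p, h p.1 ∂q := by
    rw [Measure.fst, integral_map measurable_fst.aemeasurable hcm.aestronglyMeasurable]
  have a1 : ∫ x, h x ∂q.snd = ∫ p, h p.2 ∂q := by
    rw [Measure.snd, integral_map measurable_snd.aemeasurable hcm.aestronglyMeasurable]
  have j0 : Integrable (fun p : X × X => h p.1) q :=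
    Integrable.of_bound (hcm.comp measurable_fst).aestronglyMeasurable B
      (Eventually.of_forall fun x => by simpa using hB _)
  have j1 : Integrable (fun p : X × X => h p.2) q :=
    Integrable.of_bound (hcm.comp measurable_snd).aestronglyMeasurable B
      (Eventually.of_forall fun x => by simpa using hB _)
  have hd := ae_dist_le h0.inn h1.inn
  have jd : Integrable (fun p : X × X => dist p.1 p.2 ^ 2) q :=
    Integrable.of_bound (continuous_dist.pow 2).measurable.aestronglyMeasurable ((2 * R) ^ 2) (by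
      filter_upwards [hd] with p hp
      rw [Real.norm_eq_abs, abs_of_nonneg (sq_nonneg _)]
      exact pow_le_pow_left₀ dist_nonneg hp 2)
  have hle : ∀ p : X × X, |h p.2 - h p.1| ≤ L * t + L / t * dist p.1 p.2 ^ 2 := by
    intro p
    have b1 := hL.dist_le_mul p.2 p.1
    rw [Real.dist_eq, dist_comm p.2 p.1] at b1
    have b2 : dist p.1 p.2 ≤ t + dist p.1 p.2 ^ 2 / t := by
      have hd0 : 0 ≤ dist p.1 p.2 := dist_nonneg
      rw [← sub_le_iff_le_add', le_div_iff₀ ht0]
      nlinarith [sq_nonneg (dist p.1 p.2 - t), mul_nonneg hd0 ht0.le]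
    calc |h p.2 - h p.1| ≤ L * dist p.1 p.2 := b1
      _ ≤ L * (t + dist p.1 p.2 ^ 2 / t) := mul_le_mul_of_nonneg_left b2 hL0
      _ = _ := by ring
  have hmid : |∫ x, h x ∂q.snd - ∫ x, h x ∂q.fst| ≤ η / 2 := by
    rw [a0, a1, ← integral_sub j1 j0]
    calc |∫ p, (h p.2 - h p.1) ∂q| ≤ ∫ p, |h p.2 - h p.1| ∂q := abs_integral_le_integral_abs
      _ ≤ ∫ p, (L * t + L / t * dist p.1 p.2 ^ 2) ∂q :=
        integral_mono (j1.sub j0).abs ((integrable_const _).add (jd.const_mul _)) hle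
      _ = q.real univ * (L * t) + L / t * cst q := by
        rw [integral_add (integrable_const _) (jd.const_mul _), integral_const, integral_const_mul,
          smul_eq_mul]; rfl
      _ ≤ M * (L * t) + L / t * (t * (η / (4 * (L + 1)))) := by gcongr
      _ = (L * M) * (η / (4 * (L * M + 1))) + L * (η / (4 * (L + 1))) := by
        rw [← ht]; field_simp
      _ ≤ (L * M + 1) * (η / (4 * (L * M + 1))) + (L + 1) * (η / (4 * (L + 1))) := by
        gcongr <;> linarith
      _ = η / 2 := by field_simp; ring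
  have f0 := abs_le.1 e0
  have f1 := abs_le.1 e1
  have f2 := abs_le.1 hmid
  rw [abs_le]
  constructor <;> linarith [f0.1, f0.2, f1.1, f1.2, f2.1, f2.2]

end Crest.Agent.R242
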