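import Crest.Agent.R242.Curve
import Crest.Agent.R242.Util

/-!
Row 242: the pathwise form of the weak upper gradient property.
-/

set_option autoImplicit false

open MeasureTheory Set Filter Metric Crest.GeometryTopology.SyntheticRicci
open scoped ENNReal NNReal Topology

namespace Crest.Agent.R242

variable {X : Type*} [MetricSpace X] [ProperSpace X] [MeasurableSpace X] [BorelSpace X]
  {m : Measure X} [IsLocallyFiniteMeasure m] {P : Measure (UCurve X)}

omit [ProperSpace X] in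
theorem path_meas_at (t : ℝ) : Measurable fun γ : UCurve X => γ.ext t :=
  measurable_ev (projIcc (0 : ℝ) 1 zero_le_one t)

omit [ProperSpace X] [IsLocallyFiniteMeasure m] in
theorem path_qmp_at (hP : IsTestPlan2 m P) (t : ℝ) :
    Measure.QuasiMeasurePreserving (fun γ : UCurve X => γ.ext t) P m := by
  obtain ⟨_, ⟨C, hC⟩, _⟩ := hP
  exact ⟨path_meas_at t,
    Measure.absolutelyContinuous_of_le_smul (hC (projIcc (0 : ℝ) 1 zero_le_one t))⟩

/-- affine change of variables -/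
theorem path_affine (g : ℝ → ℝ≥0∞) {s t : ℝ} (hst : s < t) :
    ∫⁻ r in Icc (0 : ℝ) 1, ENNReal.ofReal (t - s) * g (s + r * (t - s)) = ∫⁻ x in Icc s t, g x := by
  have hp : 0 < t - s := sub_pos.2 hst
  have him : (fun r : ℝ => s + r * (t - s)) '' Icc (0 : ℝ) 1 = Icc s t := by
    ext x
    constructor
    · rintro ⟨r, ⟨h0, h1⟩, rfl⟩
      constructor <;> nlinarith
    · rintro ⟨h0, h1⟩
      refine ⟨(x - s) / (t - s), ⟨div_nonneg (by linarith) hp.le,
        (div_le_one hp).2 (by linarith)⟩, ?_⟩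
      field_simp
      ring
  have hd : ∀ x ∈ Icc (0 : ℝ) 1,
      HasDerivWithinAt (fun r : ℝ => s + r * (t - s)) (t - s) (Icc (0 : ℝ) 1) x := by
    intro x _
    have := ((hasDerivAt_id x).mul_const (t - s)).const_add s
    simpa using this.hasDerivWithinAt
  have hi : InjOn (fun r : ℝ => s + r * (t - s)) (Icc (0 : ℝ) 1) := by
    intro a _ b _ hab
    have : a * (t - s) = b * (t - s) := by simpa using hab
    exact mul_right_cancel₀ hp.ne' this
  rw [← him, lintegral_image_eq_lintegral_abs_deriv_mul measurableSet_Icc hd hi g, abs_of_pos hp]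

theorem path_ae_Ioo : ∀ᵐ r ∂(volume.restrict (Icc (0 : ℝ) 1)), r ∈ Ioo (0 : ℝ) 1 := by
  rw [← restrict_Ioo_eq_restrict_Icc]
  exact ae_restrict_mem measurableSet_Ioo

/-- null sets are not charged at any fixed real time -/
theorem tp_ae (hP : IsTestPlan2 m P) (t : ℝ) {p : X → Prop} (h : ∀ᵐ x ∂m, p x) :
    ∀ᵐ γ ∂P, p (γ.ext t) :=
  (path_qmp_at hP t).ae h

theorem tp_qmp (hP : IsTestPlan2 m P) : Measure.QuasiMeasurePreserving
    (fun p : UCurve X × ℝ => p.1.ext p.2) (P.prod (volume.restrict (Icc (0 : ℝ) 1))) m := by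
  haveI := hP.1
  refine ⟨measurable_ext, Measure.AbsolutelyContinuous.mk fun s hs h0 => ?_⟩
  rw [Measure.map_apply measurable_ext hs, Measure.prod_apply_symm (measurable_ext hs)]
  have : ∀ t : ℝ, P ((fun γ : UCurve X => (γ, t)) ⁻¹'
      ((fun p : UCurve X × ℝ => p.1.ext p.2) ⁻¹' s)) = 0 := fun t =>
    (path_qmp_at hP t).preimage_null h0
  simp only [this, lintegral_zero]

/-- null sets are not charged at almost every time -/
theorem tp_ae_ae (hP : IsTestPlan2 m P) {p : X → Prop} (h : ∀ᵐ x ∂m, p x) :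
    ∀ᵐ γ ∂P, ∀ᵐ t ∂(volume.restrict (Icc (0 : ℝ) 1)), p (γ.ext t) :=
  Measure.ae_ae_of_ae_prod ((tp_qmp hP).ae h)

/-- the time marginals of a test plan with bounded tracks are admissible -/
theorem tp_adm (hP : IsTestPlan2 m P) (hb : HasBoundedTracks P) :
    ∃ (C : ℝ≥0) (o : X) (R : ℝ), ∀ t : ℝ, Adm m (P.map fun γ => γ.ext t) C o R := by
  obtain ⟨_, ⟨C, hC⟩, _⟩ := hP
  obtain ⟨o, R, hR⟩ := hb
  refine ⟨C, o, R, fun t => ⟨hC (projIcc (0 : ℝ) 1 zero_le_one t), ?_⟩⟩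
  rw [ae_map_iff (path_meas_at t).aemeasurable
    (measurableSet_le (by fun_prop) measurable_const)]
  filter_upwards [hR] with γ hγ
  exact hγ (projIcc (0 : ℝ) 1 zero_le_one t)

/-- Cauchy-Schwarz along a test plan -/
theorem tp_lintegral_le (hP : IsTestPlan2 m P) (hb : HasBoundedTracks P) :
    ∃ (K : ℝ≥0) (o : X) (R : ℝ), ∀ D : X → ℝ≥0∞, AEMeasurable D m →
      ∫⁻ γ, (∫⁻ t in Icc (0 : ℝ) 1, D (γ.ext t) * upperSpeed γ t) ∂P ≤
        K * (∫⁻ x in ball o R, D x ^ 2 ∂m) ^ (1 / 2 : ℝ) := by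
  haveI := hP.1
  obtain ⟨C, o, R, hA⟩ := tp_adm hP hb
  set E : ℝ≥0∞ := ∫⁻ γ, (∫⁻ t in Set.Icc (0 : ℝ) 1, upperSpeed γ t ^ 2) ∂P with hE
  have hEt : E ≠ ⊤ := hP.2.2.2.ne
  have hK : (C : ℝ≥0∞) ^ (1 / 2 : ℝ) * E ^ (1 / 2 : ℝ) ≠ ⊤ :=
    ENNReal.mul_ne_top (ENNReal.rpow_ne_top_of_nonneg (by norm_num) ENNReal.coe_ne_top)
      (ENNReal.rpow_ne_top_of_nonneg (by norm_num) hEt)
  refine ⟨((C : ℝ≥0∞) ^ (1 / 2 : ℝ) * E ^ (1 / 2 : ℝ)).toNNReal, o, R + 1, fun D hD => ?_⟩
  rw [ENNReal.coe_toNNReal hK]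
  have h1 : AEMeasurable (fun p : UCurve X × ℝ => D (p.1.ext p.2))
      (P.prod (volume.restrict (Icc (0 : ℝ) 1))) := hD.comp_quasiMeasurePreserving (tp_qmp hP)
  have h2 : AEMeasurable (fun p : UCurve X × ℝ => upperSpeed p.1 p.2)
      (P.prod (volume.restrict (Icc (0 : ℝ) 1))) := measurable_upperSpeed.aemeasurable
  have hcs := ENNReal.lintegral_mul_le_Lp_mul_Lq _ Real.HolderConjugate.two_two h1 h2
  simp only [Pi.mul_apply, ENNReal.rpow_two] at hcs
  have h12 : AEMeasurable (fun p : UCurve X × ℝ => D (p.1.ext p.2) * upperSpeed p.1 p.2)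
      (P.prod (volume.restrict (Icc (0 : ℝ) 1))) := h1.mul h2
  rw [lintegral_prod _ h12, lintegral_prod _ (h2.pow_const 2),
    lintegral_prod_symm _ (h1.pow_const 2)] at hcs
  refine hcs.trans ?_
  have h3 : ∀ t : ℝ, ∫⁻ γ, D (γ.ext t) ^ 2 ∂P ≤ C * ∫⁻ x in ball o (R + 1), D x ^ 2 ∂m := by
    intro t
    have hD2 : AEMeasurable (fun x => D x ^ 2) (P.map fun γ => γ.ext t) :=
      (hD.pow_const 2).mono_ac (hA t).ac
    rw [← lintegral_map' hD2 (path_meas_at t).aemeasurable]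
    refine (lintegral_mono' (hA t).le_restrict le_rfl).trans ?_
    rw [lintegral_smul_measure, smul_eq_mul]
    gcongr
    exact closedBall_subset_ball (by linarith)
  have h4 : ∫⁻ t in Icc (0 : ℝ) 1, ∫⁻ γ, D (γ.ext t) ^ 2 ∂P ≤
      C * ∫⁻ x in ball o (R + 1), D x ^ 2 ∂m := by
    refine (lintegral_mono h3).trans ?_
    simp
  calc _ ≤ ((C : ℝ≥0∞) * ∫⁻ x in ball o (R + 1), D x ^ 2 ∂m) ^ (1 / 2 : ℝ) * E ^ (1 / 2 : ℝ) := by
        gcongr
    _ = _ := by
        rw [ENNReal.mul_rpow_of_nonneg _ _ (by norm_num)]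
        ring

omit [ProperSpace X] [IsLocallyFiniteMeasure m] [BorelSpace X] in
theorem path_l2_lt_top {D : X → ℝ} (hD : IsL2OnBalls m D) (o : X) (R : ℝ) :
    ∫⁻ x in ball o R, ENNReal.ofReal (D x) ^ 2 ∂m < ⊤ := by
  have h := (hD o R).integrable_sq.2
  refine lt_of_le_of_lt (lintegral_mono fun x => ?_) h
  rw [enorm_pow]
  gcongr
  exact Real.ofReal_le_enorm _

theorem path_aemeas_fst (hP : IsTestPlan2 m P) {D : X → ℝ≥0∞} (hD : AEMeasurable D m) :
    AEMeasurable (fun γ : UCurve X => ∫⁻ t in Icc (0 : ℝ) 1, D (γ.ext t) * upperSpeed γ t) P := by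
  haveI := hP.1
  have h1 : AEMeasurable (fun p : UCurve X × ℝ => D (p.1.ext p.2))
      (P.prod (volume.restrict (Icc (0 : ℝ) 1))) := hD.comp_quasiMeasurePreserving (tp_qmp hP)
  have h2 : AEMeasurable (fun p : UCurve X × ℝ => upperSpeed p.1 p.2)
      (P.prod (volume.restrict (Icc (0 : ℝ) 1))) := measurable_upperSpeed.aemeasurable
  exact (h1.mul h2).lintegral_prod_right'

omit [MeasurableSpace X] [BorelSpace X] in
theorem path_meas_speed (γ : UCurve X) : Measurable (upperSpeed γ) := by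
  have h := (measurable_upperSpeed (X := X)).comp (measurable_prodMk_left (x := γ))
  simpa only [Function.comp_def] using h

theorem path_meas_curve (γ : UCurve X) : Measurable γ.ext :=
  measurable_ext.comp (measurable_prodMk_left (x := γ))

theorem tp_ae_fin (hP : IsTestPlan2 m P) (hb : HasBoundedTracks P) {D : X → ℝ}
    (hD : IsL2OnBalls m D) : ∀ᵐ γ ∂P,
      AEMeasurable (fun t => ENNReal.ofReal (D (γ.ext t)) * upperSpeed γ t)
        (volume.restrict (Icc (0 : ℝ) 1)) ∧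
      ∫⁻ t in Icc (0 : ℝ) 1, ENNReal.ofReal (D (γ.ext t)) * upperSpeed γ t ≠ ⊤ := by
  have hm := l2b_aemeasurable hD
  obtain ⟨K, o, R, hK⟩ := tp_lintegral_le hP hb
  have hfin := (hK (fun x => ENNReal.ofReal (D x)) hm.ennreal_ofReal).trans_lt
    (ENNReal.mul_lt_top ENNReal.coe_lt_top
      (ENNReal.rpow_lt_top_of_nonneg (by norm_num) (path_l2_lt_top hD o R).ne))
  filter_upwards [ae_lt_top' (path_aemeas_fst hP hm.ennreal_ofReal) hfin.ne,
    tp_ae_ae hP hm.ae_eq_mk] with γ h1 h2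
  refine ⟨?_, h1.ne⟩
  have : Measurable fun t => ENNReal.ofReal (hm.mk D (γ.ext t)) * upperSpeed γ t :=
    ((hm.measurable_mk.comp (path_meas_curve γ)).ennreal_ofReal).mul (path_meas_speed γ)
  refine this.aemeasurable.congr ?_
  filter_upwards [h2] with t ht
  rw [ht]

omit [MeasurableSpace X] [BorelSpace X] in
/-- a measurable criterion for `HasL2Speed` -/
theorem path_l2speed_of_rat {γ : UCurve X}
    (h1 : ∫⁻ r in Icc (0 : ℝ) 1, upperSpeed γ r ^ 2 < ⊤)
    (h2 : ∀ a b : ℚ, a ≤ b → edist (γ.ext a) (γ.ext b) ≤ ∫⁻ r in Icc (a : ℝ) b, upperSpeed γ r) :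
    HasL2Speed γ := by
  refine ⟨upperSpeed γ, path_meas_speed γ, h1, fun s t hst => ?_⟩
  rcases hst.eq_or_lt with he | hlt
  · have : s = t := Subtype.ext he
    simp [this]
  rw [← ext_coe, ← ext_coe]
  have hc : Continuous fun p : ℝ × ℝ => edist (γ.ext p.1) (γ.ext p.2) := by
    have hγ : Continuous γ.ext :=
      continuous_ext.comp (f := fun r : ℝ => (γ, r)) (by fun_prop)
    exact (hγ.comp continuous_fst).edist (hγ.comp continuous_snd)
  by_contra hcon
  rw [not_le] at hcon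
  have hev : ∀ᶠ p in 𝓝 ((s : ℝ), (t : ℝ)),
      ∫⁻ r in Icc (s : ℝ) t, upperSpeed γ r < edist (γ.ext p.1) (γ.ext p.2) :=
    hc.continuousAt.eventually (lt_mem_nhds hcon)
  obtain ⟨δ, hδ, hball⟩ := Metric.eventually_nhds_iff.1 hev
  obtain ⟨a, ha1, ha2⟩ := exists_rat_btwn (show (s : ℝ) < min (s + δ) ((s + t) / 2) from
    lt_min (by linarith) (by linarith))
  obtain ⟨b, hb1, hb2⟩ := exists_rat_btwn (show max ((t : ℝ) - δ) ((s + t) / 2) < t from
    max_lt (by linarith) (by linarith))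
  rw [lt_min_iff] at ha2
  rw [max_lt_iff] at hb1
  have hab : a ≤ b := by
    have : (a : ℝ) ≤ b := by linarith [ha2.2, hb1.2]
    exact_mod_cast this
  have hd : dist ((a : ℝ), (b : ℝ)) ((s : ℝ), (t : ℝ)) < δ := by
    rw [Prod.dist_eq, max_lt_iff, Real.dist_eq, Real.dist_eq, abs_lt, abs_lt]
    refine ⟨⟨?_, ?_⟩, ?_, ?_⟩ <;> simp only <;> linarith [ha2.1, hb1.1]
  have h3 := hball hd
  have h4 : ∫⁻ r in Icc (a : ℝ) b, upperSpeed γ r ≤ ∫⁻ r in Icc (s : ℝ) t, upperSpeed γ r :=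
    lintegral_mono_set (Icc_subset_Icc ha1.le hb2.le)
  exact absurd (h3.trans_le ((h2 a b hab).trans h4)) (lt_irrefl _)

omit [MeasurableSpace X] [BorelSpace X] [ProperSpace X] in
theorem path_restr_ext (γ : UCurve X) (s t : ℝ) {r : ℝ} (hr : r ∈ Icc (0 : ℝ) 1) :
    (restr s t γ).ext r = γ.ext (s + r * (t - s)) := by
  rw [ext_of_mem _ hr, restr_apply]

omit [MeasurableSpace X] [BorelSpace X] [ProperSpace X] in
theorem path_energy_restr (γ : UCurve X) {s t : ℝ} (hs : 0 ≤ s) (hst : s < t) (ht : t ≤ 1) :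
    ∫⁻ r in Icc (0 : ℝ) 1, upperSpeed (restr s t γ) r ^ 2 ≤
      ∫⁻ r in Icc (0 : ℝ) 1, upperSpeed γ r ^ 2 := by
  have h1 : ENNReal.ofReal (t - s) ≤ 1 := ENNReal.ofReal_le_one.2 (by linarith)
  calc _ ≤ ∫⁻ r in Icc (0 : ℝ) 1,
          ENNReal.ofReal (t - s) * upperSpeed γ (s + r * (t - s)) ^ 2 := by
        refine lintegral_mono_ae ?_
        filter_upwards [path_ae_Ioo] with r hr
        rw [upperSpeed_restr γ hst hr, mul_pow, sq (ENNReal.ofReal (t - s))]
        gcongr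
        exact mul_le_of_le_one_left' h1
    _ = ∫⁻ r in Icc s t, upperSpeed γ r ^ 2 := path_affine (fun x => upperSpeed γ x ^ 2) hst
    _ ≤ _ := lintegral_mono_set (Icc_subset_Icc hs ht)

/-- restriction of a test plan to a set of curves and to a time interval -/
theorem tp_restr (hP : IsTestPlan2 m P) (hb : HasBoundedTracks P) {A : Set (UCurve X)}
    (hA : MeasurableSet A) (h0 : P A ≠ 0) {s t : ℝ} (hs : 0 ≤ s) (hst : s < t) (ht : t ≤ 1) :
    IsTestPlan2 m (((P A)⁻¹ • P.restrict A).map (restr s t)) ∧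
      HasBoundedTracks (((P A)⁻¹ • P.restrict A).map (restr s t)) := by
  haveI := hP.1
  have hr : Measurable (restr (X := X) s t) := (continuous_restr s t).measurable
  have hinv : (P A)⁻¹ ≠ ⊤ := ENNReal.inv_ne_top.2 h0
  haveI : IsProbabilityMeasure ((P A)⁻¹ • P.restrict A) :=
    ProbabilityTheory.cond_isProbabilityMeasure h0
  have hle : (P A)⁻¹ • P.restrict A ≤ (P A)⁻¹ • P := by
    refine Measure.le_iff.2 fun B hB => ?_
    simp only [Measure.smul_apply, smul_eq_mul]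
    gcongr
    exact Measure.restrict_le_self
  have hac : (P A)⁻¹ • P.restrict A ≪ P := Measure.absolutelyContinuous_of_le_smul hle
  have hen : (∫⁻ γ, (∫⁻ r in Set.Icc (0 : ℝ) 1, upperSpeed γ r ^ 2)
      ∂(((P A)⁻¹ • P.restrict A).map (restr s t))) < ⊤ := by
    refine (lintegral_map_le _ _).trans_lt ?_
    refine (lintegral_mono fun γ => path_energy_restr γ hs hst ht).trans_lt ?_
    refine (lintegral_mono' hle le_rfl).trans_lt ?_
    rw [lintegral_smul_measure, smul_eq_mul]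
    exact ENNReal.mul_lt_top hinv.lt_top hP.2.2.2
  refine ⟨⟨Measure.isProbabilityMeasure_map hr.aemeasurable, ?_, ?_, hen⟩, ?_⟩
  · obtain ⟨C, o, R, hC⟩ := tp_adm hP hb
    refine ⟨((P A)⁻¹).toNNReal * C, fun r => ?_⟩
    rw [timeMarginal, Measure.map_map (measurable_ev r) hr]
    have e : ((fun γ : UCurve X => γ.toMap r) ∘ restr s t) =
        fun γ : UCurve X => γ.ext (s + r * (t - s)) := rfl
    rw [e]
    refine (Measure.map_mono hle (path_meas_at _)).trans ?_
    rw [Measure.map_smul, ENNReal.coe_mul, ENNReal.coe_toNNReal hinv, mul_smul]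
    refine Measure.le_iff.2 fun B hB => ?_
    rw [Measure.smul_apply, Measure.smul_apply (P A)⁻¹, smul_eq_mul, smul_eq_mul]
    gcongr
    exact (hC _).le
  · have hm1 : Measurable fun γ : UCurve X => ∫⁻ r in Set.Icc (0 : ℝ) 1, upperSpeed γ r ^ 2 :=
      (measurable_upperSpeed.pow_const 2).lintegral_prod_right'
    have h2 : ∀ᵐ γ ∂(((P A)⁻¹ • P.restrict A).map (restr s t)), ∀ a b : ℚ, a ≤ b →
        edist (γ.ext a) (γ.ext b) ≤ ∫⁻ r in Icc (a : ℝ) b, upperSpeed γ r := by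
      rw [ae_all_iff]
      intro a
      rw [ae_all_iff]
      intro b
      by_cases hab : a ≤ b
      · simp only [hab, true_implies]
        have hm2 : Measurable fun γ : UCurve X => ∫⁻ r in Set.Icc (a : ℝ) b, upperSpeed γ r :=
          measurable_upperSpeed.lintegral_prod_right'
        rw [ae_map_iff hr.aemeasurable
          (measurableSet_le ((path_meas_at _).edist (path_meas_at _)) hm2)]
        filter_upwards [hac hP.2.2.1] with γ hγ
        exact edist_le_lintegral_speed (l2speed_restr hγ hs hst.le ht) (by exact_mod_cast hab)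
      · simp [hab]
    filter_upwards [ae_lt_top hm1 hen.ne, h2] with γ h1 h2
    exact path_l2speed_of_rat h1 h2
  · obtain ⟨o, R, hR⟩ := hb
    refine ⟨o, R, ?_⟩
    have hcl : IsClosed {γ : UCurve X | ∀ r : unitInterval, γ.toMap r ∈ closedBall o R} := by
      rw [setOf_forall]
      exact isClosed_iInter fun r => isClosed_closedBall.preimage (continuous_ev r)
    rw [ae_map_iff hr.aemeasurable hcl.measurableSet]
    filter_upwards [hac hR] with γ hγ r
    exact hγ _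

/-- the inequality between two fixed times -/
theorem wug_path_at {f D : X → ℝ} (hf : AEMeasurable f m) (h : IsWUGLoc m f D)
    (hP : IsTestPlan2 m P) (hb : HasBoundedTracks P) {s t : ℝ} (hs : 0 ≤ s) (hst : s ≤ t)
    (ht : t ≤ 1) : ∀ᵐ γ ∂P, ENNReal.ofReal |f (γ.ext t) - f (γ.ext s)| ≤
      ∫⁻ r in Icc s t, ENNReal.ofReal (D (γ.ext r)) * upperSpeed γ r := by
  haveI := hP.1
  rcases hst.eq_or_lt with rfl | hlt
  · simp
  have key : ∀ (Q : Measure (UCurve X)), IsTestPlan2 m Q → ∀ a b : ℝ,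
      AEMeasurable (fun γ : UCurve X => ENNReal.ofReal |f (γ.ext a) - f (γ.ext b)|) Q := by
    intro Q hQ a b
    have h1 := hf.comp_quasiMeasurePreserving (path_qmp_at hQ a)
    have h2 := hf.comp_quasiMeasurePreserving (path_qmp_at hQ b)
    exact (continuous_abs.measurable.comp_aemeasurable (h1.sub h2)).ennreal_ofReal
  refine ae_le_of_forall_setLIntegral_le_of_sigmaFinite₀ (key P hP t s) fun A hA _ => ?_
  by_cases h0 : P A = 0
  · rw [setLIntegral_measure_zero _ _ h0]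
    exact zero_le
  obtain ⟨hQ, hQb⟩ := tp_restr hP hb hA h0 hs hlt ht
  have hr : Measurable (restr (X := X) s t) := (continuous_restr s t).measurable
  have h1 := h.2.2 _ hQ hQb
  simp only [← ext_zero, ← ext_one] at h1
  rw [lintegral_map' (key _ hQ 1 0) hr.aemeasurable] at h1
  replace h1 := h1.trans (lintegral_map_le _ _)
  have e1 : ∀ γ : UCurve X, (restr s t γ).ext 1 = γ.ext t := fun γ => by
    rw [path_restr_ext γ s t ⟨zero_le_one, le_rfl⟩]; congr 1; ring
  have e0 : ∀ γ : UCurve X, (restr s t γ).ext 0 = γ.ext s := fun γ => by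
    rw [path_restr_ext γ s t ⟨le_rfl, zero_le_one⟩]; congr 1; ring
  have e2 : ∀ γ : UCurve X, ∫⁻ r in Icc (0 : ℝ) 1,
      ENNReal.ofReal (D ((restr s t γ).ext r)) * upperSpeed (restr s t γ) r =
      ∫⁻ r in Icc s t, ENNReal.ofReal (D (γ.ext r)) * upperSpeed γ r := fun γ => by
    rw [← path_affine (fun r => ENNReal.ofReal (D (γ.ext r)) * upperSpeed γ r) hlt]
    refine lintegral_congr_ae ?_
    filter_upwards [path_ae_Ioo] with r hr
    rw [upperSpeed_restr γ hlt hr, path_restr_ext γ s t (Ioo_subset_Icc_self hr)]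
    ring
  simp only [e1, e0, e2, lintegral_smul_measure, smul_eq_mul] at h1
  exact (ENNReal.mul_le_mul_iff_right (ENNReal.inv_ne_zero.2 (measure_ne_top _ _))
    (ENNReal.inv_ne_top.2 h0)).1 h1

/-- the inequality between all rational times -/
theorem wug_path {f D : X → ℝ} (hf : AEMeasurable f m) (h : IsWUGLoc m f D)
    (hP : IsTestPlan2 m P) (hb : HasBoundedTracks P) : ∀ᵐ γ ∂P, ∀ s t : ℚ, 0 ≤ s → s ≤ t → t ≤ 1 →
      ENNReal.ofReal |f (γ.ext t) - f (γ.ext s)| ≤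
        ∫⁻ r in Icc (s : ℝ) t, ENNReal.ofReal (D (γ.ext r)) * upperSpeed γ r := by
  rw [ae_all_iff]
  intro s
  rw [ae_all_iff]
  intro t
  by_cases hc : 0 ≤ s ∧ s ≤ t ∧ t ≤ 1
  · filter_upwards [wug_path_at hf h hP hb (s := s) (t := t) (by exact_mod_cast hc.1)
      (by exact_mod_cast hc.2.1) (by exact_mod_cast hc.2.2)] with γ hγ _ _ _
    exact hγ
  · exact Eventually.of_forall fun γ h1 h2 h3 => absurd ⟨h1, h2, h3⟩ hc

theorem path_at_uIcc {f D : X → ℝ} (hf : AEMeasurable f m) (h : IsWUGLoc m f D)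
    (hP : IsTestPlan2 m P) (hb : HasBoundedTracks P) {r s : ℝ} (hr : r ∈ Icc (0 : ℝ) 1)
    (hs : s ∈ Icc (0 : ℝ) 1) : ∀ᵐ γ ∂P, ENNReal.ofReal |f (γ.ext r) - f (γ.ext s)| ≤
      ∫⁻ x in uIcc r s, ENNReal.ofReal (D (γ.ext x)) * upperSpeed γ x := by
  rcases le_total r s with hrs | hrs
  · filter_upwards [wug_path_at hf h hP hb hr.1 hrs hs.2] with γ hγ
    rwa [uIcc_of_le hrs, abs_sub_comm]
  · filter_upwards [wug_path_at hf h hP hb hs.1 hrs hr.2] with γ hγ
    rwa [uIcc_of_ge hrs]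

theorem path_meas_uIcc {D : X → ℝ} (hD : Measurable D) (s : ℝ) :
    Measurable fun p : UCurve X × ℝ =>
      ∫⁻ x in uIcc p.2 s, ENNReal.ofReal (D (p.1.ext x)) * upperSpeed p.1 x := by
  have hS : MeasurableSet {q : (UCurve X × ℝ) × ℝ | q.2 ∈ uIcc q.1.2 s} := by
    have a1 : Measurable fun q : (UCurve X × ℝ) × ℝ => min q.1.2 s := by fun_prop
    have a2 : Measurable fun q : (UCurve X × ℝ) × ℝ => max q.1.2 s := by fun_prop
    exact (measurableSet_le a1 measurable_snd).inter (measurableSet_le measurable_snd a2)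
  have hq : Measurable fun q : (UCurve X × ℝ) × ℝ => (q.1.1, q.2) := by fun_prop
  have hg0 : Measurable fun p : UCurve X × ℝ =>
      ENNReal.ofReal (D (p.1.ext p.2)) * upperSpeed p.1 p.2 :=
    ((hD.comp measurable_ext).ennreal_ofReal).mul measurable_upperSpeed
  have hg : Measurable fun q : (UCurve X × ℝ) × ℝ =>
      ENNReal.ofReal (D (q.1.1.ext q.2)) * upperSpeed q.1.1 q.2 := by
    have h := hg0.comp hq
    simpa only [Function.comp_def] using h
  have h := (hg.indicator hS).lintegral_prod_right' (ν := volume)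
  have e : (fun p : UCurve X × ℝ =>
      ∫⁻ x in uIcc p.2 s, ENNReal.ofReal (D (p.1.ext x)) * upperSpeed p.1 x) =
      fun p : UCurve X × ℝ => ∫⁻ x, {q : (UCurve X × ℝ) × ℝ | q.2 ∈ uIcc q.1.2 s}.indicator
        (fun q => ENNReal.ofReal (D (q.1.1.ext q.2)) * upperSpeed q.1.1 q.2) (p, x) := by
    funext p
    rw [← lintegral_indicator measurableSet_uIcc]
    refine lintegral_congr fun x => ?_
    by_cases hx : x ∈ uIcc p.2 s
    · rw [indicator_of_mem hx, indicator_of_mem (by exact hx)]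
    · rw [indicator_of_notMem hx, indicator_of_notMem (by exact hx)]
  rw [e]
  exact h

/-- the inequality between almost every time and all rational times -/
theorem wug_path_ae {f D : X → ℝ} (hf : AEMeasurable f m) (h : IsWUGLoc m f D)
    (hP : IsTestPlan2 m P) (hb : HasBoundedTracks P) :
    ∀ᵐ γ ∂P, ∀ᵐ r ∂(volume.restrict (Icc (0 : ℝ) 1)), ∀ s : ℚ, 0 ≤ s → s ≤ 1 →
      ENNReal.ofReal |f (γ.ext r) - f (γ.ext s)| ≤
        ∫⁻ x in uIcc r (s : ℝ), ENNReal.ofReal (D (γ.ext x)) * upperSpeed γ x := by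
  haveI := hP.1
  have hD := l2b_aemeasurable h.1
  simp only [ae_all_iff]
  intro s h0 h1
  have hs : (s : ℝ) ∈ Icc (0 : ℝ) 1 := ⟨by exact_mod_cast h0, by exact_mod_cast h1⟩
  have hgood : ∀ᵐ γ ∂P, ∀ r ∈ Icc (0 : ℝ) 1,
      ∫⁻ x in uIcc r (s : ℝ), ENNReal.ofReal (D (γ.ext x)) * upperSpeed γ x =
        ∫⁻ x in uIcc r (s : ℝ), ENNReal.ofReal (hD.mk D (γ.ext x)) * upperSpeed γ x := by
    filter_upwards [tp_ae_ae hP hD.ae_eq_mk] with γ hγ r hr
    refine lintegral_congr_ae ?_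
    filter_upwards [ae_restrict_of_ae_restrict_of_subset (uIcc_subset_Icc hr hs) hγ] with x hx
    rw [hx]
  have hS : MeasurableSet {p : UCurve X × ℝ |
      ENNReal.ofReal |hf.mk f (p.1.ext p.2) - hf.mk f (p.1.ext s)| ≤
        ∫⁻ x in uIcc p.2 (s : ℝ), ENNReal.ofReal (hD.mk D (p.1.ext x)) * upperSpeed p.1 x} := by
    refine measurableSet_le ?_ (path_meas_uIcc hD.measurable_mk s)
    exact (continuous_abs.measurable.comp ((hf.measurable_mk.comp measurable_ext).sub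
      (hf.measurable_mk.comp ((path_meas_at _).comp measurable_fst)))).ennreal_ofReal
  have h2 : ∀ᵐ r ∂(volume.restrict (Icc (0 : ℝ) 1)), ∀ᵐ γ ∂P,
      ENNReal.ofReal |hf.mk f (γ.ext r) - hf.mk f (γ.ext s)| ≤
        ∫⁻ x in uIcc r (s : ℝ), ENNReal.ofReal (hD.mk D (γ.ext x)) * upperSpeed γ x := by
    filter_upwards [ae_restrict_mem measurableSet_Icc] with r hr
    filter_upwards [path_at_uIcc hf h hP hb hr hs, hgood, tp_ae hP r hf.ae_eq_mk,
      tp_ae hP s hf.ae_eq_mk] with γ a1 a2 a3 a4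
    rwa [← a2 r hr, ← a3, ← a4]
  rw [← Measure.ae_ae_comm (μ := P) (ν := volume.restrict (Icc (0 : ℝ) 1)) hS] at h2
  filter_upwards [h2, hgood, tp_ae_ae hP hf.ae_eq_mk, tp_ae hP s hf.ae_eq_mk] with γ a1 a2 a3 a4
  filter_upwards [a1, a3, ae_restrict_mem measurableSet_Icc] with r b1 b2 hr
  rwa [a2 r hr, b2, a4]

/-- the pathwise inequality implies the weak upper gradient property -/
theorem wug_of_path {f D : X → ℝ} (hD : IsL2OnBalls m D) (h0 : ∀ᵐ x ∂m, 0 ≤ D x)
    (h : ∀ P : Measure (UCurve X), IsTestPlan2 m P → HasBoundedTracks P → ∀ᵐ γ ∂P,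
      ENNReal.ofReal |f (γ.ext 1) - f (γ.ext 0)| ≤
        ∫⁻ r in Icc (0 : ℝ) 1, ENNReal.ofReal (D (γ.ext r)) * upperSpeed γ r) :
    IsWUGLoc m f D := by
  refine ⟨hD, h0, fun P hP hb => lintegral_mono_ae ?_⟩
  filter_upwards [h P hP hb] with γ hγ
  rwa [ext_zero, ext_one] at hγ

end Crest.Agent.R242
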