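import Crest.Agent.R242.Plan0

/-!
Row 242: a family of measures contracting to a point.
-/

set_option autoImplicit false

open MeasureTheory Set Filter Metric Crest.GeometryTopology.SyntheticRicci
open scoped ENNReal NNReal Topology

namespace Crest.Agent.R242

variable {X : Type*} [MetricSpace X] [ProperSpace X] [MeasurableSpace X] [BorelSpace X]
  {m : Measure X} [IsLocallyFiniteMeasure m] {κ N : ℝ}

theorem plan_num_nonneg {a b c δ : ℝ} (hδ : 0 < δ) (hδ' : δ < 1) (hc : 0 ≤ c) (h : c ≤ a + b) :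
    0 ≤ (1 - δ) * a ^ 2 + δ * b ^ 2 - δ * (1 - δ) * c ^ 2 := by
  have h1 : c ^ 2 ≤ (a + b) ^ 2 := pow_le_pow_left₀ hc h 2
  have h2 : 0 < δ * (1 - δ) := mul_pos hδ (by linarith)
  nlinarith [sq_nonneg ((1 - δ) * a - δ * b), mul_le_mul_of_nonneg_left h1 h2.le]

theorem plan_num_eq {a b c δ : ℝ} (hδ : 0 < δ) (hδ' : δ < 1) (hc : 0 ≤ c) (h : c ≤ a + b)
    (e : (1 - δ) * a ^ 2 + δ * b ^ 2 - δ * (1 - δ) * c ^ 2 = 0) :
    a = δ * c ∧ b = (1 - δ) * c := by
  have h1 : c ^ 2 ≤ (a + b) ^ 2 := pow_le_pow_left₀ hc h 2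
  have h2 : 0 < δ * (1 - δ) := mul_pos hδ (by linarith)
  have h3 : ((1 - δ) * a - δ * b) ^ 2 + δ * (1 - δ) * ((a + b) ^ 2 - c ^ 2) = 0 := by
    linarith
  have h4 : 0 ≤ δ * (1 - δ) * ((a + b) ^ 2 - c ^ 2) := mul_nonneg h2.le (by linarith)
  have h5 : ((1 - δ) * a - δ * b) ^ 2 = 0 := by nlinarith [sq_nonneg ((1 - δ) * a - δ * b)]
  have h6 : (1 - δ) * a - δ * b = 0 := pow_eq_zero_iff (two_ne_zero) |>.1 h5
  have h7 : (a + b) ^ 2 - c ^ 2 = 0 := by
    have : δ * (1 - δ) * ((a + b) ^ 2 - c ^ 2) = 0 := by linarith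
    exact (mul_eq_zero.1 this).resolve_left h2.ne'
  have h8 : a + b = c := by
    have : (a + b) ^ 2 = c ^ 2 := by linarith
    exact (pow_left_inj₀ (hc.trans h) hc two_ne_zero).1 this
  rw [← h8]
  constructor <;> linarith

omit [ProperSpace X] [MeasurableSpace X] [BorelSpace X] in
theorem plan_geo_dist {γ : UCurve X} (h : IsCSGeodesic γ) {y : X} {δ : ℝ}
    (ha : dist (γ.toMap 0) y = δ * dist (γ.toMap 1) y)
    (hb : dist (γ.toMap 0) (γ.toMap 1) = (1 - δ) * dist (γ.toMap 1) y) {τ : ℝ}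
    (hτ : τ ∈ Icc (0 : ℝ) 1) :
    dist (γ.ext τ) y = (δ + τ * (1 - δ)) * dist (γ.toMap 1) y := by
  have h0 := geo_dist_ext h hτ (left_mem_Icc.2 zero_le_one)
  have h1 := geo_dist_ext h (right_mem_Icc.2 zero_le_one) hτ
  rw [ext_zero, sub_zero, abs_of_nonneg hτ.1, hb] at h0
  rw [ext_one, abs_of_nonneg (sub_nonneg.2 hτ.2), hb] at h1
  have t1 := dist_triangle (γ.ext τ) (γ.toMap 0) y
  have t2 := dist_triangle (γ.toMap 1) (γ.ext τ) y
  rw [h0, ha] at t1
  rw [h1] at t2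
  apply le_antisymm <;> linarith

theorem plan_integrable_sq {Ω : Type*} [MeasurableSpace Ω] {P : Measure Ω} [IsFiniteMeasure P]
    {f : Ω → ℝ} (hf : Measurable f) (h0 : ∀ ω, 0 ≤ f ω) {B : ℝ} (hB : ∀ᵐ ω ∂P, f ω ≤ B) :
    Integrable (fun ω => f ω ^ 2) P := by
  refine Integrable.of_bound (hf.pow_const 2).aestronglyMeasurable (B ^ 2) ?_
  filter_upwards [hB] with ω hω
  rw [Real.norm_of_nonneg (sq_nonneg _)]
  exact pow_le_pow_left₀ (h0 ω) hω 2

/-- a family of measures contracting towards a point -/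
theorem exists_family [m.IsOpenPosMeasure] (h : CDk m κ N) {μ₁ : Measure X}
    [IsProbabilityMeasure μ₁] {C : ℝ≥0} {y : X} {r : ℝ} (h₁ : Adm m μ₁ C y r) {δ : ℝ} (hδ : 0 < δ)
    (hδ' : δ < 1) :
    ∃ (C' : ℝ≥0) (μ : ℝ → Measure X), μ 1 = μ₁ ∧
      (∀ s ∈ Icc δ 1, IsProbabilityMeasure (μ s) ∧ Adm m (μ s) C' y (s * r) ∧
        ∫ x, dist x y ^ 2 ∂(μ s) = s ^ 2 * ∫ x, dist x y ^ 2 ∂μ₁) ∧
      ∀ s ∈ Icc δ 1, ∀ s' ∈ Icc δ 1, ∃ q : Measure (X × X), q.fst = μ s ∧ q.snd = μ s' ∧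
        cst q ≤ (s - s') ^ 2 * ∫ x, dist x y ^ 2 ∂μ₁ := by
  have hδ1 : 0 < 1 - δ := by linarith
  have hr : 0 ≤ r := by
    obtain ⟨x, hx⟩ := h₁.inn.exists
    exact dist_nonneg.trans hx
  have mball : ∀ R : ℝ, MeasurableSet {x : X | dist x y ≤ R} := fun R =>
    (isClosed_le (by fun_prop) continuous_const).measurableSet
  have md : Measurable fun x : X => dist x y ^ 2 := by fun_prop
  obtain ⟨q, hq1, hq2, hq3⟩ := exists_contr h h₁ hδ hδ'.le
  generalize C * ((δ ^ N)⁻¹ * Real.exp (κ * (1 - δ) * r ^ 2)).toNNReal = C₁ at hq2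
  have hqp : IsProbabilityMeasure q := ⟨by rw [← Measure.fst_univ, hq1, measure_univ]⟩
  have hq1' : ∀ᵐ p ∂q, dist p.1 y ≤ r := by
    have := h₁.inn
    rw [← hq1] at this
    exact ae_of_ae_map measurable_fst.aemeasurable this
  have hν : Adm m q.snd (max C C₁) y r := by
    refine Adm.mono (C := C₁) (R := r) ⟨hq2, ?_⟩ le_rfl (le_max_right _ _) le_rfl
    refine (ae_map_iff measurable_snd.aemeasurable (mball r)).2 ?_
    filter_upwards [hq1', hq3] with p h1 h2
    rw [h2.1]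
    nlinarith [dist_nonneg (x := p.1) (y := y)]
  have hμ : Adm m μ₁ (max C C₁) y r := h₁.mono le_rfl (le_max_left _ _) le_rfl
  obtain ⟨P, hP, -, hgeo, e0, e1, hopt, hadm⟩ := exists_plan h hν hμ
  have hPp : IsProbabilityMeasure P := hP.1
  have m0 : Measurable fun γ : UCurve X => γ.toMap 0 := measurable_ev 0
  have m1 : Measurable fun γ : UCurve X => γ.toMap 1 := measurable_ev 1
  have mτ : ∀ τ : ℝ, Measurable fun γ : UCurve X => γ.ext τ := fun τ =>
    measurable_ext.comp (f := fun γ : UCurve X => (γ, τ)) (by fun_prop)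
  have e0' : P.map (fun γ => γ.toMap 0) = q.snd := by
    rw [← e0, endpointLaw, Measure.fst_map_prodMk m1]
  have e1' : P.map (fun γ => γ.toMap 1) = μ₁ := by
    rw [← e1, endpointLaw, Measure.snd_map_prodMk m0]
  have hEp : IsProbabilityMeasure (endpointLaw P) :=
    Measure.isProbabilityMeasure_map (m0.prodMk m1).aemeasurable
  set l : ℝ := ∫ x, dist x y ^ 2 ∂μ₁ with hl
  have hlq : ∫ p, dist p.1 y ^ 2 ∂q = l := by
    rw [hl, ← hq1, Measure.fst, integral_map measurable_fst.aemeasurable md.aestronglyMeasurable]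
  have hc : ∫ γ, dist (γ.toMap 1) y ^ 2 ∂P = l := by
    rw [hl, ← e1', integral_map m1.aemeasurable md.aestronglyMeasurable]
  have ha : ∫ γ, dist (γ.toMap 0) y ^ 2 ∂P = δ ^ 2 * l := by
    rw [← integral_map m0.aemeasurable md.aestronglyMeasurable, e0', Measure.snd,
      integral_map measurable_snd.aemeasurable md.aestronglyMeasurable, ← hlq,
      ← integral_const_mul]
    refine integral_congr_ae ?_
    filter_upwards [hq3] with p hp
    rw [hp.1, mul_pow]
  have md2 : Measurable fun p : X × X => dist p.1 p.2 ^ 2 := by fun_prop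
  have hb : ∫ γ, dist (γ.toMap 0) (γ.toMap 1) ^ 2 ∂P ≤ (1 - δ) ^ 2 * l := by
    have k1 : cst (endpointLaw P) ≤ cst (q.map Prod.swap) := by
      refine hopt.cst_le (o := y) (R := r) ?_ ?_ ?_ ?_
      · rw [e0]; exact hν.inn
      · rw [e1]; exact hμ.inn
      · rw [e0, Measure.fst_map_swap]
      · rw [e1, Measure.snd_map_swap, hq1]
    rw [cst_swap, cst, cst, endpointLaw,
      integral_map (m0.prodMk m1).aemeasurable md2.aestronglyMeasurable] at k1
    refine k1.trans (le_of_eq ?_)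
    rw [← hlq, ← integral_const_mul]
    refine integral_congr_ae ?_
    filter_upwards [hq3] with p hp
    rw [hp.2, mul_pow]
  have b0 : ∀ᵐ γ ∂P, dist (γ.toMap 0) y ≤ r := by
    have := hν.inn
    rw [← e0'] at this
    exact ae_of_ae_map m0.aemeasurable this
  have b1 : ∀ᵐ γ ∂P, dist (γ.toMap 1) y ≤ r := by
    have := hμ.inn
    rw [← e1'] at this
    exact ae_of_ae_map m1.aemeasurable this
  have b2 : ∀ᵐ γ ∂P, dist (γ.toMap 0) (γ.toMap 1) ≤ 2 * r := by
    filter_upwards [b0, b1] with γ h0 h1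
    linarith [dist_triangle_right (γ.toMap 0) (γ.toMap 1) y]
  have i0 := plan_integrable_sq (m0.dist measurable_const) (fun _ => dist_nonneg) b0
  have i1 := plan_integrable_sq (m1.dist measurable_const) (fun _ => dist_nonneg) b1
  have i2 := plan_integrable_sq (m0.dist m1) (fun _ => dist_nonneg) b2
  have htri : ∀ γ : UCurve X,
      dist (γ.toMap 1) y ≤ dist (γ.toMap 0) y + dist (γ.toMap 0) (γ.toMap 1) := fun γ => by
    linarith [dist_triangle_left (γ.toMap 1) y (γ.toMap 0)]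
  have key : ∀ᵐ γ ∂P, dist (γ.toMap 0) y = δ * dist (γ.toMap 1) y ∧
      dist (γ.toMap 0) (γ.toMap 1) = (1 - δ) * dist (γ.toMap 1) y := by
    have iG : Integrable (fun γ : UCurve X => (1 - δ) * dist (γ.toMap 0) y ^ 2 +
        δ * dist (γ.toMap 0) (γ.toMap 1) ^ 2) P := (i0.const_mul _).add (i2.const_mul _)
    have iF : Integrable (fun γ : UCurve X => (1 - δ) * dist (γ.toMap 0) y ^ 2 +
        δ * dist (γ.toMap 0) (γ.toMap 1) ^ 2 - δ * (1 - δ) * dist (γ.toMap 1) y ^ 2) P :=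
      iG.sub (i1.const_mul _)
    have nF : 0 ≤ fun γ : UCurve X => (1 - δ) * dist (γ.toMap 0) y ^ 2 +
        δ * dist (γ.toMap 0) (γ.toMap 1) ^ 2 - δ * (1 - δ) * dist (γ.toMap 1) y ^ 2 := fun γ =>
      plan_num_nonneg hδ hδ' dist_nonneg (htri γ)
    have zF := (integral_eq_zero_iff_of_nonneg nF iF).1 (le_antisymm (by
      rw [integral_sub iG (i1.const_mul _),
        integral_add (i0.const_mul _) (i2.const_mul _), integral_const_mul, integral_const_mul,
        integral_const_mul, ha, hc]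
      nlinarith [mul_le_mul_of_nonneg_left hb hδ.le]) (integral_nonneg nF))
    filter_upwards [zF] with γ hγ
    exact plan_num_eq hδ hδ' dist_nonneg (htri γ) hγ
  have hτ : ∀ s ∈ Icc δ 1, (s - δ) / (1 - δ) ∈ Icc (0 : ℝ) 1 := fun s hs =>
    ⟨div_nonneg (sub_nonneg.2 hs.1) hδ1.le, (div_le_one hδ1).2 (by linarith [hs.2])⟩
  have hs : ∀ s ∈ Icc δ 1, ∀ᵐ γ ∂P,
      dist (γ.ext ((s - δ) / (1 - δ))) y = s * dist (γ.toMap 1) y := fun s hs => by
    filter_upwards [hgeo, key] with γ h1 h2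
    rw [plan_geo_dist h1 h2.1 h2.2 (hτ s hs), div_mul_cancel₀ _ hδ1.ne', add_sub_cancel]
  refine ⟨max C C₁ * (Real.exp (κ * (2 * r) ^ 2)).toNNReal,
    fun s => P.map fun γ => γ.ext ((s - δ) / (1 - δ)), ?_, fun s hs' => ⟨?_, ⟨(hadm _).le, ?_⟩, ?_⟩,
    fun s hs' s' hs'' => ⟨P.map fun γ => (γ.ext ((s - δ) / (1 - δ)), γ.ext ((s' - δ) / (1 - δ))),
      Measure.fst_map_prodMk (mτ _), Measure.snd_map_prodMk (mτ _), ?_⟩⟩
  · simp only [div_self hδ1.ne', ext_one]
    exact e1'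
  · exact Measure.isProbabilityMeasure_map (mτ _).aemeasurable
  · refine (ae_map_iff (mτ _).aemeasurable (mball _)).2 ?_
    filter_upwards [hs s hs', b1] with γ h1 h2
    rw [h1]
    exact mul_le_mul_of_nonneg_left h2 (hδ.le.trans hs'.1)
  · rw [integral_map (mτ _).aemeasurable md.aestronglyMeasurable, ← hc, ← integral_const_mul]
    refine integral_congr_ae ?_
    filter_upwards [hs s hs'] with γ h1
    rw [h1, mul_pow]
  · rw [cst, integral_map ((mτ _).prodMk (mτ _)).aemeasurable md2.aestronglyMeasurable, ← hc,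
      ← integral_const_mul]
    refine le_of_eq (integral_congr_ae ?_)
    filter_upwards [hgeo, key] with γ h1 h2
    rw [geo_dist_ext h1 (hτ s hs') (hτ s' hs''), h2.2, mul_pow, sq_abs]
    field_simp
    ring

end Crest.Agent.R242
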