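import Crest.Agent.R242.Mid

/-!
Row 242: test plans concentrated on geodesics.
-/

set_option autoImplicit false
set_option linter.unusedSectionVars false

open MeasureTheory Set Filter Metric Crest.GeometryTopology.SyntheticRicci
open scoped ENNReal NNReal Topology

namespace Crest.Agent.R242

variable {X : Type*} [MetricSpace X] [ProperSpace X] [MeasurableSpace X] [BorelSpace X]
  {m : Measure X} [IsLocallyFiniteMeasure m] {κ N : ℝ}

theorem plan0_quadCost_map {Ω : Type*} [MeasurableSpace Ω] (T : Measure Ω) {a c : Ω → X}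
    (ha : Measurable a) (hc : Measurable c) :
    quadCost (T.map fun ω => (a ω, c ω)) = ∫⁻ ω, edist (a ω) (c ω) ^ 2 ∂T := by
  unfold quadCost
  rw [lintegral_map (by fun_prop) (ha.prodMk hc)]

theorem plan0_quadCost_ne_top {q : Measure (X × X)} [IsFiniteMeasure q] {M : ℝ}
    (h : ∀ᵐ p ∂q, dist p.1 p.2 ≤ M) : quadCost q ≠ ⊤ := by
  rw [quadCost_eq_ofReal h]; exact ENNReal.ofReal_ne_top

omit [ProperSpace X] [MeasurableSpace X] [BorelSpace X] in
theorem plan0_edist_sq (x y : X) : edist x y ^ 2 = ENNReal.ofReal (dist x y ^ 2) := by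
  rw [edist_dist, ENNReal.ofReal_pow dist_nonneg]

/-- two cheap half couplings glue to an optimal coupling through midpoints -/
theorem plan0_key {Ω : Type*} [MeasurableSpace Ω] (T : Measure Ω) {a b b' c : Ω → X}
    (ha : Measurable a) (hb : Measurable b) (hb' : Measurable b') (hc : Measurable c)
    (hbb : ∀ᵐ ω ∂T, b ω = b' ω) {q : Measure (X × X)} (hq : Opt q) (hW : quadCost q ≠ ⊤)
    (e0 : T.map a = q.fst) (e1 : T.map c = q.snd)
    (h1 : 4 * ∫⁻ ω, edist (a ω) (b ω) ^ 2 ∂T ≤ quadCost q)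
    (h2 : 4 * ∫⁻ ω, edist (b' ω) (c ω) ^ 2 ∂T ≤ quadCost q) :
    (∀ᵐ ω ∂T, dist (a ω) (b ω) = dist (a ω) (c ω) / 2 ∧
      dist (b' ω) (c ω) = dist (a ω) (c ω) / 2) ∧ Opt (T.map fun ω => (a ω, c ω)) := by
  have f0 : (T.map fun ω => (a ω, c ω)).fst = q.fst := by rw [Measure.fst_map_prodMk hc, e0]
  have f1 : (T.map fun ω => (a ω, c ω)).snd = q.snd := by rw [Measure.snd_map_prodMk ha, e1]
  have hlow := hq _ f0 f1
  rw [plan0_quadCost_map T ha hc] at hlow
  have hre : ∀ x y z : X, 2 * edist x y ^ 2 + 2 * edist y z ^ 2 =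
      ENNReal.ofReal (2 * dist x y ^ 2 + 2 * dist y z ^ 2) := by
    intro x y z
    rw [ENNReal.ofReal_add (by positivity) (by positivity), ENNReal.ofReal_mul (by norm_num),
      ENNReal.ofReal_mul (by norm_num), plan0_edist_sq, plan0_edist_sq, ENNReal.ofReal_ofNat]
  have hle : (fun ω => edist (a ω) (c ω) ^ 2) ≤ᵐ[T]
      fun ω => 2 * edist (a ω) (b ω) ^ 2 + 2 * edist (b' ω) (c ω) ^ 2 := by
    filter_upwards [hbb] with ω hω
    rw [← hω, hre, plan0_edist_sq]
    refine ENNReal.ofReal_le_ofReal ?_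
    have t := dist_triangle (a ω) (b ω) (c ω)
    have t2 := pow_le_pow_left₀ dist_nonneg t 2
    nlinarith [sq_nonneg (dist (a ω) (b ω) - dist (b ω) (c ω))]
  have hup : ∫⁻ ω, 2 * edist (a ω) (b ω) ^ 2 + 2 * edist (b' ω) (c ω) ^ 2 ∂T ≤ quadCost q := by
    rw [lintegral_add_left (by fun_prop), lintegral_const_mul _ (by fun_prop),
      lintegral_const_mul _ (by fun_prop)]
    refine (ENNReal.mul_le_mul_iff_right (a := 2) (by norm_num) (by norm_num)).1 ?_
    calc _ = 4 * ∫⁻ ω, edist (a ω) (b ω) ^ 2 ∂T + 4 * ∫⁻ ω, edist (b' ω) (c ω) ^ 2 ∂T := by ring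
      _ ≤ quadCost q + quadCost q := add_le_add h1 h2
      _ = _ := by ring
  have hfin := (lintegral_mono_ae hle).trans hup
  constructor
  · have heq := ae_eq_of_ae_le_of_lintegral_le hle (ne_top_of_le_ne_top hW hfin) (by fun_prop)
      (hup.trans hlow)
    filter_upwards [hbb, heq] with ω hω h
    rw [← hω] at h ⊢
    rw [hre, plan0_edist_sq, ENNReal.ofReal_eq_ofReal_iff (by positivity) (by positivity)] at h
    have t := dist_triangle (a ω) (b ω) (c ω)
    have t2 := pow_le_pow_left₀ dist_nonneg t 2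
    have t3 : dist (a ω) (b ω) = dist (b ω) (c ω) := by
      have : (dist (a ω) (b ω) - dist (b ω) (c ω)) ^ 2 = 0 :=
        le_antisymm (by nlinarith) (sq_nonneg _)
      exact sub_eq_zero.1 (pow_eq_zero_iff two_ne_zero |>.1 this)
    have t4 : dist (a ω) (c ω) = 2 * dist (b ω) (c ω) := by
      refine (pow_left_inj₀ dist_nonneg (by positivity) two_ne_zero).1 ?_
      rw [h, t3]; ring
    constructor <;> linarith
  · intro q' g0 g1
    rw [plan0_quadCost_map T ha hc]
    exact hfin.trans (hq q' (g0.trans f0) (g1.trans f1))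

theorem plan0_fst (P : Measure (UCurve X)) : (endpointLaw P).fst = P.map fun γ => γ.toMap 0 :=
  Measure.fst_map_prodMk (measurable_ev 1)

theorem plan0_snd (P : Measure (UCurve X)) : (endpointLaw P).snd = P.map fun γ => γ.toMap 1 :=
  Measure.snd_map_prodMk (measurable_ev 0)

theorem plan0_meas (t : ℝ) : Measurable fun γ : UCurve X => γ.ext t := measurable_ev _

/-- geodesic plans with density bounds at the dyadic times of level `k` -/
structure Plan0Q (m : Measure X) (k : ℕ) (μ₀ μ₁ : Measure X) (M : ℝ≥0)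
    (P : Measure (UCurve X)) : Prop where
  prob : IsProbabilityMeasure P
  geo : ∀ᵐ γ ∂P, IsCSGeodesic γ
  fst : (endpointLaw P).fst = μ₀
  snd : (endpointLaw P).snd = μ₁
  opt : Opt (endpointLaw P)
  le : ∀ j : ℕ, j ≤ 2 ^ k → (P.map fun γ => γ.ext (j / 2 ^ k)) ≤ (M : ℝ≥0∞) • m

theorem plan0_smul_mono {C C' : ℝ≥0} (h : C ≤ C') : (C : ℝ≥0∞) • m ≤ (C' : ℝ≥0∞) • m := by
  intro s
  simp only [Measure.smul_apply, smul_eq_mul]
  gcongr

theorem plan0_le_mul_exp (C : ℝ≥0) {x : ℝ} (hx : 0 ≤ x) : C ≤ C * (Real.exp x).toNNReal := by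
  refine le_mul_of_one_le_right' ?_
  rw [Real.one_le_toNNReal]
  exact Real.one_le_exp hx

theorem plan0_glue {k : ℕ} {μ₀ ν μ₁ : Measure X} {M : ℝ≥0} {P₁ P₂ : Measure (UCurve X)}
    (h₁ : Plan0Q m k μ₀ ν M P₁) (h₂ : Plan0Q m k ν μ₁ M P₂) {q : Measure (X × X)} (hq : Opt q)
    (hW : quadCost q ≠ ⊤) (e0 : q.fst = μ₀) (e1 : q.snd = μ₁)
    (c1 : 4 * quadCost (endpointLaw P₁) ≤ quadCost q)
    (c2 : 4 * quadCost (endpointLaw P₂) ≤ quadCost q) :
    ∃ P, Plan0Q m (k + 1) μ₀ μ₁ M P := by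
  have := h₁.prob
  have := h₂.prob
  obtain ⟨G, g1, g2, hG⟩ := exists_glue P₁ P₂ (measurable_ev 1) (measurable_ev 0)
    (by rw [← plan0_snd, ← plan0_fst, h₁.snd, h₂.fst])
  have hGp : IsProbabilityMeasure G := ⟨by
    rw [← Measure.fst_univ, g1]; exact measure_univ⟩
  have m1 : ∀ {Z : Type _} [MeasurableSpace Z] {f : UCurve X → Z}, Measurable f →
      (G.map fun p => f p.1) = P₁.map f := by
    intro Z _ f hf
    rw [← g1, Measure.fst, Measure.map_map hf measurable_fst]; rfl
  have m2 : ∀ {Z : Type _} [MeasurableSpace Z] {f : UCurve X → Z}, Measurable f →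
      (G.map fun p => f p.2) = P₂.map f := by
    intro Z _ f hf
    rw [← g2, Measure.snd, Measure.map_map hf measurable_snd]; rfl
  have ma : ∀ t, Measurable fun p : UCurve X × UCurve X => p.1.toMap t := fun t =>
    (measurable_ev t).comp measurable_fst
  have mb : ∀ t, Measurable fun p : UCurve X × UCurve X => p.2.toMap t := fun t =>
    (measurable_ev t).comp measurable_snd
  obtain ⟨k1, k2⟩ := plan0_key G (ma 0) (ma 1) (mb 0) (mb 1) hG hq hW
    (by rw [m1 (measurable_ev 0), ← plan0_fst, h₁.fst, e0])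
    (by rw [m2 (measurable_ev 1), ← plan0_snd, h₂.snd, e1])
    (by rw [← plan0_quadCost_map G (ma 0) (ma 1),
      m1 ((measurable_ev 0).prodMk (measurable_ev 1))]; exact c1)
    (by rw [← plan0_quadCost_map G (mb 0) (mb 1),
      m2 ((measurable_ev 0).prodMk (measurable_ev 1))]; exact c2)
  obtain ⟨c, hc, hcc⟩ := exists_concat (X := X)
  have hend : endpointLaw (G.map c) = G.map fun p => (p.1.toMap 0, p.2.toMap 1) := by
    unfold endpointLaw
    rw [Measure.map_map ((measurable_ev 0).prodMk (measurable_ev 1)) hc]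
    refine Measure.map_congr ?_
    filter_upwards [hG] with p hp
    have a0 := (hcc p hp).1 0 (by norm_num)
    have a1 := (hcc p hp).2.1 1 (by norm_num)
    rw [mul_zero, ext_zero, ext_zero] at a0
    rw [show (2 : ℝ) * 1 - 1 = 1 by norm_num, ext_one, ext_one] at a1
    simp only [Function.comp, a0, a1]
  refine ⟨G.map c, Measure.isProbabilityMeasure_map hc.aemeasurable, ?_, ?_, ?_, hend ▸ k2,
    fun j hj => ?_⟩
  · refine (ae_map_iff hc.aemeasurable isClosed_geodesic.measurableSet).2 ?_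
    have a1 : ∀ᵐ p ∂G, IsCSGeodesic p.1 :=
      ae_of_ae_map measurable_fst.aemeasurable (by rw [← Measure.fst, g1]; exact h₁.geo)
    have a2 : ∀ᵐ p ∂G, IsCSGeodesic p.2 :=
      ae_of_ae_map measurable_snd.aemeasurable (by rw [← Measure.snd, g2]; exact h₂.geo)
    filter_upwards [hG, a1, a2, k1] with p hp b1 b2 b3 using (hcc p hp).2.2 b1 b2 b3.1 b3.2
  · rw [hend, Measure.fst_map_prodMk (mb 1), m1 (measurable_ev 0), ← plan0_fst, h₁.fst]
  · rw [hend, Measure.snd_map_prodMk (ma 0), m2 (measurable_ev 1), ← plan0_snd, h₂.snd]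
  · rw [Measure.map_map (plan0_meas _) hc]
    have h2k : (0 : ℝ) < 2 ^ k := by positivity
    rcases le_total j (2 ^ k) with hj' | hj'
    · have hj'' : (j : ℝ) ≤ 2 ^ k := by exact_mod_cast hj'
      refine le_of_eq_of_le ?_ (h₁.le j hj')
      rw [← m1 (plan0_meas _)]
      refine Measure.map_congr ?_
      filter_upwards [hG] with p hp
      have := (hcc p hp).1 (j / 2 ^ (k + 1)) (by
        rw [div_le_iff₀ (by positivity), pow_succ]; linarith)
      rw [Function.comp_apply, this]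
      congr 1
      rw [pow_succ]; field_simp
    · obtain ⟨i, rfl⟩ := Nat.exists_eq_add_of_le hj'
      refine le_of_eq_of_le ?_ (h₂.le i (by rw [pow_succ] at hj; omega))
      rw [← m2 (plan0_meas _)]
      refine Measure.map_congr ?_
      filter_upwards [hG] with p hp
      have := (hcc p hp).2.1 (((2 ^ k + i : ℕ) : ℝ) / 2 ^ (k + 1)) (by
        rw [le_div_iff₀ (by positivity), pow_succ]
        push_cast
        linarith [(Nat.cast_nonneg i : (0 : ℝ) ≤ i)])
      rw [Function.comp_apply, this]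
      congr 1
      push_cast
      rw [pow_succ]; field_simp; ring

theorem plan0_level (h : CDk m κ N) (k : ℕ) : ∀ (μ₀ μ₁ : Measure X) [IsProbabilityMeasure μ₀]
    [IsProbabilityMeasure μ₁] (C : ℝ≥0) (o : X) (R D : ℝ), Adm m μ₀ C o R → Adm m μ₁ C o R →
    0 ≤ D → (∀ q : Measure (X × X), q.fst = μ₀ → q.snd = μ₁ → Opt q →
      ∀ᵐ p ∂q, dist p.1 p.2 ≤ D) →
    ∃ P, Plan0Q m k μ₀ μ₁ (C * (Real.exp (κ * D ^ 2)).toNNReal) P := by
  have hκ := h.κ_nonneg
  induction k with
  | zero =>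
    intro μ₀ μ₁ _ _ C o R D h₀ h₁ hD hP
    obtain ⟨P, hp, hg, ⟨⟨e0, e1⟩, ho⟩, -⟩ := h.ex μ₀ μ₁ ‹_› ‹_› ⟨o, R, h₀.inn⟩ ⟨o, R, h₁.inn⟩
      h₀.ac h₁.ac
    have hC := plan0_smul_mono (m := m) (plan0_le_mul_exp C (x := κ * D ^ 2) (by positivity))
    refine ⟨P, hp, hg, e0, e1, fun q' g0 g1 => ho q' ⟨g0.trans e0, g1.trans e1⟩, fun j hj => ?_⟩
    obtain rfl | rfl : j = 0 ∨ j = 1 := by omega
    · simp only [Nat.cast_zero, zero_div, ext_zero]
      rw [← plan0_fst]
      exact (le_of_eq_of_le e0 h₀.le).trans hC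
    · simp only [Nat.cast_one, pow_zero, div_one, ext_one]
      rw [← plan0_snd]
      exact (le_of_eq_of_le e1 h₁.le).trans hC
  | succ k ih =>
    intro μ₀ μ₁ _ _ C o R D h₀ h₁ hD hP
    obtain ⟨η, ht, e0, e1, ho, hm⟩ := exists_mid h h₀ h₁ hD hP
    have m0 : Measurable fun p : X × X × X => p.1 := measurable_fst
    have mm : Measurable fun p : X × X × X => p.2.1 := by fun_prop
    have m1 : Measurable fun p : X × X × X => p.2.2 := by fun_prop
    have e0' : η.map (fun p => p.1) = μ₀ := by rw [← e0, ends, Measure.fst_map_prodMk m1]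
    have e1' : η.map (fun p => p.2.2) = μ₁ := by rw [← e1, ends, Measure.snd_map_prodMk m0]
    have hη : IsProbabilityMeasure η := ⟨by
      have := measure_univ (μ := μ₀)
      rwa [← e0', Measure.map_apply m0 MeasurableSet.univ] at this⟩
    have hν : IsProbabilityMeasure (mid η) := Measure.isProbabilityMeasure_map mm.aemeasurable
    have hE : IsProbabilityMeasure (ends η) :=
      Measure.isProbabilityMeasure_map (m0.prodMk m1).aemeasurable
    have hd := hP _ e0 e1 ho
    have hW := plan0_quadCost_ne_top hd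
    have hd' : ∀ᵐ p ∂η, dist p.1 p.2.2 ≤ D := ae_of_ae_map (m0.prodMk m1).aemeasurable hd
    have hC := plan0_le_mul_exp C (x := κ * D ^ 2 / 2) (by positivity)
    have a0 := h₀.mono le_rfl hC (le_add_of_nonneg_right hD)
    have a1 := h₁.mono le_rfl hC (le_add_of_nonneg_right hD)
    have aν : Adm m (mid η) (C * (Real.exp (κ * D ^ 2 / 2)).toNNReal) o (R + D) := by
      refine ⟨hm, (ae_map_iff mm.aemeasurable
        (isClosed_le (by fun_prop) continuous_const).measurableSet).2 ?_⟩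
      have i0 : ∀ᵐ p ∂η, dist p.1 o ≤ R := ae_of_ae_map m0.aemeasurable (e0' ▸ h₀.inn)
      filter_upwards [ht, hd', i0] with p b1 b2 b3
      have := dist_triangle_left p.2.1 o p.1
      linarith [b1.1]
    set q₀ : Measure (X × X) := η.map fun p => (p.1, p.2.1) with hq₀
    set q₁ : Measure (X × X) := η.map fun p => (p.2.1, p.2.2) with hq₁
    have f00 : q₀.fst = μ₀ := by rw [hq₀, Measure.fst_map_prodMk mm, e0']
    have f01 : q₀.snd = mid η := by rw [hq₀, Measure.snd_map_prodMk m0, mid]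
    have f10 : q₁.fst = mid η := by rw [hq₁, Measure.fst_map_prodMk m1, mid]
    have f11 : q₁.snd = μ₁ := by rw [hq₁, Measure.snd_map_prodMk mm, e1']
    have h4 : ∀ x y x' y' : X, dist x y = 1 / 2 * dist x' y' →
        4 * edist x y ^ 2 = edist x' y' ^ 2 := by
      intro x y x' y' hxy
      rw [plan0_edist_sq, plan0_edist_sq, ← ENNReal.ofReal_ofNat, ← ENNReal.ofReal_mul (by norm_num),
        hxy]
      congr 1; ring
    have c0 : 4 * quadCost q₀ = quadCost (ends η) := by
      rw [hq₀, ends, plan0_quadCost_map η m0 mm, plan0_quadCost_map η m0 m1,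
        ← lintegral_const_mul _ (by fun_prop)]
      refine lintegral_congr_ae ?_
      filter_upwards [ht] with p hp using h4 _ _ _ _ hp.1
    have c1 : 4 * quadCost q₁ = quadCost (ends η) := by
      rw [hq₁, ends, plan0_quadCost_map η mm m1, plan0_quadCost_map η m0 m1,
        ← lintegral_const_mul _ (by fun_prop)]
      refine lintegral_congr_ae ?_
      filter_upwards [ht] with p hp using h4 _ _ _ _ (by rw [hp.2]; norm_num)
    have c0' : ∀ q : Measure (X × X), q.fst = μ₀ → q.snd = mid η → Opt q →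
        4 * quadCost q ≤ quadCost (ends η) := by
      intro q g0 g1 hq
      rw [← c0]
      exact mul_le_mul_right (hq q₀ (f00.trans g0.symm) (f01.trans g1.symm)) _
    have c1' : ∀ q : Measure (X × X), q.fst = mid η → q.snd = μ₁ → Opt q →
        4 * quadCost q ≤ quadCost (ends η) := by
      intro q g0 g1 hq
      rw [← c1]
      exact mul_le_mul_right (hq q₁ (f10.trans g0.symm) (f11.trans g1.symm)) _
    have half : ∀ q q' : Measure (X × X), q.fst = μ₀ → q.snd = mid η → q'.fst = mid η →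
        q'.snd = μ₁ → 4 * quadCost q ≤ quadCost (ends η) → 4 * quadCost q' ≤ quadCost (ends η) →
        (∀ᵐ p ∂q, dist p.1 p.2 ≤ D / 2) ∧ ∀ᵐ p ∂q', dist p.1 p.2 ≤ D / 2 := by
      intro q q' g0 g1 g0' g1' b b'
      have : IsProbabilityMeasure q := ⟨by rw [← Measure.fst_univ, g0]; exact measure_univ⟩
      have : IsProbabilityMeasure q' := ⟨by rw [← Measure.fst_univ, g0']; exact measure_univ⟩
      obtain ⟨G, u1, u2, hG⟩ := exists_glue q q' measurable_snd measurable_fst (g1.trans g0'.symm)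
      have n0 : (G.map fun p => p.1.1) = μ₀ := by
        rw [← g0, ← u1, Measure.fst, Measure.fst, Measure.map_map measurable_fst measurable_fst]; rfl
      have n1 : (G.map fun p => p.2.2) = μ₁ := by
        rw [← g1', ← u2, Measure.snd, Measure.snd, Measure.map_map measurable_snd measurable_snd]; rfl
      obtain ⟨k1, k2⟩ := plan0_key G (a := fun p => p.1.1) (b := fun p => p.1.2)
        (b' := fun p => p.2.1) (c := fun p => p.2.2) (by fun_prop) (by fun_prop) (by fun_prop)
        (by fun_prop) hG ho hW (n0.trans e0.symm) (n1.trans e1.symm)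
        (by rw [← plan0_quadCost_map G (by fun_prop) (by fun_prop)]; rw [← u1] at b; exact b)
        (by rw [← plan0_quadCost_map G (by fun_prop) (by fun_prop)]; rw [← u2] at b'; exact b')
      have k3 := hP _ (by rw [Measure.fst_map_prodMk (by fun_prop), n0])
        (by rw [Measure.snd_map_prodMk (by fun_prop), n1]) k2
      have k4 : ∀ᵐ p ∂G, dist p.1.1 p.2.2 ≤ D := ae_of_ae_map
        (f := fun p : (X × X) × X × X => (p.1.1, p.2.2)) (by fun_prop) k3
      have hms : MeasurableSet {p : X × X | dist p.1 p.2 ≤ D / 2} :=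
        (isClosed_le (by fun_prop) continuous_const).measurableSet
      constructor
      · rw [← u1]
        refine (ae_map_iff measurable_fst.aemeasurable hms).2 ?_
        filter_upwards [k1, k4] with p b1 b2
        linarith [b1.1]
      · rw [← u2]
        refine (ae_map_iff measurable_snd.aemeasurable hms).2 ?_
        filter_upwards [k1, k4] with p b1 b2
        linarith [b1.2]
    obtain ⟨P₁, p1⟩ := ih μ₀ (mid η) _ o (R + D) (D / 2) a0 aν (by positivity)
      fun q g0 g1 hq => (half q q₁ g0 g1 f10 f11 (c0' q g0 g1 hq) c1.le).1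
    obtain ⟨P₂, p2⟩ := ih (mid η) μ₁ _ o (R + D) (D / 2) aν a1 (by positivity)
      fun q g0 g1 hq => (half q₀ q f00 f01 g0 g1 c0.le (c1' q g0 g1 hq)).2
    obtain ⟨P, hP'⟩ := plan0_glue p1 p2 ho hW e0 e1 (c0' _ p1.fst p1.snd p1.opt)
      (c1' _ p2.fst p2.snd p2.opt)
    refine ⟨P, hP'.prob, hP'.geo, hP'.fst, hP'.snd, hP'.opt,
      fun j hj => (hP'.le j hj).trans (plan0_smul_mono ?_)⟩
    rw [mul_assoc, ← Real.toNNReal_mul (Real.exp_pos _).le, ← Real.exp_add]
    gcongr
    nlinarith [mul_nonneg hκ (sq_nonneg D)]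

theorem plan0_tracks {P : Measure (UCurve X)} {o : X} {R : ℝ} (hg : ∀ᵐ γ ∂P, IsCSGeodesic γ)
    (h0 : ∀ᵐ x ∂(endpointLaw P).fst, dist x o ≤ R) (h1 : ∀ᵐ x ∂(endpointLaw P).snd, dist x o ≤ R) :
    ∀ᵐ γ ∂P, γ ∈ {γ : UCurve X | IsCSGeodesic γ ∧ ∀ t, γ.toMap t ∈ closedBall o (3 * R)} := by
  rw [plan0_fst] at h0
  rw [plan0_snd] at h1
  filter_upwards [hg, ae_of_ae_map (measurable_ev 0).aemeasurable h0,
    ae_of_ae_map (measurable_ev 1).aemeasurable h1] with γ b1 b2 b3
  refine ⟨b1, fun t => ?_⟩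
  have t1 := b1 t 0
  have t2 := dist_triangle_right (γ.toMap 0) (γ.toMap 1) o
  have t3 := dist_triangle (γ.toMap t) (γ.toMap 0) o
  have t4 : |(t : ℝ) - (0 : unitInterval)| ≤ 1 := by
    simp only [Icc.coe_zero, sub_zero, abs_of_nonneg t.2.1]; exact t.2.2
  have t5 := mul_le_of_le_one_left (dist_nonneg (x := γ.toMap 0) (y := γ.toMap 1)) t4
  rw [mem_closedBall]
  linarith

theorem plan0_all_times {P : Measure (UCurve X)} [IsProbabilityMeasure P] {M : ℝ≥0}
    (h : ∀ k j : ℕ, j ≤ 2 ^ k → (P.map fun γ => γ.ext (j / 2 ^ k)) ≤ (M : ℝ≥0∞) • m) (t : ℝ) :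
    (P.map fun γ => γ.ext t) ≤ (M : ℝ≥0∞) • m := by
  let F : ℝ → ProbabilityMeasure X := fun s =>
    ⟨P.map fun γ => γ.ext s, Measure.isProbabilityMeasure_map (plan0_meas s).aemeasurable⟩
  have hF : Continuous F := by
    refine ProbabilityMeasure.continuous_iff_forall_continuous_integral.2 fun f => ?_
    have e : ∀ s, ∫ x, f x ∂(F s : Measure X) = ∫ γ, f (γ.ext s) ∂P := fun s =>
      integral_map (plan0_meas s).aemeasurable f.continuous.aestronglyMeasurable
    simp only [e]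
    refine continuous_of_dominated (bound := fun _ => ‖f‖)
      (fun s => (f.continuous.measurable.comp (plan0_meas s)).aestronglyMeasurable)
      (fun s => Eventually.of_forall fun γ => f.norm_coe_le_norm _) (integrable_const _)
      (Eventually.of_forall fun γ => f.continuous.comp ?_)
    exact continuous_ext.comp (f := fun s : ℝ => (γ, s)) (by fun_prop)
  have hcl := (isClosed_map_le (m := m) (e := id) continuous_id M).preimage hF
  have key : ∀ s : ℝ, s ∈ Icc (0 : ℝ) 1 → (P.map fun γ => γ.ext s) ≤ (M : ℝ≥0∞) • m := by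
    intro s hs
    have hlim := (tendsto_nat_floor_mul_div_atTop hs.1).comp
      (tendsto_pow_atTop_atTop_of_one_lt (one_lt_two (α := ℝ)))
    have := hcl.mem_of_tendsto hlim (Eventually.of_forall fun k => by
      simp only [mem_preimage, mem_ofPred_eq, Measure.map_id, Function.comp]
      refine h k _ (Nat.floor_le_of_le ?_)
      push_cast
      exact mul_le_of_le_one_left (by positivity) hs.2)
    simp only [mem_preimage, mem_ofPred_eq, Measure.map_id] at this
    exact this
  have := key (projIcc (0 : ℝ) 1 zero_le_one t) (projIcc (0 : ℝ) 1 zero_le_one t).2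
  simp only [ext_coe] at this
  exact this

theorem exists_plan (h : CDk m κ N) {μ₀ μ₁ : Measure X} [IsProbabilityMeasure μ₀]
    [IsProbabilityMeasure μ₁] {C : ℝ≥0} {o : X} {R : ℝ} (h₀ : Adm m μ₀ C o R)
    (h₁ : Adm m μ₁ C o R) :
    ∃ P : Measure (UCurve X), IsTestPlan2 m P ∧ HasBoundedTracks P ∧ (∀ᵐ γ ∂P, IsCSGeodesic γ) ∧
      (endpointLaw P).fst = μ₀ ∧ (endpointLaw P).snd = μ₁ ∧ Opt (endpointLaw P) ∧
      ∀ t : ℝ, Adm m (P.map fun γ => γ.ext t) (C * (Real.exp (κ * (2 * R) ^ 2)).toNNReal) o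
        (3 * R) := by
  have hR : 0 ≤ R := by
    obtain ⟨x, hx⟩ := h₀.inn.exists
    exact dist_nonneg.trans hx
  set M : ℝ≥0 := C * (Real.exp (κ * (2 * R) ^ 2)).toNNReal with hM
  have hlev : ∀ k, ∃ P, Plan0Q m k μ₀ μ₁ M P := fun k =>
    plan0_level h k μ₀ μ₁ C o R (2 * R) h₀ h₁ (by positivity) fun q g0 g1 _ =>
      ae_dist_le (g0 ▸ h₀.inn) (g1 ▸ h₁.inn)
  choose Pk hPk using hlev
  have hS := isCompact_geodesic (isCompact_closedBall o (3 * R))
  let F : ℕ → Set (ProbabilityMeasure (UCurve X)) := fun k =>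
    {P | ∀ᵐ γ ∂(P : Measure (UCurve X)),
        γ ∈ {γ : UCurve X | IsCSGeodesic γ ∧ ∀ t, γ.toMap t ∈ closedBall o (3 * R)}} ∩
      ({P | (P : Measure (UCurve X)).map (fun γ => γ.toMap 0) = μ₀} ∩
        ({P | (P : Measure (UCurve X)).map (fun γ => γ.toMap 1) = μ₁} ∩
          ({P | ∫⁻ γ, ((nndist (γ.toMap 0) (γ.toMap 1) ^ 2 : ℝ≥0) : ℝ≥0∞) ∂(P : Measure (UCurve X)) ≤
              quadCost (endpointLaw (Pk 0))} ∩
            ⋂ j : ℕ, ⋂ _ : j ≤ 2 ^ k,
              {P | (P : Measure (UCurve X)).map (fun γ => γ.ext (j / 2 ^ k)) ≤ (M : ℝ≥0∞) • m})))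
  have hcost : ∀ P : Measure (UCurve X), quadCost (endpointLaw P) =
      ∫⁻ γ, ((nndist (γ.toMap 0) (γ.toMap 1) ^ 2 : ℝ≥0) : ℝ≥0∞) ∂P := by
    intro P
    rw [endpointLaw, plan0_quadCost_map P (measurable_ev 0) (measurable_ev 1)]
    simp only [edist_nndist, ENNReal.coe_pow]
  have hcl : ∀ k, IsClosed (F k) := fun k =>
    (isClosed_ae_mem hS.isClosed).inter ((isClosed_map_eq (continuous_ev 0) μ₀).inter
      ((isClosed_map_eq (continuous_ev 1) μ₁).inter
        ((isClosed_lintegral_le (((continuous_ev 0).nndist (continuous_ev 1)).pow 2) _).inter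
          (isClosed_iInter fun j => isClosed_iInter fun _ => isClosed_map_le (continuous_ev _) M))))
  obtain ⟨P, hP⟩ := IsCompact.nonempty_iInter_of_sequence_nonempty_isCompact_isClosed F
    (fun k P hP => ⟨hP.1, hP.2.1, hP.2.2.1, hP.2.2.2.1, mem_iInter₂.2 fun j hj => by
      have := mem_iInter₂.1 hP.2.2.2.2 (2 * j) (by rw [pow_succ]; omega)
      have e : ((2 * j : ℕ) : ℝ) / 2 ^ (k + 1) = j / 2 ^ k := by
        push_cast
        rw [pow_succ]; field_simp
      rwa [e] at this⟩)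
    (fun k => ⟨⟨Pk k, (hPk k).prob⟩,
      plan0_tracks (hPk k).geo ((hPk k).fst ▸ h₀.inn) ((hPk k).snd ▸ h₁.inn),
      (plan0_fst _).symm.trans (hPk k).fst, (plan0_snd _).symm.trans (hPk k).snd,
      (hcost _).symm.trans_le ((hPk k).opt _ ((hPk 0).fst.trans (hPk k).fst.symm)
        ((hPk 0).snd.trans (hPk k).snd.symm)),
      mem_iInter₂.2 (hPk k).le⟩)
    ((isCompact_ae_mem hS).of_isClosed_subset (hcl 0) inter_subset_left) hcl
  rw [mem_iInter] at hP
  obtain ⟨b1, b2, b3, b4, -⟩ := hP 0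
  have hall := plan0_all_times (P := (P : Measure (UCurve X))) (M := M)
    fun k j hj => mem_iInter₂.1 (hP k).2.2.2.2 j hj
  have b1' : ∀ᵐ γ ∂(P : Measure (UCurve X)),
      IsCSGeodesic γ ∧ ∀ t, γ.toMap t ∈ closedBall o (3 * R) := b1
  have e0 : (endpointLaw (P : Measure (UCurve X))).fst = μ₀ := (plan0_fst _).trans b2
  have e1 : (endpointLaw (P : Measure (UCurve X))).snd = μ₁ := (plan0_snd _).trans b3
  refine ⟨P, ⟨inferInstance, ⟨M, fun t => ?_⟩, b1'.mono fun γ hγ => geo_hasL2Speed hγ.1, ?_⟩,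
    ⟨o, 3 * R, b1'.mono fun γ hγ => hγ.2⟩, b1'.mono fun γ hγ => hγ.1, e0, e1,
    fun q' g0 g1 => ?_, fun t => ⟨hall t, ?_⟩⟩
  · have := hall t
    simp only [ext_coe] at this
    exact this
  · calc _ ≤ ∫⁻ _, ENNReal.ofReal (6 * R) ^ 2 ∂(P : Measure (UCurve X)) := by
          refine lintegral_mono_ae (b1'.mono fun γ hγ => ?_)
          calc _ ≤ ∫⁻ _ in Icc (0 : ℝ) 1, ENNReal.ofReal (6 * R) ^ 2 := by
                refine lintegral_mono fun t => pow_le_pow_left' ((geo_upperSpeed_le hγ.1 t).trans ?_) 2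
                rw [edist_dist]
                refine ENNReal.ofReal_le_ofReal ?_
                have := dist_triangle_right (γ.toMap 0) (γ.toMap 1) o
                linarith [mem_closedBall.1 (hγ.2 0), mem_closedBall.1 (hγ.2 1)]
            _ = _ := by simp
      _ < ⊤ := by
          rw [lintegral_const, measure_univ, mul_one]
          exact ENNReal.pow_lt_top ENNReal.ofReal_lt_top
  · rw [hcost]
    exact le_trans b4 ((hPk 0).opt q' ((g0.trans e0).trans (hPk 0).fst.symm)
      ((g1.trans e1).trans (hPk 0).snd.symm))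
  · refine (ae_map_iff (plan0_meas t).aemeasurable
      (isClosed_le (by fun_prop) continuous_const).measurableSet).2 ?_
    exact b1'.mono fun γ hγ => hγ.2 _

end Crest.Agent.R242
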