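import Crest.Agent.R242.Util

/-!
Row 242: Kantorovich potentials.
-/

set_option autoImplicit false

open MeasureTheory Set Filter Metric Crest.GeometryTopology.SyntheticRicci
open scoped ENNReal NNReal Topology

namespace Crest.Agent.R242

variable {X : Type*} [MetricSpace X] [ProperSpace X] [MeasurableSpace X] [BorelSpace X]
  {m : Measure X} [IsLocallyFiniteMeasure m]

/-- the support of an optimal coupling of finite cost is cyclically monotone -/
theorem pot0_cyc {q : Measure (X × X)} [IsProbabilityMeasure q] (hq : Opt q)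
    (hfin : quadCost q ≠ ∞) {ι : Type} [Fintype ι] (p : ι → X × X) (hp : ∀ i, p i ∈ q.support)
    (σ : Equiv.Perm ι) :
    ∑ i, edist (p i).1 (p i).2 ^ 2 ≤ ∑ i, edist (p (σ i)).1 (p i).2 ^ 2 := by
  by_contra hlt
  rw [not_le] at hlt
  have hA : Continuous fun z : ι → X × X => ∑ i, edist (z i).1 (z i).2 ^ 2 :=
    continuous_finsetSum _ fun i _ => (ENNReal.continuous_pow 2).comp (by fun_prop)
  have hA' : Continuous fun z : ι → X × X => ∑ i, edist (z (σ i)).1 (z i).2 ^ 2 :=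
    continuous_finsetSum _ fun i _ => (ENNReal.continuous_pow 2).comp (by fun_prop)
  obtain ⟨δ, hδ, hball⟩ := Metric.isOpen_iff.1 (isOpen_lt hA' hA) p hlt
  have hW : ∀ i, q (ball (p i) δ) ≠ 0 := fun i =>
    ((Measure.mem_support_iff_forall _).1 (hp i) _ (ball_mem_nhds _ hδ)).ne'
  let μ : ι → Measure (X × X) := fun i => ProbabilityTheory.cond q (ball (p i) δ)
  have hμ : ∀ i, IsProbabilityMeasure (μ i) := fun i =>
    ProbabilityTheory.cond_isProbabilityMeasure (hW i)
  let Q : Measure (ι → X × X) := Measure.pi μ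
  have hQ : ∀ᵐ z ∂Q, z ∈ ball p δ := by
    have h1 : ∀ i, ∀ᵐ z ∂Q, z i ∈ ball (p i) δ := fun i =>
      (measurePreserving_eval μ i).quasiMeasurePreserving.ae
        (ProbabilityTheory.ae_cond_mem measurableSet_ball)
    filter_upwards [ae_all_iff.2 h1] with z hz
    exact (dist_pi_lt_iff hδ).2 hz
  set T : ℝ≥0∞ := 1 + ∑ i, (q (ball (p i) δ))⁻¹ with hT
  have hT0 : T ≠ 0 := by simp [hT]
  have hT1 : T ≠ ∞ := ENNReal.add_ne_top.2 ⟨ENNReal.one_ne_top,
    ENNReal.sum_ne_top.2 fun i _ => ENNReal.inv_ne_top.2 (hW i)⟩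
  let ν : Measure (X × X) := T⁻¹ • ∑ i, Q.map fun z => ((z i).1, (z i).2)
  let ν' : Measure (X × X) := T⁻¹ • ∑ i, Q.map fun z => ((z (σ i)).1, (z i).2)
  have hν : ν ≤ q := by
    refine Measure.le_iff.2 fun s hs => ?_
    have h1 : ∀ i, (Q.map fun z => ((z i).1, (z i).2)) s ≤ (q (ball (p i) δ))⁻¹ * q s := by
      intro i
      have h2 : (Q.map fun z => ((z i).1, (z i).2)) = μ i := (measurePreserving_eval μ i).map_eq
      rw [h2, ProbabilityTheory.cond_apply measurableSet_ball]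
      gcongr
      exact inter_subset_right
    simp only [ν, Measure.smul_apply, Measure.coe_finsetSum, Finset.sum_apply, smul_eq_mul]
    calc _ ≤ T⁻¹ * (T * q s) := by
          gcongr
          refine (Finset.sum_le_sum fun i _ => h1 i).trans ?_
          rw [← Finset.sum_mul]
          gcongr
          exact le_add_self
      _ = q s := by rw [← mul_assoc, ENNReal.inv_mul_cancel hT0 hT1, one_mul]
  have : IsFiniteMeasure ν := isFiniteMeasure_of_le q hν
  have hsplit : q - ν + ν = q := Measure.sub_add_cancel_of_le hν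
  have hmap : ∀ (f : X × X → X) (_ : Measurable f) (g : ι → (ι → X × X) → X × X)
      (_ : ∀ i, Measurable (g i)),
      (T⁻¹ • ∑ i, Q.map (g i)).map f = T⁻¹ • ∑ i, Q.map (f ∘ g i) := by
    intro f hf g hg
    rw [Measure.map_smul, Measure.map_finset_sum' hf.aemeasurable]
    simp only [Measure.map_map hf (hg _)]
  have hfst : ν'.fst = ν.fst := by
    unfold Measure.fst
    rw [hmap _ measurable_fst _ (fun i => by fun_prop),
      hmap _ measurable_fst _ (fun i => by fun_prop)]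
    congr 1
    exact Equiv.sum_comp σ fun i => Q.map fun z => (z i).1
  have hsnd : ν'.snd = ν.snd := by
    unfold Measure.snd
    rw [hmap _ measurable_snd _ (fun i => by fun_prop),
      hmap _ measurable_snd _ (fun i => by fun_prop)]
    rfl
  have hopt := hq (q - ν + ν') (by rw [Measure.fst_add, hfst, ← Measure.fst_add, hsplit])
    (by rw [Measure.snd_add, hsnd, ← Measure.snd_add, hsplit])
  have hcost : ∀ (g : ι → (ι → X × X) → X × X) (_ : ∀ i, Measurable (g i)),
      quadCost (T⁻¹ • ∑ i, Q.map (g i)) =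
        T⁻¹ * ∫⁻ z, ∑ i, edist (g i z).1 (g i z).2 ^ 2 ∂Q := by
    intro g hg
    unfold quadCost
    rw [lintegral_smul_measure, lintegral_finsetSum_measure, smul_eq_mul,
      lintegral_finsetSum _ fun i _ => by fun_prop]
    congr 1
    exact Finset.sum_congr rfl fun i _ => lintegral_map (by fun_prop) (hg i)
  have hadd : ∀ a b : Measure (X × X), quadCost (a + b) = quadCost a + quadCost b :=
    fun a b => lintegral_add_measure _ a b
  have h1 : quadCost q = quadCost (q - ν) + quadCost ν := by rw [← hadd, hsplit]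
  rw [hadd, h1] at hopt
  rw [h1, ENNReal.add_ne_top] at hfin
  have h2 := (ENNReal.add_le_add_iff_left hfin.1).1 hopt
  have h3 := hfin.2
  rw [hcost _ fun i => by fun_prop] at h3
  rw [hcost _ (fun i => by fun_prop), hcost _ (fun i => by fun_prop),
    ENNReal.mul_le_mul_iff_right (ENNReal.inv_ne_zero.2 hT1) (ENNReal.inv_ne_top.2 hT0)] at h2
  have h4 : ∫⁻ z, ∑ i, edist (z i).1 (z i).2 ^ 2 ∂Q ≠ ∞ := fun h =>
    h3 (by rw [h, ENNReal.mul_top (ENNReal.inv_ne_zero.2 hT1)])
  have h5 : ∀ᵐ z ∂Q, ∑ i, edist (z (σ i)).1 (z i).2 ^ 2 < ∑ i, edist (z i).1 (z i).2 ^ 2 :=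
    hQ.mono fun z hz => hball hz
  exact absurd h2 (not_le.2 (lintegral_strict_mono (IsProbabilityMeasure.ne_zero Q)
    hA.measurable.aemeasurable
    (ne_top_of_le_ne_top h4 (lintegral_mono_ae (h5.mono fun z hz => hz.le))) h5))

omit [ProperSpace X] [MeasurableSpace X] [BorelSpace X] in
/-- Rockafellar's construction -/
theorem pot0_rock (c : X → X → ℝ) {L M : ℝ} (h0 : ∀ x y, 0 ≤ c x y) (hM : ∀ x y, c x y ≤ M)
    (hx : ∀ x x' y, c x y ≤ c x' y + L * dist x x') (hy : ∀ x y y', c x y ≤ c x y' + L * dist y y')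
    {S : Set (X × X)} (hS : S.Nonempty)
    (hcyc : ∀ (n : ℕ) (p : Fin (n + 1) → X × X), (∀ i, p i ∈ S) →
      ∑ i, c (p i).1 (p i).2 ≤ ∑ i, c (p (finRotate (n + 1) i)).1 (p i).2) :
    ∃ φ ψ : X → ℝ, LipschitzWith L.toNNReal φ ∧ LipschitzWith L.toNNReal ψ ∧
      (∀ x, |φ x| ≤ 2 * M ∧ |ψ x| ≤ 2 * M) ∧ (∀ x y, φ x + ψ y ≤ c x y) ∧
      ∀ p ∈ S, φ p.1 + ψ p.2 = c p.1 p.2 := by
  obtain ⟨p₀, hp₀⟩ := hS
  have hM0 : 0 ≤ M := (h0 p₀.1 p₀.1).trans (hM _ _)
  let V : X → Set ℝ := fun x => {v | ∃ (n : ℕ) (p : ℕ → X × X), p 0 = p₀ ∧ (∀ i, p i ∈ S) ∧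
    v = ∑ i ∈ Finset.range n, (c (p (i + 1)).1 (p i).2 - c (p i).1 (p i).2) +
      (c x (p n).2 - c (p n).1 (p n).2)}
  have hbase : ∀ x, c x p₀.2 - c p₀.1 p₀.2 ∈ V x := fun x =>
    ⟨0, fun _ => p₀, rfl, fun _ => hp₀, by simp⟩
  have hshift : ∀ x x', ∀ v ∈ V x, ∃ y, v + (c x' y - c x y) ∈ V x' := by
    rintro x x' v ⟨n, p, h1, h2, rfl⟩
    exact ⟨(p n).2, n, p, h1, h2, by ring⟩
  have hstep : ∀ z ∈ S, ∀ x', ∀ v ∈ V z.1, v + (c x' z.2 - c z.1 z.2) ∈ V x' := by
    rintro z hz x' v ⟨n, p, h1, h2, rfl⟩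
    refine ⟨n + 1, fun i => if i ≤ n then p i else z, by simp [h1], fun i => ?_, ?_⟩
    · simp only
      split_ifs
      exacts [h2 i, hz]
    · rw [Finset.sum_range_succ]
      simp only [le_refl, if_true, Nat.not_succ_le_self, if_false]
      congr 2
      refine Finset.sum_congr rfl fun i hi => ?_
      have h3 : i + 1 ≤ n := Finset.mem_range.1 hi
      rw [if_pos h3, if_pos (by omega)]
  have hzero : ∀ v ∈ V p₀.1, 0 ≤ v := by
    rintro v ⟨n, p, h1, h2, rfl⟩
    have h3 := hcyc n (fun i => p i) fun i => h2 i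
    rw [Fin.sum_univ_castSucc, Fin.sum_univ_castSucc] at h3
    simp only [finRotate_apply, Fin.coeSucc_eq_succ, Fin.last_add_one, Fin.val_succ,
      Fin.val_castSucc, Fin.val_last, Fin.val_zero, h1] at h3
    rw [Fin.sum_univ_eq_sum_range (fun i => c (p i).1 (p i).2),
      Fin.sum_univ_eq_sum_range (fun i => c (p (i + 1)).1 (p i).2)] at h3
    rw [Finset.sum_sub_distrib]
    linarith
  have hlow : ∀ x, ∀ v ∈ V x, -M ≤ v := by
    intro x v hv
    obtain ⟨y, h⟩ := hshift x p₀.1 v hv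
    linarith [hzero _ h, hM p₀.1 y, h0 x y]
  have hbdd : ∀ x, BddBelow (V x) := fun x => ⟨-M, hlow x⟩
  let φ : X → ℝ := fun x => sInf (V x)
  have hφ1 : ∀ x, -M ≤ φ x := fun x => le_csInf ⟨_, hbase x⟩ (hlow x)
  have hφ2 : ∀ x, φ x ≤ M := fun x => (csInf_le (hbdd x) (hbase x)).trans (by
    linarith [hM x p₀.2, h0 p₀.1 p₀.2])
  have : Nonempty X := ⟨p₀.1⟩
  let ψ : X → ℝ := fun y => ⨅ x, (c x y - φ x)
  have hψb : ∀ y, BddBelow (range fun x => c x y - φ x) := fun y =>
    ⟨-M, by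
      rintro _ ⟨x, rfl⟩
      linarith [h0 x y, hφ2 x]⟩
  have hψ : ∀ x y, ψ y ≤ c x y - φ x := fun x y => ciInf_le (hψb y) x
  refine ⟨φ, ψ, LipschitzWith.of_le_add_mul' L fun x x' => ?_,
    LipschitzWith.of_le_add_mul' L fun y y' => ?_, fun x => ⟨?_, ?_⟩,
    fun x y => by linarith [hψ x y], fun z hz => le_antisymm (by linarith [hψ z.1 z.2]) ?_⟩
  · rw [← sub_le_iff_le_add]
    refine le_csInf ⟨_, hbase x'⟩ fun v hv => ?_
    obtain ⟨y, h⟩ := hshift x' x v hv
    have h1 : φ x ≤ _ := csInf_le (hbdd x) h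
    linarith [hx x x' y]
  · rw [← sub_le_iff_le_add]
    refine le_ciInf fun x => ?_
    linarith [hψ x y, hy x y y']
  · rw [abs_le]
    constructor <;> linarith [hφ1 x, hφ2 x]
  · have h1 : -M ≤ ψ x := le_ciInf fun x' => by linarith [h0 x' x, hφ2 x']
    rw [abs_le]
    constructor <;> linarith [hψ x x, hM x x, hφ1 x]
  · rw [← sub_le_iff_le_add']
    refine le_ciInf fun x' => ?_
    have h1 : φ x' - (c x' z.2 - c z.1 z.2) ≤ φ z.1 := by
      refine le_csInf ⟨_, hbase z.1⟩ fun v hv => ?_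
      have h2 : φ x' ≤ _ := csInf_le (hbdd x') (hstep z hz x' v hv)
      linarith
    linarith

theorem pot0_trunc {a b d R : ℝ} (hR : 0 ≤ R) (ha : 0 ≤ a) (hb : 0 ≤ b) (hd : 0 ≤ d)
    (h : a ≤ b + d) : min a (2 * R) ^ 2 / 2 ≤ min b (2 * R) ^ 2 / 2 + 2 * R * d := by
  have h1 : min a (2 * R) ≤ min b (2 * R) + d := by
    rcases le_total b (2 * R) with h2 | h2
    · rw [min_eq_left h2]
      exact (min_le_left _ _).trans h
    · rw [min_eq_right h2]
      exact (min_le_right _ _).trans (by linarith)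
  have h2 : 0 ≤ min a (2 * R) := le_min ha (by linarith)
  have h3 : 0 ≤ min b (2 * R) := le_min hb (by linarith)
  have h4 := min_le_right a (2 * R)
  have h5 := min_le_right b (2 * R)
  generalize min a (2 * R) = s at *
  generalize min b (2 * R) = t at *
  rcases le_total s t with h6 | h6
  · nlinarith [mul_nonneg hR hd]
  · nlinarith [mul_le_mul (show s - t ≤ d by linarith) (show s + t ≤ 4 * R by linarith)
      (by linarith) hd]

theorem exists_potentials {q : Measure (X × X)} [IsProbabilityMeasure q] (hq : Opt q) {o : X}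
    {R : ℝ} (h₀ : ∀ᵐ x ∂q.fst, dist x o ≤ R) (h₁ : ∀ᵐ x ∂q.snd, dist x o ≤ R) :
    ∃ φ ψ : X → ℝ, LipschitzWith (2 * R).toNNReal φ ∧ LipschitzWith (2 * R).toNNReal ψ ∧
      (∀ x, |φ x| ≤ 4 * R ^ 2 ∧ |ψ x| ≤ 4 * R ^ 2) ∧ (∀ x y, φ x + ψ y ≤ dist x y ^ 2 / 2) ∧
      ∀ q' : Measure (X × X), q'.fst = q.fst → q'.snd = q.snd → Opt q' →
        ∀ᵐ p ∂q', φ p.1 + ψ p.2 = dist p.1 p.2 ^ 2 / 2 := by
  have hB : q.support ⊆ closedBall o R ×ˢ closedBall o R := by
    refine Measure.support_subset_of_isClosed (isClosed_closedBall.prod isClosed_closedBall) ?_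
    filter_upwards [ae_of_ae_map measurable_fst.aemeasurable h₀,
      ae_of_ae_map measurable_snd.aemeasurable h₁] with p h1 h2
    exact ⟨h1, h2⟩
  have hd : ∀ p ∈ q.support, ∀ p' ∈ q.support, dist p.1 p'.2 ≤ 2 * R := fun p hp p' hp' => by
    have h1 : dist p.1 o ≤ R := (hB hp).1
    have h2 : dist p'.2 o ≤ R := (hB hp').2
    linarith [dist_triangle_right p.1 p'.2 o]
  have hne := Measure.nonempty_support (IsProbabilityMeasure.ne_zero q)
  have hR : 0 ≤ R := by
    obtain ⟨p, hp⟩ := hne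
    linarith [hd p hp p hp, dist_nonneg (x := p.1) (y := p.2)]
  have hfin : quadCost q ≠ ∞ := by
    rw [quadCost_eq_ofReal (ae_dist_le h₀ h₁)]
    exact ENNReal.ofReal_ne_top
  obtain ⟨φ, ψ, hφ, hψ, hb, hle, heq⟩ := pot0_rock
    (fun x y : X => min (dist x y) (2 * R) ^ 2 / 2) (L := 2 * R) (M := 2 * R ^ 2)
    (fun x y => by positivity)
    (fun x y => by
      have h1 := pow_le_pow_left₀ (le_min dist_nonneg (by linarith))
        (min_le_right (dist x y) (2 * R)) 2
      linarith)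
    (fun x x' y => pot0_trunc hR dist_nonneg dist_nonneg dist_nonneg (by
      linarith [dist_triangle x x' y]))
    (fun x y y' => pot0_trunc hR dist_nonneg dist_nonneg dist_nonneg
      (dist_triangle_right x y y'))
    hne (fun n p hp => by
      have h1 := pot0_cyc hq hfin p hp (finRotate (n + 1))
      simp only [edist_dist, ← ENNReal.ofReal_pow dist_nonneg] at h1
      rw [← ENNReal.ofReal_sum_of_nonneg (fun _ _ => sq_nonneg _),
        ← ENNReal.ofReal_sum_of_nonneg (fun _ _ => sq_nonneg _),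
        ENNReal.ofReal_le_ofReal_iff (Finset.sum_nonneg fun _ _ => sq_nonneg _)] at h1
      simp only [min_eq_left (hd _ (hp _) _ (hp _)), ← Finset.sum_div]
      linarith)
  have hle' : ∀ x y, φ x + ψ y ≤ dist x y ^ 2 / 2 := fun x y => (hle x y).trans (by
    have h1 := pow_le_pow_left₀ (le_min dist_nonneg (by linarith))
      (min_le_left (dist x y) (2 * R)) 2
    linarith)
  refine ⟨φ, ψ, hφ, hψ, fun x => ⟨by linarith [(hb x).1], by linarith [(hb x).2]⟩, hle',
    fun q' e0 e1 hq' => ?_⟩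
  have : IsProbabilityMeasure q' := ⟨by rw [← Measure.fst_univ, e0, measure_univ]⟩
  have hint : ∀ (r : Measure (X × X)) [IsProbabilityMeasure r], r.fst = q.fst → r.snd = q.snd →
      Integrable (fun p : X × X => dist p.1 p.2 ^ 2 / 2 - (φ p.1 + ψ p.2)) r ∧
      ∫ p, (dist p.1 p.2 ^ 2 / 2 - (φ p.1 + ψ p.2)) ∂r =
        cst r / 2 - (∫ x, φ x ∂q.fst + ∫ x, ψ x ∂q.snd) := by
    intro r _ f0 f1
    have hcφ := hφ.continuous
    have hcψ := hψ.continuous
    have i1 : Integrable (fun p : X × X => φ p.1) r :=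
      .of_bound (by fun_prop) _ (Eventually.of_forall fun p => (hb p.1).1)
    have i2 : Integrable (fun p : X × X => ψ p.2) r :=
      .of_bound (by fun_prop) _ (Eventually.of_forall fun p => (hb p.2).2)
    have i3 : Integrable (fun p : X × X => dist p.1 p.2 ^ 2) r := by
      refine .of_bound (by fun_prop) ((2 * R) ^ 2) ?_
      filter_upwards [ae_dist_le (f0 ▸ h₀) (f1 ▸ h₁)] with p hp
      rw [Real.norm_of_nonneg (sq_nonneg _)]
      exact pow_le_pow_left₀ dist_nonneg hp 2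
    have i4 : Integrable (fun p : X × X => φ p.1 + ψ p.2) r := i1.add i2
    refine ⟨(i3.div_const 2).sub i4, ?_⟩
    rw [integral_sub (i3.div_const 2) i4, integral_add i1 i2, integral_div, ← f0, ← f1,
      Measure.fst, Measure.snd, integral_map measurable_fst.aemeasurable (by fun_prop),
      integral_map measurable_snd.aemeasurable (by fun_prop), cst]
  have h1 : ∫ p, (dist p.1 p.2 ^ 2 / 2 - (φ p.1 + ψ p.2)) ∂q = 0 := by
    refine integral_eq_zero_of_ae ?_
    filter_upwards [Measure.support_mem_ae] with p hp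
    have h2 := heq p hp
    simp only [min_eq_left (hd p hp p hp)] at h2
    simp [h2]
  have h2 := hq'.cst_le (e0 ▸ h₀) (e1 ▸ h₁) e0.symm e1.symm
  obtain ⟨h3, h4⟩ := hint q' e0 e1
  have h5 := (hint q rfl rfl).2
  have h6 : ∀ p : X × X, 0 ≤ dist p.1 p.2 ^ 2 / 2 - (φ p.1 + ψ p.2) := fun p =>
    sub_nonneg.2 (hle' _ _)
  have h7 := (integral_eq_zero_iff_of_nonneg h6 h3).1
    (le_antisymm (by linarith) (integral_nonneg h6))
  filter_upwards [h7] with p hp
  exact (sub_eq_zero.1 hp).symm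

end Crest.Agent.R242
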