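import Crest.Agent.R242.Util

/-!
Row 242: closed and compact sets of probability measures.
-/

set_option autoImplicit false

open MeasureTheory Set Filter Metric Crest.GeometryTopology.SyntheticRicci
open scoped ENNReal NNReal Topology

namespace Crest.Agent.R242

variable {X : Type*} [MetricSpace X] [ProperSpace X] [MeasurableSpace X] [BorelSpace X]
  {m : Measure X} [IsLocallyFiniteMeasure m]

theorem raj0_open {Ω : Type*} [TopologicalSpace Ω] [MeasurableSpace Ω] [BorelSpace Ω]
    [HasOuterApproxClosed Ω] {G : Set Ω} (hG : IsOpen G) (c : ℝ≥0∞) :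
    IsClosed {η : ProbabilityMeasure Ω | (η : Measure Ω) G ≤ c} := by
  refine isClosed_of_closure_subset fun η hη => ?_
  have := mem_closure_iff_nhdsWithin_neBot.1 hη
  refine (ProbabilityMeasure.le_liminf_measure_open_of_tendsto (μs := id)
    (L := 𝓝[{η : ProbabilityMeasure Ω | (η : Measure Ω) G ≤ c}] η) nhdsWithin_le_nhds hG).trans ?_
  exact liminf_le_of_frequently_le' (Eventually.frequently self_mem_nhdsWithin)

/-- density bounds pass to weak limits -/
theorem isClosed_map_le {Ω : Type*} [TopologicalSpace Ω] [MeasurableSpace Ω] [BorelSpace Ω]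
    [HasOuterApproxClosed Ω] {e : Ω → X} (he : Continuous e) (M : ℝ≥0) :
    IsClosed {η : ProbabilityMeasure Ω | (η : Measure Ω).map e ≤ (M : ℝ≥0∞) • m} := by
  have : ((M : ℝ≥0∞) • m).OuterRegular := Measure.OuterRegular.smul m ENNReal.coe_ne_top
  have e1 : {η : ProbabilityMeasure Ω | (η : Measure Ω).map e ≤ (M : ℝ≥0∞) • m} =
      ⋂ U : {U : Set X // IsOpen U},
        {η : ProbabilityMeasure Ω | (η : Measure Ω) (e ⁻¹' U.1) ≤ ((M : ℝ≥0∞) • m) U.1} := by
    ext η
    simp only [mem_ofPred_eq, mem_iInter]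
    constructor
    · intro h U
      rw [← Measure.map_apply he.measurable U.2.measurableSet]
      exact h U.1
    · intro h
      refine Measure.le_iff'.2 fun s => ?_
      rw [s.measure_eq_iInf_isOpen ((M : ℝ≥0∞) • m)]
      refine le_iInf fun U => le_iInf fun hU => le_iInf fun hU' => (measure_mono hU).trans ?_
      rw [Measure.map_apply he.measurable hU'.measurableSet]
      exact h ⟨U, hU'⟩
  rw [e1]
  exact isClosed_iInter fun U => raj0_open (U.2.preimage he) _

theorem isClosed_map_eq {Ω : Type*} [TopologicalSpace Ω] [MeasurableSpace Ω] [BorelSpace Ω]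
    {e : Ω → X} (he : Continuous e) (μ : Measure X) :
    IsClosed {η : ProbabilityMeasure Ω | (η : Measure Ω).map e = μ} := by
  rcases {η : ProbabilityMeasure Ω | (η : Measure Ω).map e = μ}.eq_empty_or_nonempty with h | ⟨η₀, h⟩
  · rw [h]; exact isClosed_empty
  · have e1 : {η : ProbabilityMeasure Ω | (η : Measure Ω).map e = μ} =
        (fun η : ProbabilityMeasure Ω => η.map he.measurable.aemeasurable) ⁻¹'
          {η₀.map he.measurable.aemeasurable} := by
      ext η
      simp only [mem_ofPred_eq, mem_preimage, mem_singleton_iff] at h ⊢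
      rw [← h, ← ProbabilityMeasure.toMeasure_injective.eq_iff]
      rfl
    rw [e1]
    exact isClosed_singleton.preimage (ProbabilityMeasure.continuous_map he)

theorem isClosed_ae_mem {Ω : Type*} [TopologicalSpace Ω] [MeasurableSpace Ω] [BorelSpace Ω]
    [HasOuterApproxClosed Ω] {S : Set Ω} (hS : IsClosed S) :
    IsClosed {η : ProbabilityMeasure Ω | ∀ᵐ ω ∂(η : Measure Ω), ω ∈ S} := by
  have := raj0_open hS.isOpen_compl 0
  simp only [nonpos_iff_eq_zero] at this
  exact this

theorem isClosed_lintegral_le {Ω : Type*} [TopologicalSpace Ω] [MeasurableSpace Ω] [BorelSpace Ω]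
    {f : Ω → ℝ≥0} (hf : Continuous f) (c : ℝ≥0∞) :
    IsClosed {η : ProbabilityMeasure Ω | ∫⁻ ω, f ω ∂(η : Measure Ω) ≤ c} := by
  let g : ℕ → BoundedContinuousFunction Ω ℝ≥0 := fun n =>
    BoundedContinuousFunction.mkOfBound ⟨fun ω => min (f ω) n, by fun_prop⟩ n fun x y => by
      have h1 : ∀ x, ((min (f x) n : ℝ≥0) : ℝ) ≤ n := fun x => by
        exact_mod_cast min_le_right (f x) (n : ℝ≥0)
      have h2 : ∀ x, 0 ≤ ((min (f x) n : ℝ≥0) : ℝ) := fun x => NNReal.coe_nonneg _
      simp only [ContinuousMap.coe_mk, NNReal.dist_eq]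
      rw [abs_le]
      constructor <;> linarith [h1 x, h1 y, h2 x, h2 y]
  have hg : ∀ n ω, g n ω = min (f ω) n := fun _ _ => rfl
  have e1 : {η : ProbabilityMeasure Ω | ∫⁻ ω, f ω ∂(η : Measure Ω) ≤ c} =
      ⋂ n, {η : ProbabilityMeasure Ω | ∫⁻ ω, g n ω ∂(η : Measure Ω) ≤ c} := by
    ext η
    simp only [mem_ofPred_eq, mem_iInter]
    rw [← iSup_le_iff, ← lintegral_iSup (fun n => (g n).continuous.measurable.coe_nnreal_ennreal)
      fun a b hab ω => by
        simp only [hg, ENNReal.coe_le_coe]
        exact min_le_min_left _ (by exact_mod_cast hab)]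
    have : ∀ ω, ⨆ n, (g n ω : ℝ≥0∞) = f ω := fun ω => by
      refine le_antisymm (iSup_le fun n => ENNReal.coe_le_coe.2 (min_le_left _ _)) ?_
      obtain ⟨n, hn⟩ := exists_nat_ge (f ω)
      exact le_iSup_of_le n (by rw [hg, min_eq_left hn])
    simp only [this]
  rw [e1]
  exact isClosed_iInter fun n => isClosed_le
    (ProbabilityMeasure.continuous_lintegral_boundedContinuousFunction (g n)) continuous_const

theorem isCompact_ae_mem {Ω : Type*} [TopologicalSpace Ω] [T2Space Ω] [MeasurableSpace Ω]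
    [BorelSpace Ω] {S : Set Ω} (hS : IsCompact S) :
    IsCompact {η : ProbabilityMeasure Ω | ∀ᵐ ω ∂(η : Measure Ω), ω ∈ S} := by
  convert isCompact_setOfPred_probabilityMeasure_mass_eq_compl_isCompact_le (u := fun _ => 0)
    (K := fun _ => S) tendsto_const_nhds (fun _ => hS) (Or.inr monotone_const) using 2 with η
  simp only [forall_const, nonpos_iff_eq_zero, ProbabilityMeasure.null_iff_toMeasure_null]
  rfl

end Crest.Agent.R242
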