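import Crest.Agent.R242.Res1

/-!
Row 242: resolvent identity and convergence.
-/

set_option autoImplicit false
set_option linter.unusedSectionVars false

open MeasureTheory Set Filter Metric Crest.GeometryTopology.SyntheticRicci
open scoped ENNReal NNReal Topology

namespace Crest.Agent.R242

variable {X : Type*} [MetricSpace X] [ProperSpace X] [MeasurableSpace X] [BorelSpace X]
  {m : Measure X} [IsLocallyFiniteMeasure m] {ω f g u : X → ℝ} {c : ℝ}

theorem res_abs_wt (hω : Wt ω) : ∃ B : ℝ, ∀ x, ‖ω x‖ ≤ B := by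
  obtain ⟨κ, hκ, h⟩ := hω.bdd
  exact ⟨κ⁻¹, fun x => by
    rw [Real.norm_eq_abs, abs_of_nonneg (hκ.le.trans (h x).1)]
    exact (h x).2⟩

theorem res_int_wt (hω : Wt ω) (hf : Integrable f m) : Integrable (fun x => f x * ω x) m := by
  obtain ⟨B, hB⟩ := res_abs_wt hω
  exact hf.mul_bdd hω.meas.aestronglyMeasurable (Eventually.of_forall hB)

theorem res_int_mul (hω : Wt ω) (hf : MemLp f 2 m) (hg : MemLp g 2 m) :
    Integrable (fun x => f x * g x * ω x) m :=
  res_int_wt hω (hf.integrable_mul hg)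

theorem res_int_sq (hω : Wt ω) (hf : MemLp f 2 m) : Integrable (fun x => f x ^ 2 * ω x) m :=
  res_int_wt hω hf.integrable_sq

/-- the weighted inner product -/
noncomputable def res_ip (m : Measure X) (ω f g : X → ℝ) : ℝ := ∫ x, f x * g x * ω x ∂m

/-- the weighted energy form -/
noncomputable def res_en (m : Measure X) (ω f g : X → ℝ) : ℝ := ∫ x, Gm m f g x * ω x ∂m

theorem res_isRes (H : IsInfHilbertian m) (hω : Wt ω) (hc : 0 < c) (hf : MemLp f 2 m) {v : X → ℝ}
    (hv : IsSobolev m v) : c * res_en m ω (Res m ω c f) v =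
      ∫ x, (f x - Res m ω c f x) * v x * ω x ∂m := by
  have h := (isRes_Res H hω hc hf).2 v hv
  have h1 : ∫ x, (f x - Res m ω c f x) * v x * ω x ∂m =
      ∫ x, f x * v x * ω x ∂m - ∫ x, Res m ω c f x * v x * ω x ∂m := by
    rw [← integral_sub (res_int_mul hω hf hv.1) (res_int_mul hω (sob_Res H hω hc hf).1 hv.1)]
    exact integral_congr_ae (Eventually.of_forall fun x => by ring)
  rw [h1, res_en]
  linarith

theorem res_en_comm (hf : IsSobolev m f) (hg : IsSobolev m g) :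
    res_en m ω f g = res_en m ω g f := by
  refine integral_congr_ae ?_
  filter_upwards [Gm_comm hf.2.1 hg.2.1] with x hx
  rw [hx]

theorem res_en_self (hf : IsSobolev m f) : res_en m ω f f = ∫ x, Dw m f x ^ 2 * ω x ∂m := by
  refine integral_congr_ae ?_
  filter_upwards [Gm_self hf.2.1] with x hx
  rw [hx]

theorem res_sq_nonneg (hω : Wt ω) (f : X → ℝ) : 0 ≤ ∫ x, f x ^ 2 * ω x ∂m := by
  obtain ⟨κ, hκ, h⟩ := hω.bdd
  exact integral_nonneg fun x => mul_nonneg (sq_nonneg _) (hκ.le.trans (h x).1)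

theorem res_en_sub (H : IsInfHilbertian m) (hω : Wt ω) (hf : IsSobolev m f) (hg : IsSobolev m g) :
    ∫ x, Dw m (fun y => f y - g y) x ^ 2 * ω x ∂m =
      res_en m ω f f - 2 * res_en m ω f g + res_en m ω g g := by
  have h1 := res_int_sq hω hf.2.2
  have h2 := (res_int_wt hω (integrable_Gm H hf hg)).const_mul 2
  have h3 := res_int_sq hω hg.2.2
  have h4 : Integrable (fun x => Dw m f x ^ 2 * ω x - 2 * (Gm m f g x * ω x)) m := h1.sub h2
  rw [res_en_self hf, res_en_self hg, res_en, ← integral_const_mul, ← integral_sub h1 h2,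
    ← integral_add h4 h3]
  refine integral_congr_ae ?_
  filter_upwards [Dw_sub_sq H hf.2.1 hg.2.1] with x hx
  rw [hx]
  ring

theorem res_ip_sub (hω : Wt ω) {r : X → ℝ} (hr : MemLp r 2 m) (hf : MemLp f 2 m)
    (hg : MemLp g 2 m) :
    ∫ x, r x * g x * ω x ∂m = ∫ x, r x * f x * ω x ∂m - ∫ x, r x * (f x - g x) * ω x ∂m := by
  rw [← integral_sub (res_int_mul hω hr hf)
    (res_int_mul (g := fun x => f x - g x) hω hr (hf.sub hg))]
  exact integral_congr_ae (Eventually.of_forall fun x => by ring)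

/-- `|f - R f|² ≤ ⟨f - R f, f⟩` and `c E(R f) ≤ ⟨f - R f, f⟩` -/
theorem res_norm_le (H : IsInfHilbertian m) (hω : Wt ω) (hc : 0 < c) (hf : MemLp f 2 m) :
    c * res_en m ω (Res m ω c f) (Res m ω c f) + ∫ x, (f x - Res m ω c f x) ^ 2 * ω x ∂m =
      ∫ x, (f x - Res m ω c f x) * f x * ω x ∂m := by
  have hu := sob_Res H hω hc hf
  have h1 := res_ip_sub hω (r := fun x => f x - Res m ω c f x) (hf.sub hu.1) hf hu.1
  rw [res_isRes H hω hc hf hu, h1]
  simp only [sq]
  ring

theorem res_cauchy (H : IsInfHilbertian m) (hω : Wt ω) {c' : ℝ} (hc' : 0 < c') (hcc : c' ≤ c)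
    (hf : MemLp f 2 m) :
    ∫ x, Dw m (fun y => Res m ω c f y - Res m ω c' f y) x ^ 2 * ω x ∂m ≤
      (∫ x, (f x - Res m ω c' f x) * f x * ω x ∂m) / c' -
        (∫ x, (f x - Res m ω c f x) * f x * ω x ∂m) / c := by
  have hc : 0 < c := hc'.trans_le hcc
  have hu := sob_Res H hω hc hf
  have hu' := sob_Res H hω hc' hf
  have hr : MemLp (fun x => f x - Res m ω c f x) 2 m := hf.sub hu.1
  have hr' : MemLp (fun x => f x - Res m ω c' f x) 2 m := hf.sub hu'.1
  have e1 := res_norm_le H hω hc hf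
  have e2 := res_norm_le H hω hc' hf
  have e3 := res_isRes H hω hc hf hu'
  have e4 := res_isRes H hω hc' hf hu
  rw [res_ip_sub hω hr hf hu'.1] at e3
  rw [res_ip_sub hω hr' hf hu.1, res_en_comm hu' hu] at e4
  have e5 : ∫ x, (f x - Res m ω c' f x) * (f x - Res m ω c f x) * ω x ∂m =
      ∫ x, (f x - Res m ω c f x) * (f x - Res m ω c' f x) * ω x ∂m :=
    integral_congr_ae (Eventually.of_forall fun x => by ring)
  rw [e5] at e4
  have e6 : 2 * ∫ x, (f x - Res m ω c f x) * (f x - Res m ω c' f x) * ω x ∂m ≤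
      ∫ x, (f x - Res m ω c f x) ^ 2 * ω x ∂m + ∫ x, (f x - Res m ω c' f x) ^ 2 * ω x ∂m := by
    rw [← integral_const_mul, ← integral_add (res_int_sq hω hr) (res_int_sq hω hr')]
    refine integral_mono ((res_int_mul hω hr hr').const_mul 2)
      ((res_int_sq hω hr).add (res_int_sq hω hr')) fun x => ?_
    obtain ⟨κ, hκ, h⟩ := hω.bdd
    have h0 : 0 ≤ ω x := hκ.le.trans (h x).1
    have h1 := mul_nonneg (sq_nonneg ((f x - Res m ω c f x) - (f x - Res m ω c' f x))) h0
    beta_reduce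
    nlinarith
  have e7 := res_sq_nonneg (m := m) hω fun x => f x - Res m ω c' f x
  rw [res_en_sub H hω hu hu']
  generalize res_en m ω (Res m ω c f) (Res m ω c f) = a at *
  generalize res_en m ω (Res m ω c f) (Res m ω c' f) = b at *
  generalize res_en m ω (Res m ω c' f) (Res m ω c' f) = d at *
  generalize ∫ x, (f x - Res m ω c f x) * (f x - Res m ω c' f x) * ω x ∂m = S at *
  generalize ∫ x, (f x - Res m ω c f x) ^ 2 * ω x ∂m = R at *
  generalize ∫ x, (f x - Res m ω c' f x) ^ 2 * ω x ∂m = R' at *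
  generalize ∫ x, (f x - Res m ω c f x) * f x * ω x ∂m = α at *
  generalize ∫ x, (f x - Res m ω c' f x) * f x * ω x ∂m = α' at *
  rw [div_sub_div _ _ hc'.ne' hc.ne', le_div_iff₀ (mul_pos hc' hc)]
  have h1 : (a - 2 * b + d) * (c' * c) = c' * (c * a) - c' * (c * b) - c * (c' * b) + c * (c' * d) := by
    ring
  have h2 : c * a = α - R := by linarith
  have h3 : c' * d = α' - R' := by linarith
  have h4 : α' * c - c' * α = c * S - c' * S := by
    have h5 : α' = c' * b + S := by linarith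
    have h6 : α = c * b + S := by linarith
    rw [h5, h6]
    ring
  rw [h1, h2, h3, e3, e4, h4]
  nlinarith [mul_le_mul_of_nonneg_left e6 hc'.le, mul_le_mul_of_nonneg_right hcc e7]

theorem res_le_wt (hω : Wt ω) : ∃ κ : ℝ, 0 < κ ∧ ∀ f : X → ℝ, MemLp f 2 m →
    ∫ x, f x ^ 2 ∂m ≤ κ * ∫ x, f x ^ 2 * ω x ∂m ∧ ∫ x, f x ^ 2 * ω x ∂m ≤ κ * ∫ x, f x ^ 2 ∂m := by
  obtain ⟨κ, hκ, h⟩ := hω.bdd
  refine ⟨κ⁻¹, inv_pos.2 hκ, fun f hf => ⟨?_, ?_⟩⟩
  · rw [← integral_const_mul]
    refine integral_mono hf.integrable_sq ((res_int_sq hω hf).const_mul _) fun x => ?_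
    beta_reduce
    rw [← div_eq_inv_mul, le_div_iff₀ hκ]
    exact mul_le_mul_of_nonneg_left (h x).1 (sq_nonneg _)
  · rw [← integral_const_mul]
    refine integral_mono (res_int_sq hω hf) (hf.integrable_sq.const_mul _) fun x => ?_
    beta_reduce
    rw [mul_comm κ⁻¹]
    exact mul_le_mul_of_nonneg_left (h x).2 (sq_nonneg _)

theorem res_sq_sub_le {h : X → ℝ} (hf : MemLp f 2 m) (hg : MemLp g 2 m) (hh : MemLp h 2 m) :
    ∫ x, (f x - g x) ^ 2 ∂m ≤ 2 * ∫ x, (h x - f x) ^ 2 ∂m + 2 * ∫ x, (h x - g x) ^ 2 ∂m := by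
  have h1 := (hh.sub hf).integrable_sq.const_mul 2
  have h2 := (hh.sub hg).integrable_sq.const_mul 2
  rw [← integral_const_mul, ← integral_const_mul]
  refine le_trans (integral_mono (hf.sub hg).integrable_sq (h1.add h2) fun x => ?_)
    (integral_add h1 h2).le
  simp only [Pi.sub_apply, Pi.add_apply]
  nlinarith [sq_nonneg (h x - f x + (h x - g x))]

theorem res_Dw_sub_le {h : X → ℝ} (hf : IsSobolev m f) (hg : IsSobolev m g) (hh : IsSobolev m h) :
    ∫ x, Dw m (fun y => f y - g y) x ^ 2 ∂m ≤ 2 * ∫ x, Dw m (fun y => f y - h y) x ^ 2 ∂m +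
      2 * ∫ x, Dw m (fun y => h y - g y) x ^ 2 ∂m := by
  have h1 := (sob_sub hf hh).2.2.integrable_sq.const_mul 2
  have h2 := (sob_sub hh hg).2.2.integrable_sq.const_mul 2
  rw [← integral_const_mul, ← integral_const_mul, ← integral_add h1 h2]
  refine integral_mono_ae (sob_sub hf hg).2.2.integrable_sq (h1.add h2) ?_
  have h3 := Dw_add_le (sob_sub hf hh).2.1 (sob_sub hh hg).2.1
  have h4 : (fun y => f y - h y + (h y - g y)) = fun y => f y - g y := funext fun y => by ring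
  rw [h4] at h3
  filter_upwards [h3, Dw_nonneg (sob_sub hf hg).2.1] with x hx h0
  have h5 := pow_le_pow_left₀ h0 hx 2
  nlinarith [sq_nonneg (Dw m (fun y => f y - h y) x - Dw m (fun y => h y - g y) x)]

theorem res_key (H : IsInfHilbertian m) (hω : Wt ω) (hf : MemLp f 2 m) {M c₀ : ℝ} (hc₀ : 0 < c₀)
    (h : ∀ c, 0 < c → c ≤ c₀ → ∫ x, (f x - Res m ω c f x) * f x * ω x ∂m ≤ c * M) :
    IsSobolev m f ∧
      Tendsto (fun c => ∫ x, Dw m (fun y => Res m ω c f y - f y) x ^ 2 ∂m) (𝓝[>] 0) (𝓝 0) := by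
  obtain ⟨κ, hκ, hw⟩ := res_le_wt (m := m) hω
  set A : ℝ → ℝ := fun c => (∫ x, (f x - Res m ω c f x) * f x * ω x ∂m) / c with hA
  have hbdd : BddAbove (A '' Ioc 0 c₀) := by
    refine ⟨M, ?_⟩
    rintro _ ⟨c, hc, rfl⟩
    rw [hA, div_le_iff₀ hc.1, mul_comm]
    exact h c hc.1 hc.2
  have hmono : ∀ c c', 0 < c' → c' ≤ c → A c ≤ A c' := fun c c' hc' hcc => by
    have h1 := res_cauchy H hω hc' hcc hf
    have h2 := res_sq_nonneg (m := m) hω (Dw m fun y => Res m ω c f y - Res m ω c' f y)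
    change _ ≤ A c' - A c at h1
    linarith
  -- the Cauchy property of the gradients
  have hD : ∀ η : ℝ, 0 < η → ∃ c₁, 0 < c₁ ∧ ∀ c c', 0 < c → c ≤ c₁ → 0 < c' → c' ≤ c₁ →
      ∫ x, Dw m (fun y => Res m ω c f y - Res m ω c' f y) x ^ 2 ∂m ≤ η := by
    intro η hη
    obtain ⟨_, ⟨c₁, hc₁, rfl⟩, h1⟩ := exists_lt_of_lt_csSup
      ((nonempty_Ioc.2 hc₀).image A) (sub_lt_self (sSup (A '' Ioc 0 c₀)) (div_pos hη hκ))
    have h2 : ∀ c c', c ≤ c₁ → 0 < c' → c' ≤ c →
        ∫ x, Dw m (fun y => Res m ω c f y - Res m ω c' f y) x ^ 2 ∂m ≤ η := by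
      intro c c' hc hc' hcc
      have hc0 : 0 < c := hc'.trans_le hcc
      have h3 := res_cauchy H hω hc' hcc hf
      change _ ≤ A c' - A c at h3
      have h4 : A c' ≤ sSup (A '' Ioc 0 c₀) :=
        le_csSup hbdd ⟨c', ⟨hc', hcc.trans (hc.trans hc₁.2)⟩, rfl⟩
      have h5 := hmono c₁ c hc0 hc
      have h6 := (hw _ (sob_sub (sob_Res H hω hc0 hf) (sob_Res H hω hc' hf)).2.2).1
      refine h6.trans ?_
      rw [← le_div_iff₀' hκ]
      linarith
    refine ⟨c₁, hc₁.1, fun c c' hc hc1 hc' hc1' => ?_⟩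
    rcases le_total c' c with hcc | hcc
    · exact h2 c c' hc1 hc' hcc
    · refine le_trans (le_of_eq (integral_congr_ae ?_)) (h2 c' c hc1' hc hcc)
      filter_upwards [Dw_sub_comm (sob_Res H hω hc hf).2.1 (sob_Res H hω hc' hf).2.1] with x hx
      rw [hx]
  -- convergence in `L²`
  have hL : ∀ c, 0 < c → c ≤ c₀ → ∫ x, (f x - Res m ω c f x) ^ 2 ∂m ≤ c * (κ * M) := by
    intro c hc hc1
    have hu := sob_Res H hω hc hf
    have h1 := res_norm_le H hω hc hf
    have h2 : 0 ≤ c * res_en m ω (Res m ω c f) (Res m ω c f) := by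
      rw [res_en_self hu]
      exact mul_nonneg hc.le (res_sq_nonneg hω _)
    have h3 := (hw (fun x => f x - Res m ω c f x) (hf.sub hu.1)).1
    have h4 := h c hc hc1
    have h5 : ∫ x, (f x - Res m ω c f x) ^ 2 * ω x ∂m ≤ c * M := by linarith
    have h6 := mul_le_mul_of_nonneg_left h5 hκ.le
    linarith
  set cn : ℕ → ℝ := fun n => c₀ / ((n : ℝ) + 1) with hcn
  have hcn0 : ∀ n, 0 < cn n := fun n => by positivity
  have hcn1 : ∀ n, cn n ≤ c₀ := fun n =>
    div_le_self hc₀.le (by linarith [Nat.cast_nonneg (α := ℝ) n])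
  have hcnt : Tendsto cn atTop (𝓝 0) := by
    have h1 := (tendsto_one_div_add_atTop_nhds_zero_nat (𝕜 := ℝ)).const_mul c₀
    rw [mul_zero] at h1
    refine h1.congr fun n => ?_
    rw [hcn, mul_one_div]
  have hLt : Tendsto (fun n => ∫ x, (f x - Res m ω (cn n) f x) ^ 2 ∂m) atTop (𝓝 0) := by
    have h1 := hcnt.mul_const (κ * M)
    rw [zero_mul] at h1
    exact squeeze_zero (fun n => integral_nonneg fun x => sq_nonneg _)
      (fun n => hL _ (hcn0 n) (hcn1 n)) h1
  have hF : ∀ n, IsSobolev m (Res m ω (cn n) f) := fun n => sob_Res H hω (hcn0 n) hf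
  obtain ⟨g, hg, hg1, hg2⟩ := sob_complete hF fun η hη => by
    obtain ⟨c₁, hc₁, h1⟩ := hD η hη
    obtain ⟨n₀, hn₀⟩ := eventually_atTop.1 ((hcnt.eventually (ge_mem_nhds hc₁)).and
      (hLt.eventually (ge_mem_nhds (show 0 < η / 4 by positivity))))
    refine ⟨n₀, fun n hn n' hn' => ⟨?_, h1 _ _ (hcn0 n) (hn₀ n hn).1 (hcn0 n') (hn₀ n' hn').1⟩⟩
    have h2 := res_sq_sub_le (hF n).1 (hF n').1 hf
    linarith [(hn₀ n hn).2, (hn₀ n' hn').2]
  have hfg : f =ᵐ[m] g := by
    have h1 : ∫ x, (f x - g x) ^ 2 ∂m ≤ 0 := by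
      have h2 := (hLt.const_mul 2).add (hg1.const_mul 2)
      rw [mul_zero, add_zero] at h2
      refine ge_of_tendsto' h2 fun n => ?_
      have h3 := res_sq_sub_le hf hg.1 (hF n).1
      have h4 : ∫ x, (Res m ω (cn n) f x - f x) ^ 2 ∂m =
          ∫ x, (f x - Res m ω (cn n) f x) ^ 2 ∂m :=
        integral_congr_ae (Eventually.of_forall fun x => by ring)
      rwa [h4] at h3
    have h2 := (integral_eq_zero_iff_of_nonneg (f := fun x => (f x - g x) ^ 2)
      (fun x => sq_nonneg _) (hf.sub hg.1).integrable_sq).1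
      (le_antisymm h1 (integral_nonneg fun x => sq_nonneg _))
    filter_upwards [h2] with x hx
    exact sub_eq_zero.1 (pow_eq_zero_iff two_ne_zero |>.1 hx)
  have hfs : IsSobolev m f := sob_congr hg hfg.symm
  refine ⟨hfs, ?_⟩
  have hg3 : Tendsto (fun n => ∫ x, Dw m (fun y => Res m ω (cn n) f y - f y) x ^ 2 ∂m) atTop
      (𝓝 0) := by
    refine hg2.congr fun n => integral_congr_ae ?_
    have h1 : (fun y => Res m ω (cn n) f y - g y) =ᵐ[m] fun y => Res m ω (cn n) f y - f y := by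
      filter_upwards [hfg] with x hx
      rw [hx]
    filter_upwards [Dw_congr (sob_sub (hF n) hg).2.1 h1] with x hx
    rw [hx]
  refine tendsto_order.2 ⟨fun a ha => Eventually.of_forall fun c =>
    ha.trans_le (integral_nonneg fun x => sq_nonneg _), fun η hη => ?_⟩
  obtain ⟨c₁, hc₁, h1⟩ := hD (η / 5) (by positivity)
  obtain ⟨n, hn1, hn2⟩ := ((hcnt.eventually (ge_mem_nhds hc₁)).and
    (hg3.eventually (ge_mem_nhds (show 0 < η / 5 by positivity)))).exists
  filter_upwards [Ioc_mem_nhdsGT hc₁] with c hc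
  have h2 := res_Dw_sub_le (sob_Res H hω hc.1 hf) hfs (hF n)
  have h3 := h1 c _ hc.1 hc.2 (hcn0 n) hn1
  linarith

/-- resolvent identity -/
theorem Res_ident (H : IsInfHilbertian m) (hω : Wt ω) (hc : 0 < c) {c' : ℝ} (hc' : 0 < c')
    (hf : MemLp f 2 m) : ∀ᵐ x ∂m, c * Res m ω c f x - c' * Res m ω c' f x =
      (c - c') * Res m ω c' (Res m ω c f) x := by
  have hu := sob_Res H hω hc hf
  have hu' := sob_Res H hω hc' hf
  have h1 : IsRes m ω c' (fun x => (c - c') * Res m ω c f x)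
      fun x => c * Res m ω c f x - c' * Res m ω c' f x := by
    refine ⟨sob_sub (sob_const_mul hu c) (sob_const_mul hu' c'), fun v hv => ?_⟩
    have e1 := (isRes_Res H hω hc hf).2 v hv
    have e2 := (isRes_Res H hω hc' hf).2 v hv
    have e3 : ∫ x, (c * Res m ω c f x - c' * Res m ω c' f x) * v x * ω x ∂m =
        c * ∫ x, Res m ω c f x * v x * ω x ∂m - c' * ∫ x, Res m ω c' f x * v x * ω x ∂m := by
      rw [← integral_const_mul, ← integral_const_mul, ← integral_sub
        ((res_int_mul hω hu.1 hv.1).const_mul c) ((res_int_mul hω hu'.1 hv.1).const_mul c')]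
      exact integral_congr_ae (Eventually.of_forall fun x => by ring)
    have e4 : ∫ x, Gm m (fun x => c * Res m ω c f x - c' * Res m ω c' f x) v x * ω x ∂m =
        c * ∫ x, Gm m (Res m ω c f) v x * ω x ∂m -
          c' * ∫ x, Gm m (Res m ω c' f) v x * ω x ∂m := by
      rw [← integral_const_mul, ← integral_const_mul, ← integral_sub
        ((res_int_wt hω (integrable_Gm H hu hv)).const_mul c)
        ((res_int_wt hω (integrable_Gm H hu' hv)).const_mul c')]
      refine integral_congr_ae ?_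
      filter_upwards [Gm_sub_left H (sob_const_mul hu c).2.1 (sob_const_mul hu' c').2.1 hv.2.1,
        Gm_const_mul_left H hu.2.1 hv.2.1 c, Gm_const_mul_left H hu'.2.1 hv.2.1 c'] with x h1 h2 h3
      rw [h1, h2, h3]
      ring
    have e5 : ∫ x, (c - c') * Res m ω c f x * v x * ω x ∂m =
        (c - c') * ∫ x, Res m ω c f x * v x * ω x ∂m := by
      rw [← integral_const_mul]
      exact integral_congr_ae (Eventually.of_forall fun x => by ring)
    rw [e3, e4, e5]
    linear_combination c' * e1 - c' * e2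
  filter_upwards [h1.eq_Res H hω hc' (hu.1.const_mul (c - c')),
    Res_const_mul H hω hc' hu.1 (c - c')] with x h2 h3
  rw [← h3]
  exact h2

theorem Res_tendsto (H : IsInfHilbertian m) (hω : Wt ω) (hf : MemLp f 2 m) :
    Tendsto (fun c => ∫ x, (Res m ω c f x - f x) ^ 2 ∂m) (𝓝[>] 0) (𝓝 0) := by
  obtain ⟨κ, hκ, hw⟩ := res_le_wt (m := m) hω
  refine tendsto_order.2 ⟨fun a ha => Eventually.of_forall fun c =>
    ha.trans_le (integral_nonneg fun x => sq_nonneg _), fun η hη => ?_⟩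
  obtain ⟨g, ⟨L, hL⟩, hgc, -, hg⟩ := exists_lip_approx' hf
    (show 0 < η / (2 * (4 * κ ^ 2 + 2)) by positivity)
  have hgs : IsSobolev m g := sob_of_compactSupport hL hgc
  have ht : Tendsto (fun c : ℝ => c * (4 * κ * ∫ x, Dw m g x ^ 2 * ω x ∂m)) (𝓝[>] 0) (𝓝 0) := by
    have h1 : Tendsto (fun c : ℝ => c * (4 * κ * ∫ x, Dw m g x ^ 2 * ω x ∂m)) (𝓝 0) (𝓝 0) :=
      (continuous_mul_const _).tendsto' 0 0 (zero_mul _)
    exact h1.mono_left nhdsWithin_le_nhds
  filter_upwards [self_mem_nhdsWithin, ht.eventually (gt_mem_nhds (half_pos hη))] with c hc h1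
  have hc : 0 < c := hc
  have hu := sob_Res H hω hc hf
  have hv := sob_Res H hω hc hgs.1
  have hfg : MemLp (fun x => f x - g x) 2 m := hf.sub hgs.1
  have h2 := res_sq_sub_le hu.1 hf hgs.1
  have h3 := res_sq_sub_le hgs.1 hu.1 hv.1
  have h4 : ∫ x, (g x - f x) ^ 2 ∂m = ∫ x, (f x - g x) ^ 2 ∂m :=
    integral_congr_ae (Eventually.of_forall fun x => by ring)
  have h5 : ∫ x, (Res m ω c g x - Res m ω c f x) ^ 2 ∂m =
      ∫ x, Res m ω c (fun y => f y - g y) x ^ 2 ∂m := by
    refine integral_congr_ae ?_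
    filter_upwards [Res_sub H hω hc hf hgs.1] with x hx
    rw [hx]
    ring
  have h6 := (hw _ (sob_Res H hω hc hfg).1).1
  have h7 := mul_le_mul_of_nonneg_left (Res_energy H hω hc hfg).1 hκ.le
  have h8 := mul_le_mul_of_nonneg_left (hw _ hfg).2 hκ.le
  have h9 := (hw (fun x => Res m ω c g x - g x) (hv.1.sub hgs.1)).1
  have h10 := mul_le_mul_of_nonneg_left (Res_energy_sob H hω hc hgs).2 hκ.le
  have h11 := mul_le_mul_of_nonneg_left hg (show 0 ≤ 4 * κ ^ 2 + 2 by positivity)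
  have h12 : (4 * κ ^ 2 + 2) * (η / (2 * (4 * κ ^ 2 + 2))) = η / 2 := by field_simp
  rw [h4] at h2
  rw [h5] at h3
  nlinarith

theorem Res_tendsto_sob (H : IsInfHilbertian m) (hω : Wt ω) (hf : IsSobolev m f) :
    Tendsto (fun c => ∫ x, Dw m (fun y => Res m ω c f y - f y) x ^ 2 ∂m) (𝓝[>] 0) (𝓝 0) := by
  refine (res_key H hω hf.1 (M := res_en m ω f f) one_pos fun c hc _ => ?_).2
  have hu := sob_Res H hω hc hf.1
  have h1 := res_isRes H hω hc hf.1 hf
  have h2 := res_norm_le H hω hc hf.1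
  have h3 := res_sq_nonneg (m := m) hω fun x => f x - Res m ω c f x
  have h4 := res_sq_nonneg (m := m) hω (Dw m fun x => Res m ω c f x - f x)
  rw [res_en_sub H hω hu hf] at h4
  have h5 := mul_nonneg hc.le h4
  linarith

/-- a function with bounded approximate energies is a Sobolev function -/
theorem sob_of_approx_energy (H : IsInfHilbertian m) (hf : MemLp f 2 m) {M c₀ : ℝ} (hc₀ : 0 < c₀)
    (h : ∀ c, 0 < c → c ≤ c₀ → ∫ x, (f x - Jr m c f x) * f x ∂m ≤ c * M) : IsSobolev m f := by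
  refine (res_key H Wt.one hf (M := M) hc₀ fun c hc hc1 => ?_).1
  simpa only [mul_one] using h c hc hc1

theorem weakLap_Jr (H : IsInfHilbertian m) (hc : 0 < c) (hf : MemLp f 2 m) :
    IsWeakLaplacian m (Jr m c f) fun x => (Jr m c f x - f x) / c := by
  have hu := sob_Res H Wt.one hc hf
  refine ⟨hu, ?_, fun v hv => ?_⟩
  · simp only [div_eq_mul_inv]
    exact (hu.1.sub hf).mul_const _
  · have h1 := res_isRes H Wt.one hc hf hv
    simp only [res_en, mul_one] at h1
    have h2 : ∫ x, (Jr m c f x - f x) / c * v x ∂m =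
        -c⁻¹ * ∫ x, (f x - Jr m c f x) * v x ∂m := by
      rw [← integral_const_mul]
      exact integral_congr_ae (Eventually.of_forall fun x => by ring)
    rw [h2, ← h1]
    field_simp

theorem eq_Jr_of_weakLap (H : IsInfHilbertian m) (hc : 0 < c) {L : X → ℝ}
    (h : IsWeakLaplacian m u L) : u =ᵐ[m] Jr m c fun x => u x - c * L x := by
  refine IsRes.eq_Res H Wt.one hc (h.1.1.sub (h.2.1.const_mul c)) ⟨h.1, fun v hv => ?_⟩
  simp only [mul_one]
  have h1 : ∫ x, (u x - c * L x) * v x ∂m = ∫ x, u x * v x ∂m - c * ∫ x, L x * v x ∂m := by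
    have h2 : Integrable (fun x => u x * v x) m := h.1.1.integrable_mul hv.1
    have h3 : Integrable (fun x => L x * v x) m := h.2.1.integrable_mul hv.1
    rw [← integral_const_mul, ← integral_sub h2 (h3.const_mul c)]
    exact integral_congr_ae (Eventually.of_forall fun x => by ring)
  rw [h1, h.2.2 v hv]
  ring

/-- the resolvent commutes with the Laplacian -/
theorem Jr_sub_self (H : IsInfHilbertian m) (hc : 0 < c) {L : X → ℝ}
    (h : IsWeakLaplacian m u L) : ∀ᵐ x ∂m, Jr m c u x - u x = c * Jr m c L x := by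
  filter_upwards [eq_Jr_of_weakLap H hc h, Res_sub H Wt.one hc h.1.1 (h.2.1.const_mul c),
    Res_const_mul H Wt.one hc h.2.1 c] with x h1 h2 h3
  have h4 : u x = Jr m c u x - c * Jr m c L x := by
    rw [← h3]
    exact h1.trans h2
  linarith

end Crest.Agent.R242
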