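import Crest.Agent.R242.ResEx

/-!
Row 242: the resolvent of a weighted Dirichlet form.
-/

set_option autoImplicit false
set_option linter.unusedSectionVars false

open MeasureTheory Set Filter Metric Crest.GeometryTopology.SyntheticRicci
open scoped ENNReal NNReal Topology

namespace Crest.Agent.R242

variable {X : Type*} [MetricSpace X] [ProperSpace X] [MeasurableSpace X] [BorelSpace X]
  {m : Measure X} [IsLocallyFiniteMeasure m] {ω f g u : X → ℝ} {c : ℝ}

theorem isRes_Res (H : IsInfHilbertian m) (hω : Wt ω) (hc : 0 < c) (hf : MemLp f 2 m) :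
    IsRes m ω c f (Res m ω c f) := by
  have h := exists_isRes H hω hc hf
  unfold Res
  rw [dif_pos h]
  exact h.choose_spec

theorem sob_Res (H : IsInfHilbertian m) (hω : Wt ω) (hc : 0 < c) (hf : MemLp f 2 m) :
    IsSobolev m (Res m ω c f) := (isRes_Res H hω hc hf).1

theorem res1_pos (hω : Wt ω) (x : X) : 0 < ω x := by
  obtain ⟨c, hc, h⟩ := hω.bdd
  exact hc.trans_le (h x).1

theorem res1_int_w (hω : Wt ω) {h : X → ℝ} (hh : Integrable h m) :
    Integrable (fun x => h x * ω x) m := by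
  obtain ⟨c, hc, hb⟩ := hω.bdd
  refine hh.mul_bdd (c := c⁻¹) hω.meas.aestronglyMeasurable (Eventually.of_forall fun x => ?_)
  rw [Real.norm_eq_abs, abs_of_pos (res1_pos hω x)]
  exact (hb x).2

theorem res1_int_mul (hω : Wt ω) (hf : MemLp f 2 m) (hg : MemLp g 2 m) :
    Integrable (fun x => f x * g x * ω x) m := res1_int_w hω (hf.integrable_mul hg)

theorem res1_int_sq (hω : Wt ω) (hf : MemLp f 2 m) : Integrable (fun x => f x ^ 2 * ω x) m :=
  res1_int_w hω hf.integrable_sq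

theorem res1_int_Gm (H : IsInfHilbertian m) (hω : Wt ω) (hf : IsSobolev m f) (hg : IsSobolev m g) :
    Integrable (fun x => Gm m f g x * ω x) m := res1_int_w hω (integrable_Gm H hf hg)

theorem res1_lip_pos (a : ℝ) : LipschitzWith 1 fun t : ℝ => max (t - a) 0 :=
  (LipschitzWith.of_dist_le_mul fun x y => by simp [Real.dist_eq]).max_const 0

theorem res1_mono_pos (a : ℝ) : Monotone fun t : ℝ => max (t - a) 0 :=
  fun _ _ h => max_le_max (sub_le_sub_right h a) le_rfl

/-- comparison of a weak subsolution with a weak solution -/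
theorem res1_le (H : IsInfHilbertian m) (hω : Wt ω) (hc : 0 < c) {r : X → ℝ}
    (hr : IsRes m ω c f r) (hu : IsSobolev m u) (h : ∀ v, IsSobolev m v → (∀ᵐ x ∂m, 0 ≤ v x) →
      ∫ x, u x * v x * ω x ∂m + c * ∫ x, Gm m u v x * ω x ∂m ≤ ∫ x, f x * v x * ω x ∂m) :
    ∀ᵐ x ∂m, u x ≤ r x := by
  have hw := sob_sub hu hr.1
  have hv := sob_comp_lip hw (res1_lip_pos 0) (by simp)
  set v : X → ℝ := fun x => max (u x - r x - 0) 0 with hvdef
  have h1 := h v hv (Eventually.of_forall fun x => le_max_right _ _)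
  have h2 := hr.2 v hv
  have h3 : ∫ x, Gm m r v x * ω x ∂m ≤ ∫ x, Gm m u v x * ω x ∂m := by
    refine integral_mono_ae (res1_int_Gm H hω hr.1 hv) (res1_int_Gm H hω hu hv) ?_
    filter_upwards [Gm_sub_left H (sob_sl hu) (sob_sl hr.1) (sob_sl hv),
      Gm_comp_monotone H (sob_sl hw) (res1_lip_pos 0) (res1_mono_pos 0)] with x e1 e2
    refine mul_le_mul_of_nonneg_right ?_ (res1_pos hω x).le
    have e3 : 0 ≤ Gm m (fun y => u y - r y) v x := e2
    linarith
  have hi := res1_int_mul hω hw.1 hv.1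
  have h0 : ∀ x, 0 ≤ (u x - r x) * v x * ω x := by
    intro x
    refine mul_nonneg ?_ (res1_pos hω x).le
    rcases le_total (u x - r x - 0) 0 with h | h
    · simp only [hvdef, max_eq_right h, mul_zero, le_refl]
    · exact mul_nonneg (by linarith) (le_max_right _ _)
  have h4 : ∫ x, (u x - r x) * v x * ω x ∂m = 0 := by
    refine le_antisymm ?_ (integral_nonneg h0)
    have : ∫ x, (u x - r x) * v x * ω x ∂m =
        ∫ x, u x * v x * ω x ∂m - ∫ x, r x * v x * ω x ∂m := by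
      rw [← integral_sub (res1_int_mul hω hu.1 hv.1) (res1_int_mul hω hr.1.1 hv.1)]
      congr 1
      funext x
      ring
    nlinarith [mul_le_mul_of_nonneg_left h3 hc.le]
  filter_upwards [(integral_eq_zero_iff_of_nonneg h0 hi).1 h4] with x hx
  by_contra hlt
  have h5 : 0 < u x - r x := sub_pos.2 (not_le.1 hlt)
  have h6 : 0 < v x := lt_max_of_lt_left (by linarith)
  exact (mul_pos (mul_pos h5 h6) (res1_pos hω x)).ne' hx

theorem res1_lin (H : IsInfHilbertian m) (hω : Wt ω) (hf : MemLp f 2 m) (hg : MemLp g 2 m)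
    {r : X → ℝ} (hu : IsRes m ω c f u) (hr : IsRes m ω c g r) (a b : ℝ) :
    IsRes m ω c (fun y => a * f y + b * g y) fun y => a * u y + b * r y := by
  have h1 := sob_const_mul hu.1 a
  have h2 := sob_const_mul hr.1 b
  refine ⟨sob_add h1 h2, fun v hv => ?_⟩
  have key : ∀ {p q : X → ℝ}, Integrable (fun x => p x * ω x) m → Integrable (fun x => q x * ω x) m →
      ∫ x, (a * p x + b * q x) * ω x ∂m = a * ∫ x, p x * ω x ∂m + b * ∫ x, q x * ω x ∂m := by
    intro p q hp hq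
    rw [← integral_const_mul, ← integral_const_mul, ← integral_add (hp.const_mul a) (hq.const_mul b)]
    congr 1
    funext x
    ring
  have e1 := key (res1_int_mul hω hu.1.1 hv.1) (res1_int_mul hω hr.1.1 hv.1)
  have e2 := key (res1_int_mul hω hf hv.1) (res1_int_mul hω hg hv.1)
  have e3 := key (res1_int_Gm H hω hu.1 hv) (res1_int_Gm H hω hr.1 hv)
  have e4 : ∫ x, Gm m (fun y => a * u y + b * r y) v x * ω x ∂m =
      ∫ x, (a * Gm m u v x + b * Gm m r v x) * ω x ∂m := by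
    refine integral_congr_ae ?_
    filter_upwards [Gm_add_left H (sob_sl h1) (sob_sl h2) (sob_sl hv),
      Gm_const_mul_left H (sob_sl hu.1) (sob_sl hv) a,
      Gm_const_mul_left H (sob_sl hr.1) (sob_sl hv) b] with x x1 x2 x3
    rw [x1, x2, x3]
  have e5 : ∀ p q : X → ℝ, (fun x => (a * p x + b * q x) * v x * ω x) =
      fun x => (a * (p x * v x) + b * (q x * v x)) * ω x := by
    intro p q
    funext x
    ring
  rw [e4, e5, e5, e1, e2, e3, ← hu.2 v hv, ← hr.2 v hv]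
  ring

/-- testing with a monotone function of the solution -/
theorem res1_test (H : IsInfHilbertian m) (hω : Wt ω) (hc : 0 < c) (hu : IsRes m ω c f u)
    {φ : ℝ → ℝ} {L : ℝ≥0} (hφ : LipschitzWith L φ) (hm : Monotone φ) (h0 : φ 0 = 0) :
    ∫ x, u x * φ (u x) * ω x ∂m ≤ ∫ x, f x * φ (u x) * ω x ∂m := by
  have h1 := hu.2 _ (sob_comp_lip hu.1 hφ h0)
  have h2 : 0 ≤ ∫ x, Gm m u (fun y => φ (u y)) x * ω x ∂m := by
    refine integral_nonneg_of_ae ?_
    filter_upwards [Gm_comp_monotone H (sob_sl hu.1) hφ hm] with x hx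
    exact mul_nonneg hx (res1_pos hω x).le
  nlinarith [mul_nonneg hc.le h2]

/-- comparison for weak subsolutions -/
theorem le_Res_of_sub (H : IsInfHilbertian m) (hω : Wt ω) (hc : 0 < c) (hf : MemLp f 2 m)
    (hu : IsSobolev m u) (h : ∀ v, IsSobolev m v → (∀ᵐ x ∂m, 0 ≤ v x) →
      ∫ x, u x * v x * ω x ∂m + c * ∫ x, Gm m u v x * ω x ∂m ≤ ∫ x, f x * v x * ω x ∂m) :
    ∀ᵐ x ∂m, u x ≤ Res m ω c f x := by
  exact res1_le H hω hc (isRes_Res H hω hc hf) hu h

theorem IsRes.eq_Res (H : IsInfHilbertian m) (hω : Wt ω) (hc : 0 < c) (hf : MemLp f 2 m)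
    (h : IsRes m ω c f u) : u =ᵐ[m] Res m ω c f := by
  have hr := isRes_Res H hω hc hf
  filter_upwards [res1_le H hω hc hr h.1 fun v hv _ => (h.2 v hv).le,
    res1_le H hω hc h hr.1 fun v hv _ => (hr.2 v hv).le] with x h1 h2
  exact le_antisymm h1 h2

theorem Res_congr (H : IsInfHilbertian m) (hω : Wt ω) (hc : 0 < c) (hf : MemLp f 2 m)
    (e : f =ᵐ[m] g) : Res m ω c f =ᵐ[m] Res m ω c g := by
  have hr := isRes_Res H hω hc hf
  refine IsRes.eq_Res H hω hc (hf.ae_eq e) ⟨hr.1, fun v hv => ?_⟩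
  rw [hr.2 v hv]
  refine integral_congr_ae ?_
  filter_upwards [e] with x hx
  rw [hx]

theorem Res_lin (H : IsInfHilbertian m) (hω : Wt ω) (hc : 0 < c) (hf : MemLp f 2 m)
    (hg : MemLp g 2 m) (a b : ℝ) : ∀ᵐ x ∂m,
    Res m ω c (fun y => a * f y + b * g y) x = a * Res m ω c f x + b * Res m ω c g x := by
  exact ((res1_lin H hω hf hg (isRes_Res H hω hc hf) (isRes_Res H hω hc hg) a b).eq_Res H hω hc
    ((hf.const_mul a).add (hg.const_mul b))).symm

theorem Res_sub (H : IsInfHilbertian m) (hω : Wt ω) (hc : 0 < c) (hf : MemLp f 2 m)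
    (hg : MemLp g 2 m) : ∀ᵐ x ∂m,
    Res m ω c (fun y => f y - g y) x = Res m ω c f x - Res m ω c g x := by
  have e : (fun y => f y - g y) = fun y => 1 * f y + (-1) * g y := by
    funext y
    ring
  filter_upwards [Res_lin H hω hc hf hg 1 (-1)] with x hx
  rw [e, hx]
  ring

theorem Res_const_mul (H : IsInfHilbertian m) (hω : Wt ω) (hc : 0 < c) (hf : MemLp f 2 m)
    (a : ℝ) : ∀ᵐ x ∂m, Res m ω c (fun y => a * f y) x = a * Res m ω c f x := by
  have e : (fun y => a * f y) = fun y => a * f y + 0 * f y := by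
    funext y
    ring
  filter_upwards [Res_lin H hω hc hf hf a 0] with x hx
  rw [e, hx]
  ring

theorem Res_symm (H : IsInfHilbertian m) (hω : Wt ω) (hc : 0 < c) (hf : MemLp f 2 m)
    (hg : MemLp g 2 m) :
    ∫ x, Res m ω c f x * g x * ω x ∂m = ∫ x, f x * Res m ω c g x * ω x ∂m := by
  have h1 := isRes_Res H hω hc hf
  have h2 := isRes_Res H hω hc hg
  have e1 := h1.2 _ h2.1
  have e2 := h2.2 _ h1.1
  have e3 : ∫ x, Gm m (Res m ω c f) (Res m ω c g) x * ω x ∂m =
      ∫ x, Gm m (Res m ω c g) (Res m ω c f) x * ω x ∂m := by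
    refine integral_congr_ae ?_
    filter_upwards [Gm_comm (sob_sl h1.1) (sob_sl h2.1)] with x hx
    rw [hx]
  simp only [mul_comm (Res m ω c g _) (Res m ω c f _), mul_comm (g _) (Res m ω c f _)] at e2
  rw [← e1, ← e2, e3]

/-- maximum principle -/
theorem Res_le_const (H : IsInfHilbertian m) (hω : Wt ω) (hc : 0 < c) (hf : MemLp f 2 m) {a : ℝ}
    (ha : 0 ≤ a) (h : ∀ᵐ x ∂m, f x ≤ a) : ∀ᵐ x ∂m, Res m ω c f x ≤ a := by
  have hr := isRes_Res H hω hc hf
  set r := Res m ω c f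
  have h00 : max ((0 : ℝ) - a) 0 = 0 := max_eq_right (by linarith)
  have hv := sob_comp_lip hr.1 (res1_lip_pos a) h00
  have h1 := res1_test H hω hc hr (res1_lip_pos a) (res1_mono_pos a) h00
  have hi1 := res1_int_mul hω hr.1.1 hv.1
  have hi2 := res1_int_mul hω hf hv.1
  have h0 : ∀ᵐ x ∂m, 0 ≤ r x * max (r x - a) 0 * ω x - f x * max (r x - a) 0 * ω x := by
    filter_upwards [h] with x hx
    rw [← sub_mul, ← sub_mul]
    refine mul_nonneg ?_ (res1_pos hω x).le
    rcases le_total (r x - a) 0 with h | h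
    · simp only [max_eq_right h, mul_zero, le_refl]
    · exact mul_nonneg (by linarith) (le_max_right _ _)
  have h4 : ∫ x, (r x * max (r x - a) 0 * ω x - f x * max (r x - a) 0 * ω x) ∂m = 0 := by
    refine le_antisymm ?_ (integral_nonneg_of_ae h0)
    rw [integral_sub hi1 hi2]
    linarith
  filter_upwards [(integral_eq_zero_iff_of_nonneg_ae h0 (hi1.sub hi2)).1 h4, h] with x hx hx'
  by_contra hlt
  have h5 : 0 < r x - a := sub_pos.2 (not_le.1 hlt)
  have h6 : 0 < (r x - f x) * max (r x - a) 0 * ω x :=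
    mul_pos (mul_pos (by linarith) (lt_max_of_lt_left h5)) (res1_pos hω x)
  rw [sub_mul, sub_mul] at h6
  exact h6.ne' hx

theorem Res_nonneg (H : IsInfHilbertian m) (hω : Wt ω) (hc : 0 < c) (hf : MemLp f 2 m)
    (h : ∀ᵐ x ∂m, 0 ≤ f x) : ∀ᵐ x ∂m, 0 ≤ Res m ω c f x := by
  have h1 := Res_le_const H hω hc (hf.const_mul (-1)) le_rfl
    (by filter_upwards [h] with x hx; linarith)
  filter_upwards [h1, Res_const_mul H hω hc hf (-1)] with x x1 x2
  linarith

theorem Res_mono (H : IsInfHilbertian m) (hω : Wt ω) (hc : 0 < c) (hf : MemLp f 2 m)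
    (hg : MemLp g 2 m) (h : ∀ᵐ x ∂m, f x ≤ g x) : ∀ᵐ x ∂m, Res m ω c f x ≤ Res m ω c g x := by
  have h1 := Res_nonneg H hω hc (f := fun y => g y - f y) (hg.sub hf)
    (by filter_upwards [h] with x hx; linarith)
  filter_upwards [h1, Res_sub H hω hc hg hf] with x x1 x2
  linarith

theorem abs_Res_le (H : IsInfHilbertian m) (hω : Wt ω) (hc : 0 < c) (hf : MemLp f 2 m) {a : ℝ}
    (ha : 0 ≤ a) (h : ∀ᵐ x ∂m, |f x| ≤ a) : ∀ᵐ x ∂m, |Res m ω c f x| ≤ a := by
  have h1 := Res_le_const H hω hc (hf.const_mul (-1)) ha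
    (by filter_upwards [h] with x hx; linarith [(abs_le.1 hx).1])
  have h2 := Res_le_const H hω hc hf ha (by filter_upwards [h] with x hx; exact (abs_le.1 hx).2)
  filter_upwards [h1, h2, Res_const_mul H hω hc hf (-1)] with x x1 x2 x3
  exact abs_le.2 ⟨by linarith, x2⟩

/-- the resolvent does not increase the mass -/
theorem integral_Res_le (H : IsInfHilbertian m) (hω : Wt ω) (hc : 0 < c) (hf : MemLp f 2 m)
    (hf' : Integrable f m) (h : ∀ᵐ x ∂m, 0 ≤ f x) :
    Integrable (Res m ω c f) m ∧ ∫ x, Res m ω c f x * ω x ∂m ≤ ∫ x, f x * ω x ∂m := by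
  have hr := isRes_Res H hω hc hf
  have hr0 := Res_nonneg H hω hc hf h
  set r := Res m ω c f
  let φ : ℕ → ℝ → ℝ := fun n t => max (min (n * t) 1) 0
  have hφ0 : ∀ n t, 0 ≤ φ n t := fun n t => le_max_right _ _
  have hφ1 : ∀ n t, φ n t ≤ 1 := fun n t => max_le (min_le_right _ _) zero_le_one
  have hφL : ∀ n : ℕ, LipschitzWith n (φ n) := fun n =>
    ((LipschitzWith.of_dist_le_mul fun x y => by
      simp [Real.dist_eq, ← mul_sub, abs_mul]).min_const 1).max_const 0
  have hφm : ∀ n, Monotone (φ n) := fun n x y hxy =>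
    max_le_max (min_le_min (mul_le_mul_of_nonneg_left hxy n.cast_nonneg) le_rfl) le_rfl
  have hφz : ∀ n, φ n 0 = 0 := fun n => by simp [φ]
  have hfω := res1_int_w hω hf'
  have hb : ∀ n, ∫ x, r x * φ n (r x) * ω x ∂m ≤ ∫ x, f x * ω x ∂m := by
    intro n
    refine (res1_test H hω hc hr (hφL n) (hφm n) (hφz n)).trans (integral_mono_ae
      (res1_int_mul hω hf (sob_comp_lip hr.1 (hφL n) (hφz n)).1) hfω ?_)
    filter_upwards [h] with x hx
    exact mul_le_mul_of_nonneg_right (mul_le_of_le_one_right hx (hφ1 n _)) (res1_pos hω x).le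
  have hint : ∀ n, Integrable (fun x => r x * φ n (r x) * ω x) m := fun n =>
    res1_int_mul hω hr.1.1 (sob_comp_lip hr.1 (hφL n) (hφz n)).1
  have hlim : ∀ᵐ x ∂m, Tendsto (fun n => ENNReal.ofReal (r x * φ n (r x) * ω x)) atTop
      (𝓝 (ENNReal.ofReal (r x * ω x))) := by
    filter_upwards [hr0] with x hx
    rcases hx.eq_or_lt with hx | hx
    · simp [← hx]
    · refine tendsto_const_nhds.congr' ?_
      obtain ⟨N, hN⟩ := exists_nat_ge (r x)⁻¹
      filter_upwards [eventually_ge_atTop N] with n hn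
      have h1 : (1 : ℝ) ≤ n * r x := by
        rw [← inv_mul_cancel₀ hx.ne']
        exact mul_le_mul_of_nonneg_right (hN.trans (by exact_mod_cast hn)) hx.le
      simp [φ, min_eq_right h1]
  have hle : ∫⁻ x, ENNReal.ofReal (r x * ω x) ∂m ≤ ENNReal.ofReal (∫ x, f x * ω x ∂m) := by
    calc _ = ∫⁻ x, liminf (fun n => ENNReal.ofReal (r x * φ n (r x) * ω x)) atTop ∂m := by
          refine lintegral_congr_ae ?_
          filter_upwards [hlim] with x hx
          exact hx.liminf_eq.symm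
      _ ≤ liminf (fun n => ∫⁻ x, ENNReal.ofReal (r x * φ n (r x) * ω x) ∂m) atTop :=
          lintegral_liminf_le' fun n => (hint n).aemeasurable.ennreal_ofReal
      _ ≤ _ := by
          refine liminf_le_of_frequently_le' (Frequently.of_forall fun n => ?_)
          rw [← ofReal_integral_eq_lintegral_ofReal (hint n)]
          · exact ENNReal.ofReal_le_ofReal (hb n)
          · filter_upwards [hr0] with x hx
            exact mul_nonneg (mul_nonneg hx (hφ0 n _)) (res1_pos hω x).le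
  have hnn : 0 ≤ᵐ[m] fun x => r x * ω x := by
    filter_upwards [hr0] with x hx
    exact mul_nonneg hx (res1_pos hω x).le
  have hrω : Integrable (fun x => r x * ω x) m :=
    ⟨hr.1.1.1.mul hω.meas.aestronglyMeasurable,
      (hasFiniteIntegral_iff_ofReal hnn).2 (hle.trans_lt ENNReal.ofReal_lt_top)⟩
  constructor
  · obtain ⟨c₀, hc₀, hb₀⟩ := hω.bdd
    refine (hrω.const_mul c₀⁻¹).mono' hr.1.1.1 ?_
    filter_upwards [hr0] with x hx
    rw [Real.norm_eq_abs, abs_of_nonneg hx, le_inv_mul_iff₀ hc₀, mul_comm]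
    exact mul_le_mul_of_nonneg_left (hb₀ x).1 hx
  · rw [← ofReal_integral_eq_lintegral_ofReal hrω hnn] at hle
    refine (ENNReal.ofReal_le_ofReal_iff (integral_nonneg_of_ae ?_)).1 hle
    filter_upwards [h] with x hx
    exact mul_nonneg hx (res1_pos hω x).le

theorem Res_energy (H : IsInfHilbertian m) (hω : Wt ω) (hc : 0 < c) (hf : MemLp f 2 m) :
    ∫ x, Res m ω c f x ^ 2 * ω x ∂m ≤ ∫ x, f x ^ 2 * ω x ∂m ∧
    c * ∫ x, Dw m (Res m ω c f) x ^ 2 * ω x ∂m ≤ ∫ x, f x ^ 2 * ω x ∂m := by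
  have hr := isRes_Res H hω hc hf
  set r := Res m ω c f
  have h1 := hr.2 r hr.1
  have e1 : ∫ x, Gm m r r x * ω x ∂m = ∫ x, Dw m r x ^ 2 * ω x ∂m := by
    refine integral_congr_ae ?_
    filter_upwards [Gm_self (sob_sl hr.1)] with x hx
    rw [hx]
  have h2 : ∫ x, f x * r x * ω x ∂m ≤
      1 / 2 * ∫ x, f x ^ 2 * ω x ∂m + 1 / 2 * ∫ x, r x ^ 2 * ω x ∂m := by
    have i1 := (res1_int_sq hω hf).const_mul (1 / 2)
    have i2 := (res1_int_sq hω hr.1.1).const_mul (1 / 2)
    rw [← integral_const_mul, ← integral_const_mul, ← integral_add i1 i2]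
    refine integral_mono (res1_int_mul hω hf hr.1.1) (i1.add i2) fun x => ?_
    nlinarith [mul_nonneg (sq_nonneg (f x - r x)) (res1_pos hω x).le]
  have h3 : 0 ≤ ∫ x, r x ^ 2 * ω x ∂m :=
    integral_nonneg fun x => mul_nonneg (sq_nonneg _) (res1_pos hω x).le
  have h4 : 0 ≤ c * ∫ x, Dw m r x ^ 2 * ω x ∂m :=
    mul_nonneg hc.le (integral_nonneg fun x => mul_nonneg (sq_nonneg _) (res1_pos hω x).le)
  simp only [← pow_two] at h1
  rw [e1] at h1
  constructor <;> linarith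

theorem Res_energy_sob (H : IsInfHilbertian m) (hω : Wt ω) (hc : 0 < c) (hf : IsSobolev m f) :
    ∫ x, Dw m (Res m ω c f) x ^ 2 * ω x ∂m ≤ ∫ x, Dw m f x ^ 2 * ω x ∂m ∧
    ∫ x, (Res m ω c f x - f x) ^ 2 * ω x ∂m ≤ c * ∫ x, Dw m f x ^ 2 * ω x ∂m := by
  have hr := isRes_Res H hω hc hf.1
  set r := Res m ω c f
  have hv := sob_sub hr.1 hf
  have h1 := hr.2 _ hv
  have e1 : ∫ x, (r x - f x) ^ 2 * ω x ∂m =
      ∫ x, r x * (r x - f x) * ω x ∂m - ∫ x, f x * (r x - f x) * ω x ∂m := by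
    rw [← integral_sub (res1_int_mul hω hr.1.1 hv.1) (res1_int_mul hω hf.1 hv.1)]
    congr 1
    funext x
    ring
  have h2 : 1 / 2 * ∫ x, Dw m r x ^ 2 * ω x ∂m - 1 / 2 * ∫ x, Dw m f x ^ 2 * ω x ∂m ≤
      ∫ x, Gm m r (fun y => r y - f y) x * ω x ∂m := by
    have i1 := (res1_int_sq hω hr.1.2.2).const_mul (1 / 2)
    have i2 := (res1_int_sq hω hf.2.2).const_mul (1 / 2)
    rw [← integral_const_mul, ← integral_const_mul, ← integral_sub i1 i2]
    refine integral_mono_ae (i1.sub i2) (res1_int_Gm H hω hr.1 hv) ?_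
    filter_upwards [Gm_sub_right H (sob_sl hr.1) (sob_sl hf) (sob_sl hr.1), Gm_self (sob_sl hr.1),
      abs_Gm_le H (sob_sl hr.1) (sob_sl hf)] with x x1 x2 x3
    rw [x1, x2]
    have x4 : Gm m r f x ≤ 1 / 2 * Dw m r x ^ 2 + 1 / 2 * Dw m f x ^ 2 := by
      nlinarith [le_abs_self (Gm m r f x), sq_nonneg (Dw m r x - Dw m f x)]
    nlinarith [mul_le_mul_of_nonneg_right x4 (res1_pos hω x).le]
  have h3 : 0 ≤ ∫ x, (r x - f x) ^ 2 * ω x ∂m :=
    integral_nonneg fun x => mul_nonneg (sq_nonneg _) (res1_pos hω x).le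
  have h4 : 0 ≤ ∫ x, Dw m r x ^ 2 * ω x ∂m :=
    integral_nonneg fun x => mul_nonneg (sq_nonneg _) (res1_pos hω x).le
  have h5 : 0 ≤ ∫ x, Dw m f x ^ 2 * ω x ∂m :=
    integral_nonneg fun x => mul_nonneg (sq_nonneg _) (res1_pos hω x).le
  have h6 := mul_le_mul_of_nonneg_left h2 hc.le
  constructor
  · refine le_of_mul_le_mul_left ?_ hc
    linarith
  · nlinarith [mul_nonneg hc.le h4, mul_nonneg hc.le h5]

end Crest.Agent.R242
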