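import Crest.Agent.R242.CalcG

/-!
Row 242: existence of the resolvent.
-/

set_option autoImplicit false

open MeasureTheory Set Filter Metric Crest.GeometryTopology.SyntheticRicci
open scoped ENNReal NNReal Topology

namespace Crest.Agent.R242

theorem resex_discr {a b d : ℝ} (h : ∀ t : ℝ, 0 ≤ a * (t * t) + 2 * b * t + d) : b ^ 2 ≤ a * d := by
  have := discrim_le_zero h
  unfold discrim at this
  nlinarith

/-- Riesz representation for a complete semi-inner product, by the direct method. -/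
theorem resex_riesz {V : Type*} [AddCommGroup V] [Module ℝ V] (B : V →ₗ[ℝ] V →ₗ[ℝ] ℝ)
    (hs : ∀ u v, B u v = B v u) (hp : ∀ u, 0 ≤ B u u) (l : V →ₗ[ℝ] ℝ) {C : ℝ}
    (hl : ∀ u, 2 * l u ≤ C + B u u)
    (hc : ∀ F : ℕ → V, (∀ η : ℝ, 0 < η → ∃ n₀, ∀ n ≥ n₀, ∀ n' ≥ n₀,
      B (F n - F n') (F n - F n') ≤ η) →
      ∃ u, Tendsto (fun n => B (F n - u) (F n - u)) atTop (𝓝 0)) :
    ∃ u, ∀ v, B u v = l v := by
  set J : V → ℝ := fun u => B u u - 2 * l u with hJ
  have hb : BddBelow (range J) := ⟨-C, by rintro _ ⟨u, rfl⟩; simp only [hJ]; linarith [hl u]⟩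
  set j := ⨅ u, J u with hj
  have hle : ∀ u, j ≤ J u := fun u => ciInf_le hb u
  have hex : ∀ n : ℕ, ∃ u, J u < j + 1 / ((n : ℝ) + 1) := fun n =>
    exists_lt_of_ciInf_lt (lt_add_of_pos_right _ (by positivity))
  choose F hF using hex
  have hexp : ∀ u v (t : ℝ), J (u + t • v) = B v v * (t * t) + 2 * (B u v - l v) * t + J u := by
    intro u v t
    simp only [hJ, map_add, map_smul, LinearMap.add_apply, LinearMap.smul_apply, smul_eq_mul,
      hs v u]
    ring
  have hpar : ∀ u v, B (u - v) (u - v) ≤ 2 * (J u - j) + 2 * (J v - j) := by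
    intro u v
    have h1 := hle ((2⁻¹ : ℝ) • (u + v))
    simp only [hJ, map_add, map_sub, map_smul, LinearMap.add_apply, LinearMap.sub_apply,
      LinearMap.smul_apply, smul_eq_mul, hs v u] at h1 ⊢
    linarith
  have h0 : Tendsto (fun n : ℕ => 1 / ((n : ℝ) + 1)) atTop (𝓝 0) :=
    tendsto_one_div_add_atTop_nhds_zero_nat
  obtain ⟨u, hu⟩ := hc F fun η hη => by
    obtain ⟨n₀, hn₀⟩ := eventually_atTop.1 (h0.eventually (gt_mem_nhds (show 0 < η / 4 by positivity)))
    refine ⟨n₀, fun n hn n' hn' => ?_⟩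
    linarith [hpar (F n) (F n'), hF n, hF n', hn₀ n hn, hn₀ n' hn']
  refine ⟨u, fun v => ?_⟩
  have h1 : ∀ n, (B (F n) v - l v) ^ 2 ≤ B v v * (1 / ((n : ℝ) + 1)) := fun n =>
    resex_discr fun t => by linarith [hexp (F n) v t, hle (F n + t • v), hF n]
  have h2 : ∀ n, (B (F n) v - B u v) ^ 2 ≤ B v v * B (F n - u) (F n - u) := fun n =>
    resex_discr fun t => by
      have := hp (F n - u + t • v)
      rw [map_add, map_add, map_smul, map_smul, LinearMap.add_apply, LinearMap.add_apply,
        LinearMap.smul_apply, LinearMap.smul_apply, hs v (F n - u), map_sub B (F n) u,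
        LinearMap.sub_apply (B (F n)) (B u) v, ← map_sub B (F n) u] at this
      simp only [smul_eq_mul] at this
      linarith
  have h3 : Tendsto (fun n : ℕ => 2 * (B v v * (1 / ((n : ℝ) + 1)))
      + 2 * (B v v * B (F n - u) (F n - u))) atTop (𝓝 0) := by
    simpa using ((h0.const_mul (B v v)).const_mul 2).add ((hu.const_mul (B v v)).const_mul 2)
  have h4 : (B u v - l v) ^ 2 ≤ 0 := ge_of_tendsto' h3 fun n => by
    nlinarith [h1 n, h2 n, sq_nonneg (B (F n) v - l v + (B (F n) v - B u v))]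
  exact sub_eq_zero.1 (pow_eq_zero_iff two_ne_zero |>.1 (le_antisymm h4 (sq_nonneg _)))

variable {X : Type*} [MetricSpace X] [ProperSpace X] [MeasurableSpace X] [BorelSpace X]
  {m : Measure X} [IsLocallyFiniteMeasure m] {ω f : X → ℝ} {c : ℝ}

theorem exists_isRes (H : IsInfHilbertian m) (hω : Wt ω) (hc : 0 < c) (hf : MemLp f 2 m) :
    ∃ u, IsRes m ω c f u := by
  obtain ⟨k, hk, hω'⟩ := hω.bdd
  have hω0 : ∀ x, 0 ≤ ω x := fun x => hk.le.trans (hω' x).1
  have hint : ∀ {g : X → ℝ}, Integrable g m → Integrable (fun x => g x * ω x) m := fun hg =>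
    hg.mul_bdd (c := k⁻¹) hω.meas.aestronglyMeasurable (Eventually.of_forall fun x => by
      rw [Real.norm_of_nonneg (hω0 x)]; exact (hω' x).2)
  let V : Submodule ℝ (X → ℝ) :=
    { carrier := {u | IsSobolev m u}
      add_mem' := fun hu hv => sob_add hu hv
      zero_mem' := sob_zero
      smul_mem' := fun a u hu => sob_const_mul hu a }
  have hV : ∀ u : V, IsSobolev m u.1 := fun u => u.2
  have i1 : ∀ {g : X → ℝ}, MemLp g 2 m → ∀ v : V, Integrable (fun x => g x * v.1 x * ω x) m :=
    fun hg v => hint (hg.integrable_mul (hV v).1)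
  have i2 : ∀ u v : V, Integrable (fun x => Gm m u.1 v.1 x * ω x) m := fun u v =>
    hint (integrable_Gm H (hV u) (hV v))
  set b : V → V → ℝ := fun u v =>
    ∫ x, u.1 x * v.1 x * ω x ∂m + c * ∫ x, Gm m u.1 v.1 x * ω x ∂m with hb
  have bs : ∀ u v, b u v = b v u := fun u v => by
    simp only [hb]
    congr 1
    · simp only [mul_comm (u.1 _)]
    · congr 1
      refine integral_congr_ae ?_
      filter_upwards [Gm_comm (sob_sl (hV u)) (sob_sl (hV v))] with x hx
      rw [hx]
  have ba : ∀ u u' v, b (u + u') v = b u v + b u' v := fun u u' v => by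
    have e1 : ∫ x, (u + u').1 x * v.1 x * ω x ∂m
        = ∫ x, u.1 x * v.1 x * ω x ∂m + ∫ x, u'.1 x * v.1 x * ω x ∂m := by
      rw [← integral_add (i1 (hV u).1 v) (i1 (hV u').1 v)]
      refine integral_congr_ae (Eventually.of_forall fun x => ?_)
      simp only [Submodule.coe_add, Pi.add_apply]
      ring
    have e2 : ∫ x, Gm m (u + u').1 v.1 x * ω x ∂m
        = ∫ x, Gm m u.1 v.1 x * ω x ∂m + ∫ x, Gm m u'.1 v.1 x * ω x ∂m := by
      rw [← integral_add (i2 u v) (i2 u' v)]
      refine integral_congr_ae ?_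
      filter_upwards [Gm_add_left H (sob_sl (hV u)) (sob_sl (hV u')) (sob_sl (hV v))] with x hx
      rw [← add_mul, ← hx]
      rfl
    simp only [hb]
    rw [e1, e2]
    ring
  have bm : ∀ (a : ℝ) u v, b (a • u) v = a • b u v := fun a u v => by
    have e1 : ∫ x, (a • u).1 x * v.1 x * ω x ∂m = a * ∫ x, u.1 x * v.1 x * ω x ∂m := by
      rw [← integral_const_mul]
      refine integral_congr_ae (Eventually.of_forall fun x => ?_)
      simp only [Submodule.coe_smul, Pi.smul_apply, smul_eq_mul]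
      ring
    have e2 : ∫ x, Gm m (a • u).1 v.1 x * ω x ∂m = a * ∫ x, Gm m u.1 v.1 x * ω x ∂m := by
      rw [← integral_const_mul]
      refine integral_congr_ae ?_
      filter_upwards [Gm_const_mul_left H (sob_sl (hV u)) (sob_sl (hV v)) a] with x hx
      rw [← mul_assoc, ← hx]
      rfl
    simp only [hb, smul_eq_mul]
    rw [e1, e2]
    ring
  let B : V →ₗ[ℝ] V →ₗ[ℝ] ℝ := LinearMap.mk₂ ℝ b ba bm
    (fun u v v' => by rw [bs, ba, bs v, bs v']) (fun a u v => by rw [bs, bm, bs])
  let l : V →ₗ[ℝ] ℝ :=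
    { toFun := fun v => ∫ x, f x * v.1 x * ω x ∂m
      map_add' := fun u v => by
        rw [← integral_add (i1 hf u) (i1 hf v)]
        refine integral_congr_ae (Eventually.of_forall fun x => ?_)
        simp only [Submodule.coe_add, Pi.add_apply]
        ring
      map_smul' := fun a u => by
        rw [RingHom.id_apply, smul_eq_mul, ← integral_const_mul]
        refine integral_congr_ae (Eventually.of_forall fun x => ?_)
        simp only [Submodule.coe_smul, Pi.smul_apply, smul_eq_mul]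
        ring }
  have hBuu : ∀ u : V, B u u = ∫ x, u.1 x ^ 2 * ω x ∂m + c * ∫ x, Dw m u.1 x ^ 2 * ω x ∂m := by
    intro u
    change b u u = _
    simp only [hb, ← sq]
    congr 2
    refine integral_congr_ae ?_
    filter_upwards [Gm_self (sob_sl (hV u))] with x hx
    rw [hx]
  have hw : ∀ {g : X → ℝ}, MemLp g 2 m → k * ∫ x, g x ^ 2 ∂m ≤ ∫ x, g x ^ 2 * ω x ∂m ∧
      ∫ x, g x ^ 2 * ω x ∂m ≤ k⁻¹ * ∫ x, g x ^ 2 ∂m := fun {g} hg => by
    have hi := hg.integrable_sq
    rw [← integral_const_mul, ← integral_const_mul]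
    exact ⟨integral_mono (hi.const_mul _) (hint hi) fun x => by
        simp only [mul_comm k]; exact mul_le_mul_of_nonneg_left (hω' x).1 (sq_nonneg _),
      integral_mono (hint hi) (hi.const_mul _) fun x => by
        simp only [mul_comm k⁻¹]; exact mul_le_mul_of_nonneg_left (hω' x).2 (sq_nonneg _)⟩
  have hn : ∀ g : X → ℝ, 0 ≤ ∫ x, g x ^ 2 * ω x ∂m := fun g =>
    integral_nonneg fun x => mul_nonneg (sq_nonneg _) (hω0 x)
  obtain ⟨u, hu⟩ := resex_riesz B bs
    (fun u => by rw [hBuu]; exact add_nonneg (hn _) (mul_nonneg hc.le (hn _))) l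
    (C := ∫ x, f x ^ 2 * ω x ∂m) (fun u => by
      have h1 : 2 * ∫ x, f x * u.1 x * ω x ∂m
          ≤ ∫ x, f x ^ 2 * ω x ∂m + ∫ x, u.1 x ^ 2 * ω x ∂m := by
        rw [← integral_const_mul, ← integral_add (hint hf.integrable_sq) (hint (hV u).1.integrable_sq)]
        refine integral_mono ((i1 hf u).const_mul _)
          ((hint hf.integrable_sq).add (hint (hV u).1.integrable_sq)) fun x => ?_
        have := mul_nonneg (sq_nonneg (f x - u.1 x)) (hω0 x)
        simp only
        linarith
      have h2 := mul_nonneg hc.le (hn (Dw m u.1))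
      rw [hBuu]
      change 2 * ∫ x, f x * u.1 x * ω x ∂m ≤ _
      linarith)
    (fun F hF => by
      obtain ⟨g, hg, t1, t2⟩ := sob_complete (m := m) (F := fun n => (F n).1) (fun n => hV _)
        fun η hη => by
          obtain ⟨n₀, hn₀⟩ := hF (min (k * η) (c * (k * η))) (by positivity)
          refine ⟨n₀, fun n h1 n' h2 => ?_⟩
          have h3 := hn₀ n h1 n' h2
          rw [hBuu] at h3
          have h4 := (hw (hV (F n - F n')).1).1
          have h5 := (hw (hV (F n - F n')).2.2).1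
          have h6 := hn (F n - F n').1
          have h7 := mul_nonneg hc.le (hn (Dw m (F n - F n').1))
          have h8 := min_le_left (k * η) (c * (k * η))
          have h9 := min_le_right (k * η) (c * (k * η))
          constructor
          · refine le_of_mul_le_mul_left (h4.trans ?_) hk
            linarith
          · refine le_of_mul_le_mul_left (h5.trans (le_of_mul_le_mul_left ?_ hc)) hk
            linarith
      have t3 := (t1.const_mul k⁻¹).add ((t2.const_mul k⁻¹).const_mul c)
      rw [mul_zero, mul_zero, add_zero] at t3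
      refine ⟨⟨g, hg⟩, squeeze_zero (fun n => ?_) (fun n => ?_) t3⟩
      · rw [hBuu]; exact add_nonneg (hn _) (mul_nonneg hc.le (hn _))
      · rw [hBuu]
        have e : (F n - ⟨g, hg⟩ : V).1 = fun y => (F n).1 y - g y := rfl
        rw [e]
        have h1 := sob_sub (hV (F n)) hg
        exact add_le_add (hw h1.1).2 (mul_le_mul_of_nonneg_left (hw h1.2.2).2 hc.le))
  refine ⟨u.1, hV u, fun v hv => ?_⟩
  have h1 : b u ⟨v, hv⟩ = ∫ x, f x * v x * ω x ∂m := hu ⟨v, hv⟩
  simpa only [hb] using h1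

end Crest.Agent.R242
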