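import Crest.Agent.R242.Boch

/-!
Row 242: products and compositions of test functions.
-/

set_option autoImplicit false

open MeasureTheory Set Filter Metric Crest.GeometryTopology.SyntheticRicci
open scoped ENNReal NNReal Topology

namespace Crest.Agent.R242

variable {X : Type*} [MetricSpace X] [ProperSpace X] [MeasurableSpace X] [BorelSpace X]
  {m : Measure X} [IsLocallyFiniteMeasure m] [m.IsOpenPosMeasure] {k τ₀ : ℝ} {g g' : X → ℝ}

omit [ProperSpace X] [IsLocallyFiniteMeasure m] [m.IsOpenPosMeasure] in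
theorem test0_memLp_mul {w f : X → ℝ} (hw : Continuous w) {B : ℝ} (hB : ∀ x, |w x| ≤ B) {p : ℝ≥0∞}
    (hf : MemLp f p m) : MemLp (fun x => w x * f x) p m := by
  refine (hf.const_mul B).of_le (hw.aestronglyMeasurable.mul hf.1) (Eventually.of_forall fun x => ?_)
  rw [norm_mul, norm_mul]
  exact mul_le_mul_of_nonneg_right ((hB x).trans (le_abs_self B)) (norm_nonneg _)

omit [m.IsOpenPosMeasure] in
theorem test0_memLp_div (H : IsInfHilbertian m) {L w : X → ℝ} (hg : IsWeakLaplacian m g L)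
    (hw : BL w) : MemLp (fun x => w x * L x + Gm m g w x) 2 m := by
  obtain ⟨B, hB⟩ := hw.bdd
  obtain ⟨C, hC⟩ := hw.Dw_le (m := m)
  exact (test0_memLp_mul hw.continuous hB hg.2.1).add
    ((memLp_Gm H hw.sl hg.1 hC).ae_eq (Gm_comm hw.sl (sob_sl hg.1)))

omit [m.IsOpenPosMeasure] in
theorem test0_integrable (H : IsInfHilbertian m) {w v : X → ℝ} (hg : IsSobolev m g)
    (hw : BL w) (hv : IsSobolev m v) : Integrable (fun x => w x * Gm m g v x) m := by
  obtain ⟨B, hB⟩ := hw.bdd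
  exact memLp_one_iff_integrable.1 (test0_memLp_mul hw.continuous hB
    (memLp_one_iff_integrable.2 (integrable_Gm H hg hv)))

omit [m.IsOpenPosMeasure] in
/-- integration by parts with a bounded Lipschitz weight -/
theorem test0_parts (H : IsInfHilbertian m) {L w v : X → ℝ} (hg : IsWeakLaplacian m g L)
    (hw : BL w) (hv : IsSobolev m v) :
    ∫ x, w x * Gm m g v x ∂m = -∫ x, (w x * L x + Gm m g w x) * v x ∂m := by
  obtain ⟨B, hB⟩ := hw.bdd
  obtain ⟨C, hC⟩ := hw.Dw_le (m := m)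
  have hvw := sob_mul_BL hv hw
  have h1 := hg.2.2 _ hvw
  have h2 : MemLp (Gm m g w) 2 m :=
    (memLp_Gm H hw.sl hg.1 hC).ae_eq (Gm_comm hw.sl (sob_sl hg.1))
  have i1 : Integrable (fun x => Gm m g w x * v x) m := h2.integrable_mul hv.1
  have i2 := test0_integrable H hg.1 hw hv
  have i3 : Integrable (fun x => w x * L x * v x) m :=
    (test0_memLp_mul hw.continuous hB hg.2.1).integrable_mul hv.1
  have h3 : ∫ x, Gm m g (fun y => v y * w y) x ∂m =
      ∫ x, Gm m g w x * v x ∂m + ∫ x, w x * Gm m g v x ∂m := by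
    rw [← integral_add i1 i2]
    refine integral_congr_ae ?_
    filter_upwards [Gm_mul_right H (sob_sl hv) hw.sl (sob_sl hvw) (sob_sl hg.1)] with x hx
    rw [hx]
    ring
  have h4 : ∫ x, (w x * L x + Gm m g w x) * v x ∂m =
      ∫ x, w x * L x * v x ∂m + ∫ x, Gm m g w x * v x ∂m := by
    rw [← integral_add i3 i1]
    refine integral_congr_ae (Eventually.of_forall fun x => ?_)
    ring
  have h5 : ∫ x, L x * (v x * w x) ∂m = ∫ x, w x * L x * v x ∂m :=
    integral_congr_ae (Eventually.of_forall fun x => by ring)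
  change ∫ x, Gm m g (fun y => v y * w y) x ∂m = _ at h1
  rw [h3, h5] at h1
  rw [h4]
  linarith

omit [m.IsOpenPosMeasure] in
theorem test0_Gm_bdd (H : IsInfHilbertian m) (hg : BL g) (hg' : BL g') :
    ∃ B : ℝ, ∀ᵐ x ∂m, |Gm m g g' x| ≤ B := by
  obtain ⟨C, hC⟩ := hg.Dw_le (m := m)
  obtain ⟨C', hC'⟩ := hg'.Dw_le (m := m)
  refine ⟨C * C', ?_⟩
  filter_upwards [hC, hC', abs_Gm_le H hg.sl hg'.sl, Dw_nonneg (hg'.sl (m := m))] with x h1 h2 h3 h4
  exact h3.trans (mul_le_mul h1 h2 h4 C.2)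

theorem test0_abs_mul_le {a b A B : ℝ} (ha : |a| ≤ A) (hb : |b| ≤ B) : |a * b| ≤ A * B := by
  rw [abs_mul]
  exact mul_le_mul ha hb (abs_nonneg _) ((abs_nonneg _).trans ha)

omit [m.IsOpenPosMeasure] in
theorem test0_sob_comp (hg : IsSobolev m g) (hb : BL g) {φ : ℝ → ℝ} (hφ : ContDiff ℝ 1 φ)
    (h0 : φ 0 = 0) (x₀ : X) : IsSobolev m fun x => φ (g x) := by
  obtain ⟨B, hB⟩ := hb.bdd
  have hB0 : 0 ≤ B := (abs_nonneg _).trans (hB x₀)
  have h1 : BL fun t : ℝ => max (-B) (min B t) := by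
    refine ⟨⟨1, ?_⟩, B, fun t => abs_le.2 ⟨le_max_left _ _, max_le (by linarith) (min_le_left _ _)⟩⟩
    exact (LipschitzWith.id.const_min B).const_max (-B)
  obtain ⟨L, hL⟩ := (h1.comp_contDiff hφ).lip
  have h2 := sob_comp_lip hg hL (by rw [min_eq_right hB0, max_eq_right (by linarith), h0])
  refine sob_congr h2 (Eventually.of_forall fun x => ?_)
  have := abs_le.1 (hB x)
  simp only [min_eq_right this.2, max_eq_right this.1]

theorem Good.mul (h : RS m k τ₀) (hg : Good m g) (hg' : Good m g') :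
    Good m (fun x => g x * g' x) ∧ ∀ᵐ x ∂m, Lap m (fun x => g x * g' x) x =
      g x * Lap m g' x + g' x * Lap m g x + 2 * Gm m g g' x := by
  have H := h.hilb
  have hs : IsSobolev m fun x => g x * g' x := sob_mul_BL hg.sob hg'.bl
  have hL : IsSobolev m fun x => g x * Lap m g' x + g' x * Lap m g x + 2 * Gm m g g' x := by
    refine sob_add (sob_add ?_ ?_) (sob_const_mul (hg.sob_Gm h hg') 2)
    · simpa only [mul_comm] using sob_mul_BL hg'.sob_Lap hg.bl
    · simpa only [mul_comm] using sob_mul_BL hg.sob_Lap hg'.bl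
  have hw : IsWeakLaplacian m (fun x => g x * g' x)
      fun x => g x * Lap m g' x + g' x * Lap m g x + 2 * Gm m g g' x := by
    refine ⟨hs, hL.1, fun v hv => ?_⟩
    have e1 : ∫ x, gradPairing m (fun x => g x * g' x) v x ∂m =
        ∫ x, g x * Gm m g' v x ∂m + ∫ x, g' x * Gm m g v x ∂m := by
      rw [← integral_add (test0_integrable H hg'.sob hg.bl hv) (test0_integrable H hg.sob hg'.bl hv)]
      exact integral_congr_ae (Gm_mul_left H hg.bl.sl hg'.bl.sl (sob_sl hs) (sob_sl hv))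
    have i1 : Integrable (fun x => (g x * Lap m g' x + Gm m g' g x) * v x) m :=
      (test0_memLp_div H hg'.weakLap hg.bl).integrable_mul hv.1
    have i2 : Integrable (fun x => (g' x * Lap m g x + Gm m g g' x) * v x) m :=
      (test0_memLp_div H hg.weakLap hg'.bl).integrable_mul hv.1
    rw [e1, test0_parts H hg'.weakLap hg.bl hv, test0_parts H hg.weakLap hg'.bl hv, ← neg_add,
      ← integral_add i1 i2]
    congr 1
    refine integral_congr_ae ?_
    filter_upwards [Gm_comm (hg'.bl.sl (m := m)) hg.bl.sl] with x hx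
    rw [hx]
    ring
  obtain ⟨A, hA⟩ := hg.bl.bdd
  obtain ⟨A', hA'⟩ := hg'.bl.bdd
  obtain ⟨B, hB⟩ := hg.2
  obtain ⟨B', hB'⟩ := hg'.2
  obtain ⟨C, hC⟩ := test0_Gm_bdd (m := m) H hg.bl hg'.bl
  refine good_of (hg.bl.mul hg'.bl) hw hL (B := A * B' + A' * B + 2 * C) ?_
  filter_upwards [hB, hB', hC] with x h1 h2 h3
  refine (abs_add_le _ _).trans (add_le_add ((abs_add_le _ _).trans (add_le_add
    (test0_abs_mul_le (hA x) h2) (test0_abs_mul_le (hA' x) h1)))
    (test0_abs_mul_le (by norm_num) h3))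

theorem Good.comp (h : RS m k τ₀) (hg : Good m g) {φ : ℝ → ℝ} (hφ : ContDiff ℝ 3 φ)
    (h0 : φ 0 = 0) : Good m (fun x => φ (g x)) ∧ ∀ᵐ x ∂m, Lap m (fun x => φ (g x)) x =
      deriv φ (g x) * Lap m g x + deriv (deriv φ) (g x) * Gm m g g x := by
  have H := h.hilb
  have hφ1 : ContDiff ℝ 1 φ := hφ.of_le (by norm_num)
  have hφ2 : ContDiff ℝ 2 (deriv φ) := ContDiff.deriv' (n := 2) (hφ.of_le (by norm_num))
  have hφ2' : ContDiff ℝ 1 (deriv φ) := hφ2.of_le (by norm_num)
  have hφ3 : ContDiff ℝ 1 (deriv (deriv φ)) := ContDiff.deriv' (n := 1) (hφ2.of_le (by norm_num))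
  have b0 := hg.bl.comp_contDiff hφ1
  have b1 := hg.bl.comp_contDiff hφ2'
  have b2 := hg.bl.comp_contDiff hφ3
  have hs : IsSobolev m fun x => φ (g x) := by
    rcases isEmpty_or_nonempty X with hX | ⟨⟨x₀⟩⟩
    · exact sob_congr hg.sob (Eventually.of_forall fun x => hX.elim x)
    · exact test0_sob_comp hg.sob hg.bl hφ1 h0 x₀
  have hL : IsSobolev m fun x =>
      deriv φ (g x) * Lap m g x + deriv (deriv φ) (g x) * Gm m g g x := by
    refine sob_add ?_ ?_
    · simpa only [mul_comm] using sob_mul_BL hg.sob_Lap b1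
    · simpa only [mul_comm] using sob_mul_BL (hg.sob_Gm_self h) b2
  have hw : IsWeakLaplacian m (fun x => φ (g x))
      fun x => deriv φ (g x) * Lap m g x + deriv (deriv φ) (g x) * Gm m g g x := by
    refine ⟨hs, hL.1, fun v hv => ?_⟩
    have e1 : ∫ x, gradPairing m (fun x => φ (g x)) v x ∂m =
        ∫ x, deriv φ (g x) * Gm m g v x ∂m :=
      integral_congr_ae (Gm_comp_left H hg.bl.sl hφ1 (sob_sl hs) (sob_sl hv))
    rw [e1, test0_parts H hg.weakLap b1 hv]
    congr 1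
    refine integral_congr_ae ?_
    filter_upwards [Gm_comp_right H hg.bl.sl hφ2' b1.sl hg.bl.sl] with x hx
    rw [hx]
  obtain ⟨A, hA⟩ := b1.bdd
  obtain ⟨A', hA'⟩ := b2.bdd
  obtain ⟨B, hB⟩ := hg.2
  obtain ⟨C, hC⟩ := test0_Gm_bdd (m := m) H hg.bl hg.bl
  refine good_of b0 hw hL (B := A * B + A' * C) ?_
  filter_upwards [hB, hC] with x h1 h3
  exact (abs_add_le _ _).trans (add_le_add (test0_abs_mul_le (hA x) h1)
    (test0_abs_mul_le (hA' x) h3))

end Crest.Agent.R242
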