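import Crest.Agent.R242.Test0

/-!
Row 242: cut-off functions.
-/

set_option autoImplicit false

open MeasureTheory Set Filter Metric Crest.GeometryTopology.SyntheticRicci
open scoped ENNReal NNReal Topology

namespace Crest.Agent.R242

variable {X : Type*} [MetricSpace X] [ProperSpace X] [MeasurableSpace X] [BorelSpace X]
  {m : Measure X} [IsLocallyFiniteMeasure m] [m.IsOpenPosMeasure] {k τ₀ : ℝ} {g g' : X → ℝ}

omit [m.IsOpenPosMeasure] in
/-- comparison with the barrier `c * usq y 1 + b` -/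
theorem test1_barrier (H : IsInfHilbertian m) {w F : X → ℝ} {τ c A C : ℝ} {y : X}
    (hw : IsSobolev m w) (hF : MemLp F 2 m) (hτ : 0 ≤ τ) (hc : 0 ≤ c) (hC : 0 ≤ C)
    (hid : ∀ v, IsSobolev m v →
      ∫ x, w x * v x ∂m + τ * ∫ x, Gm m w v x ∂m = ∫ x, F x * v x ∂m)
    (hlap : ∀ v : X → ℝ, IsSobolevLoc m v → (∀ᵐ x ∂m, 0 ≤ v x) →
      -∫ x, Gm m (usq y 1) v x ∂m ≤ C * ∫ x in closedBall y (√(2 * 1)), v x ∂m)
    (hFle : ∀ x, F x ≤ A + c * usq y 1 x) (hwle : ∀ᵐ x ∂m, w x ≤ c + A) :
    ∀ᵐ x ∂m, w x ≤ c * usq y 1 x + (A + τ * c * C) := by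
  set b := A + τ * c * C with hb
  have hu : BL (usq y 1) := BL.usq y zero_le_one
  have hul : IsSobolevLoc m (usq y 1) := hu.sl
  have hcu : IsSobolevLoc m fun x => c * usq y 1 x := sl_const_mul hul c
  have hp : IsSobolevLoc m fun x => w x - c * usq y 1 x := sl_sub (sob_sl hw) hcu
  have hφ : LipschitzWith 1 fun t : ℝ => max (t - b) 0 := by
    have h1 : LipschitzWith 1 fun t : ℝ => t - b :=
      LipschitzWith.of_dist_le_mul fun s t => by simp [Real.dist_eq]
    exact h1.max_const 0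
  have hφm : Monotone fun t : ℝ => max (t - b) 0 := fun s t hst =>
    max_le_max (sub_le_sub_right hst b) le_rfl
  set v : X → ℝ := fun x => max (w x - c * usq y 1 x - b) 0 with hv
  have hvl : IsSobolevLoc m v := sl_comp_lip hp hφ
  have hv0 : ∀ x, 0 ≤ v x := fun x => le_max_right _ _
  have hτcC : 0 ≤ τ * c * C := by positivity
  have hsupp : ∀ᵐ x ∂m, 2 < dist x y → v x = 0 := by
    filter_upwards [hwle] with x hx hd
    have h1 : usq y 1 x = 1 := min_eq_right (by nlinarith)
    refine max_eq_right ?_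
    rw [h1]; linarith
  have hvs : IsSobolev m v := sob_of_support hvl hsupp
  have hvi : Integrable v m := integrable_of_l2b (sl_l2 hvl) hsupp
  have hi1 : Integrable (Gm m w v) m := integrable_Gm H hw hvs
  have hi2 : Integrable (Gm m (usq y 1) v) m := integrable_Gm_of_support H hul hvl hsupp
  have hG : ∀ᵐ x ∂m, c * Gm m (usq y 1) v x ≤ Gm m w v x := by
    filter_upwards [Gm_comp_monotone H hp hφ hφm, Gm_sub_left H (sob_sl hw) hcu hvl,
      Gm_const_mul_left H hul hvl c] with x h1 h2 h3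
    have h1' : 0 ≤ Gm m (fun x => w x - c * usq y 1 x) v x := h1
    rw [h2, h3] at h1'
    linarith
  have hG' : c * ∫ x, Gm m (usq y 1) v x ∂m ≤ ∫ x, Gm m w v x ∂m := by
    rw [← integral_const_mul]
    exact integral_mono_ae (hi2.const_mul c) hi1 hG
  have hL := hlap v hvl (Eventually.of_forall hv0)
  have hL' : ∫ x in closedBall y (√(2 * 1)), v x ∂m ≤ ∫ x, v x ∂m :=
    setIntegral_le_integral hvi (Eventually.of_forall hv0)
  have hwv : Integrable (fun x => w x * v x) m := hw.1.integrable_mul hvs.1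
  have hFv : Integrable (fun x => F x * v x) m := hF.integrable_mul hvs.1
  have hvv : Integrable (fun x => v x * v x) m := hvs.1.integrable_mul hvs.1
  have hpt : ∀ x, v x * v x ≤ w x * v x - F x * v x - τ * c * C * v x := fun x => by
    have h1 := hFle x
    have h2 := hv0 x
    rcases le_total (w x - c * usq y 1 x - b) 0 with h | h
    · have : v x = 0 := max_eq_right h
      rw [this]; simp
    · have h3 : v x = w x - c * usq y 1 x - b := max_eq_left h
      have h4 : v x ≤ w x - F x - τ * c * C := by rw [h3]; linarith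
      nlinarith
  have hint : ∫ x, v x * v x ∂m ≤ 0 := by
    have h1 : ∫ x, v x * v x ∂m ≤ ∫ x, (w x * v x - F x * v x - τ * c * C * v x) ∂m :=
      integral_mono hvv ((hwv.sub' hFv).sub' (hvi.const_mul _)) hpt
    rw [integral_sub (hwv.sub' hFv) (hvi.const_mul _), integral_sub hwv hFv,
      integral_const_mul] at h1
    have h2 := hid v hvs
    have h3 : -∫ x, Gm m (usq y 1) v x ∂m ≤ C * ∫ x, v x ∂m :=
      hL.trans (mul_le_mul_of_nonneg_left hL' hC)
    have h4 := mul_le_mul_of_nonneg_left h3 (mul_nonneg hτ hc)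
    have h5 := mul_le_mul_of_nonneg_left hG' hτ
    nlinarith
  have hz : (fun x => v x * v x) =ᵐ[m] 0 :=
    (integral_eq_zero_iff_of_nonneg (fun x => mul_self_nonneg (v x)) hvv).1
      (le_antisymm hint (integral_nonneg fun x => mul_self_nonneg (v x)))
  filter_upwards [hz] with x hx
  have h1 : v x = 0 := mul_self_eq_zero.1 hx
  have h2 : w x - c * usq y 1 x - b ≤ v x := le_max_left _ _
  linarith

omit [ProperSpace X] [BorelSpace X] [IsLocallyFiniteMeasure m] in
theorem test1_le_of_ae {p q : X → ℝ} (hp : Continuous p) (hq : Continuous q)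
    (h : ∀ᵐ x ∂m, p x ≤ q x) (x : X) : p x ≤ q x := by
  have h1 : (fun x => max (p x) (q x)) =ᵐ[m] q := h.mono fun x hx => max_eq_right hx
  have h2 := (Continuous.ae_eq_iff_eq m (hp.max hq) hq).1 h1
  exact (le_max_left _ _).trans (congrFun h2 x).le

/-- the resolvent of a Lipschitz function is uniformly close to it -/
theorem Jr_unif (h : RS m k τ₀) {f : X → ℝ} (hf : BL f) (hs : IsSobolev m f)
    (h0 : ∀ x, 0 ≤ f x ∧ f x ≤ 1) {η : ℝ} (hη : 0 < η) :
    ∃ τ : ℝ, 0 < τ ∧ τ ≤ τ₀ ∧ ∀ g : X → ℝ, Continuous g → g =ᵐ[m] Jr m τ f →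
      ∀ x, |g x - f x| ≤ η := by
  obtain ⟨L, hL⟩ := hf.lip
  obtain ⟨C, hC, hlap⟩ := h.lap 1 one_pos
  set β := η / 2 with hβ
  have hβ0 : 0 < β := by positivity
  set c : ℝ := 1 + (L : ℝ) ^ 2 / (2 * β) with hc
  have hc1 : 1 ≤ c := le_add_of_nonneg_right (by positivity)
  have hc0 : 0 ≤ c := zero_le_one.trans hc1
  have hbar : ∀ y z, |f z - f y| ≤ β + c * usq y 1 z := fun y z => by
    rcases le_total (dist z y ^ 2 / 2) 1 with hd | hd
    · have h1 : usq y 1 z = dist z y ^ 2 / 2 := min_eq_left hd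
      have h2 : |f z - f y| ≤ L * dist z y := by
        rw [← Real.dist_eq]; exact hL.dist_le_mul z y
      have h3 : (L : ℝ) * dist z y ≤ β + (L : ℝ) ^ 2 / (2 * β) * (dist z y ^ 2 / 2) := by
        have : β + (L : ℝ) ^ 2 / (2 * β) * (dist z y ^ 2 / 2) - L * dist z y =
            (2 * β - L * dist z y) ^ 2 / (4 * β) := by field_simp; ring
        have h4 : 0 ≤ (2 * β - L * dist z y) ^ 2 / (4 * β) := by positivity
        linarith
      have h5 : 0 ≤ dist z y ^ 2 / 2 := by positivity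
      rw [h1, hc]; nlinarith
    · have h1 : usq y 1 z = 1 := min_eq_right hd
      have := h0 z
      have := h0 y
      rw [h1, abs_le]; constructor <;> linarith
  set τ := min τ₀ (β / (c * C + 1)) with hτ
  have hτ0 : 0 < τ := lt_min h.τ_pos (by positivity)
  have hτ1 : τ * c * C ≤ β := by
    have h1 : τ ≤ β / (c * C + 1) := min_le_right _ _
    rw [le_div_iff₀ (by positivity)] at h1
    nlinarith
  refine ⟨τ, hτ0, min_le_left _ _, fun g hg hgJ x => ?_⟩
  obtain ⟨hJ, hid⟩ := isRes_Res h.hilb Wt.one hτ0 hs.1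
  simp only [mul_one] at hid
  have hJ1 := Res_le_const h.hilb Wt.one hτ0 hs.1 zero_le_one
    (Eventually.of_forall fun z => (h0 z).2)
  have hJ0 := Res_nonneg h.hilb Wt.one hτ0 hs.1 (Eventually.of_forall fun z => (h0 z).1)
  have hu : Continuous (usq x 1) := (BL.usq x zero_le_one).continuous
  have hux : usq x 1 x = 0 := by simp [usq]
  have hup := test1_barrier (A := f x + β) h.hilb hJ hs.1 hτ0.le hc0 hC hid (hlap x)
    (fun z => by have := (abs_le.1 (hbar x z)).2; linarith)
    (hJ1.mono fun z hz => by have := h0 x; linarith)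
  have hlo := test1_barrier (A := -f x + β) (F := fun z => -f z) h.hilb (sob_neg hJ) hs.1.neg
    hτ0.le hc0 hC (fun v hv => by
      have h1 := hid v hv
      have h2 : ∫ z, Gm m (fun z => -Res m (fun _ => 1) τ f z) v z ∂m =
          ∫ z, -Gm m (Res m (fun _ => 1) τ f) v z ∂m := by
        refine integral_congr_ae ?_
        filter_upwards [Gm_const_mul_left h.hilb (sob_sl hJ) (sob_sl hv) (-1)] with z hz
        simpa using hz
      simp only [neg_mul, integral_neg, h2]
      linarith) (hlap x)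
    (fun z => by have := (abs_le.1 (hbar x z)).1; linarith)
    (hJ0.mono fun z hz => by have := h0 x; linarith)
  have e1 := test1_le_of_ae (m := m) (p := g)
    (q := fun z => c * usq x 1 z + (f x + β + τ * c * C)) hg (by fun_prop)
    (by filter_upwards [hup, hgJ] with z h1 h2; rw [h2]; exact h1) x
  have e2 := test1_le_of_ae (m := m) (p := fun z => -g z)
    (q := fun z => c * usq x 1 z + (-f x + β + τ * c * C)) hg.neg (by fun_prop)
    (by filter_upwards [hlo, hgJ] with z h1 h2; rw [h2]; exact h1) x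
  simp only [hux, mul_zero, zero_add] at e1 e2
  rw [abs_le]; constructor <;> linarith

theorem exists_cutoff (h : RS m k τ₀) (o : X) (R : ℝ) : ∃ χ : X → ℝ, Good m χ ∧
    HasCompactSupport χ ∧ (∀ x, dist x o ≤ R → χ x = 1) ∧
    ∀ᵐ x ∂m, dist x o ≤ R → Lap m χ x = 0 := by
  have hcs : HasCompactSupport (cut o R) :=
    hasCompactSupport_of_ball (o := o) (R := R + 1) fun x hx => cut_eq_zero hx.le
  have hs : IsSobolev m (cut o R) := sob_of_compactSupport (cut_lip o R) hcs
  obtain ⟨τ, hτ, hτ', hJ⟩ := Jr_unif h (BL.cut o R) hs (cut_mem o R) (η := 1 / 8) (by norm_num)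
  obtain ⟨g, hg, hgL, -, hgJ, -⟩ := good_Jr h hτ hτ' hs le_rfl zero_le_one
    (Eventually.of_forall (cut_mem o R)) (Dw_lip_le (cut_lip o R))
  have hcl := hJ g hgL.continuous hgJ
  set φ : ℝ → ℝ := fun z => Real.smoothTransition (4 * z - 1) with hφ
  have hφc : ContDiff ℝ 3 φ := Real.smoothTransition.contDiff.comp (by fun_prop)
  have hφ0 : ∀ z, z ≤ 1 / 4 → φ z = 0 := fun z hz =>
    Real.smoothTransition.zero_of_nonpos (by linarith)
  have hφ1 : ∀ z, 1 / 2 ≤ z → φ z = 1 := fun z hz =>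
    Real.smoothTransition.one_of_one_le (by linarith)
  have hd1 : ∀ z, 1 / 2 < z → deriv φ z = 0 := fun z hz => by
    have : φ =ᶠ[𝓝 z] fun _ => 1 := (eventually_gt_nhds hz).mono fun t ht => hφ1 t ht.le
    rw [this.deriv_eq, deriv_const]
  have hd2 : ∀ z, 1 / 2 < z → deriv (deriv φ) z = 0 := fun z hz => by
    have : deriv φ =ᶠ[𝓝 z] fun _ => 0 := (eventually_gt_nhds hz).mono fun t ht => hd1 t ht
    rw [this.deriv_eq, deriv_const]
  have hin : ∀ x, dist x o ≤ R → 1 / 2 < g x := fun x hx => by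
    have h1 := (abs_le.1 (hcl x)).1
    rw [cut_eq_one hx] at h1
    linarith
  obtain ⟨hG, hL⟩ := Good.comp h hg hφc (hφ0 0 (by norm_num))
  refine ⟨fun x => φ (g x), hG, hasCompactSupport_of_ball (o := o) (R := R + 1) fun x hx => ?_,
    fun x hx => hφ1 _ (hin x hx).le, ?_⟩
  · have h1 := (abs_le.1 (hcl x)).2
    rw [cut_eq_zero hx.le] at h1
    exact hφ0 _ (by linarith)
  · filter_upwards [hL] with x hx hd
    rw [hx, hd1 _ (hin x hd), hd2 _ (hin x hd)]
    simp

end Crest.Agent.R242
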