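import Crest.Agent.R242.Action

/-!
Row 242: the three-point inequality.
-/

set_option autoImplicit false

open MeasureTheory Set Filter Metric Crest.GeometryTopology.SyntheticRicci
open scoped ENNReal NNReal Topology

namespace Crest.Agent.R242

variable {X : Type*} [MetricSpace X] [ProperSpace X] [MeasurableSpace X] [BorelSpace X]
  {m : Measure X} [IsLocallyFiniteMeasure m] [m.IsOpenPosMeasure] {κ N k τ₀ : ℝ} {F G : X → ℝ}

theorem three_point (hc : CDk m κ N) (h : RS m k τ₀) (hF : BL F) (hG : Measurable G) {B : ℝ}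
    (hB : ∀ x, |G x| ≤ B) (hH : HasWeakHessLe m F G) {z x₁ x₂ : X} {b G₀ : ℝ}
    (h₁ : dist x₁ z = b) (h₂ : dist x₂ z = b) (h₁₂ : dist x₁ x₂ = 2 * b)
    (hG₀ : ∀ x, dist x z ≤ 3 * b → G x ≤ G₀) : F x₁ + F x₂ - 2 * F z ≤ G₀ * b ^ 2 := by
  have hb0 : 0 ≤ b := h₁ ▸ dist_nonneg
  rcases hb0.eq_or_lt with rfl | hb
  · rw [dist_eq_zero] at h₁ h₂
    subst h₁ h₂
    simp [two_mul]
  by_contra hcon
  push Not at hcon
  have H := h.hilb
  set a : ℝ := 4 * b ^ 2 with ha
  have ha0 : 0 < a := by positivity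
  obtain ⟨C, hC0, hC⟩ := h.lap a ha0
  -- the continuous function `Φ`, negative at `z`
  set Φ : X → ℝ := fun x => 2 * F x - (F x₁ + F x₂) / 2 - F z +
    G₀ * (dist x x₁ ^ 2 / 4 + dist x x₂ ^ 2 / 4 + dist x z ^ 2 / 2) with hΦ
  have hΦc : Continuous Φ := by
    have := hF.continuous
    fun_prop
  have hΦz : Φ z < 0 := by
    simp only [hΦ, dist_comm z x₁, dist_comm z x₂, h₁, h₂, dist_self]
    nlinarith
  obtain ⟨ε, hε, hεΦ⟩ : ∃ ε : ℝ, 0 < ε ∧ 2 * C * ε + Φ z < 0 := by
    refine ⟨-Φ z / (2 * C + 1), div_pos (by linarith) (by positivity), ?_⟩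
    have h1 : (2 * C + 1) * (-Φ z / (2 * C + 1)) = -Φ z := by field_simp
    have h2 : 0 < -Φ z / (2 * C + 1) := div_pos (by linarith) (by positivity)
    nlinarith
  obtain ⟨r, hr, hrb, hrΦ⟩ : ∃ r : ℝ, 0 < r ∧ r ≤ b ∧ ∀ x, dist x z < r → 2 * C * ε + Φ x < 0 := by
    have h1 : ∀ᶠ x in 𝓝 z, 2 * C * ε + Φ x < 0 :=
      (continuous_const.add hΦc).continuousAt.eventually_lt continuousAt_const hεΦ
    obtain ⟨δ, hδ, hδ'⟩ := Metric.eventually_nhds_iff.1 h1
    exact ⟨min δ b, lt_min hδ hb, min_le_right _ _, fun x hx => hδ' (hx.trans_le (min_le_left _ _))⟩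
  have hu : ∀ y : X, BL (usq y a) := fun y => BL.usq y ha0.le
  set w : X → ℝ := fun x => (1 / 2 * usq x₁ a x + 1 / 2 * usq x₂ a x) + usq z a x with hw
  have hwB : BL w := (((hu x₁).const_mul _).add ((hu x₂).const_mul _)).add (hu z)
  set φ : ℝ → ℝ := fun t => max (b ^ 2 / 2 + r ^ 2 / 4 - t) 0 with hφ
  have hφl : LipschitzWith 1 φ := by
    refine LipschitzWith.max_const ?_ 0
    refine LipschitzWith.of_dist_le_mul fun s t => ?_
    rw [Real.dist_eq, Real.dist_eq, NNReal.coe_one, one_mul, abs_sub_comm s t]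
    exact le_of_eq (by congr 1; ring)
  have hφa : Antitone φ := fun s t hst => max_le_max (by linarith) le_rfl
  set p : X → ℝ := fun x => φ (w x) with hp
  have hpB : BL p := hwB.comp_lip hφl
  have hp0 : ∀ x, 0 ≤ p x := fun x => le_max_right _ _
  have hpr : ∀ x, p x ≠ 0 → dist x z < r := by
    intro x hx
    have h1 : w x < b ^ 2 / 2 + r ^ 2 / 4 := by
      by_contra hle
      push Not at hle
      exact hx (max_eq_right (by linarith))
    have h2 : b ^ 2 ≤ usq x₁ a x + usq x₂ a x := by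
      have h3 : 2 * b ≤ dist x x₁ + dist x x₂ := h₁₂ ▸ dist_triangle_left x₁ x₂ x
      have h4 : 0 ≤ dist x x₁ := dist_nonneg
      have h5 : 0 ≤ dist x x₂ := dist_nonneg
      unfold usq
      rcases min_choice (dist x x₁ ^ 2 / 2) a with e1 | e1 <;>
        rcases min_choice (dist x x₂ ^ 2 / 2) a with e2 | e2 <;> rw [e1, e2] <;>
        nlinarith [sq_nonneg (dist x x₁ - dist x x₂)]
    have h3 : usq z a x < r ^ 2 / 4 := by
      simp only [hw] at h1
      linarith
    unfold usq at h3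
    rcases min_choice (dist x z ^ 2 / 2) a with e1 | e1 <;> rw [e1] at h3
    · have h4 : 0 ≤ dist x z := dist_nonneg
      nlinarith
    · nlinarith
  have hpz : 0 < p z := by
    have h1 : w z = b ^ 2 / 2 := by
      simp only [hw, usq, dist_comm z x₁, dist_comm z x₂, h₁, h₂, dist_self]
      rw [min_eq_left (by nlinarith), min_eq_left (by nlinarith)]
      ring
    simp only [hp, hφ, h1]
    exact lt_max_of_lt_left (by nlinarith)
  set v : X → ℝ := fun x => p x * wt F ε x with hv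
  have hω : BL (wt F ε) := hF.wt ε
  have hω0 : ∀ x, 0 < wt F ε x := fun x => Real.exp_pos _
  have hvB : BL v := hpB.mul hω
  have hv0 : ∀ x, 0 ≤ v x := fun x => mul_nonneg (hp0 x) (hω0 x).le
  have hvr : ∀ x, r < dist x z → v x = 0 := by
    intro x hx
    have : p x = 0 := by
      by_contra h0
      exact lt_asymm hx (hpr x h0)
    simp only [hv, this, zero_mul]
  have hvc : HasCompactSupport v := hasCompactSupport_of_ball hvr
  have hvi : Integrable v m := hvB.continuous.integrable_of_hasCompactSupport hvc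
  have hvΦi : Integrable (fun x => v x * Φ x) m :=
    (hvB.continuous.mul hΦc).integrable_of_hasCompactSupport hvc.mul_right
  have hlap : ∀ y, -∫ x, Gm m (usq y a) v x ∂m ≤ C * ∫ x, v x ∂m := fun y =>
    (hC y v hvB.sl (ae_of_all _ hv0)).trans (mul_le_mul_of_nonneg_left
      (setIntegral_le_integral hvi (ae_of_all _ hv0)) hC0)
  have hGi : ∀ y, Integrable (Gm m (usq y a) v) m := fun y =>
    integrable_Gm_of_support H (hu y).sl hvB.sl (o := z) (R := r) (c := 0) (ae_of_all _ hvr)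
  have hprod : ∀ y, ∀ᵐ x ∂m, ε * Gm m (usq y a) v x =
      v x * Gm m (usq y a) F x + ε * (wt F ε x * Gm m (usq y a) p x) := by
    intro y
    filter_upwards [Gm_mul_right H hpB.sl hω.sl hvB.sl (hu y).sl, Gm_wt H hF ε (hu y).sl] with x e1 e2
    simp only [hv]
    rw [e1, e2]
    field_simp
  have hfo : ∀ y, dist y z ≤ b → ∀ᵐ x ∂m, v x * Gm m (usq y a) F x ≤
      v x * (F x - F y + G₀ * (dist x y ^ 2 / 2)) := by
    intro y hy
    filter_upwards [first_order hc h hF hG hB hH y (r := 2 * b) (a := a) (G₀ := G₀) (by positivity)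
      (le_of_eq (by ring)) (fun x hx => hG₀ x (by linarith [dist_triangle x y z]))] with x hx
    by_cases h0 : p x = 0
    · simp only [hv, h0, zero_mul, le_refl]
    · refine mul_le_mul_of_nonneg_left (hx ?_) (hv0 x)
      have := hpr x h0
      linarith [dist_triangle_right x y z]
  have hmain : ∀ᵐ x ∂m, ε * (1 / 2 * Gm m (usq x₁ a) v x + 1 / 2 * Gm m (usq x₂ a) v x +
      Gm m (usq z a) v x) ≤ v x * Φ x := by
    filter_upwards [hprod x₁, hprod x₂, hprod z, hfo x₁ h₁.le, hfo x₂ h₂.le,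
      hfo z (by rw [dist_self]; exact hb.le), Gm_comp_antitone H hwB.sl hφl hφa,
      Gm_add_left H (((hu x₁).const_mul (1 / 2)).add ((hu x₂).const_mul (1 / 2))).sl (hu z).sl hpB.sl,
      Gm_add_left H ((hu x₁).const_mul (1 / 2)).sl ((hu x₂).const_mul (1 / 2)).sl hpB.sl,
      Gm_const_mul_left H (hu x₁).sl hpB.sl (1 / 2), Gm_const_mul_left H (hu x₂).sl hpB.sl (1 / 2)]
      with x e1 e2 e3 f1 f2 f3 g0 g1 g2 g3 g4
    have g5 : 1 / 2 * Gm m (usq x₁ a) p x + 1 / 2 * Gm m (usq x₂ a) p x + Gm m (usq z a) p x ≤ 0 := by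
      rw [← g3, ← g4, ← g2, ← g1]
      exact g0
    have g6 := mul_nonpos_of_nonneg_of_nonpos (mul_pos hε (hω0 x)).le g5
    simp only [hΦ]
    nlinarith
  have hint : ε * (1 / 2 * ∫ x, Gm m (usq x₁ a) v x ∂m + 1 / 2 * ∫ x, Gm m (usq x₂ a) v x ∂m +
      ∫ x, Gm m (usq z a) v x ∂m) ≤ ∫ x, v x * Φ x ∂m := by
    have i1 := (hGi x₁).const_mul (1 / 2)
    have i2 := (hGi x₂).const_mul (1 / 2)
    have h1 := integral_mono_ae (((i1.add i2).add (hGi z)).const_mul ε) hvΦi hmain
    rw [integral_const_mul] at h1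
    erw [integral_add (i1.add i2) (hGi z), integral_add i1 i2] at h1
    rwa [integral_const_mul, integral_const_mul] at h1
  have hpos : 0 < ∫ x, -(v x * (2 * C * ε + Φ x)) ∂m := by
    refine Continuous.integral_pos_of_hasCompactSupport_nonneg_nonzero (x := z)
      (hvB.continuous.mul (continuous_const.add hΦc)).neg hvc.mul_right.neg (fun x => ?_) ?_
    · by_cases h0 : p x = 0
      · simp [hv, h0]
      · have := mul_nonpos_of_nonneg_of_nonpos (hv0 x) (hrΦ x (hpr x h0)).le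
        simpa using this
    · exact neg_ne_zero.2 (mul_ne_zero (mul_pos hpz (hω0 z)).ne' hεΦ.ne)
  have heq : ∫ x, -(v x * (2 * C * ε + Φ x)) ∂m =
      -(2 * C * ε * ∫ x, v x ∂m + ∫ x, v x * Φ x ∂m) := by
    rw [integral_neg, ← integral_const_mul, ← integral_add (hvi.const_mul _) hvΦi]
    congr 2
    funext x
    ring
  have l1 := mul_le_mul_of_nonneg_left (hlap x₁) hε.le
  have l2 := mul_le_mul_of_nonneg_left (hlap x₂) hε.le
  have l3 := mul_le_mul_of_nonneg_left (hlap z) hε.le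
  rw [heq] at hpos
  nlinarith

end Crest.Agent.R242
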