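import Crest.Agent.R242.Curve
import Crest.Agent.R242.Util

/-!
Row 242: intermediate points given by the curvature-dimension condition.
-/

set_option autoImplicit false

open MeasureTheory Set Filter Metric Crest.GeometryTopology.SyntheticRicci
open scoped ENNReal NNReal Topology

namespace Crest.Agent.R242

variable {X : Type*} [MetricSpace X] [ProperSpace X] [MeasurableSpace X] [BorelSpace X]
  {m : Measure X} [IsLocallyFiniteMeasure m] {κ N : ℝ}

theorem tri0_alg {M s : ℝ≥0∞} {C : ℝ≥0} {a N : ℝ} (ha : 0 < a) (hN : 0 < N)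
    (hC : (C : ℝ≥0∞) ≠ 0)
    (h : ENNReal.ofReal a * (M⁻¹ * C) ^ (-1 / N) ≤ s ^ (1 / N)) :
    M ≤ C * ENNReal.ofReal ((a ^ N)⁻¹) * s := by
  have h1 := ENNReal.rpow_le_rpow h hN.le
  have haN : 0 < a ^ N := Real.rpow_pos_of_pos ha N
  rw [ENNReal.mul_rpow_of_nonneg _ _ hN.le, ← ENNReal.rpow_mul, ← ENNReal.rpow_mul,
    div_mul_cancel₀ _ hN.ne', div_mul_cancel₀ _ hN.ne', ENNReal.rpow_one, ENNReal.rpow_neg_one,
    ENNReal.ofReal_rpow_of_pos ha, ENNReal.mul_inv (Or.inr ENNReal.coe_ne_top) (Or.inr hC),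
    inv_inv] at h1
  refine le_trans (le_of_eq ?_) (mul_le_mul_right h1 _)
  rw [ENNReal.ofReal_inv_of_pos haN]
  have e1 := ENNReal.inv_mul_cancel (a := ENNReal.ofReal (a ^ N)) (by simpa using haN)
    ENNReal.ofReal_ne_top
  have e2 := ENNReal.mul_inv_cancel hC ENNReal.coe_ne_top
  calc M = M * ((ENNReal.ofReal (a ^ N))⁻¹ * ENNReal.ofReal (a ^ N)) * ((C : ℝ≥0∞) * (C : ℝ≥0∞)⁻¹) := by
        rw [e1, e2, mul_one, mul_one]
    _ = _ := by ring

theorem tri0_renyi {Y : Type*} [MetricSpace Y] [MeasurableSpace Y] (m ν : Measure Y)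
    [IsProbabilityMeasure ν] {N : ℝ} (hN : 1 < N) :
    renyiPower m ν N ≤ m {x | 0 < ν.rnDeriv m x} ^ (1 / N) := by
  have hS : MeasurableSet {x | 0 < ν.rnDeriv m x} :=
    measurableSet_lt measurable_const (ν.measurable_rnDeriv m)
  have hq : 0 < 1 / N := by positivity
  have hp : 0 < 1 - 1 / N := by rw [sub_pos, div_lt_one (by linarith)]; exact hN
  have h := ENNReal.lintegral_mul_norm_pow_le (μ := m) (ν.measurable_rnDeriv m).aemeasurable
    (g := Set.indicator {x | 0 < ν.rnDeriv m x} 1)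
    (measurable_one.indicator hS).aemeasurable hp.le hq.le (by ring)
  rw [lintegral_indicator_one hS] at h
  calc renyiPower m ν N = ∫⁻ x, ν.rnDeriv m x ^ (1 - 1 / N) *
        (Set.indicator {x | 0 < ν.rnDeriv m x} 1 x) ^ (1 / N) ∂m := by
        refine lintegral_congr fun x => ?_
        by_cases hx : 0 < ν.rnDeriv m x
        · rw [Set.indicator_of_mem (by exact hx)]; simp
        · rw [not_lt, le_zero_iff] at hx
          rw [hx, ENNReal.zero_rpow_of_pos hp, zero_mul]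
    _ ≤ _ := h
    _ ≤ 1 ^ (1 - 1 / N) * m {x | 0 < ν.rnDeriv m x} ^ (1 / N) := by
        gcongr
        exact Measure.lintegral_rnDeriv_le.trans prob_le_one
    _ = _ := by simp

theorem tri0_rnDeriv_le {Y : Type*} [MeasurableSpace Y] {m ν : Measure Y} [SigmaFinite m]
    [IsFiniteMeasure ν] {c : ℝ≥0∞} (h : ν ≤ c • m) : ∀ᵐ x ∂m, ν.rnDeriv m x ≤ c := by
  refine ae_le_of_forall_setLIntegral_le_of_sigmaFinite (ν.measurable_rnDeriv m) fun s hs _ => ?_
  rw [setLIntegral_const]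
  exact (Measure.setLIntegral_rnDeriv_le s).trans (h s)

/-- the intermediate measure is spread over a large set -/
theorem exists_tri_spread (h : CDk m κ N) {μ₀ μ₁ : Measure X} [IsFiniteMeasure μ₀]
    [IsFiniteMeasure μ₁] (hm : μ₀ univ = μ₁ univ) (h₀ : μ₀ ≪ m) (h₁ : μ₁ ≪ m) {o : X} {R : ℝ}
    (b₀ : ∀ᵐ x ∂μ₀, dist x o ≤ R) (b₁ : ∀ᵐ x ∂μ₁, dist x o ≤ R) {t : ℝ} (ht : t ∈ Icc (0 : ℝ) 1) :
    ∃ η : Measure (X × X × X), IsTri t η ∧ (ends η).fst = μ₀ ∧ (ends η).snd = μ₁ ∧ Opt (ends η) ∧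
      ∀ (C : ℝ≥0) (d : ℝ), 0 ≤ d → (∀ᵐ p ∂(ends η), dist p.1 p.2 ≤ d) → μ₁ ≤ (C : ℝ≥0∞) • m →
        (0 < t → μ₁ univ ≤ C * ENNReal.ofReal ((t ^ N)⁻¹ * Real.exp (κ * (1 - t) * d ^ 2)) *
          m {x | 0 < (mid η).rnDeriv m x}) ∧
        (t = 1 / 2 → μ₀ ≤ (C : ℝ≥0∞) • m →
          μ₁ univ ≤ C * ENNReal.ofReal (Real.exp (κ * d ^ 2 / 2)) *
            m {x | 0 < (mid η).rnDeriv m x}) := by
  by_cases hM0 : μ₁ univ = 0
  · have e1 : μ₁ = 0 := Measure.measure_univ_eq_zero.1 hM0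
    have e0 : μ₀ = 0 := Measure.measure_univ_eq_zero.1 (hm.trans hM0)
    subst e1 e0
    refine ⟨0, by simp [IsTri], by simp [ends], by simp [ends], fun q' _ _ => by simp [ends, quadCost],
      fun C d _ _ _ => ⟨fun _ => by simp, fun _ _ => by simp⟩⟩
  set M := μ₁ univ with hMd
  have hM : M ≠ ∞ := measure_ne_top _ _
  have hMi : M⁻¹ ≠ ∞ := ENNReal.inv_ne_top.2 hM0
  have p0 : IsProbabilityMeasure (M⁻¹ • μ₀) :=
    ⟨by rw [Measure.smul_apply, hm, smul_eq_mul, ENNReal.inv_mul_cancel hM0 hM]⟩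
  have p1 : IsProbabilityMeasure (M⁻¹ • μ₁) :=
    ⟨by rw [Measure.smul_apply, smul_eq_mul, ENNReal.inv_mul_cancel hM0 hM]⟩
  have a0 : M⁻¹ • μ₀ ≪ m := h₀.smul_left _
  have a1 : M⁻¹ • μ₁ ≪ m := h₁.smul_left _
  obtain ⟨P, hP, hg, ⟨⟨c0, c1⟩, hopt⟩, hcd⟩ := h.ex _ _ p0 p1
    ⟨o, R, Measure.ae_smul_measure b₀ _⟩ ⟨o, R, Measure.ae_smul_measure b₁ _⟩ a0 a1
  have hcd := hcd N le_rfl ⟨t, ht⟩
  let φ : UCurve X → X × X × X := fun γ => (γ.toMap 0, γ.toMap ⟨t, ht⟩, γ.toMap 1)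
  have hφ : Measurable φ := (measurable_ev 0).prodMk ((measurable_ev _).prodMk (measurable_ev 1))
  have hψ : Measurable fun γ : UCurve X => (γ.toMap 0, γ.toMap 1) :=
    (measurable_ev 0).prodMk (measurable_ev 1)
  have he : ends (M • P.map φ) = M • endpointLaw P := by
    rw [ends, Measure.map_smul, Measure.map_map (by fun_prop) hφ]; rfl
  have hmid : mid (M • P.map φ) = M • timeMarginal P ⟨t, ht⟩ := by
    rw [mid, Measure.map_smul, Measure.map_map (by fun_prop) hφ]; rfl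
  have hc : ∀ μ : Measure X, M • M⁻¹ • μ = μ := fun μ => by
    rw [smul_smul, ENNReal.mul_inv_cancel hM0 hM, one_smul]
  have f0 : (M • endpointLaw P).fst = μ₀ := by rw [Measure.fst, Measure.map_smul, c0, hc]
  have f1 : (M • endpointLaw P).snd = μ₁ := by rw [Measure.snd, Measure.map_smul, c1, hc]
  refine ⟨M • P.map φ, ?_, by rw [he, f0], by rw [he, f1], ?_, ?_⟩
  · refine Measure.ae_smul_measure ((ae_map_iff hφ.aemeasurable ?_).2 ?_) _
    · exact (measurableSet_eq_fun (by fun_prop) (by fun_prop)).inter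
        (measurableSet_eq_fun (by fun_prop) (by fun_prop))
    · filter_upwards [hg] with γ hγ
      refine ⟨?_, ?_⟩
      · have := hγ 0 ⟨t, ht⟩
        simp only [Set.Icc.coe_zero, zero_sub, abs_neg, abs_of_nonneg ht.1] at this
        exact this
      · have := hγ ⟨t, ht⟩ 1
        simp only [Set.Icc.coe_one] at this
        rw [abs_sub_comm, abs_of_nonneg (sub_nonneg.2 ht.2)] at this
        exact this
  · rw [he]
    intro q' q0 q1
    rw [f0] at q0
    rw [f1] at q1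
    have := hopt (M⁻¹ • q') ⟨by rw [Measure.map_smul, ← q0]; rfl, by rw [Measure.map_smul, ← q1]; rfl⟩
    simp only [quadCost, lintegral_smul_measure, smul_eq_mul] at this ⊢
    refine (mul_le_mul_right this M).trans (le_of_eq ?_)
    rw [← mul_assoc, ENNReal.mul_inv_cancel hM0 hM, one_mul]
  intro C d hd hdist hC
  have hC0 : (C : ℝ≥0∞) ≠ 0 := by
    intro h0
    have := hC univ
    rw [h0, zero_smul] at this
    exact hM0 (le_zero_iff.1 this)
  have hN : 0 < N := by linarith [h.one_lt]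
  have pt : IsProbabilityMeasure (timeMarginal P ⟨t, ht⟩) :=
    Measure.isProbabilityMeasure_map (measurable_ev _).aemeasurable
  have hS : m {x | 0 < (mid (M • P.map φ)).rnDeriv m x} =
      m {x | 0 < (timeMarginal P ⟨t, ht⟩).rnDeriv m x} := by
    rw [hmid]
    refine measure_congr ?_
    filter_upwards [Measure.rnDeriv_smul_left_of_ne_top (timeMarginal P ⟨t, ht⟩) m hM] with x hx
    refine propext ?_
    show 0 < (M • timeMarginal P ⟨t, ht⟩).rnDeriv m x ↔ 0 < (timeMarginal P ⟨t, ht⟩).rnDeriv m x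
    rw [hx, Pi.smul_apply, smul_eq_mul, ENNReal.mul_pos_iff]
    exact ⟨fun h => h.2, fun h => ⟨pos_iff_ne_zero.2 hM0, h⟩⟩
  rw [hS]
  have hcd := hcd.trans (tri0_renyi m _ h.one_lt)
  have hdP : ∀ᵐ γ ∂P, dist (γ.toMap 0) (γ.toMap 1) ≤ d := by
    rw [he, Measure.ae_ennreal_smul_measure_iff hM0] at hdist
    exact ae_of_ae_map hψ.aemeasurable hdist
  have hρ : ∀ (μ : Measure X) [IsFiniteMeasure μ] (s : unitInterval), μ ≪ m →
      μ ≤ (C : ℝ≥0∞) • m → P.map (fun γ : UCurve X => γ.toMap s) = M⁻¹ • μ →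
      ∀ᵐ γ ∂P, (M⁻¹ * C) ^ (-1 / N) ≤ (M⁻¹ • μ).rnDeriv m (γ.toMap s) ^ (-1 / N) := by
    intro μ _ s hac hle hmap
    have : IsFiniteMeasure (M⁻¹ • μ) := Measure.smul_finite μ hMi
    have h1 : ∀ᵐ x ∂(M⁻¹ • μ), (M⁻¹ • μ).rnDeriv m x ≤ M⁻¹ * C :=
      (hac.smul_left _).ae_le (tri0_rnDeriv_le (by
        rw [← smul_smul]
        intro s
        simp only [Measure.smul_apply, smul_eq_mul]
        exact mul_le_mul_right (hle s) _))
    have h2 : ∀ᵐ γ ∂P, (M⁻¹ • μ).rnDeriv m (γ.toMap s) ≤ M⁻¹ * C := by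
      refine ae_of_ae_map (p := fun x => (M⁻¹ • μ).rnDeriv m x ≤ M⁻¹ * C)
        (measurable_ev s).aemeasurable ?_
      rw [hmap]; exact h1
    filter_upwards [h2] with γ hγ
    rw [neg_div, ENNReal.rpow_neg, ENNReal.rpow_neg]
    exact ENNReal.inv_le_inv.2 (ENNReal.rpow_le_rpow hγ (by positivity))
  have m0 : P.map (fun γ : UCurve X => γ.toMap 0) = M⁻¹ • μ₀ := by
    rw [← c0, endpointLaw, Measure.map_map measurable_fst hψ]; rfl
  have m1 : P.map (fun γ : UCurve X => γ.toMap 1) = M⁻¹ • μ₁ := by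
    rw [← c1, endpointLaw, Measure.map_map measurable_snd hψ]; rfl
  have hexp : ∀ s θ : ℝ, 0 ≤ s → 0 ≤ θ → θ ≤ d →
      Real.exp (-(κ * s * d ^ 2 / N)) ≤ Real.exp (-(κ * s * θ ^ 2 / N)) := by
    intro s θ hs hθ hθd
    have := h.κ_nonneg
    gcongr
  refine ⟨fun ht0 => ?_, fun ht2 hC' => ?_⟩
  · refine (tri0_alg (M := M) (a := t * Real.exp (-(κ * (1 - t) * d ^ 2 / N))) (by positivity) hN hC0
      (le_trans ?_ hcd)).trans (le_of_eq ?_)
    · rw [← mul_one (_ * _), ← hP.measure_univ, ← lintegral_const]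
      refine lintegral_mono_ae ?_
      filter_upwards [hdP, hρ μ₁ 1 h₁ hC m1] with γ g1 g2
      refine le_trans ?_ le_add_self
      exact mul_le_mul' (ENNReal.ofReal_le_ofReal (mul_le_mul_of_nonneg_left
        (hexp _ _ (sub_nonneg.2 ht.2) dist_nonneg g1) ht.1)) g2
    · rw [Real.mul_rpow ht0.le (Real.exp_pos _).le, ← Real.exp_mul, mul_inv, ← Real.exp_neg,
        neg_mul, neg_neg, div_mul_cancel₀ _ hN.ne']
  · subst ht2
    refine (tri0_alg (M := M) (a := Real.exp (-(κ * (1 / 2) * d ^ 2 / N))) (by positivity) hN hC0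
      (le_trans ?_ hcd)).trans (le_of_eq ?_)
    · rw [← mul_one (_ * _), ← hP.measure_univ, ← lintegral_const]
      refine lintegral_mono_ae ?_
      filter_upwards [hdP, hρ μ₁ 1 h₁ hC m1, hρ μ₀ 0 h₀ hC' m0] with γ g1 g2 g3
      have e : Real.exp (-(κ * (1 / 2) * d ^ 2 / N)) =
          (1 - 1 / 2) * Real.exp (-(κ * (1 / 2) * d ^ 2 / N)) +
            1 / 2 * Real.exp (-(κ * (1 - 1 / 2) * d ^ 2 / N)) := by
        rw [show (1 - 1 / 2 : ℝ) = 1 / 2 by norm_num]; ring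
      rw [e, ENNReal.ofReal_add (by positivity) (by positivity), add_mul]
      exact add_le_add
        (mul_le_mul' (ENNReal.ofReal_le_ofReal (mul_le_mul_of_nonneg_left
          (hexp _ _ (by norm_num) dist_nonneg g1) (by norm_num))) g3)
        (mul_le_mul' (ENNReal.ofReal_le_ofReal (mul_le_mul_of_nonneg_left
          (hexp _ _ (by norm_num) dist_nonneg g1) (by norm_num))) g2)
    · rw [← Real.exp_mul, ← Real.exp_neg, neg_mul, neg_neg, div_mul_cancel₀ _ hN.ne',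
        show κ * (1 / 2) * d ^ 2 = κ * d ^ 2 / 2 by ring]

end Crest.Agent.R242
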