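import Crest.Agent.R242.Defs

/-!
Row 242: elementary facts on `Adm`, `cst`, `IsL2OnBalls`.
-/

set_option autoImplicit false
set_option linter.unusedSectionVars false

open MeasureTheory Set Filter Metric Crest.GeometryTopology.SyntheticRicci
open scoped ENNReal NNReal Topology

namespace Crest.Agent.R242

theorem util0_expand {Ω : Type*} [MeasurableSpace Ω] {μ : Measure Ω} {f g : Ω → ℝ}
    (hf : MemLp f 2 μ) (hg : MemLp g 2 μ) :
    ∫ x, (f x + g x) ^ 2 ∂μ = ∫ x, f x ^ 2 ∂μ + 2 * ∫ x, f x * g x ∂μ + ∫ x, g x ^ 2 ∂μ := by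
  have h1 : Integrable (fun x => 2 * (f x * g x)) μ := (hf.integrable_mul hg).const_mul 2
  have h2 : Integrable (fun x => f x ^ 2 + 2 * (f x * g x)) μ := hf.integrable_sq.add h1
  rw [← integral_const_mul, ← integral_add hf.integrable_sq h1, ← integral_add h2 hg.integrable_sq]
  congr 1
  funext x
  ring

/-- Cauchy-Schwarz -/
theorem abs_integral_mul_le {Ω : Type*} [MeasurableSpace Ω] {μ : Measure Ω} {f g : Ω → ℝ}
    (hf : MemLp f 2 μ) (hg : MemLp g 2 μ) :
    |∫ x, f x * g x ∂μ| ≤ √(∫ x, f x ^ 2 ∂μ) * √(∫ x, g x ^ 2 ∂μ) := by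
  have a0 : 0 ≤ ∫ x, f x ^ 2 ∂μ := integral_nonneg fun _ => sq_nonneg _
  rw [← Real.sqrt_mul a0]
  apply Real.abs_le_sqrt
  have := discrim_le_zero (a := ∫ x, f x ^ 2 ∂μ) (b := 2 * ∫ x, f x * g x ∂μ)
    (c := ∫ x, g x ^ 2 ∂μ) fun t => by
      have h1 := util0_expand (hf.const_mul t) hg
      have h2 : 0 ≤ ∫ x, (t * f x + g x) ^ 2 ∂μ := integral_nonneg fun _ => sq_nonneg _
      simp only [mul_pow, mul_assoc, integral_const_mul] at h1
      nlinarith
  rw [discrim] at this
  nlinarith

/-- Minkowski -/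
theorem sqrt_integral_add_sq_le {Ω : Type*} [MeasurableSpace Ω] {μ : Measure Ω} {f g : Ω → ℝ}
    (hf : MemLp f 2 μ) (hg : MemLp g 2 μ) :
    √(∫ x, (f x + g x) ^ 2 ∂μ) ≤ √(∫ x, f x ^ 2 ∂μ) + √(∫ x, g x ^ 2 ∂μ) := by
  have a0 : 0 ≤ ∫ x, f x ^ 2 ∂μ := integral_nonneg fun _ => sq_nonneg _
  have b0 : 0 ≤ ∫ x, g x ^ 2 ∂μ := integral_nonneg fun _ => sq_nonneg _
  rw [Real.sqrt_le_left (by positivity), util0_expand hf hg, add_sq, Real.sq_sqrt a0,
    Real.sq_sqrt b0]
  linarith [le_abs_self (∫ x, f x * g x ∂μ), abs_integral_mul_le hf hg]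

/-- gluing of two measures along a common image -/
theorem exists_glue {Y Z W : Type*} [MeasurableSpace Y] [MeasurableSpace Z] [StandardBorelSpace Z]
    [MeasurableSpace W] [MeasurableEq W] (α : Measure Y) (β : Measure Z) [IsFiniteMeasure α]
    [IsFiniteMeasure β] {f : Y → W} {g : Z → W} (hf : Measurable f) (hg : Measurable g)
    (h : α.map f = β.map g) :
    ∃ γ : Measure (Y × Z), γ.fst = α ∧ γ.snd = β ∧ ∀ᵐ p ∂γ, f p.1 = g p.2 := by
  rcases isEmpty_or_nonempty Z with hZ | hZ
  · have hβ : β = 0 := Measure.eq_zero_of_isEmpty β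
    have hα : α = 0 := by
      rw [hβ, Measure.map_zero] at h
      exact (Measure.map_eq_zero_iff hf.aemeasurable).1 h
    exact ⟨0, by simp [hα], by simp [hβ], by simp⟩
  have key : (β.map g).compProd (ProbabilityTheory.condDistrib id g β) =
      β.map fun a => (g a, id a) := ProbabilityTheory.compProd_map_condDistrib aemeasurable_id
  set κ := ProbabilityTheory.condDistrib id g β
  have hm : Measurable fun a => (g a, id a) := hg.prodMk measurable_id
  refine ⟨α.compProd (κ.comap f hf), Measure.fst_compProd _ _, ?_, ?_⟩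
  · ext s hs
    have h1 := congrArg (fun ν : Measure (W × Z) => ν (Prod.snd ⁻¹' s)) key
    rw [Measure.map_apply hm (measurable_snd hs), Measure.compProd_apply (measurable_snd hs), ← h,
      lintegral_map (ProbabilityTheory.Kernel.measurable_kernel_prodMk_left (measurable_snd hs))
        hf] at h1
    rw [Measure.snd_apply hs, Measure.compProd_apply (measurable_snd hs)]
    exact h1
  · have h1 : MeasurableSet {p : W × Z | p.1 = g p.2} :=
      measurableSet_eq_fun measurable_fst (hg.comp measurable_snd)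
    have h2 : ∀ᵐ p ∂((β.map g).compProd κ), p.1 = g p.2 := by
      rw [key, ae_map_iff hm.aemeasurable h1]
      exact Eventually.of_forall fun _ => rfl
    rw [Measure.ae_compProd_iff h1, ← h] at h2
    have h3 : MeasurableSet {p : Y × Z | f p.1 = g p.2} :=
      measurableSet_eq_fun (hf.comp measurable_fst) (hg.comp measurable_snd)
    rw [Measure.ae_compProd_iff h3]
    exact ae_of_ae_map hf.aemeasurable h2

variable {X : Type*} [MetricSpace X] [ProperSpace X] [MeasurableSpace X] [BorelSpace X]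
  {m : Measure X} [IsLocallyFiniteMeasure m]

omit [ProperSpace X] [BorelSpace X] [IsLocallyFiniteMeasure m] in
theorem util0_le_restrict {μ : Measure X} {C : ℝ≥0} {o : X} {R : ℝ} (h : Adm m μ C o R) :
    μ ≤ (C : ℝ≥0∞) • m.restrict (closedBall o R) := by
  rw [← Measure.restrict_smul, ← Measure.restrict_eq_self_of_ae_mem (s := closedBall o R) h.inn]
  exact Measure.restrict_mono_measure h.le _

theorem Adm.isFiniteMeasure {μ : Measure X} {C : ℝ≥0} {o : X} {R : ℝ} (h : Adm m μ C o R) :
    IsFiniteMeasure μ := by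
  constructor
  refine lt_of_le_of_lt (util0_le_restrict h univ) ?_
  rw [Measure.smul_apply, Measure.restrict_apply_univ, smul_eq_mul]
  exact ENNReal.mul_lt_top ENNReal.coe_lt_top (isCompact_closedBall o R).measure_lt_top

theorem Adm.ac {μ : Measure X} {C : ℝ≥0} {o : X} {R : ℝ} (h : Adm m μ C o R) : μ ≪ m := by
  exact Measure.absolutelyContinuous_of_le_smul h.le

theorem Adm.mono {μ ν : Measure X} {C C' : ℝ≥0} {o : X} {R R' : ℝ} (h : Adm m μ C o R)
    (hν : ν ≤ μ) (hC : C ≤ C') (hR : R ≤ R') : Adm m ν C' o R' := by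
  refine ⟨(hν.trans h.le).trans fun s => ?_, ?_⟩
  · simp only [Measure.smul_apply, smul_eq_mul]
    gcongr
  · exact (h.inn.filter_mono (ae_mono hν)).mono fun x hx => hx.trans hR

theorem Adm.le_restrict {μ : Measure X} {C : ℝ≥0} {o : X} {R : ℝ} (h : Adm m μ C o R) :
    μ ≤ (C : ℝ≥0∞) • m.restrict (closedBall o R) := by
  exact util0_le_restrict h

theorem Adm.memLp {μ : Measure X} {C : ℝ≥0} {o : X} {R : ℝ} (h : Adm m μ C o R) {f : X → ℝ}
    (hf : IsL2OnBalls m f) : MemLp f 2 μ := by
  refine MemLp.of_measure_le_smul ENNReal.coe_ne_top h.le_restrict ?_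
  exact (hf o (R + 1)).mono_measure
    (Measure.restrict_mono_set _ (closedBall_subset_ball (by linarith)))

theorem Adm.integrable {μ : Measure X} {C : ℝ≥0} {o : X} {R : ℝ} (h : Adm m μ C o R) {f : X → ℝ}
    (hf : IsL2OnBalls m f) : Integrable f μ := by
  have := h.isFiniteMeasure
  exact (h.memLp hf).integrable one_le_two

omit [MetricSpace X] [ProperSpace X] [BorelSpace X] [IsLocallyFiniteMeasure m] in
theorem util0_integral {ρ : X → ℝ} (hρ : AEMeasurable ρ m) (h0 : ∀ᵐ x ∂m, 0 ≤ ρ x) (g : X → ℝ) :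
    ∫ x, g x ∂(m.withDensity fun x => ENNReal.ofReal (ρ x)) = ∫ x, g x * ρ x ∂m := by
  rw [integral_withDensity_eq_integral_toReal_smul₀ hρ.ennreal_ofReal
    (Eventually.of_forall fun _ => ENNReal.ofReal_lt_top)]
  refine integral_congr_ae (h0.mono fun x hx => ?_)
  simp only [ENNReal.toReal_ofReal hx, smul_eq_mul, mul_comm]

/-- the density of an admissible measure -/
theorem Adm.exists_density {μ : Measure X} {C : ℝ≥0} {o : X} {R : ℝ} (h : Adm m μ C o R) :
    ∃ ρ : X → ℝ, Measurable ρ ∧ (∀ x, 0 ≤ ρ x ∧ ρ x ≤ C) ∧ (∀ x, R < dist x o → ρ x = 0) ∧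
      MemLp ρ 2 m ∧ Integrable ρ m ∧ μ = m.withDensity (fun x => ENNReal.ofReal (ρ x)) ∧
      ∀ g : X → ℝ, ∫ x, g x ∂μ = ∫ x, g x * ρ x ∂m := by
  have := h.isFiniteMeasure
  have hB : MeasurableSet (closedBall o R) := measurableSet_closedBall
  have hle : μ.rnDeriv m ≤ᵐ[m] (closedBall o R).indicator fun _ => (C : ℝ≥0∞) := by
    refine ae_le_of_forall_setLIntegral_le_of_sigmaFinite (μ.measurable_rnDeriv m)
      fun s hs _ => (Measure.setLIntegral_rnDeriv_le s).trans ((h.le_restrict s).trans ?_)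
    rw [lintegral_indicator_const hB, Measure.smul_apply, smul_eq_mul, Measure.restrict_apply hs,
      Measure.restrict_apply hB, inter_comm]
  let ρ : X → ℝ := (closedBall o R).indicator fun x => min (μ.rnDeriv m x).toReal C
  have hρm : Measurable ρ :=
    ((μ.measurable_rnDeriv m).ennreal_toReal.min measurable_const).indicator hB
  have hρb : ∀ x, 0 ≤ ρ x ∧ ρ x ≤ C := by
    intro x
    by_cases hx : x ∈ closedBall o R
    · simp only [ρ, indicator_of_mem hx]
      exact ⟨le_min ENNReal.toReal_nonneg C.2, min_le_right _ _⟩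
    · simp only [ρ, indicator_of_notMem hx]
      exact ⟨le_rfl, C.2⟩
  have hρ0 : ∀ x, R < dist x o → ρ x = 0 := fun x hx =>
    indicator_of_notMem (by simpa using hx) _
  have hae : μ.rnDeriv m =ᵐ[m] fun x => ENNReal.ofReal (ρ x) := by
    filter_upwards [hle] with x hx
    by_cases hx' : x ∈ closedBall o R
    · rw [indicator_of_mem hx'] at hx
      have h1 : (μ.rnDeriv m x).toReal ≤ C := by
        simpa using ENNReal.toReal_mono ENNReal.coe_ne_top hx
      simp only [ρ, indicator_of_mem hx', min_eq_left h1]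
      exact (ENNReal.ofReal_toReal (ne_top_of_le_ne_top ENNReal.coe_ne_top hx)).symm
    · rw [indicator_of_notMem hx'] at hx
      simp only [ρ, indicator_of_notMem hx', ENNReal.ofReal_zero]
      exact le_antisymm hx zero_le
  have hμ : μ = m.withDensity fun x => ENNReal.ofReal (ρ x) := by
    rw [← withDensity_congr_ae hae, Measure.withDensity_rnDeriv_eq _ _ h.ac]
  have hfin : IsFiniteMeasure (m.restrict (closedBall o R)) :=
    isFiniteMeasure_restrict.2 (isCompact_closedBall o R).measure_lt_top.ne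
  have hp : ∀ p : ℝ≥0∞, MemLp ρ p m := fun p =>
    (memLp_indicator_iff_restrict hB).2 (MemLp.of_bound
      ((μ.measurable_rnDeriv m).ennreal_toReal.min measurable_const).aestronglyMeasurable C
      (Eventually.of_forall fun x => by
        rw [Real.norm_of_nonneg (le_min ENNReal.toReal_nonneg C.coe_nonneg)]
        exact min_le_right _ _))
  refine ⟨ρ, hρm, hρb, hρ0, hp 2, memLp_one_iff_integrable.1 (hp 1), hμ, fun g => ?_⟩
  conv_lhs => rw [hμ]
  exact util0_integral hρm.aemeasurable (Eventually.of_forall fun x => (hρb x).1) g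

/-- conversely, a bounded density with bounded support gives an admissible measure -/
theorem adm_withDensity {ρ : X → ℝ} {C : ℝ≥0} {o : X} {R : ℝ} (hρ : AEMeasurable ρ m)
    (h0 : ∀ᵐ x ∂m, 0 ≤ ρ x ∧ ρ x ≤ C) (hR : ∀ᵐ x ∂m, R < dist x o → ρ x = 0) :
    Adm m (m.withDensity fun x => ENNReal.ofReal (ρ x)) C o R ∧
      ∀ g : X → ℝ, ∫ x, g x ∂(m.withDensity fun x => ENNReal.ofReal (ρ x)) =
        ∫ x, g x * ρ x ∂m := by
  refine ⟨⟨?_, ?_⟩, util0_integral hρ (h0.mono fun x hx => hx.1)⟩
  · rw [← withDensity_const]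
    refine withDensity_mono (h0.mono fun x hx => ?_)
    simpa using ENNReal.ofReal_le_ofReal hx.2
  · rw [ae_withDensity_iff' hρ.ennreal_ofReal]
    refine hR.mono fun x hx h1 => not_lt.1 fun h2 => h1 ?_
    simp [hx h2]

omit [ProperSpace X] in
theorem cst_nonneg (q : Measure (X × X)) : 0 ≤ cst q := integral_nonneg fun _ => sq_nonneg _

theorem quadCost_eq_ofReal {q : Measure (X × X)} [IsFiniteMeasure q] {M : ℝ}
    (h : ∀ᵐ p ∂q, dist p.1 p.2 ≤ M) : quadCost q = ENNReal.ofReal (cst q) := by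
  unfold quadCost cst
  rw [ofReal_integral_eq_lintegral_ofReal (Integrable.of_bound
    (Continuous.aestronglyMeasurable (by fun_prop)) (M ^ 2) (h.mono fun p hp => by
      rw [Real.norm_of_nonneg (sq_nonneg _)]
      exact pow_le_pow_left₀ dist_nonneg hp 2)) (Eventually.of_forall fun _ => sq_nonneg _)]
  simp only [edist_dist, ENNReal.ofReal_pow dist_nonneg]

theorem ae_dist_le {q : Measure (X × X)} {o : X} {R : ℝ} (h0 : ∀ᵐ x ∂q.fst, dist x o ≤ R)
    (h1 : ∀ᵐ x ∂q.snd, dist x o ≤ R) : ∀ᵐ p ∂q, dist p.1 p.2 ≤ 2 * R := by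
  filter_upwards [ae_of_ae_map measurable_fst.aemeasurable h0,
    ae_of_ae_map measurable_snd.aemeasurable h1] with p a b
  linarith [dist_triangle_right p.1 p.2 o]

theorem Opt.cst_le {q q' : Measure (X × X)} [IsFiniteMeasure q] (h : Opt q) {o : X} {R : ℝ}
    (h0 : ∀ᵐ x ∂q.fst, dist x o ≤ R) (h1 : ∀ᵐ x ∂q.snd, dist x o ≤ R) (e0 : q'.fst = q.fst)
    (e1 : q'.snd = q.snd) : cst q ≤ cst q' := by
  have : IsFiniteMeasure q' := ⟨by
    rw [← Measure.fst_univ, e0]
    exact measure_lt_top _ _⟩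
  have h2 := h q' e0 e1
  rw [quadCost_eq_ofReal (ae_dist_le h0 h1), quadCost_eq_ofReal (ae_dist_le (e0 ▸ h0) (e1 ▸ h1)),
    ENNReal.ofReal_le_ofReal_iff (cst_nonneg _)] at h2
  exact h2

theorem Opt.swap {q : Measure (X × X)} (h : Opt q) : Opt (q.map Prod.swap) := by
  have key : ∀ q : Measure (X × X), quadCost (q.map Prod.swap) = quadCost q := fun q => by
    unfold quadCost
    rw [lintegral_map (by fun_prop) measurable_swap]
    simp only [Prod.fst_swap, Prod.snd_swap, edist_comm]
  intro q' e0 e1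
  rw [key, ← key q']
  rw [Measure.fst_map_swap] at e0
  rw [Measure.snd_map_swap] at e1
  exact h _ (by rw [Measure.fst_map_swap, e1]) (by rw [Measure.snd_map_swap, e0])

theorem cst_swap (q : Measure (X × X)) : cst (q.map Prod.swap) = cst q := by
  unfold cst
  rw [integral_map measurable_swap.aemeasurable (Continuous.aestronglyMeasurable (by fun_prop))]
  simp only [Prod.fst_swap, Prod.snd_swap, dist_comm]

theorem l2b_aemeasurable {f : X → ℝ} (hf : IsL2OnBalls m f) : AEMeasurable f m := by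
  rcases isEmpty_or_nonempty X with hX | ⟨⟨o⟩⟩
  · exact (measurable_of_empty f).aemeasurable
  · rw [← Measure.restrict_univ (μ := m), ← iUnion_ball_nat o, aemeasurable_iUnion_iff]
    exact fun n => (hf o n).1.aemeasurable

theorem l2b_of_memLp {f : X → ℝ} (hf : MemLp f 2 m) : IsL2OnBalls m f := by
  exact fun o R => hf.restrict _

theorem l2b_of_bdd {f : X → ℝ} (hf : AEMeasurable f m) {B : ℝ} (hB : ∀ᵐ x ∂m, |f x| ≤ B) :
    IsL2OnBalls m f := by
  intro o R
  have : IsFiniteMeasure (m.restrict (ball o R)) := isFiniteMeasure_restrict.2 measure_ball_lt_top.ne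
  exact MemLp.of_bound hf.aestronglyMeasurable.restrict B (ae_restrict_of_ae hB)

theorem l2b_of_continuous {f : X → ℝ} (hf : Continuous f) : IsL2OnBalls m f := by
  intro o R
  have : IsFiniteMeasure (m.restrict (ball o R)) := isFiniteMeasure_restrict.2 measure_ball_lt_top.ne
  obtain ⟨B, hB⟩ := (isCompact_closedBall o R).exists_bound_of_continuousOn hf.continuousOn
  exact MemLp.of_bound hf.aestronglyMeasurable B
    ((ae_restrict_mem measurableSet_ball).mono fun x hx => hB x (ball_subset_closedBall hx))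

theorem l2b_of_le {f g : X → ℝ} (hg : IsL2OnBalls m g) (hf : AEMeasurable f m)
    (h : ∀ᵐ x ∂m, |f x| ≤ g x) : IsL2OnBalls m f := by
  intro o R
  exact (hg o R).mono' hf.aestronglyMeasurable.restrict (ae_restrict_of_ae h)

theorem l2b_add {f g : X → ℝ} (hf : IsL2OnBalls m f) (hg : IsL2OnBalls m g) :
    IsL2OnBalls m fun x => f x + g x := by
  exact fun o R => (hf o R).add (hg o R)

theorem l2b_const_mul {f : X → ℝ} (hf : IsL2OnBalls m f) (c : ℝ) :
    IsL2OnBalls m fun x => c * f x := by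
  exact fun o R => (hf o R).const_mul c

theorem l2b_congr {f g : X → ℝ} (hf : IsL2OnBalls m f) (h : f =ᵐ[m] g) : IsL2OnBalls m g := by
  exact fun o R => (hf o R).ae_eq (ae_restrict_of_ae h)

omit [ProperSpace X] [BorelSpace X] [IsLocallyFiniteMeasure m] in
theorem util0_indicator {f : X → ℝ} {o : X} {R : ℝ} (h : ∀ᵐ x ∂m, R < dist x o → f x = 0) :
    (ball o (R + 1)).indicator f =ᵐ[m] f := by
  refine h.mono fun x hx => ?_
  by_cases hx' : x ∈ ball o (R + 1)
  · exact indicator_of_mem hx' _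
  · rw [indicator_of_notMem hx', hx]
    rw [mem_ball, not_lt] at hx'
    linarith

theorem memLp_of_l2b {f : X → ℝ} (hf : IsL2OnBalls m f) {o : X} {R : ℝ}
    (h : ∀ᵐ x ∂m, R < dist x o → f x = 0) : MemLp f 2 m := by
  exact ((memLp_indicator_iff_restrict measurableSet_ball).2 (hf o (R + 1))).ae_eq
    (util0_indicator h)

theorem integrable_of_l2b {f : X → ℝ} (hf : IsL2OnBalls m f) {o : X} {R : ℝ}
    (h : ∀ᵐ x ∂m, R < dist x o → f x = 0) : Integrable f m := by
  have : IsFiniteMeasure (m.restrict (ball o (R + 1))) :=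
    isFiniteMeasure_restrict.2 measure_ball_lt_top.ne
  exact ((integrable_indicator_iff measurableSet_ball).2
    ((hf o (R + 1)).integrable one_le_two)).congr (util0_indicator h)

end Crest.Agent.R242
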