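import Crest.Agent.R242.Boch1

/-!
Row 242: the drifted resolvent.
-/

set_option autoImplicit false
set_option linter.unusedSectionVars false

open MeasureTheory Set Filter Metric Crest.GeometryTopology.SyntheticRicci
open scoped ENNReal NNReal Topology

namespace Crest.Agent.R242

variable {X : Type*} [MetricSpace X] [ProperSpace X] [MeasurableSpace X] [BorelSpace X]
  {m : Measure X} [IsLocallyFiniteMeasure m] [m.IsOpenPosMeasure] {k τ₀ : ℝ} {F G : X → ℝ}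

theorem weakLap_Res (H : IsInfHilbertian m) (hF : BL F) {ε θ : ℝ} (hε : 0 < ε) (hθ : 0 < θ)
    {ψ : X → ℝ} (hψ : MemLp ψ 2 m) :
    IsWeakLaplacian m (Res m (wt F ε) (ε * θ) ψ) fun x =>
      ((Res m (wt F ε) (ε * θ) ψ x - ψ x) / θ - Gm m F (Res m (wt F ε) (ε * θ) ψ) x) / ε := by
  have hτ : 0 < ε * θ := mul_pos hε hθ
  obtain ⟨hu, hR⟩ := isRes_Res H (Wt.wt hF ε) hτ hψ
  set u := Res m (wt F ε) (ε * θ) ψ with hudef
  obtain ⟨LF, hLF⟩ := hF.Dw_le (m := m)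
  have hG : MemLp (Gm m F u) 2 m := memLp_Gm H hF.sl hu hLF
  refine ⟨hu, ?_, fun v hv => ?_⟩
  · simp only [div_eq_mul_inv]
    exact (((hu.1.sub hψ).mul_const θ⁻¹).sub hG).mul_const ε⁻¹
  · have hw : BL (wt F (-ε)) := hF.wt (-ε)
    have hv' : IsSobolev m fun x => v x * wt F (-ε) x := sob_mul_BL hv hw
    have hone : ∀ x, wt F (-ε) x * wt F ε x = 1 := fun x => by
      unfold wt
      rw [← Real.exp_add, div_neg, neg_add_cancel, Real.exp_zero]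
    have e := hR _ hv'
    have i1 : Integrable (fun x => u x * v x) m := hu.1.integrable_mul hv.1
    have i2 : Integrable (fun x => ψ x * v x) m := hψ.integrable_mul hv.1
    have i3 : Integrable (fun x => Gm m F u x * v x) m := hG.integrable_mul hv.1
    have i4 : Integrable (Gm m u v) m := integrable_Gm H hu hv
    have e1 : ∫ x, u x * (v x * wt F (-ε) x) * wt F ε x ∂m = ∫ x, u x * v x ∂m := by
      refine integral_congr_ae (ae_of_all _ fun x => ?_)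
      simp only [mul_assoc, hone, mul_one]
    have e2 : ∫ x, ψ x * (v x * wt F (-ε) x) * wt F ε x ∂m = ∫ x, ψ x * v x ∂m := by
      refine integral_congr_ae (ae_of_all _ fun x => ?_)
      simp only [mul_assoc, hone, mul_one]
    have e3 : ∫ x, Gm m u (fun x => v x * wt F (-ε) x) x * wt F ε x ∂m =
        ∫ x, Gm m u v x ∂m - ε⁻¹ * ∫ x, Gm m F u x * v x ∂m := by
      rw [← integral_const_mul, ← integral_sub i4 (i3.const_mul _)]
      refine integral_congr_ae ?_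
      filter_upwards [Gm_mul_right H (sob_sl hv) hw.sl (sob_sl hv') (sob_sl hu),
        Gm_wt H hF (-ε) (sob_sl hu), Gm_comm (sob_sl hu) hF.sl] with x h1 h2 h3
      rw [h1, h2, h3]
      have := hone x
      calc (v x * (wt F (-ε) x * Gm m F u x / -ε) + wt F (-ε) x * Gm m u v x) * wt F ε x
          = (wt F (-ε) x * wt F ε x) * (Gm m u v x - ε⁻¹ * (Gm m F u x * v x)) := by
            rw [div_neg, div_eq_mul_inv]; ring
        _ = _ := by rw [this, one_mul]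
    have e4 : ∫ x, ((u x - ψ x) / θ - Gm m F u x) / ε * v x ∂m =
        (ε * θ)⁻¹ * (∫ x, u x * v x ∂m - ∫ x, ψ x * v x ∂m) - ε⁻¹ * ∫ x, Gm m F u x * v x ∂m := by
      have i5 : Integrable (fun x => u x * v x - ψ x * v x) m := i1.sub i2
      rw [← integral_sub i1 i2, ← integral_const_mul, ← integral_const_mul,
        ← integral_sub (i5.const_mul _) (i3.const_mul _)]
      refine integral_congr_ae (ae_of_all _ fun x => ?_)
      simp only
      field_simp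
    rw [e1, e2, e3] at e
    rw [e4]
    change ∫ x, Gm m u v x ∂m = _
    have e5 : ∫ x, u x * v x ∂m - ∫ x, ψ x * v x ∂m =
        -(ε * θ * (∫ x, Gm m u v x ∂m - ε⁻¹ * ∫ x, Gm m F u x * v x ∂m)) := by linarith
    rw [e5]
    field_simp
    ring

theorem wgrad0_memLp (H : IsInfHilbertian m) (hF : BL F) {ψ w : X → ℝ} (hψ : MemLp ψ 2 m)
    (hw : IsSobolev m w) (θ : ℝ) : MemLp (fun x => 1 * ψ x + θ * Gm m F w x) 2 m := by
  obtain ⟨LF, hLF⟩ := hF.Dw_le (m := m)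
  exact (hψ.const_mul 1).add ((memLp_Gm H hF.sl hw hLF).const_mul θ)

theorem wgrad0_step (h : RS m k τ₀) (hF : BL F) {LF : ℝ} (hLF0 : 0 ≤ LF)
    (hLF : ∀ᵐ x ∂m, Dw m F x ≤ LF) {τ θ : ℝ} (hτ : 0 < τ) (hτ' : τ ≤ τ₀) (hθ : 0 < θ)
    (hs : 8 * θ * LF ≤ √τ) {ψ w : X → ℝ} (hψ : IsSobolev m ψ) {B L : ℝ} (hL0 : 0 ≤ L)
    (hB : ∀ᵐ x ∂m, |ψ x| ≤ B) (hL : ∀ᵐ x ∂m, Dw m ψ x ≤ L) (hw : IsSobolev m w)
    (hw' : ∀ᵐ x ∂m, Dw m w x ≤ 4 * L) :
    ∀ᵐ x ∂m, Dw m (Jr m τ fun x => 1 * ψ x + θ * Gm m F w x) x ≤ 4 * L := by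
  have H := h.hilb
  have hG : MemLp (Gm m F w) 2 m := memLp_Gm H hF.sl hw hLF
  have s0 := sob_Res H Wt.one hτ (wgrad0_memLp H hF hψ.1 hw θ)
  have s1 := sob_sl (sob_Res H Wt.one hτ hψ.1)
  have s2 := sob_sl (sob_Res H Wt.one hτ hG)
  have hGb : ∀ᵐ x ∂m, |Gm m F w x| ≤ LF * (4 * L) := by
    filter_upwards [abs_Gm_le H hF.sl (sob_sl hw), hLF, hw', Dw_nonneg (sob_sl hw)] with x a b c d
    exact a.trans (mul_le_mul b c d hLF0)
  have e : Jr m τ (fun x => 1 * ψ x + θ * Gm m F w x) =ᵐ[m]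
      fun x => 1 * Jr m τ ψ x + θ * Jr m τ (Gm m F w) x := Res_lin H Wt.one hτ hψ.1 hG 1 θ
  filter_upwards [Dw_congr (sob_sl s0) e, Dw_add_le (sl_const_mul s1 1) (sl_const_mul s2 θ),
    Dw_const_mul s1 1, Dw_const_mul s2 θ, Dw_Jr_le h hτ hτ' hψ hB hL,
    Dw_Jr_le_of_bdd h hτ hτ' hG (by positivity) hGb] with x a b c d e f
  rw [a]
  refine b.trans ?_
  rw [c, d, abs_one, one_mul, abs_of_pos hθ]
  have hsq : 0 < √τ := Real.sqrt_pos.2 hτ
  have g : θ * (4 * (LF * (4 * L)) / √τ) ≤ 2 * L := by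
    rw [← mul_div_assoc, div_le_iff₀ hsq]
    calc θ * (4 * (LF * (4 * L))) = 2 * L * (8 * θ * LF) := by ring
      _ ≤ 2 * L * √τ := by gcongr
  have g' := mul_le_mul_of_nonneg_left f hθ.le
  change Dw m (Jr m τ ψ) x + θ * Dw m (Jr m τ (Gm m F w)) x ≤ 4 * L
  linarith

theorem wgrad0_contr (H : IsInfHilbertian m) (hF : BL F) {LF : ℝ}
    (hLF : ∀ᵐ x ∂m, Dw m F x ≤ LF) {τ θ : ℝ} (hτ : 0 < τ)
    (hs : 2 * (θ * LF) ^ 2 ≤ τ) {ψ w u : X → ℝ} (hψ : MemLp ψ 2 m) (hw : IsSobolev m w)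
    (hu : IsSobolev m u) (hfix : u =ᵐ[m] Jr m τ fun x => 1 * ψ x + θ * Gm m F u x) :
    ∫ x, Dw m (fun y => Jr m τ (fun x => 1 * ψ x + θ * Gm m F w x) y - u y) x ^ 2 ∂m ≤
      1 / 2 * ∫ x, Dw m (fun y => w y - u y) x ^ 2 ∂m := by
  have m1 := wgrad0_memLp H hF hψ hw θ
  have m2 := wgrad0_memLp H hF hψ hu θ
  have hd : IsSobolev m fun y => w y - u y := sob_sub hw hu
  have m3 : MemLp (fun x => (1 * ψ x + θ * Gm m F w x) - (1 * ψ x + θ * Gm m F u x)) 2 m :=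
    m1.sub m2
  set f : X → ℝ := fun x => (1 * ψ x + θ * Gm m F w x) - (1 * ψ x + θ * Gm m F u x) with hf
  have e : (fun y => Jr m τ (fun x => 1 * ψ x + θ * Gm m F w x) y - u y) =ᵐ[m] Jr m τ f := by
    filter_upwards [Res_sub H Wt.one hτ m1 m2, hfix] with x a b
    rw [b]
    exact a.symm
  have s0 := sob_sub (sob_Res H Wt.one hτ m1) hu
  have e1 : ∫ x, Dw m (fun y => Jr m τ (fun x => 1 * ψ x + θ * Gm m F w x) y - u y) x ^ 2 ∂m =
      ∫ x, Dw m (Jr m τ f) x ^ 2 * 1 ∂m := by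
    refine integral_congr_ae ?_
    filter_upwards [Dw_congr (sob_sl s0) e] with x a
    rw [mul_one, ← a]
  have e2 := (Res_energy H Wt.one hτ m3).2
  have e3 : ∫ x, f x ^ 2 * 1 ∂m ≤ (θ * LF) ^ 2 * ∫ x, Dw m (fun y => w y - u y) x ^ 2 ∂m := by
    rw [← integral_const_mul]
    refine integral_mono_ae (m3.integrable_sq.mul_const 1) (hd.2.2.integrable_sq.const_mul _) ?_
    filter_upwards [Gm_sub_right H (sob_sl hw) (sob_sl hu) hF.sl, abs_Gm_le H hF.sl (sob_sl hd),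
      hLF, Dw_nonneg (sob_sl hd)] with x a b c d
    have g1 : f x = θ * Gm m F (fun y => w y - u y) x := by
      rw [a, hf]
      ring
    have g2 : |Gm m F (fun y => w y - u y) x| ≤ LF * Dw m (fun y => w y - u y) x :=
      b.trans (mul_le_mul_of_nonneg_right c d)
    have g3 : Gm m F (fun y => w y - u y) x ^ 2 ≤ (LF * Dw m (fun y => w y - u y) x) ^ 2 := by
      rw [← sq_abs]
      exact pow_le_pow_left₀ (abs_nonneg _) g2 2
    change f x ^ 2 * 1 ≤ (θ * LF) ^ 2 * Dw m (fun y => w y - u y) x ^ 2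
    rw [g1, mul_one, mul_pow]
    calc θ ^ 2 * Gm m F (fun y => w y - u y) x ^ 2
        ≤ θ ^ 2 * (LF * Dw m (fun y => w y - u y) x) ^ 2 := by gcongr
      _ = _ := by ring
  have hA : 0 ≤ ∫ x, Dw m (fun y => w y - u y) x ^ 2 ∂m := integral_nonneg fun x => sq_nonneg _
  rw [e1]
  refine le_of_mul_le_mul_left ?_ hτ
  refine (e2.trans e3).trans ?_
  nlinarith

theorem Res_lip (h : RS m k τ₀) (hF : BL F) {ε : ℝ} (hε : 0 < ε) : ∃ θ₀ : ℝ, 0 < θ₀ ∧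
    ∀ θ, 0 < θ → θ ≤ θ₀ → ∀ ψ : X → ℝ, BL ψ → IsSobolev m ψ →
      ∃ M : ℝ, ∀ᵐ x ∂m, Dw m (Res m (wt F ε) (ε * θ) ψ) x ≤ M := by
  have H := h.hilb
  obtain ⟨LF, hLF⟩ := hF.Dw_le (m := m)
  have hLF0 : (0 : ℝ) ≤ LF := LF.2
  have hτ₀ := h.τ_pos
  refine ⟨min (τ₀ / ε) (ε / (64 * ((LF : ℝ) ^ 2 + 1))), by positivity, ?_⟩
  intro θ hθ hθ' ψ hψ hψs
  obtain ⟨hθ1, hθ2⟩ := le_min_iff.1 hθ'
  have hτ : 0 < ε * θ := mul_pos hε hθ
  have hτ' : ε * θ ≤ τ₀ := by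
    rw [le_div_iff₀ hε] at hθ1
    linarith
  have hkey : (8 * θ * LF) ^ 2 ≤ ε * θ := by
    rw [le_div_iff₀ (by positivity)] at hθ2
    calc (8 * θ * LF) ^ 2 = θ * (θ * (64 * (LF : ℝ) ^ 2)) := by ring
      _ ≤ θ * (θ * (64 * ((LF : ℝ) ^ 2 + 1))) := by gcongr; linarith
      _ ≤ θ * ε := by gcongr
      _ = ε * θ := mul_comm _ _
  have hs : 8 * θ * LF ≤ √(ε * θ) := Real.le_sqrt_of_sq_le hkey
  have hs' : 2 * (θ * LF) ^ 2 ≤ ε * θ := by nlinarith [sq_nonneg (θ * LF)]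
  have hlap := weakLap_Res H hF hε hθ hψs.1
  set u := Res m (wt F ε) (ε * θ) ψ with hudef
  have hu : IsSobolev m u := hlap.1
  have hfix : u =ᵐ[m] Jr m (ε * θ) fun x => 1 * ψ x + θ * Gm m F u x := by
    have := eq_Jr_of_weakLap H hτ hlap
    have e : (fun x => u x - ε * θ * (((u x - ψ x) / θ - Gm m F u x) / ε)) =
        fun x => 1 * ψ x + θ * Gm m F u x := by
      funext x
      field_simp
      ring
    rwa [e] at this
  obtain ⟨L, hL⟩ := hψ.Dw_le (m := m)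
  obtain ⟨B, hB⟩ := hψ.bdd
  have hL0 : (0 : ℝ) ≤ L := L.2
  let U : ℕ → X → ℝ := fun n => Nat.rec (fun _ => 0)
    (fun _ w => Jr m (ε * θ) fun x => 1 * ψ x + θ * Gm m F w x) n
  have hU : ∀ n, IsSobolev m (U n) ∧ ∀ᵐ x ∂m, Dw m (U n) x ≤ 4 * L := by
    intro n
    induction n with
    | zero =>
      refine ⟨sob_zero, ?_⟩
      filter_upwards [Dw_const (m := m) 0] with x a
      exact a.le.trans (by positivity)
    | succ n ih =>
      exact ⟨sob_Res H Wt.one hτ (wgrad0_memLp H hF hψs.1 ih.1 θ),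
        wgrad0_step h hF hLF0 hLF hτ hτ' hθ hs hψs hL0 (ae_of_all _ hB) hL ih.1 ih.2⟩
  refine ⟨4 * L, Dw_le_of_tendsto (fun n => (hU n).1) hu (fun n => (hU n).2) ?_⟩
  set a : ℕ → ℝ := fun n => ∫ x, Dw m (fun y => U n y - u y) x ^ 2 ∂m with ha
  have ha0 : ∀ n, 0 ≤ a n := fun n => integral_nonneg fun x => sq_nonneg _
  have ha1 : ∀ n, a (n + 1) ≤ 1 / 2 * a n := fun n =>
    wgrad0_contr H hF hLF hτ hs' hψs.1 (hU n).1 hu hfix
  have ha2 : ∀ n, a n ≤ a 0 * (1 / 2) ^ n := by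
    intro n
    induction n with
    | zero => simp
    | succ n ih =>
      calc a (n + 1) ≤ 1 / 2 * a n := ha1 n
        _ ≤ 1 / 2 * (a 0 * (1 / 2) ^ n) := by gcongr
        _ = a 0 * (1 / 2) ^ (n + 1) := by ring
  have ht : Tendsto (fun n : ℕ => a 0 * (1 / 2 : ℝ) ^ n) atTop (𝓝 0) := by
    simpa using (tendsto_pow_atTop_nhds_zero_of_lt_one (r := (1 / 2 : ℝ)) (by norm_num)
      (by norm_num)).const_mul (a 0)
  exact squeeze_zero ha0 ha2 ht

end Crest.Agent.R242
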