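import Crest.Agent.R242.WUG0

/-!
Row 242: the minimal weak upper gradient.
-/

set_option autoImplicit false
set_option linter.unusedSectionVars false

open MeasureTheory Set Filter Metric Crest.GeometryTopology.SyntheticRicci
open scoped ENNReal NNReal Topology

namespace Crest.Agent.R242

theorem wug_aux_iInf_mul {a : ℕ → ℝ} {v : ℝ≥0∞} (h : ENNReal.ofReal (a 0) * v ≠ ⊤) :
    ⨅ n, ENNReal.ofReal (a n) * v ≤ ENNReal.ofReal (⨅ n, a n) * v := by
  rw [ENNReal.ofReal_iInf, ENNReal.iInf_mul]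
  rintro rfl -
  refine ⟨0, ?_⟩
  by_contra h0
  exact h (ENNReal.mul_top h0)

variable {X : Type*} [MetricSpace X] [ProperSpace X] [MeasurableSpace X] [BorelSpace X]
  {m : Measure X} [IsLocallyFiniteMeasure m] {f g D D' : X → ℝ}

theorem wug_iInf {G : ℕ → X → ℝ} (hf : AEMeasurable f m) (h : ∀ n, IsWUGLoc m f (G n)) :
    IsWUGLoc m f fun x => ⨅ n, G n x := by
  have h0 : ∀ᵐ x ∂m, ∀ n, 0 ≤ G n x := ae_all_iff.2 fun n => (h n).2.1
  have h1 : ∀ᵐ x ∂m, 0 ≤ ⨅ n, G n x := h0.mono fun x hx => le_ciInf hx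
  refine wug_of_path (l2b_of_le (h 0).1 (AEMeasurable.iInf fun n => l2b_aemeasurable (h n).1) ?_)
    h1 fun P hP hb => ?_
  · filter_upwards [h0, h1] with x hx hx'
    rw [abs_of_nonneg hx']
    exact ciInf_le ⟨0, by rintro _ ⟨n, rfl⟩; exact hx n⟩ 0
  · have a1 := ae_all_iff.2 fun n => wug_path hf (h n) hP hb
    have a2 := ae_all_iff.2 fun n => tp_ae_fin hP hb (h n).1
    filter_upwards [a1, a2] with γ b1 b2
    refine (oned_iInf (g := fun r => f (γ.ext r))
      (G := fun n r => ENNReal.ofReal (G n (γ.ext r)) * upperSpeed γ r)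
      (fun n => (b2 n).1) (fun n => (b2 n).2) b1).trans (lintegral_mono_ae ?_)
    filter_upwards [ae_lt_top' (b2 0).1 (b2 0).2] with r hr
    exact wug_aux_iInf_mul (a := fun n => G n (γ.ext r)) hr.ne

theorem wug_aux_min (hf : AEMeasurable f m) (h : IsWUGLoc m f D) (h' : IsWUGLoc m f D') :
    IsWUGLoc m f fun x => min (D x) (D' x) := by
  have := wug_iInf (G := fun n => if n = 0 then D else D') hf fun n => by
    split_ifs
    exacts [h, h']
  convert this using 2 with x
  have hb : BddBelow (range fun n : ℕ => (if n = 0 then D else D') x) :=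
    ⟨min (D x) (D' x), by
      rintro _ ⟨n, rfl⟩
      dsimp only
      split_ifs
      exacts [min_le_left _ _, min_le_right _ _]⟩
  refine le_antisymm (le_ciInf fun n => ?_) (le_min ?_ ?_)
  · split_ifs
    exacts [min_le_left _ _, min_le_right _ _]
  · simpa using ciInf_le hb 0
  · simpa using ciInf_le hb 1

/-- existence of the minimal weak upper gradient -/
theorem sobLoc_of_wug (hf : IsL2OnBalls m f) (h : IsWUGLoc m f D) : IsSobolevLoc m f := by
  refine ⟨hf, ?_⟩
  have hfm := l2b_aemeasurable hf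
  set ν := m.toFinite with hν
  have hae : ae ν = ae m := ae_toFinite
  have hint : ∀ {E : X → ℝ}, IsWUGLoc m f E → Integrable (fun x => Real.arctan (E x)) ν := by
    intro E hE
    have hm : AEMeasurable E ν :=
      (l2b_aemeasurable hE.1).mono_ac (toFinite_absolutelyContinuous m)
    refine Integrable.of_bound
      (Real.continuous_arctan.measurable.comp_aemeasurable hm).aestronglyMeasurable (Real.pi / 2)
      (Eventually.of_forall fun x => ?_)
    rw [Real.norm_eq_abs, abs_le]
    exact ⟨(Real.neg_pi_div_two_lt_arctan _).le, (Real.arctan_lt_pi_div_two _).le⟩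
  have hmono : ∀ {E E' : X → ℝ}, (∀ᵐ x ∂m, E x ≤ E' x) →
      (fun x => Real.arctan (E x)) ≤ᵐ[ν] fun x => Real.arctan (E' x) := by
    intro E E' hle
    rw [EventuallyLE, hae]
    exact hle.mono fun x hx => Real.arctan_strictMono.monotone hx
  set S : Set ℝ := {c | ∃ E, IsWUGLoc m f E ∧ ∫ x, Real.arctan (E x) ∂ν = c} with hS
  have hne : S.Nonempty := ⟨_, D, h, rfl⟩
  have hbd : BddBelow S := ⟨0, by
    rintro _ ⟨E, hE, rfl⟩
    refine integral_nonneg_of_ae ?_
    have := hmono (E := fun _ => 0) hE.2.1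
    filter_upwards [this] with x hx
    simpa only [Real.arctan_zero, Pi.zero_apply] using hx⟩
  obtain ⟨u, -, hu, huS⟩ := exists_seq_tendsto_sInf hne hbd
  choose G hG hGu using huS
  have hI := wug_iInf hfm hG
  have h0 : ∀ᵐ x ∂m, ∀ n, 0 ≤ G n x := ae_all_iff.2 fun n => (hG n).2.1
  have hle : ∫ x, Real.arctan (⨅ n, G n x) ∂ν ≤ sInf S := by
    refine ge_of_tendsto' hu fun n => ?_
    rw [← hGu n]
    refine integral_mono_ae (hint hI) (hint (hG n)) (hmono ?_)
    exact h0.mono fun x hx => ciInf_le ⟨0, by rintro _ ⟨k, rfl⟩; exact hx k⟩ n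
  refine ⟨_, hI, fun E hE => ?_⟩
  have hM := wug_aux_min hfm hI hE
  have h1 : (fun x => Real.arctan (min (⨅ n, G n x) (E x))) ≤ᵐ[ν]
      fun x => Real.arctan (⨅ n, G n x) := hmono (Eventually.of_forall fun x => min_le_left _ _)
  have h2 := (integral_eq_iff_of_ae_le (hint hM) (hint hI) h1).1
    (le_antisymm (integral_mono_ae (hint hM) (hint hI) h1) (hle.trans (csInf_le hbd ⟨_, hM, rfl⟩)))
  rw [EventuallyEq, hae] at h2
  exact h2.mono fun x hx => min_eq_left_iff.1 (Real.arctan_strictMono.injective hx)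

omit [ProperSpace X] [BorelSpace X] [IsLocallyFiniteMeasure m] in
theorem wug_aux_spec (hf : IsSobolevLoc m f) : IsMinWUGLoc m f (Dw m f) := by
  unfold Dw minWeakGrad
  rw [dif_pos hf.2]
  exact Classical.choose_spec hf.2

theorem wug_Dw (hf : IsSobolevLoc m f) : IsWUGLoc m f (Dw m f) := by
  exact (wug_aux_spec hf).1

theorem Dw_le (hf : IsSobolevLoc m f) (h : IsWUGLoc m f D) : ∀ᵐ x ∂m, Dw m f x ≤ D x := by
  exact (wug_aux_spec hf).2 D h

/-- locality -/
theorem Dw_eq_zero (hf : IsSobolevLoc m f) : ∀ᵐ x ∂m, f x = 0 → Dw m f x = 0 := by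
  have hfm := l2b_aemeasurable hf.1
  have hD := wug_Dw hf
  have hs : NullMeasurableSet {x | f x ≠ 0} m :=
    (hfm.nullMeasurable (measurableSet_singleton (0 : ℝ))).compl
  have h0 : ∀ᵐ x ∂m, 0 ≤ {x | f x ≠ 0}.indicator (Dw m f) x :=
    hD.2.1.mono fun x hx => indicator_apply_nonneg fun _ => hx
  have hW : IsWUGLoc m f ({x | f x ≠ 0}.indicator (Dw m f)) := by
    refine wug_of_path (l2b_of_le hD.1 ((l2b_aemeasurable hD.1).indicator₀ hs) ?_) h0
      fun P hP hb => ?_
    · filter_upwards [h0, hD.2.1] with x hx hx'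
      rw [abs_of_nonneg hx]
      exact indicator_apply_le' (fun _ => le_rfl) fun _ => hx'
    · filter_upwards [wug_path hfm hD hP hb, wug_path_ae hfm hD hP hb, tp_ae_fin hP hb hD.1]
        with γ b1 b2 b3
      refine (oned_loc (g := fun r => f (γ.ext r))
        (G := fun r => ENNReal.ofReal (Dw m f (γ.ext r)) * upperSpeed γ r)
        b3.1 b3.2 b1 b2).trans (lintegral_mono fun r => ?_)
      by_cases hr : f (γ.ext r) = 0
      · rw [indicator_of_notMem (by simpa using hr)]
        exact bot_le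
      · rw [indicator_of_mem (by simpa using hr)]
        dsimp only
        rw [indicator_of_mem (by simpa using hr)]
  filter_upwards [Dw_le hf hW, hD.2.1] with x h1 h2 h3
  rw [indicator_of_notMem (by simpa using h3)] at h1
  exact le_antisymm h1 h2

end Crest.Agent.R242
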